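import Crest.Agent.R106.Defs

/-!
# Row 106: elementary facts on `pp`, `relVel`, `nn`, `gap`, `ang`

For the angle use the embedding `a ↦ (a, √(1-‖a‖²) e_a)` into unit vectors (one new orthogonal direction per
vector): `ang a b` is the distance of the images (`ang_sq'`).  The triangle inequality can be done by
Minkowski in `EuclideanSpace` / `WithLp 2`, or by Cauchy–Schwarz by hand.

-/

set_option autoImplicit false

noncomputable section

namespace Crest.Agent.R106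

open MeasureTheory Set Metric Real Filter Topology
open scoped ContDiff ENNReal RealInnerProductSpace Classical
open Crest.AnalysisR.VecCalc3 Crest.AnalysisR.PDE.RVM

theorem basic_mink (x y : R3) (s₁ s₂ s₃ t₁ t₂ t₃ : ℝ) :
    √(‖x + y‖ ^ 2 + (s₁ + t₁) ^ 2 + (s₂ + t₂) ^ 2 + (s₃ + t₃) ^ 2) ≤
      √(‖x‖ ^ 2 + s₁ ^ 2 + s₂ ^ 2 + s₃ ^ 2) + √(‖y‖ ^ 2 + t₁ ^ 2 + t₂ ^ 2 + t₃ ^ 2) := by
  have e : ∀ (x : R3) (a b c : ℝ), √(‖x‖ ^ 2 + a ^ 2 + b ^ 2 + c ^ 2) =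
      ‖(WithLp.toLp 2 (x, (!₂[a, b, c] : EuclideanSpace ℝ (Fin 3))) :
        WithLp 2 (R3 × EuclideanSpace ℝ (Fin 3)))‖ := by
    intro x a b c
    rw [WithLp.prod_norm_eq_of_L2]
    change _ = √(‖x‖ ^ 2 + ‖(!₂[a, b, c] : EuclideanSpace ℝ (Fin 3))‖ ^ 2)
    rw [EuclideanSpace.real_norm_sq_eq (!₂[a, b, c] : EuclideanSpace ℝ (Fin 3))]
    simp [Fin.sum_univ_three, add_assoc]
  rw [e, e, e]
  refine le_trans (le_of_eq ?_) (norm_add_le _ _)
  congr 1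
  rw [← WithLp.toLp_add]
  congr 1
  ext i
  · rfl
  · fin_cases i <;> simp

theorem one_le_pp (v : R3) : 1 ≤ pp v := by
  unfold pp
  exact Real.one_le_sqrt.2 (by nlinarith [sq_nonneg ‖v‖])

theorem pp_pos (v : R3) : 0 < pp v := lt_of_lt_of_le one_pos (one_le_pp v)

theorem pp_sq (v : R3) : pp v ^ 2 = 1 + ‖v‖ ^ 2 := Real.sq_sqrt (by positivity)

theorem norm_le_pp (v : R3) : ‖v‖ ≤ pp v := by
  refine abs_le_of_sq_le_sq' ?_ (pp_pos v).le |>.2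
  rw [pp_sq]; linarith

theorem pp_le (v : R3) : pp v ≤ 1 + ‖v‖ := by
  refine abs_le_of_sq_le_sq' ?_ (by positivity) |>.2
  rw [pp_sq]; nlinarith [norm_nonneg v]

theorem abs_pp_sub (v v' : R3) : |pp v - pp v'| ≤ ‖v - v'‖ := by
  have key : ∀ v v' : R3, pp v - pp v' ≤ ‖v - v'‖ := by
    intro v v'
    have h := basic_mink (v - v') v' 0 0 0 1 0 0
    simp only [sub_add_cancel, zero_add, add_zero, ne_eq, OfNat.ofNat_ne_zero, not_false_eq_true,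
      zero_pow, one_pow, Real.sqrt_sq (norm_nonneg _)] at h
    unfold pp
    rw [add_comm 1, add_comm 1]
    linarith
  rw [abs_le]
  have h1 := key v v'
  have h2 := key v' v
  rw [norm_sub_rev] at h2
  constructor <;> linarith

theorem contDiff_pp : ContDiff ℝ ∞ pp := by
  unfold pp
  exact (contDiff_const.add (contDiff_norm_sq ℝ)).sqrt fun v => by positivity

theorem relVel_eq (v : R3) : relVel v = (pp v)⁻¹ • v := rfl

theorem pp_smul_relVel (v : R3) : pp v • relVel v = v := by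
  rw [relVel_eq, smul_smul, mul_inv_cancel₀ (pp_pos v).ne', one_smul]

theorem contDiff_relVel : ContDiff ℝ ∞ relVel := (contDiff_pp.inv fun v => (pp_pos v).ne').smul contDiff_id

theorem norm_relVel_sq (v : R3) : ‖relVel v‖ ^ 2 = 1 - 1 / pp v ^ 2 := by
  have h := pp_pos v
  have h2 := pp_sq v
  rw [relVel_eq, norm_smul, mul_pow, norm_inv, Real.norm_of_nonneg h.le]
  field_simp
  linarith

theorem norm_relVel_lt (v : R3) : ‖relVel v‖ < 1 := by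
  refine lt_of_pow_lt_pow_left₀ 2 zero_le_one ?_
  have h := pp_pos v
  have : 0 < 1 / pp v ^ 2 := by positivity
  rw [norm_relVel_sq]; linarith

theorem norm_relVel_le {v : R3} {Q : ℝ} (h : pp v ≤ Q) : ‖relVel v‖ ≤ 1 - 1 / (2 * Q ^ 2) := by
  have h1 := one_le_pp v
  have hQ : 1 ≤ Q := h1.trans h
  have h2 : 1 / Q ^ 2 ≤ 1 / pp v ^ 2 :=
    one_div_le_one_div_of_le (by positivity) (pow_le_pow_left₀ (by linarith) h 2)
  have h3 : 1 / Q ^ 2 ≤ 1 := by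
    rw [div_le_one (by positivity)]; nlinarith
  have h4 : 1 / (2 * Q ^ 2) = 1 / Q ^ 2 / 2 := by field_simp
  refine abs_le_of_sq_le_sq' ?_ (by rw [h4]; linarith) |>.2
  rw [norm_relVel_sq, h4]
  nlinarith [sq_nonneg (1 / Q ^ 2)]

theorem basic_pp (v : R3) : HasFDerivAt pp (innerSL ℝ (relVel v)) v := by
  have h := pp_pos v
  have h1 := ((hasStrictFDerivAt_norm_sq v).hasFDerivAt.const_add 1).sqrt (by positivity)
  refine h1.congr_fderiv (ContinuousLinearMap.ext fun u => ?_)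
  change (1 / (2 * pp v)) * (2 • ⟪v, u⟫) = ⟪(pp v)⁻¹ • v, u⟫
  rw [real_inner_smul_left, nsmul_eq_mul]
  push_cast
  field_simp

theorem basic_proj {w : R3} (hw : ‖w‖ ≤ 1) (u : R3) : ‖u - ⟪w, u⟫ • w‖ ≤ ‖u‖ := by
  refine abs_le_of_sq_le_sq' ?_ (norm_nonneg _) |>.2
  have h1 : ‖w‖ ^ 2 ≤ 1 := pow_le_one₀ (norm_nonneg _) hw
  rw [norm_sub_sq_real, inner_smul_right, norm_smul, mul_pow, Real.norm_eq_abs, sq_abs,
    real_inner_comm w u]
  nlinarith [sq_nonneg ⟪w, u⟫, mul_le_mul_of_nonneg_left h1 (sq_nonneg ⟪w, u⟫)]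

theorem basic_lift (v v' : R3) :
    √(‖relVel v - relVel v'‖ ^ 2 + (1 / pp v - 1 / pp v') ^ 2) ≤ 2 * ‖v - v'‖ / pp v := by
  have h := pp_pos v
  have h' := pp_pos v'
  have h1 := basic_mink ((pp v)⁻¹ • (v - v')) ((1 / pp v - 1 / pp v') • v') 0 0 0
    (1 / pp v - 1 / pp v') 0 0
  have e1 : (pp v)⁻¹ • (v - v') + (1 / pp v - 1 / pp v') • v' = relVel v - relVel v' := by
    rw [relVel_eq, relVel_eq, smul_sub, sub_smul, one_div, one_div]; abel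
  have e2 : √(‖(pp v)⁻¹ • (v - v')‖ ^ 2 + 0 ^ 2 + 0 ^ 2 + 0 ^ 2) = ‖v - v'‖ / pp v := by
    rw [norm_smul, norm_inv, Real.norm_of_nonneg h.le, inv_mul_eq_div]
    simp only [ne_eq, OfNat.ofNat_ne_zero, not_false_eq_true, zero_pow, add_zero]
    exact Real.sqrt_sq (by positivity)
  have e3 : √(‖(1 / pp v - 1 / pp v') • v'‖ ^ 2 + (1 / pp v - 1 / pp v') ^ 2 + 0 ^ 2 + 0 ^ 2) =
      |pp v - pp v'| / pp v := by
    rw [Real.sqrt_eq_iff_mul_self_eq (by positivity) (by positivity), ← sq, div_pow, sq_abs,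
      norm_smul, mul_pow, Real.norm_eq_abs, sq_abs, show ‖v'‖ ^ 2 = pp v' ^ 2 - 1 by rw [pp_sq]; ring]
    field_simp
    ring
  rw [e1, e2, e3] at h1
  simp only [zero_add, add_zero, ne_eq, OfNat.ofNat_ne_zero, not_false_eq_true, zero_pow] at h1
  have h2 : |pp v - pp v'| / pp v ≤ ‖v - v'‖ / pp v :=
    div_le_div_of_nonneg_right (abs_pp_sub v v') h.le
  rw [mul_div_assoc]
  linarith

theorem fderiv_pp (v u : R3) : fderiv ℝ pp v u = ⟪relVel v, u⟫ := by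
  rw [(basic_pp v).fderiv, innerSL_apply_apply]

theorem fderiv_relVel (v u : R3) :
    fderiv ℝ relVel v u = (pp v)⁻¹ • (u - ⟪relVel v, u⟫ • relVel v) := by
  have h := pp_pos v
  have h1 : HasFDerivAt relVel _ v :=
    ((hasDerivAt_inv h.ne').comp_hasFDerivAt v (basic_pp v)).smul (hasFDerivAt_id v)
  rw [h1.fderiv]
  change (pp v)⁻¹ • u + ((-(pp v ^ 2)⁻¹) * ⟪relVel v, u⟫) • v = _
  rw [smul_sub, sub_eq_add_neg, smul_smul]
  congr 1
  generalize ⟪relVel v, u⟫ = c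
  rw [relVel_eq, smul_smul, ← neg_smul]
  congr 1
  field_simp

theorem norm_fderiv_relVel_le (v u : R3) : ‖fderiv ℝ relVel v u‖ ≤ ‖u‖ / pp v := by
  have h := pp_pos v
  rw [fderiv_relVel, norm_smul, norm_inv, Real.norm_of_nonneg h.le, inv_mul_eq_div]
  exact div_le_div_of_nonneg_right (basic_proj (norm_relVel_lt v).le u) h.le

theorem relVel_lip (v v' : R3) : ‖relVel v - relVel v'‖ ≤ 2 * ‖v - v'‖ / pp v := by
  refine le_trans ?_ (basic_lift v v')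
  exact Real.le_sqrt_of_sq_le (by nlinarith [sq_nonneg (1 / pp v - 1 / pp v')])

theorem relVel_bdd (k : ℕ) (P : ℝ) :
    ∃ C, ∀ v : R3, ‖v‖ ≤ P → ‖iteratedFDeriv ℝ k relVel v‖ ≤ C := by
  have hc : Continuous (iteratedFDeriv ℝ k relVel) :=
    contDiff_relVel.continuous_iteratedFDeriv (by exact_mod_cast le_top)
  obtain ⟨C, hC⟩ := (isCompact_closedBall (0 : R3) P).exists_bound_of_continuousOn hc.continuousOn
  exact ⟨C, fun v hv => hC v (mem_closedBall_zero_iff.2 hv)⟩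

theorem norm_nn {y : R3} (hy : y ≠ 0) : ‖nn y‖ = 1 := by
  rw [nn, norm_smul, norm_inv, norm_norm, inv_mul_cancel₀ (norm_ne_zero_iff.2 hy)]

theorem norm_nn_le (y : R3) : ‖nn y‖ ≤ 1 := by
  by_cases hy : y = 0
  · simp [nn, hy]
  · exact (norm_nn hy).le

theorem smul_nn (y : R3) : ‖y‖ • nn y = y := by
  by_cases hy : y = 0
  · simp [nn, hy]
  · rw [nn, smul_smul, mul_inv_cancel₀ (norm_ne_zero_iff.2 hy), one_smul]

theorem nn_smul {c : ℝ} (hc : 0 < c) (y : R3) : nn (c • y) = nn y := by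
  rw [nn, nn, norm_smul, Real.norm_of_nonneg hc.le, smul_smul, mul_inv, mul_right_comm,
    inv_mul_cancel₀ hc.ne', one_mul]

theorem nn_of_norm {y : R3} (hy : ‖y‖ = 1) : nn y = y := by
  rw [nn, hy, inv_one, one_smul]

theorem measurable_nn : Measurable nn := measurable_norm.inv.smul measurable_id

theorem contDiffAt_nn {y : R3} (hy : y ≠ 0) : ContDiffAt ℝ ∞ nn y := ((contDiffAt_norm ℝ hy).inv (norm_ne_zero_iff.2 hy)).smul contDiffAt_id

theorem hasFDerivAt_norm {y : R3} (hy : y ≠ 0) :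
    HasFDerivAt (fun y : R3 => ‖y‖) (innerSL ℝ (nn y)) y := by
  have h0 : ‖y‖ ≠ 0 := norm_ne_zero_iff.2 hy
  have h1 := (hasStrictFDerivAt_norm_sq y).hasFDerivAt.sqrt (pow_ne_zero 2 h0)
  simp only [Real.sqrt_sq (norm_nonneg _)] at h1
  refine h1.congr_fderiv (ContinuousLinearMap.ext fun u => ?_)
  change (1 / (2 * ‖y‖)) * (2 • ⟪y, u⟫) = ⟪‖y‖⁻¹ • y, u⟫
  rw [real_inner_smul_left, nsmul_eq_mul]
  push_cast
  field_simp

theorem fderiv_nn {y : R3} (hy : y ≠ 0) (u : R3) :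
    fderiv ℝ nn y u = ‖y‖⁻¹ • (u - ⟪nn y, u⟫ • nn y) := by
  have h0 : ‖y‖ ≠ 0 := norm_ne_zero_iff.2 hy
  have h1 : HasFDerivAt nn _ y :=
    ((hasDerivAt_inv h0).comp_hasFDerivAt y (hasFDerivAt_norm hy)).smul (hasFDerivAt_id y)
  rw [h1.fderiv]
  change ‖y‖⁻¹ • u + ((-(‖y‖ ^ 2)⁻¹) * ⟪nn y, u⟫) • y = _
  rw [smul_sub, sub_eq_add_neg, smul_smul]
  congr 1
  generalize ⟪nn y, u⟫ = c
  rw [nn, smul_smul, ← neg_smul]
  congr 1
  field_simp

theorem gap_comm (a b : R3) : gap a b = gap b a := by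
  rw [gap, gap, real_inner_comm]

theorem ang_comm (a b : R3) : ang a b = ang b a := by
  rw [ang, ang, gap_comm]

theorem ang_nonneg (a b : R3) : 0 ≤ ang a b := Real.sqrt_nonneg _

theorem gap_nonneg {a b : R3} (ha : ‖a‖ ≤ 1) (hb : ‖b‖ ≤ 1) : 0 ≤ gap a b := by
  have h := real_inner_le_norm a b
  have := mul_le_one₀ ha (norm_nonneg b) hb
  unfold gap; linarith

theorem gap_le_two {a b : R3} (ha : ‖a‖ ≤ 1) (hb : ‖b‖ ≤ 1) : gap a b ≤ 2 := by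
  have h := (abs_le.1 (abs_real_inner_le_norm a b)).1
  have := mul_le_one₀ ha (norm_nonneg b) hb
  unfold gap; linarith

theorem one_sub_norm_le_gap {a : R3} (ha : ‖a‖ ≤ 1) (b : R3) : 1 - ‖b‖ ≤ gap a b := by
  have h := real_inner_le_norm a b
  have := mul_le_of_le_one_left (norm_nonneg b) ha
  unfold gap; linarith

theorem gap_pos {a b : R3} (ha : ‖a‖ ≤ 1) (hb : ‖b‖ < 1) : 0 < gap a b := by
  have := one_sub_norm_le_gap ha b
  linarith

theorem ang_pos {a b : R3} (ha : ‖a‖ ≤ 1) (hb : ‖b‖ < 1) : 0 < ang a b := Real.sqrt_pos.2 (by have := gap_pos ha hb; linarith)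

theorem ang_sq {a b : R3} (ha : ‖a‖ ≤ 1) (hb : ‖b‖ ≤ 1) : ang a b ^ 2 = 2 * gap a b := Real.sq_sqrt (by have := gap_nonneg ha hb; linarith)

theorem ang_sq' {a b : R3} (ha : ‖a‖ ≤ 1) (hb : ‖b‖ ≤ 1) :
    ang a b ^ 2 = ‖a - b‖ ^ 2 + (1 - ‖a‖ ^ 2) + (1 - ‖b‖ ^ 2) := by
  rw [ang_sq ha hb, gap, norm_sub_sq_real]; ring

theorem basic_one_sub {a : R3} (ha : ‖a‖ ≤ 1) : 0 ≤ 1 - ‖a‖ ^ 2 :=
  sub_nonneg.2 (pow_le_one₀ (norm_nonneg _) ha)

theorem basic_ang {a b : R3} (ha : ‖a‖ ≤ 1) (hb : ‖b‖ ≤ 1) :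
    ang a b = √(‖a - b‖ ^ 2 + √(1 - ‖a‖ ^ 2) ^ 2 + √(1 - ‖b‖ ^ 2) ^ 2) := by
  rw [Real.sq_sqrt (basic_one_sub ha), Real.sq_sqrt (basic_one_sub hb), ← ang_sq' ha hb,
    Real.sqrt_sq (ang_nonneg a b)]

theorem basic_ang_sub {a w w' : R3} (ha : ‖a‖ ≤ 1) (hw : ‖w‖ ≤ 1) (hw' : ‖w'‖ ≤ 1) :
    |ang a w - ang a w'| ≤ √(‖w - w'‖ ^ 2 + (√(1 - ‖w‖ ^ 2) - √(1 - ‖w'‖ ^ 2)) ^ 2) := by
  have key : ∀ w w' : R3, ‖w‖ ≤ 1 → ‖w'‖ ≤ 1 → ang a w' ≤ ang a w +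
      √(‖w - w'‖ ^ 2 + (√(1 - ‖w'‖ ^ 2) - √(1 - ‖w‖ ^ 2)) ^ 2) := by
    intro w w' hw hw'
    have h := basic_mink (a - w) (w - w') (√(1 - ‖a‖ ^ 2)) (√(1 - ‖w‖ ^ 2)) 0 0
      (√(1 - ‖w'‖ ^ 2) - √(1 - ‖w‖ ^ 2)) 0
    rw [basic_ang ha hw, basic_ang ha hw']
    convert h using 2 <;> simp
  have h1 := key w w' hw hw'
  have h2 := key w' w hw' hw
  rw [norm_sub_rev w' w] at h2
  rw [← neg_sub (√(1 - ‖w‖ ^ 2)), neg_sq] at h1
  rw [abs_le]
  constructor <;> linarith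

theorem ang_le_two {a b : R3} (ha : ‖a‖ ≤ 1) (hb : ‖b‖ ≤ 1) : ang a b ≤ 2 := by
  refine abs_le_of_sq_le_sq' ?_ (by norm_num) |>.2
  have := gap_le_two ha hb
  rw [ang_sq ha hb]; linarith

theorem ang_lt_two {a b : R3} (ha : ‖a‖ ≤ 1) (hb : ‖b‖ < 1) : ang a b < 2 := by
  refine lt_of_pow_lt_pow_left₀ 2 (by norm_num) ?_
  have h := (abs_le.1 (abs_real_inner_le_norm a b)).1
  have := mul_le_of_le_one_left (norm_nonneg b) ha
  rw [ang_sq ha hb.le, gap]; linarith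

theorem ang_triangle {a b c : R3} (ha : ‖a‖ ≤ 1) (hb : ‖b‖ ≤ 1) (hc : ‖c‖ ≤ 1) :
    ang a c ≤ ang a b + ang b c := by
  have h := basic_mink (a - b) (b - c) (√(1 - ‖a‖ ^ 2)) (-√(1 - ‖b‖ ^ 2)) 0 0 (√(1 - ‖b‖ ^ 2))
    (-√(1 - ‖c‖ ^ 2))
  rw [basic_ang ha hc, basic_ang ha hb, basic_ang hb hc]
  convert h using 2 <;> simp

theorem norm_sub_le_ang {a b : R3} (ha : ‖a‖ ≤ 1) (hb : ‖b‖ ≤ 1) : ‖a - b‖ ≤ ang a b := by
  refine abs_le_of_sq_le_sq' ?_ (ang_nonneg a b) |>.2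
  have h1 := basic_one_sub ha
  have h2 := basic_one_sub hb
  rw [ang_sq' ha hb]; linarith

theorem inv_pp_le_ang {a : R3} (ha : ‖a‖ ≤ 1) (v : R3) : 1 / pp v ≤ ang a (relVel v) := by
  refine abs_le_of_sq_le_sq' ?_ (ang_nonneg _ _) |>.2
  have h1 := basic_one_sub ha
  rw [ang_sq' ha (norm_relVel_lt v).le, norm_relVel_sq, div_pow, one_pow]
  nlinarith [sq_nonneg ‖a - relVel v‖]

/-- a lower bound for the angle with a subluminal vector -/
theorem inv_le_ang {a w : R3} {Q : ℝ} (ha : ‖a‖ ≤ 1) (hQ : 0 < Q) (hw : ‖w‖ ≤ 1 - 1 / (2 * Q ^ 2)) :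
    1 / Q ≤ ang a w := by
  refine Real.le_sqrt_of_sq_le ?_
  have h1 := one_sub_norm_le_gap ha w
  have h4 : 1 / (2 * Q ^ 2) = 1 / Q ^ 2 / 2 := by field_simp
  rw [div_pow, one_pow]; linarith

/-- `(v̂, 1/p) = (v, 1)/‖(v, 1)‖` and `‖a/‖a‖ - b/‖b‖‖ ≤ 2‖a - b‖/‖a‖` -/
theorem ang_relVel_lip {a : R3} (ha : ‖a‖ ≤ 1) (v v' : R3) :
    |ang a (relVel v) - ang a (relVel v')| ≤ 2 * ‖v - v'‖ / pp v := by
  have h := basic_ang_sub ha (norm_relVel_lt v).le (norm_relVel_lt v').le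
  have e : ∀ v : R3, √(1 - ‖relVel v‖ ^ 2) = 1 / pp v := fun v => by
    have := pp_pos v
    rw [norm_relVel_sq, sub_sub_cancel, ← one_div_pow, Real.sqrt_sq (by positivity)]
  rw [e, e] at h
  exact h.trans (basic_lift v v')

/-- embed `w ↦ (w, √(1 - ‖w‖²))` with the same new direction for `w` and `w'` -/
theorem ang_sub_le {a w w' : R3} {η : ℝ} (ha : ‖a‖ ≤ 1) (hw : ‖w‖ ≤ 1) (hw' : ‖w'‖ ≤ 1)
    (h1 : ‖w - w'‖ ≤ η) (h2 : 1 - ‖w‖ ^ 2 ≤ η ^ 2) (h3 : 1 - ‖w'‖ ^ 2 ≤ η ^ 2) :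
    |ang a w - ang a w'| ≤ 3 / 2 * η := by
  have hη : 0 ≤ η := (norm_nonneg _).trans h1
  refine (basic_ang_sub ha hw hw').trans (Real.sqrt_le_iff.2 ⟨by linarith, ?_⟩)
  have a1 : √(1 - ‖w‖ ^ 2) ≤ η := Real.sqrt_le_iff.2 ⟨hη, h2⟩
  have a2 : √(1 - ‖w'‖ ^ 2) ≤ η := Real.sqrt_le_iff.2 ⟨hη, h3⟩
  have a3 := Real.sqrt_nonneg (1 - ‖w‖ ^ 2)
  have a4 := Real.sqrt_nonneg (1 - ‖w'‖ ^ 2)
  have a5 : (√(1 - ‖w‖ ^ 2) - √(1 - ‖w'‖ ^ 2)) ^ 2 ≤ η ^ 2 := sq_le_sq' (by linarith) (by linarith)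
  have a6 : ‖w - w'‖ ^ 2 ≤ η ^ 2 := pow_le_pow_left₀ (norm_nonneg _) h1 2
  nlinarith [sq_nonneg η]

theorem ang_self_relVel (v : R3) : ang (relVel v) (relVel v) ≤ 2 / pp v := by
  have h := pp_pos v
  refine abs_le_of_sq_le_sq' ?_ (by positivity) |>.2
  have : 0 < 1 / pp v ^ 2 := by positivity
  rw [ang_sq' (norm_relVel_lt v).le (norm_relVel_lt v).le, norm_relVel_sq, sub_self, norm_zero,
    show (2 / pp v) ^ 2 = 4 * (1 / pp v ^ 2) by field_simp; norm_num]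
  linarith

theorem contDiff_gap : ContDiff ℝ ∞ fun p : R3 × R3 => gap p.1 p.2 := contDiff_const.sub (contDiff_fst.inner ℝ contDiff_snd)

theorem continuous_ang : Continuous fun p : R3 × R3 => ang p.1 p.2 := (continuous_const.mul contDiff_gap.continuous).sqrt

@[fun_prop] theorem measurable_gap' {α : Type} [MeasurableSpace α] {a b : α → R3}
    (ha : Measurable a) (hb : Measurable b) : Measurable fun x => gap (a x) (b x) := contDiff_gap.continuous.measurable.comp (ha.prodMk hb)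

@[fun_prop] theorem measurable_ang' {α : Type} [MeasurableSpace α] {a b : α → R3}
    (ha : Measurable a) (hb : Measurable b) : Measurable fun x => ang (a x) (b x) := continuous_ang.measurable.comp (ha.prodMk hb)

@[fun_prop] theorem measurable_pp' {α : Type} [MeasurableSpace α] {a : α → R3}
    (ha : Measurable a) : Measurable fun x => pp (a x) := contDiff_pp.continuous.measurable.comp ha

@[fun_prop] theorem measurable_nn' {α : Type} [MeasurableSpace α] {a : α → R3}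
    (ha : Measurable a) : Measurable fun x => nn (a x) := measurable_nn.comp ha

@[fun_prop] theorem measurable_relVel' {α : Type} [MeasurableSpace α] {a : α → R3}
    (ha : Measurable a) : Measurable fun x => relVel (a x) := contDiff_relVel.continuous.measurable.comp ha

end Crest.Agent.R106
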