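import Crest.Agent.R106.Step

/-!
# Row 106: the a priori bound for the momenta

`boot`: `M` from `mom_lip`, `ε = G0 Q/(20 M)`; induction on `n` for `Boot (1/10) (min (nε) t)`: `step` gives
`Boot (1/20) t'`, and `Boot (1/20) t' → Boot (1/10) t''` for `t' ≤ t'' ≤ t' + ε` (`Var.extend`, `var_of_lip`,
`Var.mono`).  `doubling`: `c = c₀/8` (`Del_half`), `b = min (t + c/Lg Q) T`; induction with steps `0.3 Q/M` for
`MomB τ (0.7 Q)`, `τ ≤ b`: Lipschitz gives `MomB τ' Q`, then `boot`; if `pp (Z s z).2 > Q/2` for some `s ≤ τ'`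
(so `s > t`) let `s₀ ∈ [t, s]` be a time with `pp = Q/2` (intermediate values); `s ≤ s₀ + Del c₀ Q (Q/2)`, so
`pp (Z s z).2 ≤ Q/2 + H + Q/20 ≤ 0.7 Q`.
`mom_bound`: `Q_k = 2^k Q₁`, `Q₁ = max Q₀ (2 P₀)`, `Lg Q_k ≤ Lg Q₁ + k`, the harmonic series diverges
(`Real.tendsto_sum_range_one_div_nat_succ_atTop`).

-/

set_option autoImplicit false

noncomputable section

namespace Crest.Agent.R106

open MeasureTheory Set Metric Real Filter Topology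
open scoped ContDiff ENNReal RealInnerProductSpace Classical
open Crest.AnalysisR.VecCalc3 Crest.AnalysisR.PDE.RVM

theorem Boot_ind {ε b : ℝ} (hε : 0 < ε) {p : ℝ → Prop} (h0 : ∀ τ, τ < 0 → p τ)
    (hs : ∀ τ, τ ≤ b → p (τ - ε) → p τ) : p b := by
  have key : ∀ n : ℕ, ∀ τ, τ ≤ b → τ < n * ε → p τ := by
    intro n
    induction n with
    | zero => intro τ _ hτ; exact h0 τ (by simpa using hτ)
    | succ n ih =>
      intro τ hτ hn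
      refine hs τ hτ (ih _ (by linarith) ?_)
      push_cast at hn
      linarith
  obtain ⟨n, hn⟩ := exists_nat_gt (b / ε)
  exact key n b le_rfl ((div_lt_iff₀ hε).1 hn)

theorem Boot_ext {f₀ : Ph → ℝ} {Z : ℝ → Ph → Ph} {c₀ Q H M T t' t'' : ℝ} (hc : 0 < c₀)
    (hQ : 1 ≤ Q) (hH : 0 ≤ H) (hM : 0 ≤ M)
    (hL : ∀ z, ∀ s ∈ Icc 0 T, ∀ s' ∈ Icc 0 T, ‖(Z s z).2 - (Z s' z).2‖ ≤ M * |s - s'|)
    (h1 : t' ≤ t'') (h2 : t'' ≤ T) (h3 : M * (t'' - t') ≤ G0 Q / 20)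
    (h : Boot f₀ Z c₀ Q H (1 / 20) t') : Boot f₀ Z c₀ Q H (1 / 10) t'' := by
  intro z hz s hs hG
  have hΔ : 0 < Del c₀ Q (pp (Z s z).2) := Del_pos hc hQ (pp_pos _)
  have hp := pp_pos (Z s z).2
  have hsb : s ≤ min (s + Del c₀ Q (pp (Z s z).2)) t'' := le_min (by linarith) hs.2
  have hbT : min (s + Del c₀ Q (pp (Z s z).2)) t'' ≤ t'' := min_le_right _ _
  rcases le_or_gt s t' with hst | hst
  · have hv := h z hz s ⟨hs.1, hst⟩ hG
    have hsb' : s ≤ min (s + Del c₀ Q (pp (Z s z).2)) t' := le_min (by linarith) hst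
    have hbb : min (s + Del c₀ Q (pp (Z s z).2)) t' ≤ min (s + Del c₀ Q (pp (Z s z).2)) t'' :=
      min_le_min_left _ h1
    have hd : min (s + Del c₀ Q (pp (Z s z).2)) t'' - min (s + Del c₀ Q (pp (Z s z).2)) t' ≤
        t'' - t' := by
      rcases le_total (s + Del c₀ Q (pp (Z s z).2)) t' with h4 | h4
      · rw [min_eq_left h4, min_eq_left (h4.trans h1)]; linarith
      · rw [min_eq_right h4]; linarith
    have hv2 := hv.extend hsb' hbb hM fun a ha a' ha' =>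
      hL z a ⟨hs.1.trans (hsb'.trans ha.1), ha.2.trans (hbT.trans h2)⟩ a'
        ⟨hs.1.trans (hsb'.trans ha'.1), ha'.2.trans (hbT.trans h2)⟩
    refine hv2.mono le_rfl hsb le_rfl le_rfl ?_
    have := mul_le_mul_of_nonneg_left hd hM
    linarith
  · have hv : Var (fun τ => (Z τ z).2) s (min (s + Del c₀ Q (pp (Z s z).2)) t'') H _ :=
      var_of_lip hH hM fun a ha a' ha' =>
        hL z a ⟨hs.1.trans ha.1, ha.2.trans (hbT.trans h2)⟩ a'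
          ⟨hs.1.trans ha'.1, ha'.2.trans (hbT.trans h2)⟩
    refine hv.mono le_rfl hsb le_rfl le_rfl ?_
    have hd : min (s + Del c₀ Q (pp (Z s z).2)) t'' - s ≤ t'' - t' := by linarith
    have := mul_le_mul_of_nonneg_left hd hM
    linarith

theorem boot (A P₀ En Cd Tm : ℝ) : ∃ c₀ CM Q₀, 0 < c₀ ∧ 2 ≤ Q₀ ∧ ∀ Q, Q₀ ≤ Q →
    (1 ≤ HH CM Q ∧ 10 * HH CM Q ≤ G0 Q ∧ G0 Q ≤ Q / 2) ∧
    ∀ (T : ℝ) (f₀ : Ph → ℝ) (K₀ : R3 → Ph) (Kd : ST → Ph) (f : TP → ℝ) (K : ST → Ph)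
      (Z : ℝ → Ph → Ph), CSet A P₀ En Cd Tm T f₀ K₀ Kd f K Z → ∀ t, t ≤ T → MomB f₀ Z t Q →
      Boot f₀ Z c₀ Q (HH CM Q) (1 / 10) t := by
  obtain ⟨c₀, CM, Q₀, hc, hQ₀, H⟩ := step A P₀ En Cd Tm
  refine ⟨c₀, CM, Q₀, hc, hQ₀, fun Q hQ => ⟨(H Q hQ).1, ?_⟩⟩
  intro T f₀ K₀ Kd f K Z hS t ht hm
  obtain ⟨⟨hH1, hHG, -⟩, H2⟩ := H Q hQ
  obtain ⟨M, hM, hL⟩ := hS.sol.mom_lip
  have hQ1 : 1 ≤ Q := by linarith
  have hG : 0 < G0 Q := by linarith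
  have hε : 0 < G0 Q / (20 * M) := by positivity
  have h20 : Boot f₀ Z c₀ Q (HH CM Q) (1 / 20) t := by
    refine Boot_ind (p := fun τ => Boot f₀ Z c₀ Q (HH CM Q) (1 / 20) τ) hε
      (fun τ hτ z _ s hs => absurd (hs.1.trans hs.2) (not_le.2 hτ)) fun τ hτ hp => ?_
    refine H2 T f₀ K₀ Kd f K Z hS τ (hτ.trans ht) (hm.mono hτ le_rfl)
      (Boot_ext hc hQ1 (by linarith) hM.le hL (by linarith) (hτ.trans ht) (le_of_eq ?_) hp)
    field_simp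
    ring
  exact Boot_ext hc hQ1 (by linarith) hM.le hL le_rfl ht (by rw [sub_self, mul_zero]; positivity) h20

theorem doubling (A P₀ En Cd Tm : ℝ) : ∃ c Q₀, 0 < c ∧ 2 ≤ Q₀ ∧ ∀ Q, Q₀ ≤ Q →
    ∀ (T : ℝ) (f₀ : Ph → ℝ) (K₀ : R3 → Ph) (Kd : ST → Ph) (f : TP → ℝ) (K : ST → Ph)
      (Z : ℝ → Ph → Ph), CSet A P₀ En Cd Tm T f₀ K₀ Kd f K Z → ∀ t, 0 ≤ t → t ≤ T →
      MomB f₀ Z t (Q / 2) → MomB f₀ Z (min (t + c / Lg Q) T) Q := by
  obtain ⟨c₀, CM, Q₀, hc, hQ₀, H⟩ := boot A P₀ En Cd Tm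
  refine ⟨c₀ / 8, Q₀, by positivity, hQ₀, ?_⟩
  intro Q hQ T f₀ K₀ Kd f K Z hS t ht0 ht hm
  obtain ⟨⟨hH1, hHG, hGQ⟩, H2⟩ := H Q hQ
  obtain ⟨M, hM, hL⟩ := hS.sol.mom_lip
  have hQ1 : 1 ≤ Q := by linarith
  have hε : 0 < 3 / 10 * Q / M := by positivity
  have hMε : M * (3 / 10 * Q / M) = 3 / 10 * Q := by field_simp
  obtain ⟨ε, hεe⟩ : ∃ ε, ε = 3 / 10 * Q / M := ⟨_, rfl⟩
  rw [← hεe] at hε hMε
  refine MomB.mono (Q := 7 / 10 * Q) ?_ le_rfl (by linarith)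
  refine Boot_ind (p := fun τ => MomB f₀ Z τ (7 / 10 * Q)) hε
    (fun τ hτ z _ s hs => absurd (hs.1.trans hs.2) (not_le.2 hτ)) fun τ hτ hp => ?_
  have hτT : τ ≤ T := hτ.trans (min_le_right _ _)
  have hτt : τ ≤ t + c₀ / 8 / Lg Q := hτ.trans (min_le_left _ _)
  have hm1 : MomB f₀ Z τ Q := by
    intro z hz s hs
    obtain ⟨s', hs'0, hs's, hd, hb⟩ : ∃ s', 0 ≤ s' ∧ s' ≤ s ∧ s - s' ≤ ε ∧
        pp (Z s' z).2 ≤ 7 / 10 * Q := by
      rcases le_total 0 (s - ε) with h1 | h1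
      · exact ⟨s - ε, h1, by linarith, by linarith, hp z hz _ ⟨h1, by linarith [hs.2]⟩⟩
      · refine ⟨0, le_rfl, hs.1, by linarith, ?_⟩
        have := hm z hz 0 ⟨le_rfl, ht0⟩
        linarith
    have h1 := hL z s ⟨hs.1, hs.2.trans hτT⟩ s' ⟨hs'0, hs's.trans (hs.2.trans hτT)⟩
    rw [abs_of_nonneg (by linarith)] at h1
    have h2 := (abs_le.1 (abs_pp_sub (Z s z).2 (Z s' z).2)).2
    have h3 := mul_le_mul_of_nonneg_left hd hM.le
    linarith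
  have hB := H2 T f₀ K₀ Kd f K Z hS τ hτT hm1
  intro z hz s hs
  by_contra hcon
  rw [not_le] at hcon
  have hts : t ≤ s := by
    by_contra h1
    have := hm z hz s ⟨hs.1, (not_le.1 h1).le⟩
    linarith
  have hcont : ContinuousOn (fun σ => pp (Z σ z).2) (Icc t s) :=
    contDiff_pp.continuous.comp_continuousOn
      ((hS.sol.contZ z).snd.mono (Icc_subset_Icc ht0 (hs.2.trans hτT)))
  obtain ⟨s₀, hs₀, he⟩ := intermediate_value_Icc hts hcont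
    (show Q / 2 ∈ Icc (pp (Z t z).2) (pp (Z s z).2) from
      ⟨hm z hz t ⟨ht0, le_rfl⟩, by linarith⟩)
  have he' : pp (Z s₀ z).2 = Q / 2 := he
  have hv := hB z hz s₀ ⟨ht0.trans hs₀.1, hs₀.2.trans hs.2⟩ (by rw [he']; exact hGQ)
  rw [he'] at hv
  have hD := Del_half hc hQ1
  have hsb : s ≤ min (s₀ + Del c₀ Q (Q / 2)) τ := le_min (by linarith [hs.2, hs₀.1]) hs.2
  have h1 := hv.dist_le (s := s₀) (s' := s) ⟨le_rfl, hs₀.2.trans hsb⟩ ⟨hs₀.2, hsb⟩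
  have h2 := (abs_le.1 (abs_pp_sub (Z s z).2 (Z s₀ z).2)).2
  linarith

theorem mom_bound (A P₀ En Cd Tm : ℝ) : ∃ P, ∀ (T : ℝ) (f₀ : Ph → ℝ) (K₀ : R3 → Ph) (Kd : ST → Ph)
    (f : TP → ℝ) (K : ST → Ph) (Z : ℝ → Ph → Ph), CSet A P₀ En Cd Tm T f₀ K₀ Kd f K Z →
    MomB f₀ Z T P := by
  obtain ⟨c, Q₀, hc, hQ₀, H⟩ := doubling A P₀ En Cd Tm
  obtain ⟨Q₁, hQ₁, hP₁⟩ : ∃ Q₁, Q₀ ≤ Q₁ ∧ 2 * P₀ ≤ Q₁ := ⟨max Q₀ (2 * P₀), le_max_left _ _, le_max_right _ _⟩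
  have hQ1 : 1 ≤ Q₁ := by linarith
  have hL1 : 1 ≤ Lg Q₁ := NumA_Lg hQ1
  have hk : ∀ k : ℕ, Q₁ ≤ 2 ^ k * Q₁ := fun k =>
    le_mul_of_one_le_left (by linarith) (one_le_pow₀ (by norm_num))
  have hLk : ∀ k : ℕ, Lg (2 ^ k * Q₁) ≤ Lg Q₁ * (k + 1) := by
    intro k
    have h1 : Lg (2 ^ k * Q₁) = Lg Q₁ + k * Real.log 2 := by
      unfold Lg
      rw [Real.log_mul (by positivity) (by linarith), Real.log_pow]
      ring
    have h2 : Real.log 2 ≤ 1 := by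
      have := Real.log_le_sub_one_of_pos (show (0 : ℝ) < 2 by norm_num)
      linarith
    have h3 : (0 : ℝ) ≤ k := Nat.cast_nonneg k
    rw [h1]
    nlinarith
  obtain ⟨N, hN⟩ := (tendsto_atTop.1 Real.tendsto_sum_range_one_div_nat_succ_atTop
    (Tm / (c / Lg Q₁))).exists
  have hcL : 0 < c / Lg Q₁ := by positivity
  have hsum : Tm ≤ ∑ i ∈ Finset.range N, c / Lg (2 ^ i * Q₁) := by
    rw [div_le_iff₀ hcL, Finset.sum_mul] at hN
    refine hN.trans (Finset.sum_le_sum fun i _ => ?_)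
    have h1 : 1 ≤ Lg (2 ^ i * Q₁) := NumA_Lg (hQ1.trans (hk i))
    have h2 : (1 : ℝ) / (i + 1) * (c / Lg Q₁) = c / (Lg Q₁ * (i + 1)) := by
      field_simp
    rw [h2]
    exact div_le_div_of_nonneg_left hc.le (by linarith) (hLk i)
  refine ⟨2 ^ N * Q₁ / 2, ?_⟩
  intro T f₀ K₀ Kd f K Z hS
  have hT := hS.sol.hT
  have hpos : ∀ i : ℕ, 0 ≤ c / Lg (2 ^ i * Q₁) := fun i => by
    have h1 : 1 ≤ Lg (2 ^ i * Q₁) := NumA_Lg (hQ1.trans (hk i))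
    positivity
  have key : ∀ k : ℕ, MomB f₀ Z (min (∑ i ∈ Finset.range k, c / Lg (2 ^ i * Q₁)) T)
      (2 ^ k * Q₁ / 2) := by
    intro k
    induction k with
    | zero =>
      intro z hz s hs
      have hs0 : s = 0 := le_antisymm (hs.2.trans ((min_le_left _ _).trans (by simp))) hs.1
      rw [hs0, hS.sol.traj.zero]
      have := hS.hP z hz
      simp only [pow_zero, one_mul]
      linarith
    | succ k ih =>
      have h0 : 0 ≤ ∑ i ∈ Finset.range k, c / Lg (2 ^ i * Q₁) :=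
        Finset.sum_nonneg fun i _ => hpos i
      refine (H (2 ^ k * Q₁) (hQ₁.trans (hk k)) T f₀ K₀ Kd f K Z hS _ (le_min h0 hT.le)
        (min_le_right _ _) ih).mono ?_ (le_of_eq (by ring))
      rw [Finset.sum_range_succ]
      refine le_min ?_ (min_le_right _ _)
      have := hpos k
      rcases le_total (∑ i ∈ Finset.range k, c / Lg (2 ^ i * Q₁)) T with h1 | h1
      · rw [min_eq_left h1]; exact min_le_left _ _
      · rw [min_eq_right h1]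
        exact (min_le_right _ _).trans (by linarith)
  exact (key N).mono (le_min (hS.hT.trans hsum) le_rfl) le_rfl

end Crest.Agent.R106
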