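import Crest.Agent.R106.Cross

/-!
# Row 106: homogeneous kernels

`Ker.bound`: homogeneity reduces to the compact set `sphere 0 1 ×ˢ closedBall 0 P`.  `Ker.dy`, `Ker.dv`:
differentiate the homogeneity relation (chain rule with the linear map `(y, v) ↦ (c • y, v)` on the open set
`y ≠ 0`).

-/

set_option autoImplicit false

noncomputable section

namespace Crest.Agent.R106

open MeasureTheory Set Metric Real Filter Topology
open scoped ContDiff ENNReal RealInnerProductSpace Classical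
open Crest.AnalysisR.VecCalc3 Crest.AnalysisR.PDE.RVM

variable {m n : ℕ} {a b : Ph → ℝ}

theorem isOpen_off : IsOpen (({0}ᶜ : Set R3) ×ˢ (univ : Set R3)) := by
  exact isOpen_compl_singleton.prod isOpen_univ

theorem Ker.contDiffAt (h : Ker m a) {q : Ph} (hq : q.1 ≠ 0) : ContDiffAt ℝ ∞ a q := by
  exact h.1.contDiffAt (isOpen_off.mem_nhds ⟨hq, mem_univ _⟩)

/-- the differentiated homogeneity relation -/
theorem Ker_fderiv (h : Ker m a) {c : ℝ} (hc : 0 < c) {y : R3} (hy : y ≠ 0) (v w z : R3) :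
    fderiv ℝ a (c • y, v) (c • w, z) = c⁻¹ ^ m * fderiv ℝ a (y, v) (w, z) := by
  let L : Ph →L[ℝ] Ph := (c • ContinuousLinearMap.id ℝ R3).prodMap (ContinuousLinearMap.id ℝ R3)
  have d1 : DifferentiableAt ℝ a (L (y, v)) :=
    (h.contDiffAt (q := (c • y, v)) (smul_ne_zero hc.ne' hy)).differentiableAt (by simp)
  have d2 : DifferentiableAt ℝ a (y, v) := (h.contDiffAt (q := (y, v)) hy).differentiableAt (by simp)
  have h1 := d1.hasFDerivAt.comp (y, v) L.hasFDerivAt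
  have h2 := d2.hasFDerivAt.const_mul (c⁻¹ ^ m)
  have h3 : (a ∘ L) =ᶠ[𝓝 (y, v)] fun q => c⁻¹ ^ m * a q := by
    filter_upwards [isOpen_off.mem_nhds (show ((y, v) : Ph) ∈ _ from ⟨hy, mem_univ _⟩)] with q hq
    exact h.2 c q.1 q.2 hc hq.1
  exact congrArg (fun T : Ph →L[ℝ] ℝ => T (w, z)) (h1.unique (h2.congr_of_eventuallyEq h3))

theorem Ker_lin (T : R3 →L[ℝ] ℝ) {B : Fin 3 → ℝ} (h : ∀ i, |T (ee i)| ≤ B i) (u : R3) :
    |T u| ≤ (∑ i, B i) * ‖u‖ := by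
  conv_lhs => rw [← sum_ee u]
  rw [map_sum, Finset.sum_mul]
  refine (Finset.abs_sum_le_sum_abs _ _).trans (Finset.sum_le_sum fun i _ => ?_)
  rw [map_smul, smul_eq_mul, abs_mul, mul_comm]
  exact mul_le_mul (h i) (abs_apply_le u i) (abs_nonneg _) ((abs_nonneg _).trans (h i))

theorem Ker.bound (h : Ker m a) (P : ℝ) :
    ∃ C, 0 ≤ C ∧ ∀ y v : R3, y ≠ 0 → ‖v‖ ≤ P → |a (y, v)| ≤ C / ‖y‖ ^ m := by
  obtain ⟨C, hC⟩ := ((isCompact_sphere (0 : R3) 1).prod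
    (isCompact_closedBall (0 : R3) P)).exists_bound_of_continuousOn (h.1.continuousOn.mono
      fun q hq => ⟨ne_zero_of_mem_unit_sphere ⟨q.1, hq.1⟩, mem_univ _⟩)
  refine ⟨|C|, abs_nonneg _, fun y v hy hv => ?_⟩
  have h0 : 0 < ‖y‖ := norm_pos_iff.2 hy
  have hn : nn y ≠ 0 := norm_ne_zero_iff.1 (by rw [norm_nn hy]; exact one_ne_zero)
  have h1 := h.2 ‖y‖ (nn y) v h0 hn
  have h2 : |a (nn y, v)| ≤ |C| :=
    (hC (nn y, v) ⟨mem_sphere_zero_iff_norm.2 (norm_nn hy), mem_closedBall_zero_iff.2 hv⟩).trans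
      (le_abs_self _)
  rw [smul_nn] at h1
  rw [h1, abs_mul, abs_of_pos (by positivity), inv_pow, inv_mul_eq_div]
  gcongr

theorem Ker.dy (h : Ker m a) {u : R3 → R3} (hu : ContDiff ℝ ∞ u) :
    Ker (m + 1) fun q => fderiv ℝ a q (u q.2, 0) := by
  refine ⟨(h.1.fderiv_of_isOpen isOpen_off (by simp)).clm_apply
    ((hu.comp contDiff_snd).prodMk contDiff_const).contDiffOn, fun c y v hc hy => ?_⟩
  have h1 := Ker_fderiv h hc hy v (c⁻¹ • u v) 0
  rw [smul_smul, mul_inv_cancel₀ hc.ne', one_smul] at h1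
  have h2 : ((c⁻¹ • u v, 0) : Ph) = c⁻¹ • (u v, 0) := by simp
  rw [h2, map_smul, smul_eq_mul] at h1
  simp only
  rw [h1, pow_succ, mul_assoc]

theorem Ker.dv (h : Ker m a) (u : R3) : Ker m fun q => fderiv ℝ a q (0, u) := by
  refine ⟨(h.1.fderiv_of_isOpen isOpen_off (by simp)).clm_apply contDiffOn_const,
    fun c y v hc hy => ?_⟩
  have h1 := Ker_fderiv h hc hy v 0 u
  rwa [smul_zero] at h1

theorem Ker.dy_bound (h : Ker m a) (P : ℝ) : ∃ C, 0 ≤ C ∧ ∀ y v u : R3, y ≠ 0 → ‖v‖ ≤ P →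
    |fderiv ℝ a (y, v) (u, 0)| ≤ C * ‖u‖ / ‖y‖ ^ (m + 1) := by
  choose C hC hb using fun i : Fin 3 => (h.dy (u := fun _ => ee i) contDiff_const).bound P
  refine ⟨∑ i, C i, Finset.sum_nonneg fun i _ => hC i, fun y v u hy hv => ?_⟩
  have := Ker_lin ((fderiv ℝ a (y, v)).comp (ContinuousLinearMap.inl ℝ R3 R3))
    (fun i => hb i y v hy hv) u
  rwa [← Finset.sum_div, div_mul_eq_mul_div] at this

theorem Ker.dv_bound (h : Ker m a) (P : ℝ) : ∃ C, 0 ≤ C ∧ ∀ y v u : R3, y ≠ 0 → ‖v‖ ≤ P →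
    |fderiv ℝ a (y, v) (0, u)| ≤ C * ‖u‖ / ‖y‖ ^ m := by
  choose C hC hb using fun i : Fin 3 => (h.dv (ee i)).bound P
  refine ⟨∑ i, C i, Finset.sum_nonneg fun i _ => hC i, fun y v u hy hv => ?_⟩
  have := Ker_lin ((fderiv ℝ a (y, v)).comp (ContinuousLinearMap.inr ℝ R3 R3))
    (fun i => hb i y v hy hv) u
  rwa [← Finset.sum_div, div_mul_eq_mul_div] at this

theorem Ker.mul (ha : Ker m a) (hb : Ker n b) : Ker (m + n) fun q => a q * b q := by
  refine ⟨ha.1.mul hb.1, fun c y v hc hy => ?_⟩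
  simp only
  rw [ha.2 c y v hc hy, hb.2 c y v hc hy]
  ring

theorem Ker.add (ha : Ker m a) (hb : Ker m b) : Ker m fun q => a q + b q := by
  refine ⟨ha.1.add hb.1, fun c y v hc hy => ?_⟩
  simp only
  rw [ha.2 c y v hc hy, hb.2 c y v hc hy]
  ring

theorem Ker.sub (ha : Ker m a) (hb : Ker m b) : Ker m fun q => a q - b q := by
  refine ⟨ha.1.sub hb.1, fun c y v hc hy => ?_⟩
  simp only
  rw [ha.2 c y v hc hy, hb.2 c y v hc hy]
  ring

theorem Ker.neg (ha : Ker m a) : Ker m fun q => -a q := by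
  refine ⟨ha.1.neg, fun c y v hc hy => ?_⟩
  simp only
  rw [ha.2 c y v hc hy]
  ring

theorem Ker.div (ha : Ker m a) (hb : Ker 0 b) (h0 : ∀ q : Ph, q.1 ≠ 0 → b q ≠ 0) :
    Ker m fun q => a q / b q := by
  refine ⟨ha.1.div hb.1 fun q hq => h0 q hq.1, fun c y v hc hy => ?_⟩
  simp only
  rw [ha.2 c y v hc hy, hb.2 c y v hc hy]
  ring

theorem Ker.comp (ha : Ker 0 a) {χ : ℝ → ℝ} (hχ : ContDiff ℝ ∞ χ) : Ker 0 fun q => χ (a q) := by
  refine ⟨hχ.comp_contDiffOn ha.1, fun c y v hc hy => ?_⟩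
  simp only
  rw [ha.2 c y v hc hy, pow_zero, one_mul, one_mul]

theorem Ker.congr (ha : Ker m a) (h : ∀ q : Ph, q.1 ≠ 0 → b q = a q) : Ker m b := by
  refine ⟨ha.1.congr fun q hq => h q hq.1, fun c y v hc hy => ?_⟩
  rw [h (c • y, v) (smul_ne_zero hc.ne' hy), h (y, v) hy, ha.2 c y v hc hy]

theorem ker_const (c : ℝ) : Ker 0 fun _ => c := by
  exact ⟨contDiffOn_const, fun _ _ _ _ _ => by simp⟩

theorem ker_v {φ : R3 → ℝ} (hφ : ContDiff ℝ ∞ φ) : Ker 0 fun q => φ q.2 := by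
  exact ⟨(hφ.comp contDiff_snd).contDiffOn, fun _ _ _ _ _ => by simp⟩

theorem ker_nn {u : R3 → R3} (hu : ContDiff ℝ ∞ u) : Ker 0 fun q => ⟪nn q.1, u q.2⟫ := by
  refine ⟨fun q hq => ?_, fun c y v hc _ => by simp [nn_smul hc]⟩
  exact (((contDiffAt_nn hq.1).comp q contDiffAt_fst).inner ℝ
    (hu.comp contDiff_snd).contDiffAt).contDiffWithinAt

theorem ker_gap {u : R3 → R3} (hu : ContDiff ℝ ∞ u) : Ker 0 fun q => gap (nn q.1) (u q.2) := by
  exact (ker_const 1).sub (ker_nn hu)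

theorem ker_k0 : Ker 1 k0 := by
  refine ⟨fun q hq => ?_, fun c y v hc _ => ?_⟩
  · exact (((contDiffAt_norm ℝ hq.1).inv (norm_ne_zero_iff.2 hq.1)).comp q
      contDiffAt_fst).contDiffWithinAt
  · simp only [k0, norm_smul, Real.norm_of_nonneg hc.le, mul_inv, pow_one]

theorem ker_kv (i : Fin 3) : Ker 1 (kv i) := by
  exact (ker_v (φ := fun v => relVel v i) (contDiff_euclidean.1 contDiff_relVel i)).mul ker_k0

theorem Ker.kerB (h : Ker 1 a) : KerB a := by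
  refine ⟨h.1.of_le (by simp), fun R => ?_⟩
  obtain ⟨C₁, hC₁, h₁⟩ := h.bound R
  obtain ⟨C₂, hC₂, h₂⟩ := h.dy_bound R
  obtain ⟨C₃, hC₃, h₃⟩ := h.dv_bound R
  refine ⟨C₁ + C₂ + C₃, fun y v u hy _ hv => ⟨?_, ?_, ?_⟩⟩
  · refine (h₁ y v hy hv).trans ?_
    rw [pow_one]
    gcongr
    linarith
  · refine (h₂ y v u hy hv).trans ?_
    gcongr
    linarith
  · refine (h₃ y v u hy hv).trans ?_
    rw [pow_one]
    gcongr
    linarith

theorem Ker.gsC (h : Ker m a) (τ : ℝ) (u : R3) : Ker m (gsC a τ u) := by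
  exact (h.mul ((ker_const τ).sub (ker_nn (u := fun _ => u) contDiff_const))).div
    (ker_gap contDiff_relVel) fun q _ => (gap_pos (norm_nn_le _) (norm_relVel_lt _)).ne'

theorem Ker.gsT (h : Ker m a) (τ : ℝ) (u : R3) : Ker (m + 1) (gsT a τ u) := by
  exact (h.dy (u := fun _ => u) contDiff_const).sub ((h.gsC τ u).dy contDiff_relVel)

/-- product of a `KerB` kernel with a kernel of degree `0` -/
theorem KerB.mul_ker (ha : KerB a) (hb : Ker 0 b) : KerB fun q => a q * b q := by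
  refine ⟨ha.1.mul (hb.1.of_le (by simp)), fun R => ?_⟩
  obtain ⟨C, hC⟩ := ha.2 R
  obtain ⟨C₁, hC₁, h₁⟩ := hb.bound R
  obtain ⟨C₂, hC₂, h₂⟩ := hb.dy_bound R
  obtain ⟨C₃, hC₃, h₃⟩ := hb.dv_bound R
  refine ⟨C * (C₁ + C₂ + C₃), fun y v u hy hR hv => ?_⟩
  obtain ⟨a1, a2, a3⟩ := hC y v u hy hR hv
  have b1 := h₁ y v hy hv
  have b2 := h₂ y v u hy hv
  have b3 := h₃ y v u hy hv
  have h0 : 0 < ‖y‖ := norm_pos_iff.2 hy
  have hC0 : 0 ≤ C := by
    have := (abs_nonneg _).trans a1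
    rwa [le_div_iff₀ h0, zero_mul] at this
  simp only [pow_zero, div_one, zero_add, pow_one] at b1 b2 b3
  have da : DifferentiableAt ℝ a (y, v) :=
    (ha.1.contDiffAt (isOpen_off.mem_nhds
      (show ((y, v) : Ph) ∈ _ from ⟨hy, mem_univ _⟩))).differentiableAt one_ne_zero
  have db : DifferentiableAt ℝ b (y, v) := (hb.contDiffAt (q := (y, v)) hy).differentiableAt (by simp)
  have key : ∀ w : Ph, |fderiv ℝ (fun q => a q * b q) (y, v) w| ≤
      |a (y, v)| * |fderiv ℝ b (y, v) w| + |b (y, v)| * |fderiv ℝ a (y, v) w| := fun w => by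
    rw [fderiv_fun_mul da db, ← abs_mul, ← abs_mul]
    exact abs_add_le _ _
  have hu := norm_nonneg u
  refine ⟨?_, (key _).trans ?_, (key _).trans ?_⟩
  · rw [abs_mul]
    calc _ ≤ C / ‖y‖ * C₁ := by gcongr
      _ ≤ C / ‖y‖ * (C₁ + C₂ + C₃) := by gcongr; linarith
      _ = _ := by ring
  · calc _ ≤ C / ‖y‖ * (C₂ * ‖u‖ / ‖y‖) + C₁ * (C * ‖u‖ / ‖y‖ ^ 2) := by gcongr
      _ = C * (C₁ + C₂) * ‖u‖ / ‖y‖ ^ 2 := by ring
      _ ≤ _ := by gcongr C * ?_ * ‖u‖ / ‖y‖ ^ 2; linarith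
  · calc _ ≤ C / ‖y‖ * (C₃ * ‖u‖) + C₁ * (C * ‖u‖ / ‖y‖) := by gcongr
      _ = C * (C₁ + C₃) * ‖u‖ / ‖y‖ := by ring
      _ ≤ _ := by gcongr C * ?_ * ‖u‖ / ‖y‖; linarith

theorem KerB.gsC (h : KerB a) (τ : ℝ) (u : R3) : KerB (gsC a τ u) := by
  have h1 := h.mul_ker (((ker_const τ).sub (ker_nn (u := fun _ => u) contDiff_const)).div
    (ker_gap contDiff_relVel) fun q _ => (gap_pos (norm_nn_le _) (norm_relVel_lt _)).ne')
  have e : R106.gsC a τ u =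
      fun q => a q * ((τ - ⟪nn q.1, u⟫) / gap (nn q.1) (relVel q.2)) := by
    funext q
    rw [R106.gsC, mul_div_assoc]
  rwa [e]

end Crest.Agent.R106
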