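import Crest.Agent.R106.Calc
import Crest.Agent.R240.Param

/-!
# Row 106: momentum integrals

Smooth case: `Crest.Agent.R240.contDiff_integral_loc` (reassociate `(t, x), v`).  `C¹` case on an open time
set: `hasFDerivAt_integral_of_dominated_of_fderiv_le` with the bound from compactness of
`closedBall p δ ×ˢ closedBall 0 R`, continuity of the derivative by `continuousWithinAt_of_dominated`.
`charge`: integrate the Vlasov equation in `v` and use `integral_force`.

-/

set_option autoImplicit false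

noncomputable section

namespace Crest.Agent.R106

open MeasureTheory Set Metric Real Filter Topology
open scoped ContDiff ENNReal RealInnerProductSpace Classical
open Crest.AnalysisR.VecCalc3 Crest.AnalysisR.PDE.RVM

theorem pint_contOn {Y : Type} [NormedAddCommGroup Y] [NormedSpace ℝ Y] {S : Set ℝ} {g : TP → Y}
    (hg : ContinuousOn g (S ×ˢ univ)) {R : ℝ} (hs : VS S R g) :
    ContinuousOn (fun p : ST => ∫ v, g (p.1, p.2, v)) (S ×ˢ univ) := by
  refine continuousOn_integral_of_compact_support (f := fun (p : ST) (v : R3) => g (p.1, p.2, v))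
    (isCompact_closedBall (0 : R3) R) ?_ fun p v hp hv => ?_
  · exact hg.comp (f := fun z : ST × R3 => ((z.1.1, z.1.2, z.2) : TP)) (by fun_prop)
      fun z hz => ⟨hz.1.1, mem_univ _⟩
  · by_contra h
    exact hv (mem_closedBall_zero_iff.2 (hs (p.1, p.2, v) hp.1 h))

theorem pint_integrable {Y : Type} [NormedAddCommGroup Y] [NormedSpace ℝ Y] {S : Set ℝ}
    {g : TP → Y} (hg : ContinuousOn g (S ×ˢ univ)) {R : ℝ} (hs : VS S R g) {t : ℝ} (ht : t ∈ S)
    (x : R3) : Integrable fun v => g (t, x, v) := by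
  have hc : Continuous fun v : R3 => g (t, x, v) :=
    hg.comp_continuous (f := fun v : R3 => ((t, x, v) : TP)) (by fun_prop) fun v => ⟨ht, mem_univ _⟩
  refine hc.integrable_of_hasCompactSupport
    (HasCompactSupport.intro (isCompact_closedBall (0 : R3) R) fun v hv => ?_)
  by_contra h
  exact hv (mem_closedBall_zero_iff.2 (hs (t, x, v) ht h))

theorem pint_smooth {g : TP → ℝ} (hg : ContDiff ℝ ∞ g) (hs : LS g) :
    ContDiff ℝ ∞ (vint g) ∧ ∀ (p : ST) (τ : ℝ) (u : R3),
      fderiv ℝ (vint g) p (τ, u) = ∫ v, fderiv ℝ g (p.1, p.2, v) (τ, u, 0) := by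
  have hΦ : ContDiff ℝ ∞ (g ∘ ContinuousLinearEquiv.prodAssoc ℝ ℝ R3 R3) :=
    hg.comp (ContinuousLinearEquiv.prodAssoc ℝ ℝ R3 R3).contDiff
  obtain ⟨h1, h2⟩ := Crest.Agent.R240.contDiff_integral_loc (volume : Measure R3) hΦ fun p => by
    obtain ⟨R, hR⟩ := hs (|p.1| + 1)
    refine ⟨R + 1, ?_⟩
    have a1 : ∀ᶠ q : ST in 𝓝 p, |q.1| < |p.1| + 1 :=
      (continuous_fst.abs.continuousAt (x := p)).eventually (gt_mem_nhds (lt_add_one _))
    filter_upwards [a1] with q hq v hv
    by_contra h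
    have := hR (q.1, q.2, v) ⟨(abs_lt.1 hq).1.le, (abs_lt.1 hq).2.le⟩ h
    simp only at this
    linarith
  refine ⟨h1, fun p τ u => (h2 p (τ, u)).trans ?_⟩
  simp only [ContinuousLinearEquiv.comp_right_fderiv]
  rfl

theorem pint_relVel' (i : Fin 3) : ContDiff ℝ ∞ fun v : R3 => relVel v i :=
  (EuclideanSpace.proj (𝕜 := ℝ) i).contDiff.comp contDiff_relVel

theorem pint_relVel (i : Fin 3) : ContDiff ℝ ∞ fun p : TP => relVel p.2.2 i :=
  (pint_relVel' i).comp contDiff_snd.snd

theorem pint_slice {Y : Type} [NormedAddCommGroup Y] [NormedSpace ℝ Y] {g : TP → Y} {t : ℝ}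
    {x v : R3} (hg : DifferentiableAt ℝ g (t, x, v)) (u : R3) :
    fderiv ℝ (fun v : R3 => g (t, x, v)) v u = fderiv ℝ g (t, x, v) (0, 0, u) := by
  have a2 : HasFDerivAt (fun v : R3 => ((t, x, v) : TP))
      ((0 : R3 →L[ℝ] ℝ).prod ((0 : R3 →L[ℝ] R3).prod (ContinuousLinearMap.id ℝ R3))) v :=
    (hasFDerivAt_const t v).prodMk ((hasFDerivAt_const x v).prodMk (hasFDerivAt_id v))
  have a3 : fderiv ℝ (fun v : R3 => g (t, x, v)) v = _ := (hg.hasFDerivAt.comp v a2).fderiv
  rw [a3]
  rfl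

theorem vB_nonneg (P : ℝ) : 0 ≤ vB P :=
  ENNReal.toReal_nonneg

theorem LS.mul {g h : TP → ℝ} (hs : LS g) : LS fun p => g p * h p := by
  intro a
  obtain ⟨R, hR⟩ := hs a
  exact ⟨R, fun p hp h => hR p hp (left_ne_zero_of_mul h)⟩

theorem vint_contDiff {g : TP → ℝ} (hg : ContDiff ℝ ∞ g) (hs : LS g) : ContDiff ℝ ∞ (vint g) :=
  (pint_smooth hg hs).1

theorem pd_vint {g : TP → ℝ} (hg : ContDiff ℝ ∞ g) (hs : LS g) (τ : ℝ) (u : R3) :
    pd (τ, u) (vint g) = vint (pd (τ, u, 0) g) := by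
  funext p
  exact (pint_smooth hg hs).2 p τ u

theorem pdx_vint {g : TP → ℝ} (hg : ContDiff ℝ ∞ g) (hs : LS g) (L : List R3) :
    pdx L (vint g) = vint (pdX L g) := by
  induction L with
  | nil => rfl
  | cons u L ih =>
    show pd ((0 : ℝ), u) (pdx L (vint g)) = vint (pd ((0 : ℝ), u, (0 : R3)) (pdX L g))
    rw [ih]
    exact pd_vint (contDiff_pdl hg _) (hs.pdl _) 0 u

theorem cur_contDiff {f : TP → ℝ} (hf : ContDiff ℝ ∞ f) (hs : LS f) (i : Fin 3) :
    ContDiff ℝ ∞ (cur f i) :=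
  vint_contDiff (hf.mul (pint_relVel i)) hs.mul

theorem pd_cur {f : TP → ℝ} (hf : ContDiff ℝ ∞ f) (hs : LS f) (τ : ℝ) (u : R3) (i : Fin 3) :
    pd (τ, u) (cur f i) = cur (pd (τ, u, 0) f) i := by
  unfold cur
  rw [pd_vint (hf.mul (pint_relVel i)) hs.mul]
  congr 1
  funext p
  have h1 : DifferentiableAt ℝ f p := hf.differentiable (by simp) p
  have h2 : DifferentiableAt ℝ (fun p : TP => relVel p.2.2 i) p :=
    (pint_relVel i).differentiable (by simp) p
  have h3 : fderiv ℝ (fun p : TP => relVel p.2.2 i) p (τ, u, 0) = 0 := by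
    have h4 : DifferentiableAt ℝ (fun v : R3 => relVel v i) p.2.2 :=
      (pint_relVel' i).differentiable (by simp) _
    have h5 := (h4.hasFDerivAt.comp p
      ((ContinuousLinearMap.snd ℝ R3 R3).comp (ContinuousLinearMap.snd ℝ ℝ Ph)).hasFDerivAt).fderiv
    have h6 : fderiv ℝ (fun p : TP => relVel p.2.2 i) p = _ := h5
    rw [h6]
    simp
  simp only [pd]
  rw [fderiv_fun_mul h1 h2]
  simp only [add_apply, smul_apply, h3, smul_eq_mul]
  ring

theorem vint_contDiffOn {U : Set ℝ} (hU : IsOpen U) {g : TP → ℝ}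
    (hg : ContDiffOn ℝ 1 g (U ×ˢ univ)) {R : ℝ} (hs : VS U R g) :
    ContDiffOn ℝ 1 (vint g) (U ×ˢ univ) ∧ ∀ p ∈ U ×ˢ (univ : Set R3), ∀ (τ : ℝ) (u : R3),
      fderiv ℝ (vint g) p (τ, u) = ∫ v, fderiv ℝ g (p.1, p.2, v) (τ, u, 0) := by
  have hO : IsOpen (U ×ˢ (univ : Set Ph)) := hU.prod isOpen_univ
  have hO' : IsOpen (U ×ˢ (univ : Set R3)) := hU.prod isOpen_univ
  set A : ST →L[ℝ] TP := (ContinuousLinearMap.fst ℝ ℝ R3).prod
    ((ContinuousLinearMap.snd ℝ ℝ R3).prod 0) with hA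
  set D : TP → ST →L[ℝ] ℝ := fun q => (fderiv ℝ g q).comp A with hD
  have hDc : ContinuousOn D (U ×ˢ univ) :=
    (hg.continuousOn_fderiv_of_isOpen hO le_rfl).clm_comp continuousOn_const
  have hDs : VS U R D := by
    intro q hq hne
    by_contra hlt
    rw [not_le] at hlt
    apply hne
    have h0 : g =ᶠ[𝓝 q] fun _ => 0 := by
      have a1 : ∀ᶠ r : TP in 𝓝 q, r.1 ∈ U := continuous_fst.continuousAt.eventually (hU.mem_nhds hq)
      have a2 : ∀ᶠ r : TP in 𝓝 q, R < ‖r.2.2‖ :=
        (continuous_snd.snd.norm.continuousAt (x := q)).eventually (lt_mem_nhds hlt)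
      filter_upwards [a1, a2] with r h1 h2
      by_contra h3
      exact absurd (hs r h1 h3) (not_le.2 h2)
    simp [hD, h0.fderiv_eq]
  have key : ∀ p ∈ U ×ˢ (univ : Set R3),
      HasFDerivAt (vint g) (∫ v, D (p.1, p.2, v)) p := by
    intro p hp
    obtain ⟨δ, hδ, hδU⟩ := Metric.nhds_basis_closedBall.mem_iff.1 (hO'.mem_nhds hp)
    have hK : IsCompact ((fun z : ST × R3 => ((z.1.1, z.1.2, z.2) : TP)) ''
        (closedBall p δ ×ˢ closedBall (0 : R3) R)) :=
      ((isCompact_closedBall p δ).prod (isCompact_closedBall _ _)).image (by fun_prop)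
    obtain ⟨C, hC⟩ := hK.exists_bound_of_continuousOn (hDc.mono (by
      rintro _ ⟨z, hz, rfl⟩
      exact ⟨(hδU hz.1).1, mem_univ _⟩))
    refine hasFDerivAt_integral_of_dominated_of_fderiv_le
      (F := fun (q : ST) (v : R3) => g (q.1, q.2, v))
      (F' := fun (q : ST) (v : R3) => D (q.1, q.2, v))
      (bound := (closedBall (0 : R3) R).indicator fun _ => C)
      (Metric.closedBall_mem_nhds p hδ) ?_ (pint_integrable hg.continuousOn hs hp.1 p.2)
      (pint_integrable hDc hDs hp.1 p.2).aestronglyMeasurable ?_ ?_ ?_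
    · filter_upwards [hO'.mem_nhds hp] with q hq
      exact (pint_integrable hg.continuousOn hs hq.1 q.2).aestronglyMeasurable
    · refine Eventually.of_forall fun v q hq => ?_
      by_cases hv : v ∈ closedBall (0 : R3) R
      · rw [indicator_of_mem hv]
        exact hC _ ⟨(q, v), ⟨hq, hv⟩, rfl⟩
      · rw [indicator_of_notMem hv]
        have : D (q.1, q.2, v) = 0 := by
          by_contra h
          exact hv (mem_closedBall_zero_iff.2 (hDs (q.1, q.2, v) (hδU hq).1 h))
        rw [this, norm_zero]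
    · exact (integrable_indicator_iff measurableSet_closedBall).2
        (integrableOn_const (isCompact_closedBall _ _).measure_lt_top.ne (by simp))
    · refine Eventually.of_forall fun v q hq => ?_
      have a1 : DifferentiableAt ℝ g (q.1, q.2, v) :=
        (hg.contDiffAt (hO.mem_nhds ⟨(hδU hq).1, mem_univ _⟩)).differentiableAt (by simp)
      have a2 : HasFDerivAt (fun q : ST => ((q.1, q.2, v) : TP)) A q :=
        hasFDerivAt_fst.prodMk (hasFDerivAt_snd.prodMk (hasFDerivAt_const v q))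
      exact a1.hasFDerivAt.comp q a2
  refine ⟨?_, fun p hp τ u => ?_⟩
  · have : ContDiffOn ℝ (0 + 1) (vint g) (U ×ˢ univ) := by
      refine (contDiffOn_succ_iff_fderiv_of_isOpen hO').2 ⟨fun p hp =>
        (key p hp).differentiableAt.differentiableWithinAt, by simp, contDiffOn_zero.2 ?_⟩
      exact (pint_contOn hDc hDs).congr fun p hp => (key p hp).fderiv
    simpa using this
  · rw [(key p hp).fderiv,
      ContinuousLinearMap.integral_apply (pint_integrable hDc hDs hp.1 p.2)]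
    rfl

theorem vint_continuousOn {S : Set ℝ} {g : TP → ℝ} (hg : ContinuousOn g (S ×ˢ univ)) {R : ℝ}
    (hs : VS S R g) : ContinuousOn (vint g) (S ×ˢ univ) :=
  pint_contOn hg hs

theorem integrable_slice {Y : Type} [NormedAddCommGroup Y] [NormedSpace ℝ Y] {S : Set ℝ}
    {g : TP → Y} (hg : ContinuousOn g (S ×ˢ univ)) {R : ℝ} (hs : VS S R g) {t : ℝ} (ht : t ∈ S)
    (x : R3) : Integrable fun v => g (t, x, v) :=
  pint_integrable hg hs ht x

theorem abs_vint_le {g : TP → ℝ} {p : ST} {R C : ℝ}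
    (hs : ∀ v, g (p.1, p.2, v) ≠ 0 → ‖v‖ ≤ R) (hb : ∀ v, |g (p.1, p.2, v)| ≤ C) :
    |vint g p| ≤ C * vB R := by
  have h1 : ∫ v in closedBall (0 : R3) R, g (p.1, p.2, v) = vint g p :=
    setIntegral_eq_integral_of_forall_compl_eq_zero fun v hv => by
      by_contra h
      exact hv (mem_closedBall_zero_iff.2 (hs v h))
  rw [← h1, ← Real.norm_eq_abs]
  exact norm_setIntegral_le_of_norm_le_const (isCompact_closedBall _ _).measure_lt_top
    fun v _ => hb v

theorem abs_cur_le {g : TP → ℝ} {p : ST} {R C : ℝ}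
    (hs : ∀ v, g (p.1, p.2, v) ≠ 0 → ‖v‖ ≤ R) (hb : ∀ v, |g (p.1, p.2, v)| ≤ C) (i : Fin 3) :
    |cur g i p| ≤ C * vB R := by
  refine abs_vint_le (fun v h => hs v (left_ne_zero_of_mul h)) fun v => ?_
  rw [abs_mul]
  exact (mul_le_of_le_one_right (abs_nonneg _)
    ((abs_apply_le _ i).trans (norm_relVel_lt _).le)).trans (hb v)

/-- all joint derivatives of a momentum integral -/
theorem norm_iter_vint_le {g : TP → ℝ} (hg : ContDiff ℝ ∞ g) (hs : LS g) (k : ℕ) {p : ST}
    {R C : ℝ} (hR : ∀ v, iteratedFDeriv ℝ k g (p.1, p.2, v) ≠ 0 → ‖v‖ ≤ R)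
    (hb : ∀ v, ‖iteratedFDeriv ℝ k g (p.1, p.2, v)‖ ≤ C) :
    ‖iteratedFDeriv ℝ k (vint g) p‖ ≤ C * vB R := by
  have key : ∀ L : List ST,
      pdl L (vint g) = vint (pdl (L.map fun u => ((u.1, u.2, 0) : TP)) g) := by
    intro L
    induction L with
    | nil => rfl
    | cons u L ih =>
      show pd (u.1, u.2) (pdl L (vint g)) =
        vint (pd ((u.1, u.2, 0) : TP) (pdl (L.map fun u => ((u.1, u.2, 0) : TP)) g))
      rw [ih]
      exact pd_vint (contDiff_pdl hg _) (hs.pdl _) u.1 u.2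
  refine norm_iter_le (vint_contDiff hg hs) fun L hL h1 => ?_
  have h2 : ∀ q, ‖pdl (L.map fun u => ((u.1, u.2, 0) : TP)) g q‖ ≤ ‖iteratedFDeriv ℝ k g q‖ := by
    intro q
    have := norm_pdl_le hg (L := L.map fun u => ((u.1, u.2, 0) : TP)) (fun w hw => by
      obtain ⟨u, hu, rfl⟩ := List.mem_map.1 hw
      have a := h1 u hu
      rw [Prod.norm_def] at a
      simp only [Prod.norm_def, norm_zero]
      exact max_le (le_of_max_le_left a) (max_le (le_of_max_le_right a) zero_le_one)) q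
    rwa [List.length_map, hL] at this
  rw [key, Real.norm_eq_abs]
  refine abs_vint_le (fun v h => hR v fun h0 => h ?_) fun v => (h2 _).trans (hb v)
  have := h2 (p.1, p.2, v)
  rw [h0, norm_zero] at this
  exact norm_le_zero_iff.1 this

theorem integral_dv {H : TP → R3} {t R : ℝ} {x : R3} (hH : ∀ v, ContDiffAt ℝ 1 H (t, x, v))
    (hs : ∀ v, H (t, x, v) ≠ 0 → ‖v‖ ≤ R) : ∫ v, dv H (t, x, v) = 0 := by
  have hφ : ContDiff ℝ 1 fun v : R3 => H (t, x, v) := contDiff_iff_contDiffAt.2 fun v =>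
    (hH v).comp v (f := fun v : R3 => ((t, x, v) : TP)) (by fun_prop)
  have hc : HasCompactSupport fun v : R3 => H (t, x, v) :=
    HasCompactSupport.intro (isCompact_closedBall (0 : R3) R) fun v hv => by
      by_contra h
      exact hv (mem_closedBall_zero_iff.2 (hs v h))
  have h1 : ∀ v u, fderiv ℝ H (t, x, v) (0, 0, u) = fderiv ℝ (fun v : R3 => H (t, x, v)) v u :=
    fun v u => (pint_slice ((hH v).differentiableAt (by simp)) u).symm
  have h2 : ∀ u, Integrable fun v => fderiv ℝ (fun v : R3 => H (t, x, v)) v u := fun u =>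
    ((hφ.continuous_fderiv (by simp)).clm_apply continuous_const).integrable_of_hasCompactSupport
      (hc.fderiv_apply ℝ u)
  have h3 : ∀ u, ∫ v, fderiv ℝ (fun v : R3 => H (t, x, v)) v u = 0 := fun u => by
    have := integral_smul_fderiv_eq_neg_fderiv_smul_of_integrable (μ := (volume : Measure R3))
      (f := fun _ : R3 => (1 : ℝ)) (g := fun v : R3 => H (t, x, v)) (v := u) (by simp)
      (by simpa using h2 u) (by simpa using hφ.continuous.integrable_of_hasCompactSupport hc)
      (fun _ _ => differentiableAt_const _) (fun v _ => hφ.differentiable (by simp) v)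
    simpa using this
  have h4 : ∀ i : Fin 3, Integrable fun v => (fderiv ℝ (fun v : R3 => H (t, x, v)) v (ee i)) i :=
    fun i => (EuclideanSpace.proj (𝕜 := ℝ) i).integrable_comp (h2 (ee i))
  simp only [dv, h1]
  rw [integral_finsetSum _ fun i _ => h4 i]
  refine Finset.sum_eq_zero fun i _ => ?_
  have := (EuclideanSpace.proj (𝕜 := ℝ) i).integral_comp_comm (h2 (ee i))
  rw [h3, map_zero] at this
  exact this

/-- conservation of charge -/
theorem charge {K : ST → Ph} {f : TP → ℝ} (hf : ContDiff ℝ ∞ f) (hs : LS f)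
    (hv : ∀ p, Vlasov K f p) (p : ST) : pd (1, 0) (vint f) p + dx (cur f) p = 0 := by
  have hint : ∀ {g : TP → ℝ}, Continuous g → LS g → Integrable fun v => g (p.1, p.2, v) := by
    intro g hg hs
    obtain ⟨R, hR⟩ := hs |p.1|
    exact pint_integrable hg.continuousOn hR ⟨neg_abs_le _, le_abs_self _⟩ p.2
  have a1 : Integrable fun v => pd ((1 : ℝ), (0 : R3), (0 : R3)) f (p.1, p.2, v) :=
    hint (contDiff_pd hf _).continuous (hs.pd _)
  have a2 : ∀ i, Integrable fun v =>
      pd ((0 : ℝ), ee i, (0 : R3)) f (p.1, p.2, v) * relVel v i := fun i =>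
    hint (g := fun r => pd ((0 : ℝ), ee i, (0 : R3)) f r * relVel r.2.2 i)
      ((contDiff_pd hf _).mul (pint_relVel i)).continuous (hs.pd _).mul
  obtain ⟨R, hR⟩ := hs |p.1|
  have hφ : ContDiff ℝ 1 fun v : R3 => f (p.1, p.2, v) :=
    (hf.of_le (by simp)).comp (f := fun v : R3 => ((p.1, p.2, v) : TP)) (by fun_prop)
  have hc : HasCompactSupport fun v : R3 => f (p.1, p.2, v) :=
    HasCompactSupport.intro (isCompact_closedBall (0 : R3) R) fun v hv => by
      by_contra h
      exact hv (mem_closedBall_zero_iff.2 (hR (p.1, p.2, v) ⟨neg_abs_le _, le_abs_self _⟩ h))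
  have a3 := integral_force (K p) hφ hc
  simp only [dx, pd_vint hf hs, pd_cur hf hs]
  simp only [cur, vint]
  rw [← integral_finsetSum _ fun i _ => a2 i,
    ← integral_add a1 (integrable_finsetSum _ fun i _ => a2 i)]
  refine Eq.trans ?_ (neg_eq_zero.2 a3)
  rw [← integral_neg]
  refine integral_congr_ae (Eventually.of_forall fun v => ?_)
  have b1 : fderiv ℝ f (p.1, p.2, v) (1, relVel v, force (K p) v) = 0 := hv (p.1, p.2, v)
  have b2 : ((1, relVel v, force (K p) v) : TP) = (1, 0, 0) +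
      ∑ i, relVel v i • (((0 : ℝ), ee i, (0 : R3)) : TP) + (0, 0, force (K p) v) := by
    refine Prod.ext ?_ (Prod.ext ?_ ?_)
    · simp [Prod.fst_sum]
    · simp [Prod.fst_sum, Prod.snd_sum, sum_ee]
    · simp [Prod.snd_sum]
  rw [b2, map_add, map_add, map_sum] at b1
  simp only [map_smul, smul_eq_mul] at b1
  simp only [pd]
  rw [pint_slice (hf.differentiable (by simp) _)]
  simp only [mul_comm (fderiv ℝ f _ _)]
  linarith

end Crest.Agent.R106
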