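import Crest.Agent.R106.SIBP
import Crest.Agent.R106.Ker
import Crest.Agent.R106.PInt

/-!
# Row 106: integrals over the cones

`cyl t = ball 0 t ×ˢ univ`, `volume` on `Ph` is the product measure; the set `y = 0` is null.  `cyl_bound`:
`norm_integral_le_lintegral_norm`, bound by the product of `φ(|y|)/|y|²` and the indicator of
`closedBall 0 P`, `radial`.  `fderiv_bdd`: on the open slab `fderiv = fderivWithin (slab)`, which is continuous
on the compact set `Icc 0 T ×ˢ closedBall 0 R` (`UniqueDiffOn` of the slab).  Measurability: `measurable_fderiv`,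
`ContinuousOn.aestronglyMeasurable` on the measurable set `cyl t ∩ {y ≠ 0}`.

-/

set_option autoImplicit false

noncomputable section

namespace Crest.Agent.R106

open MeasureTheory Set Metric Real Filter Topology
open scoped ContDiff ENNReal RealInnerProductSpace Classical
open Crest.AnalysisR.VecCalc3 Crest.AnalysisR.PDE.RVM

theorem measurableSet_cyl (t : ℝ) : MeasurableSet (cyl t) := by
  exact measurableSet_ball.prod MeasurableSet.univ

theorem ae_ne_zero : ∀ᵐ q : Ph, q.1 ≠ 0 := by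
  exact Measure.quasiMeasurePreserving_fst.ae sibp_ae_ne

theorem continuous_cone : Continuous fun r : ST × Ph => cone r.1 r.2 := by
  unfold cone
  fun_prop

theorem cone_mem {T : ℝ} {p : ST} (hp : p ∈ slab R3 T) {q : Ph} (hq : q ∈ cyl p.1) :
    cone p q ∈ slab Ph T := by
  have h1 : ‖q.1‖ < p.1 := mem_ball_zero_iff.1 hq.1
  have h2 := norm_nonneg q.1
  have h3 : p.1 ≤ T := hp.1.2
  exact ⟨⟨show 0 ≤ p.1 - ‖q.1‖ by linarith, show p.1 - ‖q.1‖ ≤ T by linarith⟩, mem_univ _⟩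

theorem cone_mem_open {T : ℝ} {p : ST} (hp : p ∈ slab R3 T) {q : Ph} (hq : q ∈ cyl p.1)
    (hy : q.1 ≠ 0) : cone p q ∈ oslab Ph T := by
  have h1 : ‖q.1‖ < p.1 := mem_ball_zero_iff.1 hq.1
  have h2 := norm_pos_iff.2 hy
  have h3 : p.1 ≤ T := hp.1.2
  exact ⟨⟨show 0 < p.1 - ‖q.1‖ by linarith, show p.1 - ‖q.1‖ < T by linarith⟩, mem_univ _⟩

theorem isOpen_oslab (X : Type) [TopologicalSpace X] (T : ℝ) : IsOpen (oslab X T) := by
  exact isOpen_Ioo.prod isOpen_univ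

theorem slab_mem_nhds {X : Type} [TopologicalSpace X] {T : ℝ} {p : ℝ × X} (hp : p ∈ oslab X T) :
    slab X T ∈ 𝓝 p := by
  exact mem_of_superset ((isOpen_oslab X T).mem_nhds hp) (prod_mono Ioo_subset_Icc_self Subset.rfl)

theorem uniqueDiffOn_slab (X : Type) [NormedAddCommGroup X] [NormedSpace ℝ X] {T : ℝ}
    (hT : 0 < T) : UniqueDiffOn ℝ (slab X T) := by
  exact (uniqueDiffOn_Icc hT).prod uniqueDiffOn_univ

theorem cyl_restrict (t : ℝ) : (volume : Measure Ph).restrict (cyl t) =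
    ((volume : Measure R3).restrict (ball 0 t)).prod (volume : Measure R3) := by
  rw [cyl, Measure.volume_eq_prod, ← Measure.prod_restrict, Measure.restrict_univ]

theorem cyl_dom {b : R3 → ℝ} {t : ℝ} (hb : IntegrableOn b (ball 0 t)) (P : ℝ) :
    IntegrableOn (fun q : Ph => b q.1 * (closedBall (0 : R3) P).indicator (fun _ => (1 : ℝ)) q.2)
      (cyl t) := by
  rw [IntegrableOn, cyl_restrict]
  exact Integrable.mul_prod hb ((integrableOn_const measure_closedBall_lt_top.ne).integrable_indicator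
    measurableSet_closedBall)

theorem cyl_le {k : Ph → ℝ} {b : R3 → ℝ} {t P : ℝ}
    (hb : ∀ q ∈ cyl t, q.1 ≠ 0 → ‖q.2‖ ≤ P → |k q| ≤ b q.1)
    (hs : ∀ q ∈ cyl t, q.1 ≠ 0 → P < ‖q.2‖ → k q = 0) :
    ∀ᵐ q ∂(volume.restrict (cyl t)),
      ‖k q‖ ≤ b q.1 * (closedBall (0 : R3) P).indicator (fun _ => (1 : ℝ)) q.2 := by
  filter_upwards [ae_restrict_mem (measurableSet_cyl t), ae_restrict_of_ae ae_ne_zero] with q hq hy
  rcases le_or_gt ‖q.2‖ P with hv | hv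
  · rw [indicator_of_mem (mem_closedBall_zero_iff.2 hv), mul_one]
    exact hb q hq hy hv
  · rw [indicator_of_notMem (by rwa [mem_closedBall_zero_iff, not_le]), mul_zero, hs q hq hy hv,
      norm_zero]

theorem cyl_int' {k : Ph → ℝ} {t C P : ℝ} (hm : AEStronglyMeasurable k (volume.restrict (cyl t)))
    (hb : ∀ q ∈ cyl t, q.1 ≠ 0 → ‖q.2‖ ≤ P → |k q| ≤ C / ‖q.1‖ ^ 2)
    (hs : ∀ q ∈ cyl t, q.1 ≠ 0 → P < ‖q.2‖ → k q = 0) : IntegrableOn k (cyl t) :=
  (cyl_dom (b := fun y => C * (1 / ‖y‖ ^ 2)) ((integrableOn_inv_sq t).const_mul C) P).mono' hm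
    (cyl_le (b := fun y => C * (1 / ‖y‖ ^ 2))
      (fun q hq hy hv => by rw [mul_one_div]; exact hb q hq hy hv) hs)

theorem cyl_int {k : Ph → ℝ} {t C P : ℝ} (hm : AEStronglyMeasurable k (volume.restrict (cyl t)))
    (hb : ∀ q ∈ cyl t, q.1 ≠ 0 → |k q| ≤ C / ‖q.1‖ ^ 2)
    (hs : ∀ q ∈ cyl t, q.1 ≠ 0 → P < ‖q.2‖ → k q = 0) : IntegrableOn k (cyl t) := by
  exact cyl_int' hm (fun q hq hy _ => hb q hq hy) hs

theorem cyl_bound {k : Ph → ℝ} {t P : ℝ} {φ : ℝ → ℝ} (hφ : IntegrableOn φ (Ioo 0 t))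
    (hb : ∀ q ∈ cyl t, q.1 ≠ 0 → ‖q.2‖ ≤ P → |k q| ≤ φ ‖q.1‖ / ‖q.1‖ ^ 2)
    (h0 : ∀ r ∈ Ioo 0 t, 0 ≤ φ r) (hs : ∀ q ∈ cyl t, q.1 ≠ 0 → P < ‖q.2‖ → k q = 0) :
    |∫ q in cyl t, k q| ≤ 4 * π * vB P * ∫ r in Ioo 0 t, φ r := by
  obtain ⟨i1, e1⟩ := radial_integral hφ
  have h1 := norm_integral_le_of_norm_le (cyl_dom i1 P)
    (cyl_le (b := fun y => φ ‖y‖ / ‖y‖ ^ 2) hb hs)
  refine h1.trans (le_of_eq ?_)
  rw [cyl_restrict, integral_prod_mul (f := fun y : R3 => φ ‖y‖ / ‖y‖ ^ 2)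
    (g := (closedBall (0 : R3) P).indicator fun _ => (1 : ℝ)), e1,
    integral_indicator measurableSet_closedBall, setIntegral_const, smul_eq_mul, mul_one,
    mul_right_comm]
  rfl

theorem fderiv_bdd {X Y : Type} [NormedAddCommGroup X] [NormedSpace ℝ X] [FiniteDimensional ℝ X]
    [NormedAddCommGroup Y] [NormedSpace ℝ Y] {T : ℝ} {g : ℝ × X → Y}
    (hg : ContDiffOn ℝ 1 g (slab X T)) (R : ℝ) :
    ∃ C, ∀ r ∈ oslab X T, ‖r.2‖ ≤ R → ‖fderiv ℝ g r‖ ≤ C := by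
  rcases le_or_gt T 0 with hT | hT
  · exact ⟨0, fun r hr => absurd (hr.1.1.trans hr.1.2) (not_lt.2 hT)⟩
  have := FiniteDimensional.proper_real X
  obtain ⟨C, hC⟩ := (isCompact_Icc.prod (isCompact_closedBall (0 : X) R)).exists_bound_of_continuousOn
    ((hg.continuousOn_fderivWithin (uniqueDiffOn_slab X hT) le_rfl).mono
      (prod_mono Subset.rfl (subset_univ _)))
  refine ⟨C, fun r hr hR => ?_⟩
  rw [← fderivWithin_of_mem_nhds (slab_mem_nhds hr)]
  exact hC r ⟨Ioo_subset_Icc_self hr.1, mem_closedBall_zero_iff.2 hR⟩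

theorem fderiv_zero_of_VS {Y : Type} [NormedAddCommGroup Y] [NormedSpace ℝ Y] {T P : ℝ}
    {g : TP → Y} (vg : VS (Icc 0 T) P g) {r : TP} (hr : r ∈ oslab Ph T) (hv : P < ‖r.2.2‖) :
    fderiv ℝ g r = 0 := by
  have h : g =ᶠ[𝓝 r] fun _ => 0 := by
    filter_upwards [slab_mem_nhds hr, (isOpen_lt continuous_const
      (continuous_snd.snd.norm : Continuous fun r : TP => ‖r.2.2‖)).mem_nhds hv] with z hz hz'
    by_contra h0
    exact absurd (vg z hz.1 h0) (not_le.2 hz')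
  rw [h.fderiv_eq, fderiv_fun_const, Pi.zero_apply]

variable {T P : ℝ} {a : Ph → ℝ} {p : ST}

theorem cyl_meas {Y : Type} [NormedAddCommGroup Y] {k : Ph → Y} {t : ℝ}
    (hk : ContinuousOn k (cyl t ∩ {q | q.1 ≠ 0})) :
    AEStronglyMeasurable k (volume.restrict (cyl t)) := by
  have h1 := hk.aestronglyMeasurable (μ := (volume : Measure Ph)) ((measurableSet_cyl t).inter
    (isOpen_ne_fun continuous_fst continuous_const).measurableSet)
  have h2 : ({q | q.1 ≠ 0} : Set Ph) =ᵐ[volume] (univ : Set Ph) := ae_eq_univ.2 (ae_iff.1 ae_ne_zero)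
  rwa [Measure.restrict_congr_set (inter_ae_eq_left_of_ae_eq_univ h2)] at h1

theorem cyl_off {Y : Type} [TopologicalSpace Y] {k : Ph → Y} {t : ℝ}
    (hk : ContinuousOn k ({0}ᶜ ×ˢ univ)) : ContinuousOn k (cyl t ∩ {q | q.1 ≠ 0}) :=
  hk.mono fun _ hq => ⟨hq.2, mem_univ _⟩

theorem cyl_cont (p : ST) : Continuous (cone p) :=
  continuous_cone.comp (continuous_const.prodMk continuous_id)

theorem cyl_comp {Y : Type} [TopologicalSpace Y] {G : TP → Y} (hG : ContinuousOn G (slab Ph T))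
    (hp : p ∈ slab R3 T) : ContinuousOn (fun q => G (cone p q)) (cyl p.1 ∩ {q | q.1 ≠ 0}) :=
  hG.comp (cyl_cont p).continuousOn fun _ hq => cone_mem hp hq.1

theorem cyl_norm {q : Ph} (hq : q ∈ cyl p.1) (hv : ‖q.2‖ ≤ P) :
    ‖(cone p q).2‖ ≤ ‖p.2‖ + p.1 + |P| := by
  have h1 : ‖q.1‖ < p.1 := mem_ball_zero_iff.1 hq.1
  have h2 := norm_nonneg q.1
  have h3 := abs_nonneg P
  have h4 := le_abs_self P
  have h5 := norm_nonneg p.2
  exact norm_prod_le_iff.2 ⟨(norm_sub_le p.2 q.1).trans (by linarith),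
    show ‖q.2‖ ≤ _ by linarith⟩

theorem cyl_bdd {Y : Type} [NormedAddCommGroup Y] {G : TP → Y} (hG : ContinuousOn G (slab Ph T))
    (hp : p ∈ slab R3 T) (P : ℝ) :
    ∃ B, 0 ≤ B ∧ ∀ q ∈ cyl p.1, ‖q.2‖ ≤ P → ‖G (cone p q)‖ ≤ B := by
  obtain ⟨B, hB⟩ := (isCompact_Icc.prod (isCompact_closedBall (0 : Ph)
    (‖p.2‖ + p.1 + |P|))).exists_bound_of_continuousOn (hG.mono (prod_mono Subset.rfl (subset_univ _)))
  exact ⟨|B|, abs_nonneg _, fun q hq hv =>
    (hB _ ⟨(cone_mem hp hq).1, mem_closedBall_zero_iff.2 (cyl_norm hq hv)⟩).trans (le_abs_self _)⟩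

theorem cyl_zero {Y : Type} [NormedAddCommGroup Y] {G : TP → Y} (vG : VS (Icc 0 T) P G)
    (hp : p ∈ slab R3 T) {q : Ph} (hq : q ∈ cyl p.1) (hv : P < ‖q.2‖) : G (cone p q) = 0 :=
  by_contra fun h => absurd (vG _ (cone_mem hp hq).1 h) (not_le.2 hv)

theorem cyl_ker (ha : KerB a) (t P : ℝ) : ∃ C, 0 ≤ C ∧ ∀ q ∈ cyl t, q.1 ≠ 0 → ‖q.2‖ ≤ P → ∀ u : R3,
    |a q| ≤ C / ‖q.1‖ ^ 2 ∧ |fderiv ℝ a q (u, 0)| ≤ C * ‖u‖ / ‖q.1‖ ^ 2 ∧
      |fderiv ℝ a q (0, u)| ≤ C * ‖u‖ / ‖q.1‖ ^ 2 := by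
  obtain ⟨C, hC⟩ := ha.2 (max t P)
  refine ⟨|C| * (1 + |t|), by positivity, fun q hq hy hv u => ?_⟩
  have h1 : ‖q.1‖ < t := mem_ball_zero_iff.1 hq.1
  have h2 := norm_pos_iff.2 hy
  obtain ⟨a1, a2, a3⟩ := hC q.1 q.2 u hy (h1.le.trans (le_max_left _ _)) (hv.trans (le_max_right _ _))
  have h3 := le_abs_self C
  have h4 : ‖q.1‖ ≤ 1 + |t| := by linarith [le_abs_self t]
  have h5 : 1 ≤ 1 + |t| := by linarith [abs_nonneg t]
  refine ⟨a1.trans ?_, a2.trans ?_, a3.trans ?_⟩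
  · calc C / ‖q.1‖ ≤ |C| / ‖q.1‖ := by gcongr
      _ = |C| * ‖q.1‖ / ‖q.1‖ ^ 2 := by field_simp
      _ ≤ _ := by gcongr
  · calc C * ‖u‖ / ‖q.1‖ ^ 2 ≤ |C| * 1 * ‖u‖ / ‖q.1‖ ^ 2 := by rw [mul_one]; gcongr
      _ ≤ _ := by gcongr
  · calc C * ‖u‖ / ‖q.1‖ ≤ |C| * ‖u‖ / ‖q.1‖ := by gcongr
      _ = |C| * ‖q.1‖ * ‖u‖ / ‖q.1‖ ^ 2 := by field_simp
      _ ≤ _ := by gcongr

theorem KerB.int_mul (ha : KerB a) {G : TP → ℝ} (hG : ContinuousOn G (slab Ph T))
    (vG : VS (Icc 0 T) P G) (hp : p ∈ slab R3 T) :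
    IntegrableOn (fun q => a q * G (cone p q)) (cyl p.1) := by
  obtain ⟨C, hC0, hC⟩ := cyl_ker ha p.1 P
  obtain ⟨B, hB0, hB⟩ := cyl_bdd hG hp P
  refine cyl_int' (C := C * B) (cyl_meas ((cyl_off ha.1.continuousOn).mul (cyl_comp hG hp)))
    (fun q hq hy hv => ?_) fun q hq _ hv => by rw [cyl_zero vG hp hq hv, mul_zero]
  rw [abs_mul, ← div_mul_eq_mul_div]
  exact mul_le_mul (hC q hq hy hv 0).1 (hB q hq hv) (abs_nonneg _) (by positivity)

theorem KerB.int_dy (ha : KerB a) {u : R3 → R3} (hu : Continuous u) {G : TP → ℝ}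
    (hG : ContinuousOn G (slab Ph T)) (vG : VS (Icc 0 T) P G) (hp : p ∈ slab R3 T) :
    IntegrableOn (fun q => fderiv ℝ a q (u q.2, 0) * G (cone p q)) (cyl p.1) := by
  obtain ⟨C, hC0, hC⟩ := cyl_ker ha p.1 P
  obtain ⟨B, hB0, hB⟩ := cyl_bdd hG hp P
  obtain ⟨U, hU⟩ := (isCompact_closedBall (0 : R3) P).exists_bound_of_continuousOn hu.continuousOn
  refine cyl_int' (C := C * |U| * B) (cyl_meas (((cyl_off
    (ha.1.continuousOn_fderiv_of_isOpen isOpen_off le_rfl)).clm_apply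
      ((hu.comp continuous_snd).prodMk continuous_const).continuousOn).mul (cyl_comp hG hp)))
    (fun q hq hy hv => ?_) fun q hq _ hv => by rw [cyl_zero vG hp hq hv, mul_zero]
  rw [abs_mul, ← div_mul_eq_mul_div]
  refine mul_le_mul ((hC q hq hy hv _).2.1.trans ?_) (hB q hq hv) (abs_nonneg _) (by positivity)
  have := (hU q.2 (mem_closedBall_zero_iff.2 hv)).trans (le_abs_self _)
  gcongr

theorem KerB.int_dv (ha : KerB a) {H : TP → R3} (hH : ContinuousOn H (slab Ph T))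
    (vH : VS (Icc 0 T) P H) (hp : p ∈ slab R3 T) :
    IntegrableOn (fun q => fderiv ℝ a q (0, H (cone p q))) (cyl p.1) := by
  obtain ⟨C, hC0, hC⟩ := cyl_ker ha p.1 P
  obtain ⟨B, hB0, hB⟩ := cyl_bdd hH hp P
  refine cyl_int' (C := C * B) (cyl_meas ((cyl_off
    (ha.1.continuousOn_fderiv_of_isOpen isOpen_off le_rfl)).clm_apply
      (continuousOn_const.prodMk (cyl_comp hH hp))))
    (fun q hq hy hv => ?_) fun q hq _ hv => by
      rw [cyl_zero vH hp hq hv, Prod.mk_zero_zero, map_zero]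
  refine (hC q hq hy hv _).2.2.trans ?_
  have := hB q hq hv
  gcongr

theorem KerB.int_ret (ha : KerB a) {g : TP → ℝ} (hg : ContDiffOn ℝ 1 g (slab Ph T))
    (vg : VS (Icc 0 T) P g) {μ : Ph → TP} (hμ : Measurable μ)
    (hb : ∀ R : ℝ, ∃ C, ∀ q : Ph, ‖q‖ ≤ R → ‖μ q‖ ≤ C) (hp : p ∈ slab R3 T) :
    IntegrableOn (fun q => a q * fderiv ℝ g (cone p q) (μ q)) (cyl p.1) := by
  obtain ⟨C, hC0, hC⟩ := cyl_ker ha p.1 P
  obtain ⟨B, hB⟩ := fderiv_bdd hg (‖p.2‖ + p.1 + |P|)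
  obtain ⟨U, hU⟩ := hb (p.1 + |P|)
  have m1 : ContinuousOn (fun q => fderiv ℝ g (cone p q)) (cyl p.1 ∩ {q | q.1 ≠ 0}) :=
    ((hg.mono (prod_mono Ioo_subset_Icc_self Subset.rfl)).continuousOn_fderiv_of_isOpen
      (isOpen_oslab Ph T) le_rfl).comp (cyl_cont p).continuousOn
      fun q hq => cone_mem_open hp hq.1 hq.2
  refine cyl_int' (C := C * (|B| * |U|)) ((cyl_meas (cyl_off ha.1.continuousOn)).mul
    (isBoundedBilinearMap_apply.continuous.comp_aestronglyMeasurable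
      ((cyl_meas m1).prodMk hμ.aestronglyMeasurable)))
    (fun q hq hy hv => ?_) fun q hq hy hv => by
      rw [fderiv_zero_of_VS vg (cone_mem_open hp hq hy) hv, zero_apply, mul_zero]
  rw [abs_mul, ← div_mul_eq_mul_div]
  refine mul_le_mul (hC q hq hy hv 0).1 (((fderiv ℝ g (cone p q)).le_opNorm (μ q)).trans ?_)
    (abs_nonneg _) (by positivity)
  have h1 : ‖q.1‖ < p.1 := mem_ball_zero_iff.1 hq.1
  have h2 := norm_nonneg q.1
  have h3 := abs_nonneg P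
  have h4 := le_abs_self P
  exact mul_le_mul ((hB _ (cone_mem_open hp hq hy) (cyl_norm hq hv)).trans (le_abs_self _))
    ((hU q (norm_prod_le_iff.2 ⟨by linarith, by linarith⟩)).trans (le_abs_self _)) (norm_nonneg _)
    (abs_nonneg _)

/-- multiplication by a cut-off in time -/
theorem Trans.cut {g s : TP → ℝ} {H : TP → R3} (h : Trans T P g H s) {γ : ℝ → ℝ}
    (hγ : ContDiff ℝ ∞ γ) : Trans T P (fun r => γ r.1 * g r) (fun r => γ r.1 • H r)
      fun r => γ r.1 * s r + deriv γ r.1 * g r := by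
  have hc : ContDiff ℝ 1 fun r : TP => γ r.1 := (hγ.of_le (by simp)).comp contDiff_fst
  have hc' : Continuous fun r : TP => deriv γ r.1 :=
    (hγ.continuous_deriv (by simp)).comp continuous_fst
  refine ⟨hc.contDiffOn.mul h.hg, hc.contDiffOn.smul h.hH,
    (hc.continuous.continuousOn.mul h.hs).add (hc'.continuousOn.mul h.hg.continuousOn),
    fun r hr h0 => h.vg r hr (right_ne_zero_of_mul h0),
    fun r hr h0 => h.vH r hr (right_ne_zero_of_smul h0), fun r hr h0 => ?_, fun r hr => ?_⟩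
  · by_contra hv
    have a1 : s r = 0 := by_contra fun h1 => hv (h.vs r hr h1)
    have a2 : g r = 0 := by_contra fun h1 => hv (h.vg r hr h1)
    exact h0 (by simp only [a1, a2, mul_zero, add_zero])
  · have d1 : HasFDerivAt (fun r : TP => γ r.1) (deriv γ r.1 • ContinuousLinearMap.fst ℝ ℝ Ph) r :=
      (hγ.differentiable (by simp) r.1).hasDerivAt.comp_hasFDerivAt r hasFDerivAt_fst
    have d2 : DifferentiableAt ℝ g r :=
      (h.hg.contDiffAt (slab_mem_nhds hr)).differentiableAt one_ne_zero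
    have d3 : DifferentiableAt ℝ H r :=
      (h.hH.contDiffAt (slab_mem_nhds hr)).differentiableAt one_ne_zero
    rw [dv_smul d1.differentiableAt d3, fderiv_fun_mul d1.differentiableAt d2, d1.fderiv,
      ← h.eq r hr]
    simp only [add_apply, smul_apply, ContinuousLinearMap.coe_fst', smul_eq_mul]
    ring

/-- time cut-offs -/
theorem exists_cut {ε : ℝ} (hε : 0 < ε) : ∃ γ : ℝ → ℝ, ContDiff ℝ ∞ γ ∧ (∀ τ, τ ≤ ε → γ τ = 0) ∧
    (∀ τ, 2 * ε ≤ τ → γ τ = 1) ∧ (∀ τ, 0 ≤ γ τ ∧ γ τ ≤ 1) ∧ (∀ τ, 0 ≤ deriv γ τ) ∧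
    (∀ τ, 2 * ε ≤ τ → deriv γ τ = 0) ∧ ∀ t, ∫ r in Ioo 0 t, deriv γ (t - r) ≤ 1 := by
  have hs : ContDiff ℝ ∞ fun τ : ℝ => smoothTransition (τ / ε - 1) :=
    smoothTransition.contDiff.comp (by fun_prop)
  have h1 : ∀ τ, 2 * ε ≤ τ → smoothTransition (τ / ε - 1) = 1 := fun τ h =>
    smoothTransition.one_of_one_le (by rw [le_sub_iff_add_le, le_div_iff₀ hε]; linarith)
  refine ⟨_, hs, fun τ h => smoothTransition.zero_of_nonpos (sub_nonpos.2 ((div_le_one hε).2 h)), h1,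
    fun τ => ⟨smoothTransition.nonneg _, smoothTransition.le_one _⟩, fun τ => ?_, fun τ h => ?_,
    fun t => ?_⟩
  · refine Monotone.deriv_nonneg (smoothTransition.monotone.comp fun x y hxy => ?_)
    exact sub_le_sub_right (div_le_div_of_nonneg_right hxy hε.le) 1
  · refine IsLocalMax.deriv_eq_zero (Eventually.of_forall fun x => ?_)
    simp only [h1 τ h]
    exact smoothTransition.le_one _
  · rcases le_or_gt t 0 with ht | ht
    · simp [Ioo_eq_empty (not_lt.2 ht)]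
    · rw [← integral_Ioc_eq_integral_Ioo, ← intervalIntegral.integral_of_le ht.le,
        intervalIntegral.integral_comp_sub_left, intervalIntegral.integral_deriv_eq_sub
          (fun x _ => hs.differentiable (by simp) x)
          ((hs.continuous_deriv (by simp)).intervalIntegrable _ _)]
      linarith [smoothTransition.nonneg ((t - t) / ε - 1), smoothTransition.le_one ((t - 0) / ε - 1)]

end Crest.Agent.R106
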