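import Crest.Agent.R106.PInt
import Crest.Agent.R106.Cyl

/-!
# Row 106: translation to the vocabulary of the statement

At interior points the functions are differentiable, so `deriv (fun s => f s x v) t = fderiv F p (1, 0, 0)`,
`pderiv (fun y => f t y v) i x = fderiv F p (0, ee i, 0)` etc. (chain rule with affine maps), and
`fderiv F p (1, a, b) = fderiv F p (1,0,0) + ∑ a i • … + ∑ b i • …` (`sum_ee`).
`(currentDensity f t x) i = cur F i (t, x)` (`ContinuousLinearMap.integral_comp_comm`, integrable: continuous with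
compact support).  `curl3 F x i = cu …` by `fin_cases`.

-/

set_option autoImplicit false

noncomputable section

namespace Crest.Agent.R106

open MeasureTheory Set Metric Real Filter Topology
open scoped ContDiff ENNReal RealInnerProductSpace Classical
open Crest.AnalysisR.VecCalc3 Crest.AnalysisR.PDE.RVM

theorem adm_of {f₀ : R3 → R3 → ℝ} {E₀ B₀ : R3 → R3} (h : IsAdmissibleDatum f₀ E₀ B₀) :
    Adm (fun z => f₀ z.1 z.2) fun x => (E₀ x, B₀ x) := by
  obtain ⟨h1, h2, h3, h4, h5, h6, h7, h8, h9, h10⟩ := h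
  refine ⟨fun z => h1 _ _, h2, h3, h4.prodMk h5, fun n => ?_, h7, h8, h9, h10⟩
  obtain ⟨C, hC⟩ := h6 n
  refine ⟨C, fun x => ?_⟩
  rw [iteratedFDeriv_prodMk h4.contDiffAt h5.contDiffAt (by exact_mod_cast le_top),
    ContinuousMultilinearMap.opNorm_prod]
  exact max_le (hC x).1 (hC x).2

theorem bridge_t {X : Type} [NormedAddCommGroup X] [NormedSpace ℝ X] {g : ℝ × X → ℝ} {t : ℝ}
    {z : X} (hg : DifferentiableAt ℝ g (t, z)) :
    deriv (fun s => g (s, z)) t = fderiv ℝ g (t, z) (1, 0) := by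
  have a2 : HasDerivAt (fun s : ℝ => ((s, z) : ℝ × X)) (1, 0) t :=
    (hasDerivAt_id t).prodMk (hasDerivAt_const t z)
  exact (hg.hasFDerivAt.comp_hasDerivAt t a2).deriv

theorem bridge_x {g : TP → ℝ} {t : ℝ} {x v : R3} (hg : DifferentiableAt ℝ g (t, x, v)) (u : R3) :
    fderiv ℝ (fun y : R3 => g (t, y, v)) x u = fderiv ℝ g (t, x, v) (0, u, 0) := by
  have a2 : HasFDerivAt (fun y : R3 => ((t, y, v) : TP))
      ((0 : R3 →L[ℝ] ℝ).prod ((ContinuousLinearMap.id ℝ R3).prod (0 : R3 →L[ℝ] R3))) x :=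
    (hasFDerivAt_const t x).prodMk ((hasFDerivAt_id x).prodMk (hasFDerivAt_const v x))
  have a3 : fderiv ℝ (fun y : R3 => g (t, y, v)) x = _ := (hg.hasFDerivAt.comp x a2).fderiv
  rw [a3]
  rfl

theorem bridge_y {g : ST → ℝ} {t : ℝ} {x : R3} (hg : DifferentiableAt ℝ g (t, x)) (u : R3) :
    fderiv ℝ (fun y : R3 => g (t, y)) x u = fderiv ℝ g (t, x) (0, u) := by
  have a2 : HasFDerivAt (fun y : R3 => ((t, y) : ST))
      ((0 : R3 →L[ℝ] ℝ).prod (ContinuousLinearMap.id ℝ R3)) x :=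
    (hasFDerivAt_const t x).prodMk (hasFDerivAt_id x)
  have a3 : fderiv ℝ (fun y : R3 => g (t, y)) x = _ := (hg.hasFDerivAt.comp x a2).fderiv
  rw [a3]
  rfl

theorem bridge_split (L : TP →L[ℝ] ℝ) (a b : R3) :
    L (1, a, b) = L (1, 0, 0) + ∑ i, a i * L (0, ee i, 0) + ∑ i, b i * L (0, 0, ee i) := by
  have e : ((1, a, b) : TP) = (1, 0, 0) + ∑ i, a i • ((0, ee i, 0) : TP) +
      ∑ i, b i • ((0, 0, ee i) : TP) := by
    conv_lhs => rw [← sum_ee a, ← sum_ee b]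
    simp [Fin.sum_univ_three]
  rw [e]
  simp only [map_add, map_sum, map_smul, smul_eq_mul]

theorem bridge_curl {u : Fin 3 → ST → ℝ} {t : ℝ} {x : R3} {W : R3 → R3}
    (hu : ∀ i, DifferentiableAt ℝ (u i) (t, x)) (hW : ∀ y i, W y i = u i (t, y)) (i : Fin 3) :
    curl3 W x i = cu u i (t, x) := by
  have e : ∀ i j, pderiv (fun y => W y i) j x = pd (0, ee j) (u i) (t, x) := fun i j => by
    simp only [hW]
    exact bridge_y (hu i) _
  unfold curl3 cu
  simp only [e]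
  fin_cases i <;> rfl

theorem bridge_div {u : Fin 3 → ST → ℝ} {t : ℝ} {x : R3} {W : R3 → R3}
    (hu : ∀ i, DifferentiableAt ℝ (u i) (t, x)) (hW : ∀ y i, W y i = u i (t, y)) :
    div3 W x = dx u (t, x) := by
  unfold div3 dx
  refine Finset.sum_congr rfl fun i _ => ?_
  simp only [hW]
  exact bridge_y (hu i) _

theorem eqs_iff {F : TP → ℝ} {K : ST → Ph} {t R : ℝ} {x : R3}
    (hF : ∀ v, DifferentiableAt ℝ F (t, x, v)) (hK : DifferentiableAt ℝ K (t, x))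
    (hs : ∀ v, F (t, x, v) ≠ 0 → ‖v‖ ≤ R) :
    EquationsHoldAt (fun t x v => F (t, x, v)) (fun t x => (K (t, x)).1) (fun t x => (K (t, x)).2) t x ↔
      (∀ v, Vlasov K F (t, x, v)) ∧ Maxwell K F (t, x) := by
  have hE : ∀ i, DifferentiableAt ℝ (cE K i) (t, x) := fun i =>
    (EuclideanSpace.proj (𝕜 := ℝ) i).differentiableAt.comp _ hK.fst
  have hB : ∀ i, DifferentiableAt ℝ (cB K i) (t, x) := fun i =>
    (EuclideanSpace.proj (𝕜 := ℝ) i).differentiableAt.comp _ hK.snd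
  have hc : Continuous fun v : R3 => F (t, x, v) := continuous_iff_continuousAt.2 fun v =>
    (hF v).continuousAt.comp (f := fun v : R3 => ((t, x, v) : TP)) (by fun_prop)
  have hi : Integrable fun v : R3 => F (t, x, v) • relVel v := by
    refine (hc.smul contDiff_relVel.continuous).integrable_of_hasCompactSupport
      (HasCompactSupport.intro (isCompact_closedBall (0 : R3) R) fun v hv => ?_)
    by_contra h
    refine hv (mem_closedBall_zero_iff.2 (hs v fun h0 => h ?_))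
    simp [h0]
  have hcur : ∀ i, currentDensity (fun t x v => F (t, x, v)) t x i = cur F i (t, x) := fun i => by
    have := (EuclideanSpace.proj (𝕜 := ℝ) i : R3 →L[ℝ] ℝ).integral_comp_comm hi
    exact this.symm
  have hV : ∀ v, deriv (fun s => F (s, x, v)) t +
      ∑ i : Fin 3, relVel v i * pderiv (fun y => F (t, y, v)) i x +
      ∑ i : Fin 3, ((K (t, x)).1 i + cross3 (relVel v) (K (t, x)).2 i) *
        pderiv (fun w => F (t, x, w)) i v = fderiv ℝ F (t, x, v) (1, vf K (t, x, v)) := fun v => by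
    unfold vf pderiv
    rw [bridge_split, bridge_t (hF v)]
    simp only [bridge_x (hF v), pint_slice (hF v)]
    rfl
  unfold EquationsHoldAt Vlasov Maxwell
  refine and_congr (forall_congr' fun v => by rw [hV v]) (and_congr (forall_congr' fun i => ?_)
    (and_congr (forall_congr' fun i => ?_) (and_congr ?_ ?_)))
  · rw [hcur i, bridge_curl hB fun _ _ => rfl]
    exact Eq.congr_left (congrArg (· - _) (bridge_t (hE i)))
  · rw [bridge_curl hE fun _ _ => rfl]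
    exact Eq.congr_left (congrArg (· + _) (bridge_t (hB i)))
  · rw [bridge_div hE fun _ _ => rfl]
    rfl
  · rw [bridge_div hB fun _ _ => rfl]

theorem bridge_nhds {X : Type} [TopologicalSpace X] {T t : ℝ} (h0 : 0 < t) (h1 : t < T) (z : X) :
    Ico 0 T ×ˢ (univ : Set X) ∈ 𝓝 (t, z) :=
  prod_mem_nhds (Ico_mem_nhds h0 h1) univ_mem

theorem csol_of {T : ℝ} {f₀ : R3 → R3 → ℝ} {E₀ B₀ : R3 → R3} {f : ℝ → R3 → R3 → ℝ}
    {E B : ℝ → R3 → R3} (h : IsClassicalSolutionOn T f₀ E₀ B₀ f E B) :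
    CSol T (fun z => f₀ z.1 z.2) (fun x => (E₀ x, B₀ x)) (fun p => f p.1 p.2.1 p.2.2)
      fun p => (E p.1 p.2, B p.1 p.2) := by
  obtain ⟨h1, h2, h3, h4, h5, h6, h7, h8, -⟩ := h
  have key : ∀ t x, 0 < t → t < T →
      (∀ v, Vlasov (fun p => (E p.1 p.2, B p.1 p.2)) (fun p => f p.1 p.2.1 p.2.2) (t, x, v)) ∧
      Maxwell (fun p => (E p.1 p.2, B p.1 p.2)) (fun p => f p.1 p.2.1 p.2.2) (t, x) := by
    intro t x h0 ht
    obtain ⟨R, hR⟩ := h8 t h0.le ht
    refine (eqs_iff (R := R)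
      (fun v => (h1.contDiffAt (bridge_nhds h0 ht _)).differentiableAt one_ne_zero)
      (((h2.prodMk h3).contDiffAt (bridge_nhds h0 ht _)).differentiableAt one_ne_zero)
      fun v hv => ?_).1 (h7 t h0 ht x)
    by_contra hn
    exact hv (hR t ⟨h0.le, le_rfl⟩ x v (Or.inr (not_le.1 hn)))
  refine ⟨h1, h2.prodMk h3, fun z => by simp only [h4], fun x => by simp only [h5, h6],
    fun p hp => (key p.1 p.2.1 hp.1.1 hp.1.2).1 p.2.2, fun p hp => (key p.1 p.2 hp.1.1 hp.1.2).2,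
    fun T' h0 hT => ?_⟩
  obtain ⟨R, hR⟩ := h8 T' h0 hT
  refine ⟨R, fun p hp hf => ?_⟩
  rw [Prod.norm_def]
  refine max_le ?_ ?_
  · by_contra hn
    exact hf (hR p.1 hp.1 _ _ (Or.inl (not_le.1 hn)))
  · by_contra hn
    exact hf (hR p.1 hp.1 _ _ (Or.inr (not_le.1 hn)))

theorem classical_of {T : ℝ} {f₀ : R3 → R3 → ℝ} {E₀ B₀ : R3 → R3} {F : TP → ℝ} {K : ST → Ph}
    (h : CSol T (fun z => f₀ z.1 z.2) (fun x => (E₀ x, B₀ x)) F K)
    (hL : ∀ t ∈ Ico 0 T, MemLp (fun x => (K (t, x)).1) 2 ∧ MemLp (fun x => (K (t, x)).2) 2 ∧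
      Tendsto (fun s => eLpNorm ((fun x => (K (s, x)).1) - fun x => (K (t, x)).1) 2 volume)
        (𝓝[Ico 0 T] t) (𝓝 0) ∧
      Tendsto (fun s => eLpNorm ((fun x => (K (s, x)).2) - fun x => (K (t, x)).2) 2 volume)
        (𝓝[Ico 0 T] t) (𝓝 0)) :
    IsClassicalSolutionOn T f₀ E₀ B₀ (fun t x v => F (t, x, v)) (fun t x => (K (t, x)).1)
      fun t x => (K (t, x)).2 := by
  refine ⟨h.hf, h.hK.fst, h.hK.snd, ?_, ?_, ?_, fun t h0 ht x => ?_, fun T' h0 hT => ?_, hL⟩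
  · funext x v
    exact h.initf (x, v)
  · funext x
    exact congrArg Prod.fst (h.initK x)
  · funext x
    exact congrArg Prod.snd (h.initK x)
  · obtain ⟨R, hR⟩ := h.supp t h0.le ht
    refine (eqs_iff (R := R)
      (fun v => (h.hf.contDiffAt (bridge_nhds h0 ht _)).differentiableAt one_ne_zero)
      ((h.hK.contDiffAt (bridge_nhds h0 ht _)).differentiableAt one_ne_zero)
      fun v hv => ?_).2 ⟨fun v => h.vl _ ⟨⟨h0, ht⟩, mem_univ _⟩, h.mxw _ ⟨⟨h0, ht⟩, mem_univ _⟩⟩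
    exact (norm_snd_le ((x, v) : Ph)).trans (hR (t, x, v) ⟨⟨h0.le, le_rfl⟩, mem_univ _⟩ hv)
  · obtain ⟨R, hR⟩ := h.supp T' h0 hT
    refine ⟨R, fun t ht x v hx => ?_⟩
    by_contra hn
    have := hR (t, x, v) ⟨ht, mem_univ _⟩ hn
    rcases hx with hx | hx
    · exact hx.not_ge ((norm_fst_le ((x, v) : Ph)).trans this)
    · exact hx.not_ge ((norm_snd_le ((x, v) : Ph)).trans this)

theorem TSol.csol {T T' : ℝ} {f₀ : Ph → ℝ} {K₀ : R3 → Ph} {Kd K : ST → Ph} {f : TP → ℝ}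
    {Z : ℝ → Ph → Ph} (h : TSol id T f₀ K₀ Kd f K Z) (hT : T' ≤ T) : CSol T' f₀ K₀ f K := by
  obtain ⟨R, hR⟩ := h.supp
  refine ⟨(h.hf.of_le (by exact_mod_cast le_top)).mono fun p hp => ⟨⟨hp.1.1, hp.1.2.le.trans hT⟩, hp.2⟩,
    (h.hK.of_le (by exact_mod_cast le_top)).mono fun p hp => ⟨⟨hp.1.1, hp.1.2.le.trans hT⟩, hp.2⟩,
    h.initf, h.initK, fun p hp => h.vl p ⟨⟨hp.1.1, hp.1.2.trans_le hT⟩, hp.2⟩,
    fun p hp => h.mxw p ⟨⟨hp.1.1, hp.1.2.trans_le hT⟩, hp.2⟩, fun S _ hS => ⟨R, fun p hp => ?_⟩⟩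
  exact hR p ⟨⟨hp.1.1, hp.1.2.trans (hS.le.trans hT)⟩, hp.2⟩

theorem CSol.congr {T : ℝ} {f₀ : Ph → ℝ} {K₀ : R3 → Ph} {K K' : ST → Ph} {f f' : TP → ℝ}
    (h : CSol T f₀ K₀ f K) (hT : 0 < T) (hf : ∀ p : TP, p.1 ∈ Ico 0 T → f' p = f p)
    (hK : ∀ p : ST, p.1 ∈ Ico 0 T → K' p = K p) : CSol T f₀ K₀ f' K' := by
  refine ⟨h.hf.congr fun p hp => hf p hp.1, h.hK.congr fun p hp => hK p hp.1,
    fun z => (hf _ ⟨le_rfl, hT⟩).trans (h.initf z), fun x => (hK _ ⟨le_rfl, hT⟩).trans (h.initK x),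
    fun p hp => ?_, fun p hp => ?_, fun S h0 hS => ?_⟩
  · have e : f' =ᶠ[𝓝 p] f := by
      filter_upwards [bridge_nhds hp.1.1 hp.1.2 p.2] with q hq using hf q hq.1
    have := h.vl p hp
    unfold Vlasov vf at this ⊢
    rw [e.fderiv_eq, hK (p.1, p.2.1) ⟨hp.1.1.le, hp.1.2⟩]
    exact this
  · have e : K' =ᶠ[𝓝 p] K := by
      filter_upwards [bridge_nhds hp.1.1 hp.1.2 p.2] with q hq using hK q hq.1
    have eE : ∀ i, fderiv ℝ (cE K' i) p = fderiv ℝ (cE K i) p := fun i =>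
      Filter.EventuallyEq.fderiv_eq (e.mono fun q hq => by simp only [cE, hq])
    have eB : ∀ i, fderiv ℝ (cB K' i) p = fderiv ℝ (cB K i) p := fun i =>
      Filter.EventuallyEq.fderiv_eq (e.mono fun q hq => by simp only [cB, hq])
    have ef : ∀ v, f' (p.1, p.2, v) = f (p.1, p.2, v) := fun v => hf _ ⟨hp.1.1.le, hp.1.2⟩
    have := h.mxw p hp
    unfold Maxwell cu dx pd cur vint at this ⊢
    simp only [eE, eB, ef]
    exact this
  · obtain ⟨R, hR⟩ := h.supp S h0 hS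
    refine ⟨R, fun p hp hn => hR p hp ?_⟩
    rwa [← hf p ⟨hp.1.1, hp.1.2.trans_lt hS⟩]

end Crest.Agent.R106
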