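import Crest.Agent.R106.Defs

/-!
# Row 106, part C (a priori momentum bound): definitions (do not edit)

A test characteristic `γ s = (X s, V s)` is fixed, `w = V̂`.  A point `q : TP` is `(s, y, v)`: observer
time, vector from the source to the observer, momentum of the source.  `r = |y|`, `n = y/r`, `p = ⟨v⟩`,
`d = 1 - n·v̂ = φ²/2`, `D = 1 - n·w = ψ²/2`, `Θ = 1 - w·v̂ = θ²/2`.
-/

set_option autoImplicit false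

noncomputable section

namespace Crest.Agent.R106

open MeasureTheory Set Metric Real
open scoped ContDiff ENNReal RealInnerProductSpace Classical
open Crest.AnalysisR.VecCalc3 Crest.AnalysisR.PDE.RVM

/-! ## The kernels -/

/-- smooth cut-off: `1` on `(-∞, 1]`, `0` on `[2, ∞)` -/
def chi (t : ℝ) : ℝ := Real.smoothTransition (2 - t)

/-- `(Θ n - D v̂)·e` -/
def NN (e w : R3) (q : Ph) : ℝ :=
  gap w (relVel q.2) * ⟪nn q.1, e⟫ - gap (nn q.1) w * ⟪relVel q.2, e⟫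

/-- parameters of the kernels: direction `e`, current velocity `w`, frozen velocity `wb` -/
structure KP where
  e : R3
  w : R3
  wb : R3
  φ₀ : ℝ
  η : ℝ

namespace KP

/-- admissible parameters -/
structure OK (P : KP) : Prop where
  he : ‖P.e‖ ≤ 1
  hw : ‖P.w‖ < 1
  hwb : ‖P.wb‖ < 1
  near : ‖P.w - P.wb‖ ≤ P.η
  lw : 1 - ‖P.w‖ ^ 2 ≤ P.η ^ 2
  lwb : 1 - ‖P.wb‖ ^ 2 ≤ P.η ^ 2
  φpos : 0 < P.φ₀
  φle : P.φ₀ ≤ 1 / 10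

variable (P : KP)

/-- argument of the cut-off -/
def tt (q : Ph) : ℝ :=
  (gap (nn q.1) (relVel q.2) / P.φ₀ ^ 2 + 200 * P.η ^ 2) / gap (nn q.1) P.wb
/-- `μ = χ m̄ / r` -/
def mu (q : Ph) : ℝ :=
  chi (P.tt q) * NN P.e P.wb q / (gap (nn q.1) P.wb * gap (nn q.1) (relVel q.2) * ‖q.1‖)
/-- kernel of the corrector `𝓜` (does not depend on `w`) -/
def kap (q : Ph) : ℝ := gap (nn q.1) (relVel q.2) * P.mu q
/-- coefficient of `S f` -/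
def cc (q : Ph) : ℝ :=
  NN P.e P.w q / (gap (nn q.1) (relVel q.2) * ‖q.1‖) - gap (nn q.1) P.w * P.mu q
/-- coefficient of `T_e f` -/
def b1 (q : Ph) : ℝ := -(gap P.w (relVel q.2) * ‖q.1‖⁻¹)
/-- coefficient of `T_w f` -/
def b2 (q : Ph) : ℝ := -(⟪relVel q.2, P.e⟫ * ‖q.1‖⁻¹ + P.kap q)
/-- the kernel that hits `f` after the tangential integrations by parts -/
def dvb (q : Ph) : ℝ :=
  fderiv ℝ P.b1 q (P.e, 0) + fderiv ℝ P.b2 q (P.w, 0) - fderiv ℝ P.cc q (relVel q.2, 0)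


/-- `v`-derivative of `v̂` in direction `u` -/
def dvel (v u : R3) : R3 := (pp v)⁻¹ • (u - ⟪relVel v, u⟫ • relVel v)

/-- explicit formula for `r² · dvb` -/
def F1 (q : Ph) : ℝ :=
  let d := gap (nn q.1) (relVel q.2)
  let D := gap (nn q.1) P.w
  let Db := gap (nn q.1) P.wb
  let Θ := gap P.w (relVel q.2)
  let Θb := gap P.wb (relVel q.2)
  let κ := gap P.w P.wb
  let p := pp q.2
  let N := NN P.e P.w q
  let Nb := NN P.e P.wb q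
  N / (p ^ 2 * d ^ 2) -
    chi (P.tt q) * ((Θb * ⟪P.w, P.e⟫ - κ * ⟪relVel q.2, P.e⟫) / Db -
      Nb * (d * κ - D * Θb) / (Db ^ 2 * d) - Nb * (d * Θ - D / p ^ 2) / (Db * d ^ 2)) -
    deriv chi (P.tt q) * ((((d * Θ - D / p ^ 2) / P.φ₀ ^ 2 + 200 * P.η ^ 2 * (d - D)) / Db -
      P.tt q * (d * κ - D * Θb) / Db) * (Nb / (Db * d)))

/-- explicit formula for `r · ∂_v cc` in direction `u` -/
def F2 (q : Ph) (u : R3) : ℝ :=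
  let d := gap (nn q.1) (relVel q.2)
  let D := gap (nn q.1) P.w
  let Db := gap (nn q.1) P.wb
  let N := NN P.e P.w q
  let Nb := NN P.e P.wb q
  let δ := dvel q.2 u
  let δd := -⟪nn q.1, δ⟫
  let δN := -⟪P.w, δ⟫ * ⟪nn q.1, P.e⟫ - D * ⟪δ, P.e⟫
  let δNb := -⟪P.wb, δ⟫ * ⟪nn q.1, P.e⟫ - Db * ⟪δ, P.e⟫
  δN / d - N * δd / d ^ 2 - D / Db * (chi (P.tt q) * (δNb / d - Nb * δd / d ^ 2) +
    deriv chi (P.tt q) * (δd / (P.φ₀ ^ 2 * Db)) * (Nb / d))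

end KP

/-- the retarded part of `(E + w × B)·e` -/
def LW (e w : R3) (g : TP → ℝ) (p : ST) : ℝ :=
  ∫ q in cyl p.1, ‖q.1‖⁻¹ * (-(gap w (relVel q.2) * fderiv ℝ g (cone p q) (0, e, 0)) -
    ⟪relVel q.2, e⟫ * fderiv ℝ g (cone p q) (1, w, 0))

/-! ## The abstract layer -/

/-- `r` -/
def rr (q : TP) : ℝ := ‖q.2.1‖
/-- `p` -/
def pv (q : TP) : ℝ := pp q.2.2
/-- `φ` -/
def ph (q : TP) : ℝ := ang (nn q.2.1) (relVel q.2.2)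
/-- `1 + log Q` -/
def Lg (Q : ℝ) : ℝ := 1 + Real.log Q

/-- data seen by a test characteristic during `[s₀, s₁]` -/
structure LD where
  s₀ : ℝ
  s₁ : ℝ
  T : ℝ
  Q : ℝ
  /-- the density on the cones -/
  fc : TP → ℝ
  w : ℝ → R3
  /-- `|E + n × B| + 1/r` on the cones -/
  G : ST → ℝ
  /-- `|B|` on the cones -/
  B : ST → ℝ

namespace LD

variable (L : LD)

/-- the union of the cones -/
def dom : Set ST := {p | p.1 ∈ Icc L.s₀ L.s₁ ∧ ‖p.2‖ < p.1}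
/-- `ψ` -/
def ps (q : TP) : ℝ := ang (nn q.2.1) (L.w q.1)
/-- `θ` -/
def th (q : TP) : ℝ := ang (L.w q.1) (relVel q.2.2)
/-- `D` -/
def DD (q : TP) : ℝ := gap (nn q.2.1) (L.w q.1)
/-- integral of a kernel against the density -/
def I (k : TP → ℝ) : ℝ≥0∞ := ∫⁻ q, ENNReal.ofReal (L.fc q * k q)
/-- the same on one cone -/
def Is (k : TP → ℝ) (s : ℝ) : ℝ≥0∞ := ∫⁻ q : Ph, ENNReal.ofReal (L.fc (s, q) * k (s, q))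

/-- the hypotheses of the abstract layer -/
structure OK (A En Tm : ℝ) : Prop where
  mf : Measurable L.fc
  mw : Measurable L.w
  mG : Measurable L.G
  mB : Measurable L.B
  Tpos : 0 < L.T
  Tle : L.T ≤ 1
  hQ : 2 ≤ L.Q
  Tge : 1 / L.Q ^ 2 ≤ L.T
  s0 : 0 ≤ L.s₀
  s01 : L.s₀ ≤ L.s₁
  s1 : L.s₁ ≤ L.s₀ + L.T
  sm : L.s₁ ≤ Tm
  f0 : ∀ q, 0 ≤ L.fc q
  fA : ∀ q, L.fc q ≤ A
  supp : ∀ q, L.fc q ≠ 0 → (q.1, q.2.1) ∈ L.dom ∧ pv q ≤ L.Q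
  hw : ∀ s, ‖L.w s‖ ≤ 1 - 1 / (2 * L.Q ^ 2)
  G0 : ∀ p, 0 ≤ L.G p
  B0 : ∀ p, 0 ≤ L.B p
  flx : ∀ s, L.Is (fun q => pv q * ph q ^ 2) s ≤ ENNReal.ofReal En
  kg : ∫⁻ p in L.dom, ENNReal.ofReal (L.G p ^ 2) ≤ ENNReal.ofReal (En * L.T)
  sl : ∀ h : ℝ → ℝ≥0∞, Measurable h →
    ∫⁻ p in L.dom, ENNReal.ofReal (gap (nn p.2) (L.w p.1)) *
      ((∫⁻ v, ENNReal.ofReal (L.fc (p.1, p.2, v) * pp v)) + ENNReal.ofReal (L.B p ^ 2)) *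
        h (p.1 - ‖p.2‖) ≤ ENNReal.ofReal En * ∫⁻ τ in Icc 0 L.s₁, h τ

/-- dyadic cell -/
def Cell (p₀ θ₀ : ℝ) (q : TP) : Prop :=
  p₀ ≤ pv q ∧ pv q < 2 * p₀ ∧ θ₀ ≤ L.th q ∧ L.th q < 2 * θ₀

/-- the distribution of `u = r (D + θ₀²)` in a cell for the measure `f D ds dy dv` -/
def Meet (p₀ θ₀ M₀ M₁ : ℝ) : Prop :=
  ∀ l, 0 < l → L.I (fun q => if L.Cell p₀ θ₀ q ∧ rr q * (L.DD q + θ₀ ^ 2) ≤ l then L.DD q else 0) ≤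
    ENNReal.ofReal (M₀ + M₁ * l / θ₀ ^ 2)

/-- the same, restricted to `r ≤ T` -/
def MeetT (p₀ θ₀ M₁ : ℝ) : Prop :=
  ∀ l, 0 < l → L.I (fun q => if L.Cell p₀ θ₀ q ∧ rr q * (L.DD q + θ₀ ^ 2) ≤ l ∧ rr q ≤ L.T then
    L.DD q else 0) ≤ ENNReal.ofReal (M₁ * l / θ₀ ^ 2)

/-- the square integral of a cell -/
def J (p₀ θ₀ : ℝ) : ℝ≥0∞ :=
  ∫⁻ p : ST, (∫⁻ v, ENNReal.ofReal (L.fc (p.1, p.2, v) *
    if L.Cell p₀ θ₀ (p.1, p.2, v) then 1 / (pp v * ph (p.1, p.2, v) * ‖p.2‖) else 0)) ^ 2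

/-- good field and `r⁻²` terms away from the beam -/
def k1 (φ₀ : ℝ) (q : TP) : ℝ := L.G (q.1, q.2.1) / (φ₀ * pv q * ph q * rr q)
/-- freezing error -/
def k2 (η : ℝ) (q : TP) : ℝ := η * L.G (q.1, q.2.1) / (pv q * ph q ^ 2 * rr q)
/-- magnetic term -/
def k3 (q : TP) : ℝ := L.B (q.1, q.2.1) * L.ps q / (pv q * ph q * rr q)
/-- geometric term in the beam -/
def k4 (φ₀ : ℝ) (q : TP) : ℝ := if ph q ≤ 2 * φ₀ * L.ps q then 1 / (φ₀ * rr q ^ 2) else 0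
/-- the majorant of the force -/
def kt (φ₀ η : ℝ) (q : TP) : ℝ := L.k1 φ₀ q + L.k2 η q + L.k3 q + L.k4 φ₀ q
/-- the majorant of the corrector -/
def k5 (φ₀ : ℝ) (q : TP) : ℝ := if ph q ≤ 2 * φ₀ * L.ps q then ph q / (L.ps q * rr q) else 0

end LD

/-- bound for `√J` in a cell -/
def jB (T Q p θ M₀ M₁ : ℝ) : ℝ :=
  (T * p ^ 5 * θ ^ 2 * Lg Q ^ 3 * M₁) ^ (1 / 4 : ℝ) +
    (T ^ 2 * p ^ 9 * θ ^ 6 * Lg Q ^ 3 * M₀) ^ (1 / 6 : ℝ) + √(T * p ^ 4 * θ ^ 2 * Lg Q / Q ^ 10)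
/-- bound for the geometric term in a cell -/
def rB (T p θ M₀ M₁ : ℝ) : ℝ :=
  √(T * p ^ 3 * θ ^ 2 * M₁) + (T ^ 2 * p ^ 6 * θ ^ 6 * M₀) ^ (1 / 3 : ℝ)
/-- the total bound -/
def totB (T Q φ₀ η : ℝ) (N : ℕ) (M₀ M₁ : ℕ → ℕ → ℝ) : ℝ :=
  √T * Q + η * (T * Q ^ (5 / 3 : ℝ) * Lg Q ^ (2 / 3 : ℝ) + T ^ (3 / 4 : ℝ) * Q ^ (3 / 2 : ℝ) * Lg Q) +
    ∑ j ∈ Finset.range N, ∑ k ∈ Finset.range (N + 2),
      (√T / φ₀ * jB T Q (2 ^ j) (2 / 2 ^ k) (M₀ j k) (M₁ j k) +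
        rB T (2 ^ j) (2 / 2 ^ k) (M₀ j k) (M₁ j k))

/-! ## Parameters -/

/-- the time scale of a particle with energy `Γ` -/
def Del (c₀ Q Γ : ℝ) : ℝ := c₀ / ((Q / Γ) ^ 2 + Lg Q * (Q / Γ) ^ (15 / 8 : ℝ))
/-- opening of the beam -/
def phi0 (Q Γ : ℝ) : ℝ := (Γ / Q) ^ (3 / 8 : ℝ) / 10
/-- the largest freezing step -/
def HH (CM Q : ℝ) : ℝ := CM * (Q * Lg Q) ^ (1 / 3 : ℝ)
/-- the freezing step -/
def eta0 (CM Q Γ : ℝ) : ℝ := HH CM Q * (Γ / Q) ^ (1 / 8 : ℝ)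
/-- the energy threshold -/
def G0 (Q : ℝ) : ℝ := Q ^ (7 / 12 : ℝ)

/-- the layer data of a solution along the curve `γ` -/
def ldOf (f : TP → ℝ) (K : ST → Ph) (γ : ℝ → Ph) (s₀ s₁ T Q : ℝ) : LD where
  s₀ := s₀
  s₁ := s₁
  T := T
  Q := Q
  fc q := if q.1 ∈ Icc s₀ s₁ ∧ ‖q.2.1‖ < q.1 then f (cone (q.1, (γ q.1).1) q.2) else 0
  w s := if s ∈ Icc s₀ s₁ then relVel (γ s).2 else 0
  G p := if p.1 ∈ Icc s₀ s₁ ∧ ‖p.2‖ < p.1 then ‖good K (p.1, (γ p.1).1) p.2‖ + ‖p.2‖⁻¹ else 0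
  B p := if p.1 ∈ Icc s₀ s₁ ∧ ‖p.2‖ < p.1 then ‖(K (cone2 (p.1, (γ p.1).1) p.2)).2‖ else 0

/-- the momentum curve `V` has controlled variation on `[a, b]` -/
def Var (V : ℝ → R3) (a b H W : ℝ) : Prop :=
  ∃ Λ : ℝ → ℝ, Monotone Λ ∧ Λ b - Λ a ≤ W ∧
    ∀ s s', a ≤ s → s ≤ s' → s' ≤ b → ‖V s' - V s‖ ≤ H + (Λ s' - Λ s)

/-- the bootstrap property up to time `t` -/
def Boot (f₀ : Ph → ℝ) (Z : ℝ → Ph → Ph) (c₀ Q H c t : ℝ) : Prop :=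
  ∀ z, f₀ z ≠ 0 → ∀ s ∈ Icc 0 t, G0 Q ≤ pp (Z s z).2 →
    Var (fun τ => (Z τ z).2) s (min (s + Del c₀ Q (pp (Z s z).2)) t) H (c * pp (Z s z).2)

/-- all energies are at most `Q` up to time `t` -/
def MomB (f₀ : Ph → ℝ) (Z : ℝ → Ph → Ph) (t Q : ℝ) : Prop :=
  ∀ z, f₀ z ≠ 0 → ∀ s ∈ Icc 0 t, pp (Z s z).2 ≤ Q

/-- the setting of part C: a true solution with its size constants -/
structure CSet (A P₀ En Cd Tm T : ℝ) (f₀ : Ph → ℝ) (K₀ : R3 → Ph) (Kd : ST → Ph) (f : TP → ℝ)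
    (K : ST → Ph) (Z : ℝ → Ph → Ph) : Prop where
  sol : TSol id T f₀ K₀ Kd f K Z
  hT : T ≤ Tm
  hA : ∀ z, f₀ z ≤ A
  hP : ∀ z, f₀ z ≠ 0 → pp z.2 ≤ P₀
  hd : ∀ p ∈ slab R3 T, ‖Kd p‖ ≤ Cd
  en : EnB T f K En
  flux : FluxB T f K En

end Crest.Agent.R106
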