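import Crest.Agent.R106.Cross

/-!
# Row 106: change of variables from observer time to source time

The map `(s, y) ↦ (s - |y|, X s - y)` is injective (`X` is strictly subluminal: mean value inequality with
`sup ‖w‖ < 1`) with Jacobian determinant `±(1 - n·w)` off the null set `y = 0`;
`lintegral_image_eq_lintegral_abs_det_fderiv_mul`.  For the determinant of
`(σ, u) ↦ (σ - n·u, σ w - u)` factor it as shear ∘ diagonal ∘ shear, or use
`Matrix.det_fromBlocks`/`LinearMap.det` in a basis.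

-/

set_option autoImplicit false

noncomputable section

namespace Crest.Agent.R106

open MeasureTheory Set Metric Real Filter Topology
open scoped ContDiff ENNReal RealInnerProductSpace Classical
open Crest.AnalysisR.VecCalc3 Crest.AnalysisR.PDE.RVM

theorem cv_inj {X w : ℝ → R3} {a b : ℝ}
    (hX : ∀ s ∈ Icc a b, HasDerivWithinAt X (w s) (Icc a b) s) (hw : ∀ s ∈ Icc a b, ‖w s‖ < 1)
    (hwc : ContinuousOn w (Icc a b)) :
    InjOn (fun p : ST => cone2 (p.1, X p.1) p.2) (Icc a b ×ˢ univ) := by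
  rintro ⟨s, y⟩ ⟨hs, -⟩ ⟨s', y'⟩ ⟨hs', -⟩ h
  obtain ⟨h1, h2⟩ := Prod.ext_iff.1 h
  change s - ‖y‖ = s' - ‖y'‖ at h1
  change X s - y = X s' - y' at h2
  obtain ⟨r, hr, hmax⟩ := isCompact_Icc.exists_isMaxOn ⟨s, hs⟩ hwc.norm
  have h3 := (convex_Icc a b).norm_image_sub_le_of_norm_hasDerivWithin_le hX
    (fun t ht => hmax ht) hs' hs
  have h4 : X s - X s' = y - y' := by rw [sub_eq_sub_iff_sub_eq_sub, h2]
  have h5 := abs_norm_sub_norm_le y y'
  rw [show ‖y‖ - ‖y'‖ = s - s' by linarith] at h5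
  rw [h4, Real.norm_eq_abs] at h3
  have h6 : s = s' := by
    by_contra hne
    have := abs_pos.2 (sub_ne_zero.2 hne)
    nlinarith [hw r hr]
  subst h6
  rw [sub_right_injective h2]

/-- the derivative of the cone map -/
def cvL (n w : R3) : ST →L[ℝ] ST :=
  (ContinuousLinearMap.fst ℝ ℝ R3 - (innerSL ℝ n).comp (ContinuousLinearMap.snd ℝ ℝ R3)).prod
    ((ContinuousLinearMap.toSpanSingleton ℝ w).comp (ContinuousLinearMap.fst ℝ ℝ R3) -
      ContinuousLinearMap.snd ℝ ℝ R3)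

theorem cv_det (n w : R3) : (cvL n w).det = -gap n w := by
  let b := (Module.Basis.singleton Unit ℝ).prod (EuclideanSpace.basisFun (Fin 3) ℝ).toBasis
  have : LinearMap.toMatrix b b (cvL n w : ST →ₗ[ℝ] ST) = Matrix.fromBlocks 1
      (Matrix.of fun _ j => -n j) (Matrix.of fun i _ => w i) (-1) := by
    ext (i | i) (j | j) <;>
      simp [LinearMap.toMatrix_apply, b, cvL, EuclideanSpace.inner_single_right,
        Matrix.one_apply]
  rw [ContinuousLinearMap.det, ← LinearMap.det_toMatrix b, this, Matrix.det_fromBlocks_one₁₁,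
    Matrix.det_fin_three, gap, Cross_inner]
  simp [Matrix.mul_apply]
  ring

theorem cv {X w : ℝ → R3} {a b : ℝ}
    (hX : ∀ s ∈ Icc a b, HasDerivWithinAt X (w s) (Icc a b) s) (hw : ∀ s ∈ Icc a b, ‖w s‖ < 1)
    (hwc : ContinuousOn w (Icc a b)) (g : ST → ℝ≥0∞) :
    ∫⁻ p in Icc a b ×ˢ (univ : Set R3),
      ENNReal.ofReal (gap (nn p.2) (w p.1)) * g (cone2 (p.1, X p.1) p.2) ≤ ∫⁻ p, g p := by
  have hm : MeasurableSet (Icc a b ×ˢ ({0}ᶜ : Set R3)) :=
    measurableSet_Icc.prod (measurableSet_singleton _).compl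
  have he : (Icc a b ×ˢ (univ : Set R3) : Set ST) =ᵐ[volume] (Icc a b ×ˢ ({0}ᶜ : Set R3) : Set ST) :=
    Measure.set_prod_ae_eq EventuallyEq.rfl
      (ae_eq_univ.2 (by rw [compl_compl]; exact measure_singleton _)).symm
  have hd : ∀ p ∈ (Icc a b ×ˢ ({0}ᶜ : Set R3) : Set ST), HasFDerivWithinAt
      (fun p : ST => cone2 (p.1, X p.1) p.2) (cvL (nn p.2) (w p.1)) (Icc a b ×ˢ {0}ᶜ) p := by
    rintro p ⟨h1, h2⟩
    have a1 := (hasFDerivAt_fst (𝕜 := ℝ) (p := p)).sub
      ((hasFDerivAt_norm h2).comp p (hasFDerivAt_snd (𝕜 := ℝ) (p := p)))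
    have a2 := ((hX p.1 h1).hasFDerivWithinAt.comp p
      (hasFDerivWithinAt_fst (𝕜 := ℝ) (p := p) (s := Icc a b ×ˢ ({0}ᶜ : Set R3)))
      fun q hq => hq.1).sub (hasFDerivWithinAt_snd (𝕜 := ℝ) (p := p))
    exact a1.hasFDerivWithinAt.prodMk a2
  haveI : (volume : Measure ST).IsAddHaarMeasure := Measure.prod.instIsAddHaarMeasure _ _
  rw [setLIntegral_congr he]
  refine le_trans (le_of_eq ?_) (setLIntegral_le_lintegral
    ((fun p : ST => cone2 (p.1, X p.1) p.2) '' (Icc a b ×ˢ {0}ᶜ)) g)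
  rw [lintegral_image_eq_lintegral_abs_det_fderiv_mul volume hm hd
    ((cv_inj hX hw hwc).mono (prod_mono_right (subset_univ _)))]
  refine setLIntegral_congr_fun hm fun p hp => ?_
  simp only [cv_det, abs_neg, abs_of_nonneg (gap_nonneg (norm_nn_le _) (hw _ hp.1).le)]

end Crest.Agent.R106
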