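import Crest.Agent.R106.Cross

/-!
# Row 106: calculus of `pd`, `pdl`, `DB`

`pdl_eq_iter`: induction on the list with `iteratedFDeriv_succ_apply_left`.  `pdl_slice`: the slice is
`g ∘ (z ↦ (t, z))`; induct on the list.  `DB_of_pdl`: `ContinuousMultilinearMap.opNorm_le_bound` after
normalising the arguments (`List.ofFn`).  `DB_of_basis`: expand every argument in the basis `ee`
(`MultilinearMap.map_sum`), or induct on `k`.

-/

set_option autoImplicit false

noncomputable section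

namespace Crest.Agent.R106

open MeasureTheory Set Metric Real Filter Topology
open scoped ContDiff ENNReal RealInnerProductSpace Classical
open Crest.AnalysisR.VecCalc3 Crest.AnalysisR.PDE.RVM

section
variable {X Y : Type} [NormedAddCommGroup X] [NormedSpace ℝ X] [NormedAddCommGroup Y]
  [NormedSpace ℝ Y]

theorem pdl_nil (g : X → Y) : pdl [] g = g := rfl

theorem pdl_cons (u : X) (L : List X) (g : X → Y) : pdl (u :: L) g = pd u (pdl L g) := rfl

theorem pdl_append (L L' : List X) (g : X → Y) : pdl (L ++ L') g = pdl L (pdl L' g) := by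
  exact List.foldr_append

theorem contDiff_pd {g : X → Y} (hg : ContDiff ℝ ∞ g) (u : X) : ContDiff ℝ ∞ (pd u g) := by
  exact (hg.fderiv_right (m := ∞) (by simp)).clm_apply contDiff_const

theorem contDiff_pdl {g : X → Y} (hg : ContDiff ℝ ∞ g) (L : List X) : ContDiff ℝ ∞ (pdl L g) := by
  induction L with
  | nil => exact hg
  | cons u L ih => exact contDiff_pd ih u

theorem Calc_diff {g : X → Y} (hg : ContDiff ℝ ∞ g) (L : List X) (p : X) :
    DifferentiableAt ℝ (pdl L g) p := (contDiff_pdl hg L).differentiable (by simp) p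

theorem pd_comm {g : X → Y} (hg : ContDiff ℝ ∞ g) (u u' : X) :
    pd u (pd u' g) = pd u' (pd u g) := by
  have hd : Differentiable ℝ (fderiv ℝ g) :=
    (hg.fderiv_right (m := ∞) (by simp)).differentiable (by simp)
  have e : ∀ a b p, pd a (pd b g) p = fderiv ℝ (fderiv ℝ g) p a b := fun a b p => by
    change fderiv ℝ (fun q => fderiv ℝ g q b) p a = _
    rw [fderiv_clm_apply (hd p) (differentiableAt_const _)]
    simp
  funext p
  rw [e, e]
  exact (hg.contDiffAt.isSymmSndFDerivAt (by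
    rw [minSmoothness_of_isRCLikeNormedField]
    exact WithTop.coe_le_coe.2 le_top)).eq u u'

theorem pd_pdl {g : X → Y} (hg : ContDiff ℝ ∞ g) (u : X) (L : List X) :
    pd u (pdl L g) = pdl L (pd u g) := by
  induction L with
  | nil => rfl
  | cons a L ih => rw [pdl_cons, pdl_cons, pd_comm (contDiff_pdl hg L), ih]

theorem pdl_add {g g' : X → Y} (hg : ContDiff ℝ ∞ g) (hg' : ContDiff ℝ ∞ g') (L : List X) :
    pdl L (fun x => g x + g' x) = fun x => pdl L g x + pdl L g' x := by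
  induction L with
  | nil => rfl
  | cons u L ih =>
    funext p
    rw [pdl_cons, ih, pd, fderiv_fun_add (Calc_diff hg L p) (Calc_diff hg' L p)]
    rfl

theorem pdl_sub {g g' : X → Y} (hg : ContDiff ℝ ∞ g) (hg' : ContDiff ℝ ∞ g') (L : List X) :
    pdl L (fun x => g x - g' x) = fun x => pdl L g x - pdl L g' x := by
  induction L with
  | nil => rfl
  | cons u L ih =>
    funext p
    rw [pdl_cons, ih, pd, fderiv_fun_sub (Calc_diff hg L p) (Calc_diff hg' L p)]
    rfl

theorem pdl_sum {ι : Type} (s : Finset ι) {g : ι → X → Y} (hg : ∀ i, ContDiff ℝ ∞ (g i))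
    (L : List X) : pdl L (fun x => ∑ i ∈ s, g i x) = fun x => ∑ i ∈ s, pdl L (g i) x := by
  induction L with
  | nil => rfl
  | cons u L ih =>
    funext p
    rw [pdl_cons, ih, pd, fderiv_fun_sum fun i _ => Calc_diff (hg i) L p, sum_apply]
    rfl

theorem pdl_clm {Z : Type} [NormedAddCommGroup Z] [NormedSpace ℝ Z] (A : Y →L[ℝ] Z) {g : X → Y}
    (hg : ContDiff ℝ ∞ g) (L : List X) : pdl L (fun x => A (g x)) = fun x => A (pdl L g x) := by
  induction L with
  | nil => rfl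
  | cons u L ih =>
    funext p
    rw [pdl_cons, ih, pd]
    exact congrArg (fun B : X →L[ℝ] Z => B u) (A.hasFDerivAt.comp p (Calc_diff hg L p).hasFDerivAt).fderiv

theorem pdl_zero (L : List X) : pdl L (fun _ : X => (0 : Y)) = fun _ => 0 := by
  induction L with
  | nil => rfl
  | cons u L ih =>
    funext p
    rw [pdl_cons, ih, pd]
    simp

theorem pdl_congr {g g' : X → Y} {p : X} (h : g =ᶠ[𝓝 p] g') (L : List X) :
    pdl L g =ᶠ[𝓝 p] pdl L g' := by
  induction L with
  | nil => exact h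
  | cons u L ih => exact (ih.fderiv (𝕜 := ℝ)).mono fun q hq => congrArg (fun B : X →L[ℝ] Y => B u) hq

theorem pdl_eq_iter {g : X → Y} (hg : ContDiff ℝ ∞ g) (L : List X) (p : X) :
    pdl L g p = iteratedFDeriv ℝ L.length g p fun i => L.get i := by
  induction L generalizing p with
  | nil => simp [pdl_nil]
  | cons u L ih =>
    have hd : DifferentiableAt ℝ (iteratedFDeriv ℝ L.length g) p :=
      hg.differentiable_iteratedFDeriv (by exact_mod_cast ENat.natCast_lt_top _) p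
    rw [pdl_cons, funext ih, pd, fderiv_continuousMultilinear_apply_const_apply hd]
    exact (iteratedFDeriv_succ_apply_left (n := L.length) fun i => (u :: L).get i).symm

theorem Calc_contDiff_slice {g : ℝ × X → Y} (hg : ContDiff ℝ ∞ g) (t : ℝ) :
    ContDiff ℝ ∞ fun z => g (t, z) := hg.comp (contDiff_const.prodMk contDiff_id)

theorem Calc_slice {g : ℝ × X → Y} (hg : ContDiff ℝ ∞ g) (L : List X) (t : ℝ) :
    (fun z => pdl (L.map fun u => ((0 : ℝ), u)) g (t, z)) = pdl L fun z => g (t, z) := by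
  induction L with
  | nil => rfl
  | cons u L ih =>
    funext z
    rw [pdl_cons, ← ih]
    exact (congrArg (fun B : X →L[ℝ] Y => B u)
      ((Calc_diff hg _ (t, z)).hasFDerivAt.comp z (hasFDerivAt_prodMk_right t z)).fderiv).symm

theorem pdl_slice {g : ℝ × X → Y} (hg : ContDiff ℝ ∞ g) (L : List X) (t : ℝ) (z : X) :
    pdl (L.map fun u => ((0 : ℝ), u)) g (t, z) =
      iteratedFDeriv ℝ L.length (fun z => g (t, z)) z fun i => L.get i := by
  rw [← pdl_eq_iter (Calc_contDiff_slice hg t), ← Calc_slice hg]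

/-- space derivatives only depend on the time slice -/
theorem pdl_slice_congr {g g' : ℝ × X → Y} (hg : ContDiff ℝ ∞ g) (hg' : ContDiff ℝ ∞ g') {t : ℝ}
    (h : ∀ z, g (t, z) = g' (t, z)) (L : List X) (z : X) :
    pdl (L.map fun u => ((0 : ℝ), u)) g (t, z) = pdl (L.map fun u => ((0 : ℝ), u)) g' (t, z) := by
  rw [pdl_slice hg, pdl_slice hg', funext h]

theorem norm_pdl_le {g : X → Y} (hg : ContDiff ℝ ∞ g) {L : List X} (hL : ∀ u ∈ L, ‖u‖ ≤ 1)
    (p : X) : ‖pdl L g p‖ ≤ ‖iteratedFDeriv ℝ L.length g p‖ := by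
  rw [pdl_eq_iter hg]
  exact (ContinuousMultilinearMap.le_opNorm _ _).trans (mul_le_of_le_one_right (norm_nonneg _)
    (Finset.prod_le_one (fun _ _ => norm_nonneg _) fun i _ => hL _ (List.get_mem _ _)))

theorem Calc_ofFn {g : X → Y} (hg : ContDiff ℝ ∞ g) {k : ℕ} (m : Fin k → X) (p : X) :
    pdl (List.ofFn m) g p = iteratedFDeriv ℝ k g p m := by
  have : ∀ (L : List X) (h : L.length = k), pdl L g p =
      iteratedFDeriv ℝ k g p fun i => L.get (i.cast h.symm) := by
    rintro L rfl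
    exact pdl_eq_iter hg L p
  rw [this _ List.length_ofFn]
  simp

theorem Calc_opNorm {k : ℕ} (D : ContinuousMultilinearMap ℝ (fun _ : Fin k => X) Y) {C : ℝ}
    (h : ∀ m : Fin k → X, (∀ i, ‖m i‖ ≤ 1) → ‖D m‖ ≤ C) : ‖D‖ ≤ C := by
  have hC : 0 ≤ C := (norm_nonneg _).trans (h 0 (by simp))
  refine ContinuousMultilinearMap.opNorm_le_bound hC fun m => ?_
  have e : m = fun i => ‖m i‖ • (‖m i‖⁻¹ • m i) := by
    funext i
    by_cases h0 : m i = 0
    · simp [h0]
    · rw [smul_inv_smul₀ (norm_ne_zero_iff.2 h0)]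
  have h1 := h (fun i => ‖m i‖⁻¹ • m i) fun i => by
    rw [norm_smul, norm_inv, norm_norm]
    exact inv_mul_le_one_of_le₀ le_rfl (norm_nonneg _)
  have h2 : 0 ≤ ∏ i, ‖m i‖ := Finset.prod_nonneg fun _ _ => norm_nonneg _
  conv_lhs => rw [e, D.map_smul_univ, norm_smul, Real.norm_of_nonneg h2, mul_comm]
  exact mul_le_mul_of_nonneg_right h1 h2

theorem norm_iter_le {g : X → Y} (hg : ContDiff ℝ ∞ g) {k : ℕ} {C : ℝ} {p : X}
    (h : ∀ L : List X, L.length = k → (∀ u ∈ L, ‖u‖ ≤ 1) → ‖pdl L g p‖ ≤ C) :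
    ‖iteratedFDeriv ℝ k g p‖ ≤ C := by
  refine Calc_opNorm _ fun m hm => ?_
  rw [← Calc_ofFn hg]
  exact h _ List.length_ofFn (List.forall_mem_ofFn_iff.2 hm)

/-- if every vector of the unit ball is a combination of the `b i` with coefficients in `[-1, 1]`, lists
of `b i` suffice -/
theorem norm_iter_le_basis {ι : Type} [Fintype ι] (b : ι → X)
    (hb : ∀ u : X, ‖u‖ ≤ 1 → ∃ c : ι → ℝ, (∀ i, |c i| ≤ 1) ∧ u = ∑ i, c i • b i) {g : X → Y}
    (hg : ContDiff ℝ ∞ g) {k : ℕ} {C : ℝ} {p : X}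
    (h : ∀ L : List ι, L.length = k → ‖pdl (L.map b) g p‖ ≤ C) :
    ‖iteratedFDeriv ℝ k g p‖ ≤ (Fintype.card ι : ℝ) ^ k * C := by
  refine Calc_opNorm _ fun m hm => ?_
  choose c hc hmc using fun j => hb (m j) (hm j)
  rw [funext hmc, ContinuousMultilinearMap.map_sum]
  refine (norm_sum_le _ _).trans ((Finset.sum_le_card_nsmul _ _ C fun r _ => ?_).trans_eq ?_)
  · have h1 := h (List.ofFn r) List.length_ofFn
    rw [List.map_ofFn, Calc_ofFn hg] at h1
    rw [ContinuousMultilinearMap.map_smul_univ, norm_smul, norm_prod]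
    exact (mul_le_of_le_one_left (norm_nonneg _)
      (Finset.prod_le_one (fun _ _ => norm_nonneg _) fun j _ => hc j (r j))).trans h1
  · simp

theorem DB.mono {k : ℕ} {g : ℝ × X → Y} {t C C' : ℝ} (h : DB k g t C) (hC : C ≤ C') :
    DB k g t C' := by
  exact fun z => (h z).trans hC

theorem DB.nonneg {k : ℕ} {g : ℝ × X → Y} {t C : ℝ} (h : DB k g t C) : 0 ≤ C := by
  exact (norm_nonneg _).trans (h 0)

theorem DB_zero {g : ℝ × X → Y} {t C : ℝ} : DB 0 g t C ↔ ∀ z, ‖g (t, z)‖ ≤ C := by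
  simp only [DB, norm_iteratedFDeriv_zero]

theorem DB_of_pdl {g : ℝ × X → Y} (hg : ContDiff ℝ ∞ g) {k : ℕ} {t C : ℝ}
    (h : ∀ L : List X, L.length = k → (∀ u ∈ L, ‖u‖ ≤ 1) →
      ∀ z, ‖pdl (L.map fun u => ((0 : ℝ), u)) g (t, z)‖ ≤ C) : DB k g t C := by
  refine fun z => norm_iter_le (Calc_contDiff_slice hg t) fun L h1 h2 => ?_
  rw [← Calc_slice hg]
  exact h L h1 h2 z

theorem DB.pdl_le {g : ℝ × X → Y} (hg : ContDiff ℝ ∞ g) {L : List X} {t C : ℝ}
    (h : DB L.length g t C) (hL : ∀ u ∈ L, ‖u‖ ≤ 1) (z : X) :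
    ‖pdl (L.map fun u => ((0 : ℝ), u)) g (t, z)‖ ≤ C := by
  rw [congrFun (Calc_slice hg L t) z]
  exact (norm_pdl_le (Calc_contDiff_slice hg t) hL z).trans (h z)

theorem DB_of_joint {g : ℝ × X → Y} (hg : ContDiff ℝ ∞ g) {k : ℕ} {t C : ℝ}
    (h : ∀ z, ‖iteratedFDeriv ℝ k g (t, z)‖ ≤ C) : DB k g t C := by
  refine DB_of_pdl hg fun L h1 h2 z => (norm_pdl_le hg (fun u hu => ?_) _).trans ?_
  · obtain ⟨v, hv, rfl⟩ := List.mem_map.1 hu
    simpa using h2 v hv
  · rw [List.length_map, h1]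
    exact h z

theorem DB.pdX_le {g : TP → Y} (hg : ContDiff ℝ ∞ g) {L : List R3} {t C : ℝ}
    (h : DB L.length g t C) (hL : ∀ u ∈ L, ‖u‖ ≤ 1) (z : Ph) : ‖pdX L g (t, z)‖ ≤ C := by
  have := DB.pdl_le hg (L := L.map fun u => (u, (0 : R3))) (by rwa [List.length_map]) (fun u hu => by
    obtain ⟨v, hv, rfl⟩ := List.mem_map.1 hu
    simpa using hL v hv) z
  rwa [List.map_map] at this

theorem DB_of_basis {K : ST → Y} (hK : ContDiff ℝ ∞ K) {k : ℕ} {t C : ℝ}
    (h : ∀ L : List (Fin 3), L.length = k → ∀ x, ‖pdx (L.map ee) K (t, x)‖ ≤ C) :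
    DB k K t (3 ^ k * C) := by
  intro x
  have := norm_iter_le_basis ee (fun u hu => ⟨fun i => u i, fun i =>
    (PiLp.norm_apply_le u i).trans hu, by ext j; simp [ee, Finset.sum_apply, Pi.single_apply]⟩)
    (Calc_contDiff_slice hK t) (k := k) (C := C) (p := x) fun L hL => by
      rw [← Calc_slice hK]
      exact h L hL x
  simpa using this

/-- derivatives keep the momentum support -/
theorem LS.pd {g : TP → Y} (hs : LS g) (μ : TP) : LS (pd μ g) := by
  intro a
  obtain ⟨R, hR⟩ := hs (a + 1)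
  refine ⟨R, fun p hp h0 => le_of_not_gt fun hlt => h0 ?_⟩
  have h1 : ∀ᶠ q : TP in 𝓝 p, q.1 ∈ Ioo (-(a + 1)) (a + 1) :=
    continuous_fst.continuousAt.eventually (Ioo_mem_nhds (by linarith [hp.1]) (by linarith [hp.2]))
  have h2 : ∀ᶠ q : TP in 𝓝 p, R < ‖q.2.2‖ :=
    (continuous_snd.snd.norm).continuousAt.eventually (lt_mem_nhds hlt)
  have h3 : g =ᶠ[𝓝 p] fun _ => 0 := by
    filter_upwards [h1, h2] with q h1 h2
    exact by_contra fun h => (hR q (Ioo_subset_Icc_self h1) h).not_gt h2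
  rw [R106.pd, h3.fderiv_eq]
  simp

theorem LS.pdl {g : TP → Y} (hs : LS g) (L : List TP) : LS (pdl L g) := by
  induction L with
  | nil => exact hs
  | cons u L ih => exact ih.pd u

/-- phase space derivatives keep the momentum support, slice by slice -/
theorem VS.pdl {g : TP → Y} (hg : ContDiff ℝ ∞ g) {S : Set ℝ} {P : ℝ} (hs : VS S P g)
    (L : List Ph) : VS S P (pdl (L.map fun u => ((0 : ℝ), u)) g) := by
  rintro ⟨t, z⟩ hp h0
  refine le_of_not_gt fun hlt => h0 ?_
  have h2 : ∀ᶠ q : Ph in 𝓝 z, P < ‖q.2‖ :=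
    continuous_snd.norm.continuousAt.eventually (lt_mem_nhds hlt)
  have h3 : (fun q => g (t, q)) =ᶠ[𝓝 z] fun _ => 0 :=
    h2.mono fun q h2 => by_contra fun h => (hs (t, q) hp h).not_gt h2
  rw [congrFun (Calc_slice hg L t) z, (pdl_congr h3 L).eq_of_nhds, pdl_zero]

theorem VS.pdX {g : TP → Y} (hg : ContDiff ℝ ∞ g) {S : Set ℝ} {P : ℝ} (hs : VS S P g)
    (L : List R3) : VS S P (pdX L g) := by
  have := hs.pdl hg (L.map fun u => (u, (0 : R3)))
  rwa [List.map_map] at this

end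

end Crest.Agent.R106
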