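import Crest.Agent.R106.Calc

/-!
# Row 106: product and chain rule bounds

`DB_comp`: induction on `k`, generalising `κ` and its target space (state an auxiliary version for
`κ : Ph → Y`, any normed `Y : Type`, with all derivatives bounded):
`D^{k+1}(κ ∘ u) = D^k((Dκ ∘ u) ∘L Du)` and `ContinuousLinearMap.norm_iteratedFDeriv_le_of_bilinear`; the only
terms of top order in `u` are `‖Dκ ∘ u‖ ‖D^{k+1} u‖` and, for the induction, one proves first the crude bound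
(all orders `≤ k` of `u` bounded ⇒ `D^k (κ ∘ u)` bounded).
`DB_gF`: `norm_iteratedFDeriv_smul_le`; outside `‖v‖ ≤ P` all derivatives of `f` vanish (`VS.pdl`, or the
support of `iteratedFDeriv` is inside `tsupport`); inside use `relVel_bdd`.

-/

set_option autoImplicit false

noncomputable section

namespace Crest.Agent.R106

open MeasureTheory Set Metric Real Filter Topology
open scoped ContDiff ENNReal RealInnerProductSpace Classical
open Crest.AnalysisR.VecCalc3 Crest.AnalysisR.PDE.RVM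

section Aux
variable {D E F G : Type} [NormedAddCommGroup D] [NormedSpace ℝ D] [NormedAddCommGroup E]
  [NormedSpace ℝ E] [NormedAddCommGroup F] [NormedSpace ℝ F] [NormedAddCommGroup G]
  [NormedSpace ℝ G]

theorem c2_natle (n : ℕ) : (n : WithTop ℕ∞) ≤ ((⊤ : ℕ∞) : WithTop ℕ∞) := by exact_mod_cast le_top

/-- product rule with termwise bounds -/
theorem c2_bil (B : E →L[ℝ] F →L[ℝ] G) {f : D → E} {g : D → F} (hf : ContDiff ℝ ∞ f)
    (hg : ContDiff ℝ ∞ g) (x : D) (n : ℕ) {b c : ℝ} (hb : ‖B‖ ≤ b)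
    (h : ∀ i ≤ n, ‖iteratedFDeriv ℝ i f x‖ * ‖iteratedFDeriv ℝ (n - i) g x‖ ≤ c) :
    ‖iteratedFDeriv ℝ n (fun y => B (f y) (g y)) x‖ ≤ b * 2 ^ n * c := by
  refine (B.norm_iteratedFDeriv_le_of_bilinear hf hg x (c2_natle n)).trans ?_
  rw [mul_assoc]
  refine mul_le_mul hb ?_ (by positivity) ((ContinuousLinearMap.opNorm_nonneg B).trans hb)
  have h2 : (2 : ℝ) ^ n = ∑ i ∈ Finset.range (n + 1), (n.choose i : ℝ) := by
    exact_mod_cast (Nat.sum_range_choose n).symm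
  rw [h2, Finset.sum_mul]
  refine Finset.sum_le_sum fun i hi => ?_
  rw [mul_assoc]
  exact mul_le_mul_of_nonneg_left (h i (Nat.lt_succ_iff.1 (Finset.mem_range.1 hi)))
    (Nat.cast_nonneg _)

theorem c2_right (L : D →L[ℝ] E) (hL : ‖L‖ ≤ 1) {f : E → F} (hf : ContDiff ℝ ∞ f) (n : ℕ)
    (x : D) : ‖iteratedFDeriv ℝ n (f ∘ L) x‖ ≤ ‖iteratedFDeriv ℝ n f (L x)‖ := by
  rw [L.iteratedFDeriv_comp_right hf x (c2_natle n)]
  refine (ContinuousMultilinearMap.norm_compContinuousLinearMap_le _ _).trans ?_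
  refine mul_le_of_le_one_right (norm_nonneg _) ?_
  exact Finset.prod_le_one (fun _ _ => norm_nonneg _) fun _ _ => hL

theorem c2_left (L : E →L[ℝ] F) (hL : ‖L‖ ≤ 1) {f : D → E} (hf : ContDiff ℝ ∞ f) (n : ℕ)
    (x : D) : ‖iteratedFDeriv ℝ n (L ∘ f) x‖ ≤ ‖iteratedFDeriv ℝ n f x‖ :=
  (L.norm_iteratedFDeriv_comp_left hf.contDiffAt (c2_natle n)).trans
    (mul_le_of_le_one_left (norm_nonneg _) hL)

/-- a uniform bound for finitely many orders -/
theorem c2_unif {p : ℕ → ℝ → Prop} (hm : ∀ i C C', p i C → C ≤ C' → p i C') (h : ∀ i, ∃ C, p i C)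
    (k : ℕ) : ∃ C, 0 ≤ C ∧ ∀ i ≤ k, p i C := by
  choose c hc using h
  refine ⟨∑ i ∈ Finset.range (k + 1), |c i|, Finset.sum_nonneg fun _ _ => abs_nonneg _,
    fun i hi => hm i _ _ (hc i) ((le_abs_self _).trans ?_)⟩
  exact Finset.single_le_sum (f := fun i => |c i|) (fun _ _ => abs_nonneg _)
    (Finset.mem_range.2 (Nat.lt_succ_of_le hi))

theorem c2_cpt {κ : E → F} (hκ : ContDiff ℝ ∞ κ) (cκ : HasCompactSupport κ) (k : ℕ) :
    ∃ C, 0 ≤ C ∧ ∀ i ≤ k, ∀ y, ‖iteratedFDeriv ℝ i κ y‖ ≤ C := by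
  refine c2_unif (p := fun i C => ∀ y, ‖iteratedFDeriv ℝ i κ y‖ ≤ C)
    (fun i C C' h hC y => (h y).trans hC) (fun i => ?_) k
  exact (hκ.continuous_iteratedFDeriv (c2_natle i)).bounded_above_of_compact_support
    (cκ.iteratedFDeriv i)

/-- chain rule, linear in the top order -/
theorem c2_comp {κ : E → F} (hκ : ContDiff ℝ ∞ κ) (cκ : HasCompactSupport κ) (k : ℕ) (M : ℝ) :
    ∃ C, 0 ≤ C ∧ ∀ (u : D → E) (x : D) (A : ℝ), ContDiff ℝ ∞ u →
      (∀ j < k, ‖iteratedFDeriv ℝ j u x‖ ≤ M) → ‖iteratedFDeriv ℝ k u x‖ ≤ A →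
      ‖iteratedFDeriv ℝ k (κ ∘ u) x‖ ≤ C * (1 + A) := by
  obtain ⟨C, hC0, hC⟩ := c2_cpt hκ cκ k
  cases k with
  | zero =>
    refine ⟨C, hC0, fun u x A _ _ hA => ?_⟩
    have hA0 : 0 ≤ A := (norm_nonneg _).trans hA
    have h1 := hC 0 le_rfl (u x)
    rw [norm_iteratedFDeriv_zero] at h1 ⊢
    calc ‖(κ ∘ u) x‖ ≤ C := h1
      _ ≤ C * (1 + A) := le_mul_of_one_le_right hC0 (by linarith)
  | succ k =>
    set N : ℝ := max M 1 with hN
    have hN1 : 1 ≤ N := le_max_right _ _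
    have hMN : M ≤ N := le_max_left _ _
    refine ⟨1 * 2 ^ k * ((k.factorial * C * N ^ k) * N),
      by positivity, fun u x A hu hM hA => ?_⟩
    have hA0 : 0 ≤ A := (norm_nonneg _).trans hA
    have hκ' : ContDiff ℝ ∞ (fderiv ℝ κ) := hκ.fderiv_right (by simp)
    have hu' : ContDiff ℝ ∞ (fderiv ℝ u) := hu.fderiv_right (by simp)
    have hfd : fderiv ℝ (κ ∘ u) = fun y =>
        ContinuousLinearMap.compL ℝ D E F ((fderiv ℝ κ ∘ u) y) (fderiv ℝ u y) := by
      funext y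
      rw [fderiv_comp y (hκ.differentiable (by simp) _) (hu.differentiable (by simp) _)]
      rfl
    rw [← norm_iteratedFDeriv_fderiv, hfd, mul_assoc _ _ (1 + A)]
    refine c2_bil _ (hκ'.comp hu) hu' x k (ContinuousLinearMap.norm_compL_le ℝ D E F)
      fun i hi => ?_
    have h1 : ‖iteratedFDeriv ℝ i (fderiv ℝ κ ∘ u) x‖ ≤ k.factorial * C * N ^ k := by
      refine (norm_iteratedFDeriv_comp_le hκ' hu (c2_natle i) x (C := C) (D := N)
        (fun j hj => ?_) (fun j hj1 hj => ?_)).trans ?_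
      · rw [norm_iteratedFDeriv_fderiv]
        exact hC _ (by omega) _
      · exact (hM j (by omega)).trans (hMN.trans (le_self_pow₀ hN1 (by omega)))
      · have : (i.factorial : ℝ) ≤ k.factorial := by exact_mod_cast Nat.factorial_le hi
        have h3 : N ^ i ≤ N ^ k := pow_le_pow_right₀ hN1 hi
        gcongr
    have h2 : ‖iteratedFDeriv ℝ (k - i) (fderiv ℝ u) x‖ ≤ N * (1 + A) := by
      rw [norm_iteratedFDeriv_fderiv]
      rcases Nat.eq_zero_or_pos i with rfl | hi0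
      · simp only [Nat.sub_zero]
        nlinarith
      · refine (hM _ (by omega)).trans ?_
        nlinarith
    rw [mul_assoc]
    exact mul_le_mul h1 h2 (norm_nonneg _) (by positivity)

end Aux

theorem c2_slice {X Y : Type} [NormedAddCommGroup X] [NormedSpace ℝ X] [NormedAddCommGroup Y]
    [NormedSpace ℝ Y] {g : ℝ × X → Y} (hg : ContDiff ℝ ∞ g) (t : ℝ) :
    ContDiff ℝ ∞ fun z => g (t, z) :=
  hg.comp (contDiff_const.prodMk contDiff_id)

theorem DB_comp {κ : Ph → Ph} (hκ : ContDiff ℝ ∞ κ) (cκ : HasCompactSupport κ) (k : ℕ) (M : ℝ) :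
    ∃ C, 0 ≤ C ∧ ∀ (K : ST → Ph) (t A : ℝ), ContDiff ℝ ∞ K → (∀ j < k, DB j K t M) → DB k K t A →
      DB k (κ ∘ K) t (C * (1 + A)) := by
  obtain ⟨C, hC0, hC⟩ := c2_comp (D := R3) hκ cκ k M
  exact ⟨C, hC0, fun K t A hK hM hA z =>
    hC (fun z => K (t, z)) z A (c2_slice hK t) (fun j hj => hM j hj z) (hA z)⟩

/-- derivatives of the characteristic field where `‖v‖ ≤ P` -/
theorem vf_iter_le (k : ℕ) (M P : ℝ) :
    ∃ C, 0 ≤ C ∧ ∀ (K : ST → Ph) (t A : ℝ), ContDiff ℝ ∞ K → (∀ j < k, DB j K t M) → DB k K t A →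
      ∀ z : Ph, ‖z.2‖ ≤ P → ‖iteratedFDeriv ℝ k (fun z => vf K (t, z)) z‖ ≤ C * (1 + A) := by
  obtain ⟨R, hR0, hR⟩ := c2_unif
    (p := fun i C => ∀ v : R3, ‖v‖ ≤ P → ‖iteratedFDeriv ℝ i relVel v‖ ≤ C)
    (fun i C C' h hC v hv => (h v hv).trans hC) (fun i => relVel_bdd i P) k
  obtain ⟨L, hL⟩ := exists_crossL
  set N : ℝ := max M 1 with hN
  have hN1 : 1 ≤ N := le_max_right _ _
  have hMN : M ≤ N := le_max_left _ _
  refine ⟨R + (N + ‖L‖ * 2 ^ k * (R * N)), by positivity, fun K t A hK hM hA z hz => ?_⟩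
  have hA0 : 0 ≤ A := (norm_nonneg _).trans (hA 0)
  have hKs := c2_slice hK t
  have hw : ContDiff ℝ ∞ (relVel ∘ ContinuousLinearMap.snd ℝ R3 R3) :=
    contDiff_relVel.comp (ContinuousLinearMap.snd ℝ R3 R3).contDiff
  have hu : ContDiff ℝ ∞ ((fun x => K (t, x)) ∘ ContinuousLinearMap.fst ℝ R3 R3) :=
    hKs.comp (ContinuousLinearMap.fst ℝ R3 R3).contDiff
  have bw : ∀ i ≤ k, ‖iteratedFDeriv ℝ i (relVel ∘ ContinuousLinearMap.snd ℝ R3 R3) z‖ ≤ R :=
    fun i hi => (c2_right (ContinuousLinearMap.snd ℝ R3 R3) (ContinuousLinearMap.norm_snd_le ℝ R3 R3)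
      contDiff_relVel i z).trans (hR i hi _ hz)
  have bu : ∀ i ≤ k, ‖iteratedFDeriv ℝ i ((fun x => K (t, x)) ∘ ContinuousLinearMap.fst ℝ R3 R3) z‖
      ≤ N * (1 + A) := fun i hi => by
    refine (c2_right (ContinuousLinearMap.fst ℝ R3 R3) (ContinuousLinearMap.norm_fst_le ℝ R3 R3)
      hKs i z).trans ?_
    rcases hi.lt_or_eq with h | rfl
    · refine (hM i h _).trans ?_
      nlinarith
    · refine (hA _).trans ?_
      nlinarith
  obtain ⟨w, hwd⟩ : ∃ w, w = relVel ∘ ContinuousLinearMap.snd ℝ R3 R3 := ⟨_, rfl⟩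
  obtain ⟨u, hud⟩ : ∃ u, u = (fun x => K (t, x)) ∘ ContinuousLinearMap.fst ℝ R3 R3 := ⟨_, rfl⟩
  rw [← hwd] at hw bw
  rw [← hud] at hu bu
  have hu1 : ContDiff ℝ ∞ (ContinuousLinearMap.fst ℝ R3 R3 ∘ u) :=
    (ContinuousLinearMap.fst ℝ R3 R3).contDiff.comp hu
  have hu2 : ContDiff ℝ ∞ (ContinuousLinearMap.snd ℝ R3 R3 ∘ u) :=
    (ContinuousLinearMap.snd ℝ R3 R3).contDiff.comp hu
  have hc : ContDiff ℝ ∞ fun y => L (w y) ((ContinuousLinearMap.snd ℝ R3 R3 ∘ u) y) :=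
    (L.contDiff.comp hw).clm_apply hu2
  have heq : (fun z => vf K (t, z)) = fun y => (w y, ((ContinuousLinearMap.fst ℝ R3 R3 ∘ u) +
      fun y => L (w y) ((ContinuousLinearMap.snd ℝ R3 R3 ∘ u) y)) y) := by
    funext y
    simp only [Pi.add_apply, hL, hwd, hud]
    rfl
  have b1 : ‖iteratedFDeriv ℝ k (ContinuousLinearMap.fst ℝ R3 R3 ∘ u) z‖ ≤ N * (1 + A) :=
    (c2_left _ (ContinuousLinearMap.norm_fst_le ℝ R3 R3) hu k z).trans (bu k le_rfl)
  have b2 : ‖iteratedFDeriv ℝ k (fun y => L (w y) ((ContinuousLinearMap.snd ℝ R3 R3 ∘ u) y)) z‖ ≤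
      ‖L‖ * 2 ^ k * (R * (N * (1 + A))) :=
    c2_bil L hw hu2 z k le_rfl fun i hi => mul_le_mul (bw i hi)
      ((c2_left _ (ContinuousLinearMap.norm_snd_le ℝ R3 R3) hu _ z).trans (bu _ (Nat.sub_le _ _)))
      (norm_nonneg _) hR0
  have hsum : ContDiff ℝ ∞ ((ContinuousLinearMap.fst ℝ R3 R3 ∘ u) +
      fun y => L (w y) ((ContinuousLinearMap.snd ℝ R3 R3 ∘ u) y)) := hu1.add hc
  rw [heq, iteratedFDeriv_prodMk hw.contDiffAt hsum.contDiffAt (c2_natle k),
    ContinuousMultilinearMap.opNorm_prod,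
    iteratedFDeriv_add_apply (hu1.contDiffAt.of_le (c2_natle k)) (hc.contDiffAt.of_le (c2_natle k))]
  have e1 : 0 ≤ R * A := by positivity
  have e2 : 0 ≤ (N + ‖L‖ * 2 ^ k * (R * N)) * (1 + A) := by positivity
  refine max_le ((bw k le_rfl).trans (by nlinarith)) ((norm_add_le _ _).trans ?_)
  nlinarith

theorem DB_gF {k : ℕ} (hk : 1 ≤ k) (M P : ℝ) :
    ∃ C, 0 ≤ C ∧ ∀ (K : ST → Ph) (f : TP → ℝ) (t A : ℝ), ContDiff ℝ ∞ K → ContDiff ℝ ∞ f →
      VS {t} P f → (∀ j < k, DB j K t M ∧ DB j f t M) → DB k K t A → DB k f t A →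
      DB k (gF f K) t (C * (1 + A)) := by
  obtain ⟨C, hC0, hC⟩ := c2_unif
    (p := fun i C => 0 ≤ C ∧ ∀ (K : ST → Ph) (t A : ℝ), ContDiff ℝ ∞ K → (∀ j < i, DB j K t M) →
      DB i K t A → ∀ z : Ph, ‖z.2‖ ≤ P →
        ‖iteratedFDeriv ℝ i (fun z => vf K (t, z)) z‖ ≤ C * (1 + A))
    (fun i C C' h hC => ⟨h.1.trans hC, fun K t A hK hM hA z hz => (h.2 K t A hK hM hA z hz).trans
      (mul_le_mul_of_nonneg_right hC (by linarith [(norm_nonneg _).trans (hA 0)]))⟩)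
    (fun i => vf_iter_le i M P) k
  set N : ℝ := max M 1 with hN
  have hN1 : 1 ≤ N := le_max_right _ _
  have hMN : M ≤ N := le_max_left _ _
  refine ⟨1 * 2 ^ k * (N * (C * (1 + N))),
    by positivity, fun K f t A hK hf hs hM hAK hAf z => ?_⟩
  have hA0 : 0 ≤ A := (norm_nonneg _).trans (hAK 0)
  by_cases hz : ‖z.2‖ ≤ P
  · have hv : ContDiff ℝ ∞ fun z => vf K (t, z) := c2_slice (contDiff_vf hK) t
    have heq : (fun z => gF f K (t, z)) = fun y => (ContinuousLinearMap.lsmul ℝ ℝ)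
        ((fun z => f (t, z)) y) ((ContinuousLinearMap.snd ℝ R3 R3 ∘ fun z => vf K (t, z)) y) := rfl
    rw [heq, mul_assoc _ _ (1 + A)]
    refine c2_bil _ (c2_slice hf t) ((ContinuousLinearMap.snd ℝ R3 R3).contDiff.comp hv) z k
      ContinuousLinearMap.opNorm_lsmul_le fun i hi => ?_
    have h2 := c2_left _ (ContinuousLinearMap.norm_snd_le ℝ R3 R3) hv (k - i) z
    have hCN : 0 ≤ C * (1 + N) := by positivity
    rcases Nat.eq_zero_or_pos i with rfl | hi0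
    · have a1 := (hM 0 hk).2 z
      have a2 := (hC k le_rfl).2 K t A hK (fun j hj => (hM j hj).1) hAK z hz
      simp only [Nat.sub_zero] at h2 ⊢
      refine (mul_le_mul (a1.trans hMN) (h2.trans a2) (norm_nonneg _) (by linarith)).trans ?_
      have : 0 ≤ N * (C * N) * (1 + A) := by positivity
      nlinarith
    · have a2 := (hC (k - i) (Nat.sub_le _ _)).2 K t M hK (fun j hj => (hM j (by omega)).1)
        (hM (k - i) (by omega)).1 z hz
      have a3 : C * (1 + M) ≤ C * (1 + N) := by gcongr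
      have a1 : ‖iteratedFDeriv ℝ i (fun z => f (t, z)) z‖ ≤ N * (1 + A) := by
        rcases hi.lt_or_eq with h | rfl
        · refine ((hM i h).2 z).trans ?_
          nlinarith
        · refine (hAf z).trans ?_
          nlinarith
      refine (mul_le_mul a1 (h2.trans (a2.trans a3)) (norm_nonneg _) (by positivity)).trans ?_
      exact le_of_eq (by ring)
  · have hev : (fun z => gF f K (t, z)) =ᶠ[𝓝 z] fun _ => 0 := by
      have ho : IsOpen {y : Ph | P < ‖y.2‖} := isOpen_lt continuous_const continuous_snd.norm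
      filter_upwards [ho.mem_nhds (not_le.1 hz)] with y hy
      have : f (t, y) = 0 := by
        by_contra h
        exact absurd (hs (t, y) rfl h) (not_le.2 hy)
      simp [gF, this]
    rw [(hev.iteratedFDeriv ℝ k).eq_of_nhds, iteratedFDeriv_fun_zero]
    simp only [Pi.zero_apply, norm_zero]
    positivity

end Crest.Agent.R106
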