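import Crest.Agent.R106.GS1

/-!
# Row 106: weighted bounds for retarded integrals

`gs_one` with `C₀ = C t` (`Ker 1` kernels are `≤ C/r`), `A₀ = A`, `t ≤ exp (l t)/l`; the integral by `cyl_bound`
with `φ r = C A exp (l (t - r))` (`Ker.gsT ≤ C/r²`, `1/r ≤ Tm/r²`), `∫_0^t exp (l (t - r)) dr ≤ exp (l t)/l`.

-/

set_option autoImplicit false

noncomputable section

namespace Crest.Agent.R106

open MeasureTheory Set Metric Real Filter Topology
open scoped ContDiff ENNReal RealInnerProductSpace Classical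
open Crest.AnalysisR.VecCalc3 Crest.AnalysisR.PDE.RVM

theorem gsb_int {l t : ℝ} (hl : 0 < l) (ht : 0 ≤ t) :
    ∫ r in Ioo 0 t, exp (l * (t - r)) ≤ exp (l * t) / l := by
  rw [← integral_Ioc_eq_integral_Ioo, ← intervalIntegral.integral_of_le ht]
  have h : ∀ r ∈ uIcc 0 t, HasDerivAt (fun r => -(exp (l * (t - r)) / l)) (exp (l * (t - r))) r := by
    intro r _
    have h1 : HasDerivAt (fun r => l * (t - r)) (l * (-1)) r :=
      ((hasDerivAt_id r).const_sub t).const_mul l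
    have h2 := (h1.exp.div_const l).neg
    have h3 : -(exp (l * (t - r)) * (l * (-1)) / l) = exp (l * (t - r)) := by field_simp
    rw [h3] at h2
    exact h2
  rw [intervalIntegral.integral_eq_sub_of_hasDerivAt h (Continuous.intervalIntegrable (by fun_prop) _ _)]
  have h3 : 0 < exp (l * (t - t)) / l := by positivity
  rw [sub_zero]
  linarith

theorem gs_bound {a : Ph → ℝ} (ha : Ker 1 a) (τ : ℝ) (u : R3) (Tm P : ℝ) :
    ∃ C, 0 ≤ C ∧ ∀ (T : ℝ) (g s : TP → ℝ) (H : TP → R3) (A l : ℝ) (p : ST), T ≤ Tm →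
      Trans T P g H s → 0 < l → p ∈ slab R3 T →
      (∀ r : TP, r.1 ∈ Icc 0 p.1 → |g r| ≤ A * exp (l * r.1) ∧ ‖H r‖ ≤ A * exp (l * r.1) ∧
        |s r| ≤ A * exp (l * r.1)) →
      |Ret a (τ, u, 0) g p| ≤ C * A * exp (l * p.1) / l := by
  obtain ⟨C1, hC1, h1⟩ := (ha.gsT τ u).bound P
  obtain ⟨C2, hC2, h2⟩ := (ha.gsC τ u).dv_bound P
  obtain ⟨C3, hC3, h3⟩ := (ha.gsC τ u).bound P
  obtain ⟨C4, hC4, h4⟩ := ((ha.gsC τ u).sub ((ker_const τ).mul ha)).bound P
  have hvB := vB_nonneg P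
  have hpi := pi_pos
  refine ⟨4 * π * C4 * vB P + 4 * π * vB P * (C1 + (C2 + C3) * |Tm|), by positivity,
    fun T g s H A l p hT h hl hp hb => ?_⟩
  have ht0 : 0 ≤ p.1 := hp.1.1
  have htT : p.1 ≤ |Tm| := hp.1.2.trans (hT.trans (le_abs_self _))
  have hA0 : ∀ z, |g (0, z)| ≤ A := fun z => by
    have := (hb (0, z) ⟨le_rfl, ht0⟩).1
    simpa using this
  have hA : 0 ≤ A := (abs_nonneg _).trans (hA0 0)
  have k1 := gs_one h ha.kerB τ u hp (C₀ := C4 * p.1) (A₀ := A) (by positivity)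
    (fun y v hy hyt hv => by
      have hy0 : 0 < ‖y‖ := norm_pos_iff.2 hy
      have e1 := h4 y v hy hv
      rw [pow_one] at e1
      calc |gsC a τ u (y, v) - τ * a (y, v)| * ‖y‖ ^ 2 ≤ C4 / ‖y‖ * ‖y‖ ^ 2 :=
            mul_le_mul_of_nonneg_right e1 (by positivity)
        _ = C4 * ‖y‖ := by field_simp
        _ ≤ C4 * p.1 := mul_le_mul_of_nonneg_left hyt hC4) hA0
  set C5 : ℝ := C1 + (C2 + C3) * |Tm| with hC5
  have hC50 : 0 ≤ C5 := by positivity
  have k2 := cyl_bound (k := fun q => gsT a τ u q * g (cone p q) +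
      fderiv ℝ (gsC a τ u) q (0, H (cone p q)) + gsC a τ u q * s (cone p q)) (t := p.1) (P := P)
    (φ := fun r => C5 * A * exp (l * (p.1 - r)))
    ((Continuous.integrableOn_Icc (by fun_prop)).mono_set Ioo_subset_Icc_self)
    (fun q hq hy hv => by
      obtain ⟨y, v⟩ := q
      have hy0 : 0 < ‖y‖ := norm_pos_iff.2 hy
      have hyt : ‖y‖ < p.1 := mem_ball_zero_iff.1 hq.1
      obtain ⟨b1, b2, b3⟩ := hb (cone p (y, v)) ⟨(sub_pos.2 hyt).le, sub_le_self _ hy0.le⟩
      have hc1 : (cone p (y, v)).1 = p.1 - ‖y‖ := rfl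
      rw [hc1] at b1 b2 b3
      have hE : 0 ≤ A * exp (l * (p.1 - ‖y‖)) := by positivity
      show _ ≤ C5 * A * exp (l * (p.1 - ‖y‖)) / ‖y‖ ^ 2
      rw [mul_assoc C5]
      generalize A * exp (l * (p.1 - ‖y‖)) = E at b1 b2 b3 hE ⊢
      have hinv : 1 / ‖y‖ ≤ |Tm| / ‖y‖ ^ 2 := by
        rw [div_le_div_iff₀ hy0 (by positivity)]
        nlinarith
      have a1 : |gsT a τ u (y, v) * g (cone p (y, v))| ≤ C1 / ‖y‖ ^ 2 * E := by
        rw [abs_mul]
        exact mul_le_mul (h1 y v hy hv) b1 (abs_nonneg _) (by positivity)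
      have a2 : |fderiv ℝ (gsC a τ u) (y, v) (0, H (cone p (y, v)))| ≤ C2 * E * (|Tm| / ‖y‖ ^ 2) := by
        refine (h2 y v _ hy hv).trans ?_
        rw [pow_one, div_eq_mul_one_div]
        exact mul_le_mul (mul_le_mul_of_nonneg_left b2 hC2) hinv (by positivity) (by positivity)
      have a3 : |gsC a τ u (y, v) * s (cone p (y, v))| ≤ C3 * (|Tm| / ‖y‖ ^ 2) * E := by
        rw [abs_mul]
        refine mul_le_mul ((h3 y v hy hv).trans ?_) b3 (abs_nonneg _) (by positivity)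
        rw [pow_one, div_eq_mul_one_div]
        exact mul_le_mul_of_nonneg_left hinv hC3
      refine ((abs_add_three _ _ _).trans (add_le_add (add_le_add a1 a2) a3)).trans (le_of_eq ?_)
      rw [hC5]
      ring)
    (fun r _ => by positivity)
    (fun q hq hy hv => by
      have hm := (cone_mem hp hq).1
      have e1 : g (cone p q) = 0 := by
        by_contra hne
        exact absurd (h.vg _ hm hne) (not_le.2 hv)
      have e2 : H (cone p q) = 0 := by
        by_contra hne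
        exact absurd (h.vH _ hm hne) (not_le.2 hv)
      have e3 : s (cone p q) = 0 := by
        by_contra hne
        exact absurd (h.vs _ hm hne) (not_le.2 hv)
      show gsT a τ u q * g (cone p q) + fderiv ℝ (gsC a τ u) q (0, H (cone p q)) +
        gsC a τ u q * s (cone p q) = 0
      rw [e1, e2, e3, Prod.mk_zero_zero, map_zero]
      ring)
  rw [integral_const_mul] at k2
  have k3 := gsb_int hl ht0
  have k4 : p.1 ≤ exp (l * p.1) / l := by
    rw [le_div_iff₀ hl]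
    have := add_one_le_exp (l * p.1)
    linarith
  have k5 : 4 * π * vB P * (C5 * A * ∫ r in Ioo 0 p.1, exp (l * (p.1 - r))) ≤
      4 * π * vB P * (C5 * A * (exp (l * p.1) / l)) := by gcongr
  have k6 : 4 * π * (C4 * p.1) * A * vB P ≤ 4 * π * (C4 * (exp (l * p.1) / l)) * A * vB P := by gcongr
  have k7 := abs_sub_abs_le_abs_sub (Ret a (τ, u, 0) g p) (∫ q in cyl p.1, (gsT a τ u q * g (cone p q) +
      fderiv ℝ (gsC a τ u) q (0, H (cone p q)) + gsC a τ u q * s (cone p q)))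
  have k8 : (4 * π * C4 * vB P + 4 * π * vB P * C5) * A * exp (l * p.1) / l =
      4 * π * (C4 * (exp (l * p.1) / l)) * A * vB P + 4 * π * vB P * (C5 * A * (exp (l * p.1) / l)) := by
    ring
  rw [k8]
  linarith

theorem rep_bound (Tm P : ℝ) :
    ∃ C, 0 ≤ C ∧ ∀ (T : ℝ) (Kd K : ST → Ph) (g s : TP → ℝ) (H : TP → R3) (A l : ℝ) (p : ST),
      T ≤ Tm → Trans T P g H s → 0 < l → p ∈ slab R3 T → RepAt Kd K g p →
      (∀ r : TP, r.1 ∈ Icc 0 p.1 → |g r| ≤ A * exp (l * r.1) ∧ ‖H r‖ ≤ A * exp (l * r.1) ∧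
        |s r| ≤ A * exp (l * r.1)) →
      ‖K p - Kd p‖ ≤ C * A * exp (l * p.1) / l := by
  choose C1 hC1 h1 using fun i : Fin 3 => gs_bound ker_k0 0 (ee i) Tm P
  choose C2 hC2 h2 using fun i : Fin 3 => gs_bound (ker_kv i) 1 0 Tm P
  choose C3 hC3 h3 using fun i j : Fin 3 => gs_bound (ker_kv i) 0 (ee j) Tm P
  have hpi : 1 ≤ 4 * π := by have := pi_gt_three; linarith
  have s1 : 0 ≤ ∑ i, (C1 i + C2 i) := Finset.sum_nonneg fun i _ => add_nonneg (hC1 i) (hC2 i)
  have s2 : 0 ≤ ∑ i, (C3 (i + 2) (i + 1) + C3 (i + 1) (i + 2)) :=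
    Finset.sum_nonneg fun i _ => add_nonneg (hC3 _ _) (hC3 _ _)
  refine ⟨∑ i, (C1 i + C2 i) + ∑ i, (C3 (i + 2) (i + 1) + C3 (i + 1) (i + 2)), add_nonneg s1 s2,
    fun T Kd K g s H A l p hT h hl hp hr hb => ?_⟩
  have hA : 0 ≤ A := by
    have := (hb (0, 0) ⟨le_rfl, hp.1.1⟩).1
    simp only [mul_zero, exp_zero, mul_one] at this
    exact (abs_nonneg _).trans this
  have hE : 0 ≤ A * exp (l * p.1) / l := by positivity
  have hdiv : ∀ x : ℝ, |x / (4 * π)| ≤ |x| := fun x => by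
    rw [abs_div, abs_of_pos (show (0 : ℝ) < 4 * π by linarith)]
    exact div_le_self (abs_nonneg _) hpi
  have e : ∀ C : ℝ, C * A * exp (l * p.1) / l = C * (A * exp (l * p.1) / l) := fun C => by ring
  have k1 := fun i => h1 i T g s H A l p hT h hl hp hb
  have k2 := fun i => h2 i T g s H A l p hT h hl hp hb
  have k3 := fun i j => h3 i j T g s H A l p hT h hl hp hb
  simp only [e] at k1 k2 k3 ⊢
  generalize A * exp (l * p.1) / l = E at k1 k2 k3 hE ⊢
  refine norm_prod_le_iff.2 ⟨?_, ?_⟩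
  · refine (norm_le_sum _).trans ?_
    have m1 : ∀ i ∈ (Finset.univ : Finset (Fin 3)), |(K p - Kd p).1 i| ≤ (C1 i + C2 i) * E := by
      intro i _
      have e1 : (K p - Kd p).1 i =
          -((Ret k0 (0, ee i, 0) g p + Ret (kv i) (1, 0, 0) g p) / (4 * π)) := by
        rw [Prod.fst_sub, PiLp.sub_apply, hr.1 i]
        ring
      rw [e1, abs_neg, add_mul]
      exact (hdiv _).trans ((abs_add_le _ _).trans (add_le_add (k1 i) (k2 i)))
    refine (Finset.sum_le_sum m1).trans ?_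
    rw [← Finset.sum_mul]
    exact mul_le_mul_of_nonneg_right (le_add_of_nonneg_right s2) hE
  · refine (norm_le_sum _).trans ?_
    have m1 : ∀ i ∈ (Finset.univ : Finset (Fin 3)),
        |(K p - Kd p).2 i| ≤ (C3 (i + 2) (i + 1) + C3 (i + 1) (i + 2)) * E := by
      intro i _
      have e1 : (K p - Kd p).2 i =
          (Ret (kv (i + 2)) (0, ee (i + 1), 0) g p - Ret (kv (i + 1)) (0, ee (i + 2), 0) g p) / (4 * π) := by
        rw [Prod.snd_sub, PiLp.sub_apply, hr.2 i]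
        ring
      rw [e1, add_mul]
      exact (hdiv _).trans ((abs_sub _ _).trans (add_le_add (k3 _ _) (k3 _ _)))
    refine (Finset.sum_le_sum m1).trans ?_
    rw [← Finset.sum_mul]
    exact mul_le_mul_of_nonneg_right (le_add_of_nonneg_left s1) hE

end Crest.Agent.R106
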