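import Crest.Agent.R106.Cyl
import Crest.Agent.R106.Calc

/-!
# Row 106: transport identities

`dv_gF`, `dv_smul` and linearity of `fderiv f` in the direction:
`(1, vf K r) = (1, v̂, 0) + (0, 0, F)`.  `trans_pdX`: the identity
`fderiv f r (1, v̂, 0) + dv (gF f K) r = 0` holds on the open slab; `fderiv f r (1, v̂, 0) = pd (1,0,0) f r +
∑ v̂_i pd (0, e_i, 0) f r`, the coefficients do not depend on `x`; commute `pdX L` (induction on `L`,
`pd_comm`, `pdl_congr`).

-/

set_option autoImplicit false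

noncomputable section

namespace Crest.Agent.R106

open MeasureTheory Set Metric Real Filter Topology
open scoped ContDiff ENNReal RealInnerProductSpace Classical
open Crest.AnalysisR.VecCalc3 Crest.AnalysisR.PDE.RVM

variable {T P : ℝ} {f : TP → ℝ} {K : ST → Ph}

theorem transL_split (g : TP → ℝ) (K : ST → Ph) (r : TP) :
    fderiv ℝ g r (1, R106.vf K r) = fderiv ℝ g r (1, relVel r.2.2, 0) +
      fderiv ℝ g r (0, 0, force (K (r.1, r.2.1)) r.2.2) := by
  rw [← map_add]
  simp [R106.vf]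

theorem transL_VS_gF {g : TP → ℝ} {S : Set ℝ} (h : VS S P g) (K : ST → Ph) : VS S P (gF g K) := by
  intro p hp hne
  refine h p hp fun h0 => hne ?_
  simp [gF, h0]

theorem transL_dir (g : TP → ℝ) (r : TP) :
    fderiv ℝ g r (1, relVel r.2.2, 0) =
      pd (1, 0, 0) g r + ∑ i, relVel r.2.2 i * pd (0, ee i, 0) g r := by
  have h : ((1 : ℝ), relVel r.2.2, (0 : R3)) =
      ((1 : ℝ), (0 : R3), (0 : R3)) + ∑ i, relVel r.2.2 i • ((0 : ℝ), ee i, (0 : R3)) := by
    refine Prod.ext ?_ (Prod.ext ?_ ?_)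
    · simp [Prod.fst_sum]
    · simp [Prod.fst_sum, Prod.snd_sum, sum_ee]
    · simp [Prod.snd_sum]
  rw [h, map_add, map_sum]
  simp only [map_smul, smul_eq_mul, pd]

/-- the transport operator commutes with `x`-derivatives -/
theorem transL_comm {g : TP → ℝ} {H : TP → R3} (hg : ContDiff ℝ ∞ g) (hH : ContDiff ℝ ∞ H)
    (u : R3) (r : TP) :
    fderiv ℝ (fun r : TP => fderiv ℝ g r (1, relVel r.2.2, 0) + dv H r) r (0, u, 0) =
      fderiv ℝ (pd (0, u, 0) g) r (1, relVel r.2.2, 0) + dv (pd (0, u, 0) H) r := by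
  have e : (fun r : TP => fderiv ℝ g r (1, relVel r.2.2, 0) + dv H r) = fun r : TP =>
      (pd (1, 0, 0) g r + ∑ i, relVel r.2.2 i * pd (0, ee i, 0) g r) +
        ∑ i, EuclideanSpace.proj (𝕜 := ℝ) i (pd (0, 0, ee i) H r) := by
    funext r
    rw [transL_dir]
    rfl
  have d1 : ∀ μ : TP, HasFDerivAt (pd μ g) (fderiv ℝ (pd μ g) r) r := fun μ =>
    ((contDiff_pd hg μ).differentiable (by simp) r).hasFDerivAt
  have d2 : ∀ μ : TP, HasFDerivAt (pd μ H) (fderiv ℝ (pd μ H) r) r := fun μ =>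
    ((contDiff_pd hH μ).differentiable (by simp) r).hasFDerivAt
  have d3 : ∀ i, HasFDerivAt (fun r : TP => relVel r.2.2 i)
      ((fderiv ℝ (fun v : R3 => relVel v i) r.2.2).comp
        ((ContinuousLinearMap.snd ℝ R3 R3).comp (ContinuousLinearMap.snd ℝ ℝ Ph))) r := fun i =>
    HasFDerivAt.comp (f := fun r : TP => r.2.2) r
      ((pint_relVel' i).differentiable (by simp) r.2.2).hasFDerivAt
      ((ContinuousLinearMap.snd ℝ R3 R3).comp (ContinuousLinearMap.snd ℝ ℝ Ph)).hasFDerivAt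
  have d4 := ((d1 (1, 0, 0)).add (HasFDerivAt.fun_sum (u := Finset.univ)
    fun i _ => (d3 i).mul (d1 (0, ee i, 0)))).add (HasFDerivAt.fun_sum (u := Finset.univ)
    fun i _ => (EuclideanSpace.proj (𝕜 := ℝ) i : R3 →L[ℝ] ℝ).hasFDerivAt.comp r (d2 (0, 0, ee i)))
  rw [e]
  refine (congrArg (fun A : TP →L[ℝ] ℝ => A (0, u, 0)) d4.fderiv).trans ?_
  rw [transL_dir, pd_comm hg (1, 0, 0) (0, u, 0)]
  have c1 : ∀ i, pd (0, ee i, 0) (pd (0, u, 0) g) r = fderiv ℝ (pd (0, ee i, 0) g) r (0, u, 0) :=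
    fun i => by rw [pd_comm hg]; rfl
  have c2 : ∀ i, fderiv ℝ (pd (0, u, 0) H) r (0, 0, ee i) =
      fderiv ℝ (pd (0, 0, ee i) H) r (0, u, 0) := fun i => by
    have := congrFun (pd_comm hH (0, 0, ee i) (0, u, 0)) r
    exact this
  simp only [c1, dv, c2]
  simp [pd]

theorem trans_of_vlasov (hf : ContDiffOn ℝ 1 f (slab Ph T)) (hK : ContDiffOn ℝ 1 K (slab R3 T))
    (vf : VS (Icc 0 T) P f) (hv : ∀ r ∈ oslab Ph T, Vlasov K f r) :
    Trans T P f (gF f K) fun _ => 0 := by
  refine ⟨hf, contDiffOn_gF (n := 1) hf hK, continuousOn_const, vf, transL_VS_gF vf K,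
    fun p _ h => absurd rfl h, fun p hp => ?_⟩
  have hp' : (p.1, p.2.1) ∈ oslab R3 T := ⟨hp.1, mem_univ _⟩
  rw [dv_gF ((hf.contDiffAt (slab_mem_nhds hp)).differentiableAt one_ne_zero)
    ((hK.contDiffAt (slab_mem_nhds hp')).differentiableAt one_ne_zero), ← transL_split]
  exact hv p hp

theorem trans_pdX (hf : ContDiff ℝ ∞ f) (hK : ContDiff ℝ ∞ K) (vf : VS (Icc 0 T) P f)
    (hv : ∀ r ∈ oslab Ph T, Vlasov K f r) (L : List R3) :
    Trans T P (pdX L f) (pdX L (gF f K)) fun _ => 0 := by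
  have hH : ContDiff ℝ ∞ (gF f K) := contDiff_gF (n := ⊤) hf hK
  have hL : ∀ L : List R3, ContDiff ℝ ∞ (pdX L f) := fun L => contDiff_pdl hf _
  have hL' : ∀ L : List R3, ContDiff ℝ ∞ (pdX L (gF f K)) := fun L => contDiff_pdl hH _
  refine ⟨((hL L).of_le (by simp)).contDiffOn, ((hL' L).of_le (by simp)).contDiffOn,
    continuousOn_const, VS.pdX hf vf L, VS.pdX hH (transL_VS_gF vf K) L,
    fun p _ h => absurd rfl h, ?_⟩
  induction L with
  | nil =>
    exact (trans_of_vlasov (hf.of_le (by simp)).contDiffOn (hK.of_le (by simp)).contDiffOn vf hv).eq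
  | cons u L ih =>
    intro p hp
    have h1 : (fun r : TP => fderiv ℝ (pdX L f) r (1, relVel r.2.2, 0) + dv (pdX L (gF f K)) r)
        =ᶠ[𝓝 p] fun _ => 0 := by
      filter_upwards [(isOpen_oslab Ph T).mem_nhds hp] with r hr using ih r hr
    have h2 := transL_comm (hL L) (hL' L) u p
    rw [h1.fderiv_eq] at h2
    simp only [fderiv_fun_const, Pi.zero_apply, zero_apply] at h2
    exact h2.symm

/-- multiplication by a function `m` -/
theorem trans_mul (hf : ContDiff ℝ ∞ f) (hK : ContDiff ℝ ∞ K) (vf : VS (Icc 0 T) P f)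
    (hv : ∀ r ∈ oslab Ph T, Vlasov K f r) {m : TP → ℝ} (hm : ContDiff ℝ ∞ m) :
    Trans T P (fun r => f r * m r) (gF (fun r => f r * m r) K)
      fun r => f r * fderiv ℝ m r (1, R106.vf K r) := by
  have hfm : ContDiff ℝ ∞ fun r => f r * m r := hf.mul hm
  have vfm : VS (Icc 0 T) P fun r => f r * m r := fun p hp h => vf p hp (left_ne_zero_of_mul h)
  refine ⟨(hfm.of_le (by simp)).contDiffOn,
    ((contDiff_gF (n := ⊤) hfm hK).of_le (by simp)).contDiffOn, ?_, vfm, transL_VS_gF vfm K,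
    fun p hp h => vf p hp (left_ne_zero_of_mul h), fun p hp => ?_⟩
  · refine Continuous.continuousOn (hf.continuous.mul ?_)
    exact (hm.continuous_fderiv (by simp)).clm_apply
      (continuous_const.prodMk (contDiff_vf (n := ⊤) hK).continuous)
  · rw [dv_gF (hfm.differentiable (by simp) p) (hK.differentiable (by simp) _), ← transL_split,
      fderiv_fun_mul (hf.differentiable (by simp) p) (hm.differentiable (by simp) p)]
    have h0 : fderiv ℝ f p (1, R106.vf K p) = 0 := hv p hp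
    simp [h0]

theorem Trans.sub {g s g' s' : TP → ℝ} {H H' : TP → R3} (h : Trans T P g H s)
    (h' : Trans T P g' H' s') :
    Trans T P (fun r => g r - g' r) (fun r => H r - H' r) fun r => s r - s' r := by
  have hvs : ∀ {Y : Type} [NormedAddCommGroup Y] {a b : TP → Y}, VS (Icc 0 T) P a →
      VS (Icc 0 T) P b → VS (Icc 0 T) P fun r => a r - b r := by
    intro Y _ a b ha hb p hp hne
    by_cases h0 : a p = 0
    · refine hb p hp fun h1 => hne ?_
      simp [h0, h1]
    · exact ha p hp h0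
  refine ⟨h.hg.sub h'.hg, h.hH.sub h'.hH, h.hs.sub h'.hs, hvs h.vg h'.vg, hvs h.vH h'.vH,
    hvs h.vs h'.vs, fun p hp => ?_⟩
  have n := slab_mem_nhds hp
  rw [← h.eq p hp, ← h'.eq p hp, fderiv_fun_sub ((h.hg.contDiffAt n).differentiableAt one_ne_zero)
    ((h'.hg.contDiffAt n).differentiableAt one_ne_zero)]
  simp only [dv]
  rw [fderiv_fun_sub ((h.hH.contDiffAt n).differentiableAt one_ne_zero)
    ((h'.hH.contDiffAt n).differentiableAt one_ne_zero)]
  simp only [sub_apply, PiLp.sub_apply, Finset.sum_sub_distrib]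
  ring

end Crest.Agent.R106
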