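import Crest.Agent.R106.CDefs
import Crest.Agent.R106.TransL
import Crest.Agent.R106.GSB

/-!
# Row 106: elementary properties of solutions

`supp_of`: `push` with the indicator of the open set `{P < pp v}`; a continuous nonnegative function with zero
integral over an open set vanishes there.  `field_bound`: `N = sup exp(-l t) ‖K‖ < ∞` (`lip`); `rep_bound` with
`g = f`, `H = gF f K`, `|g|, ‖H‖ ≤ A(1 + 2N) exp (l τ)` (`A ≥ 0` may be assumed: replace it by `|A|`); so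
`N ≤ |Cd| + C A (1 + 2N)/l`; take `l = 4 C A + 1`.

-/

set_option autoImplicit false

noncomputable section

namespace Crest.Agent.R106

open MeasureTheory Set Metric Real Filter Topology
open scoped ContDiff ENNReal RealInnerProductSpace Classical
open Crest.AnalysisR.VecCalc3 Crest.AnalysisR.PDE.RVM

variable {κ : Ph → Ph} {T : ℝ} {f₀ : Ph → ℝ} {K₀ : R3 → Ph} {Kd K : ST → Ph} {f : TP → ℝ}
  {Z : ℝ → Ph → Ph}


theorem TSol.cont₀ (h : TSol κ T f₀ K₀ Kd f K Z) : Continuous f₀ := by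
  have h1 : f₀ = fun z => f (0, z) := funext fun z => (h.initf z).symm
  rw [h1]
  exact h.hf.continuousOn.comp_continuous (by fun_prop)
    fun z => ⟨⟨le_rfl, h.hT.le⟩, mem_univ _⟩

theorem TSol.nonneg₀ (h : TSol κ T f₀ K₀ Kd f K Z) (z : Ph) : 0 ≤ f₀ z := by
  rw [← h.initf z]
  exact h.nonneg _ ⟨⟨le_rfl, h.hT.le⟩, mem_univ _⟩

theorem TSol.restrict (h : TSol κ T f₀ K₀ Kd f K Z) {T' : ℝ} (h0 : 0 < T') (hT : T' ≤ T)
    (hκ : ∀ p ∈ slab R3 T', κ (K p) = K p) : TSol id T' f₀ K₀ Kd f K Z := by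
  have hI : Icc (0 : ℝ) T' ⊆ Icc 0 T := Icc_subset_Icc_right hT
  have hs : ∀ X : Type, slab X T' ⊆ slab X T := fun X => prod_mono hI Subset.rfl
  have ho : ∀ X : Type, oslab X T' ⊆ oslab X T := fun X =>
    prod_mono (Ioo_subset_Ioo_right hT) Subset.rfl
  have hvf : ∀ p : TP, p.1 ∈ Icc 0 T' → vf (id ∘ K) p = vf (κ ∘ K) p := by
    intro p hp
    simp only [vf, Function.comp, id]
    rw [hκ (p.1, p.2.1) ⟨hp, mem_univ _⟩]
  obtain ⟨R, hR⟩ := h.supp
  obtain ⟨C, hC1, hC2⟩ := h.lip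
  refine ⟨h0, h.hf.mono (hs _), h.hK.mono (hs _), h.initf, h.initK, ?_,
    fun p hp => h.mxw p (ho _ hp), fun p hp => h.rep p (hs _ hp),
    fun p hp => h.nonneg p (hs _ hp), fun A hA p hp => h.le A hA p (hs _ hp),
    ⟨R, fun p hp => hR p (hs _ hp)⟩,
    ⟨C, fun p hp => hC1 p (hs _ hp), fun x t ht t' ht' => hC2 x t (hI ht) t' (hI ht')⟩,
    h.traj.meas, h.traj.zero, ?_, fun t ht => h.traj.push t (hI ht)⟩
  · intro p hp
    have := h.vl p (ho _ hp)
    unfold Vlasov at this ⊢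
    rw [hvf p (Ioo_subset_Icc_self hp.1)]
    exact this
  · intro z t ht
    rw [hvf (t, Z t z) ht]
    exact (h.traj.ode z t (hI ht)).mono hI

theorem TSol.vs (h : TSol κ T f₀ K₀ Kd f K Z) : ∃ P, VS (Icc 0 T) P f := by
  obtain ⟨R, hR⟩ := h.supp
  exact ⟨R, fun p hp hf => (norm_snd_le p.2).trans (hR p ⟨hp, mem_univ _⟩ hf)⟩

theorem TSol.supp_of (h : TSol κ T f₀ K₀ Kd f K Z) {t P : ℝ} (ht : t ≤ T) (hm : MomB f₀ Z t P) :
    ∀ p ∈ slab Ph t, f p ≠ 0 → pp p.2.2 ≤ P := by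
  rintro ⟨s, z₀⟩ hp hf
  have hs : s ∈ Icc 0 t := hp.1
  have hsT : s ∈ Icc 0 T := ⟨hs.1, hs.2.trans ht⟩
  by_contra hcon
  have hcon' : P < pp z₀.2 := lt_of_not_ge hcon
  have hpc : Continuous fun z : Ph => pp z.2 := contDiff_pp.continuous.comp continuous_snd
  have hU : IsOpen {z : Ph | P < pp z.2} := isOpen_lt continuous_const hpc
  have hfc : Continuous fun z : Ph => f (s, z) :=
    h.hf.continuousOn.comp_continuous (by fun_prop) fun z => ⟨hsT, mem_univ _⟩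
  have hg : Measurable (indicator {z : Ph | P < pp z.2} fun _ => (1 : ℝ≥0∞)) :=
    measurable_const.indicator hU.measurableSet
  have hpush := h.traj.push s hsT _ hg
  have hr : ∫⁻ z, ENNReal.ofReal (f₀ z) *
      indicator {z : Ph | P < pp z.2} (fun _ => (1 : ℝ≥0∞)) (Z s z) = 0 := by
    have : (fun z => ENNReal.ofReal (f₀ z) *
        indicator {z : Ph | P < pp z.2} (fun _ => (1 : ℝ≥0∞)) (Z s z)) = fun _ => 0 := by
      funext z
      by_cases hz : f₀ z = 0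
      · simp [hz]
      · have hn : Z s z ∉ {z : Ph | P < pp z.2} := fun hh => absurd (hm z hz s hs) (not_le.2 hh)
        rw [indicator_of_notMem hn, mul_zero]
    rw [this, lintegral_zero]
  have hmm : Measurable fun z : Ph => ENNReal.ofReal (f (s, z)) *
      indicator {z : Ph | P < pp z.2} (fun _ => (1 : ℝ≥0∞)) z :=
    hfc.measurable.ennreal_ofReal.mul hg
  rw [hr, lintegral_eq_zero_iff hmm] at hpush
  have hV : IsOpen ({z : Ph | P < pp z.2} ∩ {z | 0 < f (s, z)}) :=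
    hU.inter (isOpen_lt continuous_const hfc)
  have hne : ({z : Ph | P < pp z.2} ∩ {z | 0 < f (s, z)}).Nonempty :=
    ⟨z₀, hcon', lt_of_le_of_ne (h.nonneg (s, z₀) ⟨hsT, mem_univ _⟩) (Ne.symm hf)⟩
  have hpos := hV.measure_pos volume hne
  refine hpos.ne' (measure_mono_null ?_ hpush)
  rintro z ⟨hz1, hz2⟩ hz
  have hz' : ENNReal.ofReal (f (s, z)) *
      indicator {z : Ph | P < pp z.2} (fun _ => (1 : ℝ≥0∞)) z = 0 := hz
  rw [indicator_of_mem hz1, mul_one, ENNReal.ofReal_eq_zero] at hz'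
  exact absurd hz2 (not_lt.2 hz')

theorem TSol.trans (h : TSol id T f₀ K₀ Kd f K Z) {P : ℝ} (hs : VS (Icc 0 T) P f) :
    Trans T P f (gF f K) fun _ => 0 := by
  exact trans_of_vlasov (h.hf.of_le (by exact_mod_cast le_top)) (h.hK.of_le (by exact_mod_cast le_top))
    hs h.vl

theorem TSol.hasX (h : TSol id T f₀ K₀ Kd f K Z) (z : Ph) {a b : ℝ} (ha : 0 ≤ a) (hb : b ≤ T) :
    ∀ s ∈ Icc a b, HasDerivWithinAt (fun s => (Z s z).1) (relVel (Z s z).2) (Icc a b) s := by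
  intro s hs
  have hI : Icc a b ⊆ Icc 0 T := Icc_subset_Icc ha hb
  exact ((h.traj.ode z s (hI hs)).mono hI).fst

theorem TSol.hasV (h : TSol id T f₀ K₀ Kd f K Z) (z : Ph) {a b : ℝ} (ha : 0 ≤ a) (hb : b ≤ T) :
    ∀ s ∈ Icc a b, HasDerivWithinAt (fun s => (Z s z).2) (force (K (s, (Z s z).1)) (Z s z).2)
      (Icc a b) s := by
  intro s hs
  have hI : Icc a b ⊆ Icc 0 T := Icc_subset_Icc ha hb
  exact ((h.traj.ode z s (hI hs)).mono hI).snd

theorem TSol.contZ (h : TSol κ T f₀ K₀ Kd f K Z) (z : Ph) :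
    ContinuousOn (fun s => Z s z) (Icc 0 T) := by
  exact fun s hs => (h.traj.ode z s hs).continuousWithinAt

theorem TSol.mom_lip (h : TSol id T f₀ K₀ Kd f K Z) : ∃ M, 0 < M ∧ ∀ z, ∀ s ∈ Icc 0 T,
    ∀ s' ∈ Icc 0 T, ‖(Z s z).2 - (Z s' z).2‖ ≤ M * |s - s'| := by
  obtain ⟨C, hC, -⟩ := h.lip
  have hC0 : 0 ≤ C := (norm_nonneg _).trans (hC (0, 0) ⟨⟨le_rfl, h.hT.le⟩, mem_univ _⟩)
  refine ⟨2 * C + 1, by linarith, fun z s hs s' hs' => ?_⟩
  have := (convex_Icc (0 : ℝ) T).norm_image_sub_le_of_norm_hasDerivWithin_le (C := 2 * C + 1)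
    (h.hasV z le_rfl le_rfl) (fun τ hτ => (norm_force_le _ _).trans
      (by linarith [hC (τ, (Z τ z).1) ⟨hτ, mem_univ _⟩])) hs' hs
  simpa [Real.norm_eq_abs] using this

theorem MomB.mono {t Q t' Q' : ℝ} (h : MomB f₀ Z t Q) (ht : t' ≤ t) (hQ : Q ≤ Q') :
    MomB f₀ Z t' Q' := by
  exact fun z hz s hs => (h z hz s ⟨hs.1, hs.2.trans ht⟩).trans hQ

/-- Markov's inequality for the energy -/
theorem TSol.markov (h : TSol κ T f₀ K₀ Kd f K Z) {En : ℝ} (he : EnB T f K En) {t p₀ : ℝ}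
    (ht : t ∈ Icc 0 T) (hp : 0 < p₀) :
    ∫⁻ z in {z | p₀ ≤ pp (Z t z).2}, ENNReal.ofReal (f₀ z) ≤ ENNReal.ofReal (En / p₀) := by
  have hpc : Continuous fun z : Ph => pp z.2 := contDiff_pp.continuous.comp continuous_snd
  have hZ : Measurable (Z t) := h.traj.meas.comp (measurable_const.prodMk measurable_id)
  have hfc : Continuous fun z : Ph => f (t, z) :=
    h.hf.continuousOn.comp_continuous (by fun_prop) fun z => ⟨ht, mem_univ _⟩
  have hg : Measurable fun z : Ph => ENNReal.ofReal (pp z.2 / p₀) :=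
    (hpc.measurable.div_const _).ennreal_ofReal
  have hS : MeasurableSet {z | p₀ ≤ pp (Z t z).2} :=
    measurableSet_le measurable_const (hpc.measurable.comp hZ)
  have hm2 : Measurable fun z : Ph => ENNReal.ofReal (f (t, z) * pp z.2) :=
    (hfc.mul hpc).measurable.ennreal_ofReal
  calc ∫⁻ z in {z | p₀ ≤ pp (Z t z).2}, ENNReal.ofReal (f₀ z)
      ≤ ∫⁻ z in {z | p₀ ≤ pp (Z t z).2},
          ENNReal.ofReal (f₀ z) * ENNReal.ofReal (pp (Z t z).2 / p₀) := by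
        refine setLIntegral_mono' hS fun z hz => ?_
        refine le_mul_of_one_le_right' ?_
        rw [ENNReal.one_le_ofReal, le_div_iff₀ hp, one_mul]
        exact hz
    _ ≤ ∫⁻ z, ENNReal.ofReal (f₀ z) * ENNReal.ofReal (pp (Z t z).2 / p₀) :=
        setLIntegral_le_lintegral _ _
    _ = ∫⁻ z, ENNReal.ofReal (f (t, z)) * ENNReal.ofReal (pp z.2 / p₀) :=
        (h.traj.push t ht _ hg).symm
    _ = ∫⁻ z : Ph, ENNReal.ofReal (f (t, z) * pp z.2) * ENNReal.ofReal p₀⁻¹ := by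
        refine lintegral_congr fun z => ?_
        have h0 : 0 ≤ f (t, z) := h.nonneg _ ⟨ht, mem_univ _⟩
        rw [← ENNReal.ofReal_mul h0, ← ENNReal.ofReal_mul (mul_nonneg h0 (pp_pos _).le),
          div_eq_mul_inv, mul_assoc]
    _ = (∫⁻ x, ∫⁻ v, ENNReal.ofReal (f (t, x, v) * pp v)) * ENNReal.ofReal p₀⁻¹ := by
        rw [lintegral_mul_const _ hm2, Measure.volume_eq_prod, lintegral_prod _ hm2.aemeasurable]
    _ ≤ ENNReal.ofReal En * ENNReal.ofReal p₀⁻¹ := by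
        gcongr
        exact (lintegral_mono fun x => le_self_add).trans (he t ht)
    _ = ENNReal.ofReal (En / p₀) := by
        rw [div_eq_mul_inv, ENNReal.ofReal_mul' (inv_nonneg.2 hp.le)]

theorem field_bound (P Tm A Cd : ℝ) : ∃ M, ∀ (T : ℝ) (f₀ : Ph → ℝ) (K₀ : R3 → Ph) (Kd : ST → Ph)
    (f : TP → ℝ) (K : ST → Ph) (Z : ℝ → Ph → Ph), TSol id T f₀ K₀ Kd f K Z → T ≤ Tm →
    (∀ z, f₀ z ≤ A) → (∀ p ∈ slab R3 T, ‖Kd p‖ ≤ Cd) → MomB f₀ Z T P →
    ∀ p ∈ slab R3 T, ‖K p‖ ≤ M := by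
  obtain ⟨C, hC0, hC⟩ := rep_bound Tm P
  refine ⟨(2 * Cd + 1) * exp ((4 * C * A + 1) * Tm), ?_⟩
  intro T f₀ K₀ Kd f K Z h hT hA hd hm
  have hA0 : 0 ≤ A := (h.nonneg₀ 0).trans (hA 0)
  have h00 : ((0 : ℝ), (0 : R3)) ∈ slab R3 T := ⟨⟨le_rfl, h.hT.le⟩, mem_univ _⟩
  have hCd : 0 ≤ Cd := (norm_nonneg _).trans (hd _ h00)
  have hCA : 0 ≤ C * A := mul_nonneg hC0 hA0
  set l := 4 * C * A + 1 with hl
  have hl0 : 0 < l := by rw [hl]; nlinarith
  have hvs : VS (Icc 0 T) P f := fun p hp hf =>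
    (norm_le_pp _).trans (h.supp_of le_rfl hm p ⟨hp, mem_univ _⟩ hf)
  have htr := h.trans hvs
  obtain ⟨C', hC', -⟩ := h.lip
  set S : Set ℝ := (fun p : ST => exp (-(l * p.1)) * ‖K p‖) '' slab R3 T with hS
  have hexp : ∀ p ∈ slab R3 T, exp (-(l * p.1)) ≤ 1 := fun p hp =>
    exp_le_one_iff.2 (neg_nonpos.2 (mul_nonneg hl0.le hp.1.1))
  have hbdd : BddAbove S := by
    refine ⟨C', ?_⟩
    rintro _ ⟨p, hp, rfl⟩
    exact (mul_le_of_le_one_left (norm_nonneg _) (hexp p hp)).trans (hC' p hp)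
  have hne : S.Nonempty := ⟨_, mem_image_of_mem _ h00⟩
  set N := sSup S with hN
  have hKN : ∀ p ∈ slab R3 T, ‖K p‖ ≤ N * exp (l * p.1) := by
    intro p hp
    have h1 : exp (-(l * p.1)) * ‖K p‖ ≤ N := le_csSup hbdd (mem_image_of_mem _ hp)
    rw [exp_neg, inv_mul_le_iff₀ (exp_pos _)] at h1
    linarith
  have hN0 : 0 ≤ N := by
    have := (norm_nonneg _).trans (hKN _ h00)
    simpa using this
  have hNle : N ≤ Cd + (1 + 2 * N) / 4 := by
    refine csSup_le hne ?_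
    rintro _ ⟨p, hp, rfl⟩
    have key := hC T Kd K f (fun _ => 0) (gF f K) (A * (1 + 2 * N)) l p hT htr hl0 hp (h.rep p hp)
      (by
        intro r hr
        have hrT : r.1 ∈ Icc 0 T := ⟨hr.1, hr.2.trans hp.1.2⟩
        have he1 : 1 ≤ exp (l * r.1) := one_le_exp (mul_nonneg hl0.le hr.1)
        have hf0 : 0 ≤ f r := h.nonneg r ⟨hrT, mem_univ _⟩
        have hfA : f r ≤ A := h.le A hA r ⟨hrT, mem_univ _⟩
        have hAN : 0 ≤ A * N := mul_nonneg hA0 hN0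
        refine ⟨?_, ?_, ?_⟩
        · rw [abs_of_nonneg hf0]
          calc f r ≤ A * (1 + 2 * N) * 1 := by nlinarith
            _ ≤ _ := by gcongr
        · have h1 := hKN (r.1, r.2.1) ⟨hrT, mem_univ _⟩
          have h2 := norm_force_le (K (r.1, r.2.1)) r.2.2
          unfold gF
          rw [norm_smul, Real.norm_eq_abs, abs_of_nonneg hf0]
          calc f r * ‖force (K (r.1, r.2.1)) r.2.2‖ ≤ A * (2 * (N * exp (l * r.1))) := by
                gcongr
                exact h2.trans (by simpa using h1)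
            _ ≤ A * (1 + 2 * N) * exp (l * r.1) := by nlinarith [mul_nonneg hA0 (exp_pos (l * r.1)).le]
        · simp only [abs_zero]
          positivity)
    have h1 : ‖K p‖ ≤ Cd + C * (A * (1 + 2 * N)) * exp (l * p.1) / l := by
      have := norm_add_le (Kd p) (K p - Kd p)
      rw [add_sub_cancel] at this
      linarith [hd p hp]
    have h2 : C * (A * (1 + 2 * N)) / l ≤ (1 + 2 * N) / 4 := by
      rw [div_le_div_iff₀ hl0 (by norm_num), hl]
      nlinarith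
    have h3 : exp (-(l * p.1)) * exp (l * p.1) = 1 := by rw [← exp_add]; simp
    calc exp (-(l * p.1)) * ‖K p‖
        ≤ exp (-(l * p.1)) * (Cd + C * (A * (1 + 2 * N)) * exp (l * p.1) / l) := by gcongr
      _ = exp (-(l * p.1)) * Cd + C * (A * (1 + 2 * N)) / l * (exp (-(l * p.1)) * exp (l * p.1)) := by
          ring
      _ ≤ Cd + (1 + 2 * N) / 4 := by
          rw [h3, mul_one]
          exact add_le_add (mul_le_of_le_one_left hCd (hexp p hp)) h2
  intro p hp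
  refine (hKN p hp).trans ?_
  gcongr
  · linarith
  · exact hp.1.2.trans hT

end Crest.Agent.R106
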