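import Crest.Agent.R106.Flux
import Crest.Agent.R106.Supp

/-!
# Row 106: conservation of energy

`poynting`: pointwise algebra from `Maxwell` (two solutions, to be used with `K' = 0`-like trivial data as well as
for differences; `pd` of products, `fin_cases`/`Fin.sum_univ_three`).
`cons_energy`: `∂_t ∫ f p + div ∫ f v = ∫ p (∂_t f + v̂·∇ f) = -∫ p F·∇_v f = ∫ f F·v̂ = E·j`
(`vint_contDiffOn`, `integral_force` for `φ = f p`, `fderiv_pp`, `inner_force`).  `‖eS‖ ≤ eD`: `‖∫ f v‖ ≤ ∫ f p`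
(test against a unit vector), `‖E × B‖ ≤ (‖E‖² + ‖B‖²)/2`.  `energy`: `En = ∫ eD` at `t = 0` (finite);
`cons_tail` with `R = 0`, `cons_flux`, `good_sq_le`, `ofReal_integral_eq_lintegral_ofReal`.

-/

set_option autoImplicit false

noncomputable section

namespace Crest.Agent.R106

open MeasureTheory Set Metric Real Filter Topology
open scoped ContDiff ENNReal RealInnerProductSpace Classical
open Crest.AnalysisR.VecCalc3 Crest.AnalysisR.PDE.RVM

variable {κ : Ph → Ph} {T : ℝ} {f₀ : Ph → ℝ} {K₀ : R3 → Ph} {Kd K : ST → Ph} {f : TP → ℝ}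
  {Z : ℝ → Ph → Ph}


theorem En2_dE {K : ST → Ph} {p : ST} (hK : DifferentiableAt ℝ K p) (i : Fin 3) :
    DifferentiableAt ℝ (cE K i) p :=
  (EuclideanSpace.proj (𝕜 := ℝ) i).differentiableAt.comp p hK.fst

theorem En2_dB {K : ST → Ph} {p : ST} (hK : DifferentiableAt ℝ K p) (i : Fin 3) :
    DifferentiableAt ℝ (cB K i) p :=
  (EuclideanSpace.proj (𝕜 := ℝ) i).differentiableAt.comp p hK.snd

theorem En2_fld {K : ST → Ph} {p : ST} (hK : DifferentiableAt ℝ K p) (u : ST) :
    pd u (fun r => (‖(K r).1‖ ^ 2 + ‖(K r).2‖ ^ 2) / 2) p =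
      ∑ i, ((K p).1 i * pd u (cE K i) p + (K p).2 i * pd u (cB K i) p) := by
  have e : (fun r => (‖(K r).1‖ ^ 2 + ‖(K r).2‖ ^ 2) / 2) = fun r => (1 / 2 : ℝ) *
      (cE K 0 r * cE K 0 r + cE K 1 r * cE K 1 r + cE K 2 r * cE K 2 r +
        (cB K 0 r * cB K 0 r + cB K 1 r * cB K 1 r + cB K 2 r * cB K 2 r)) := by
    funext r
    simp only [Cross_norm_sq, cE, cB]
    ring
  have a := fun i => (En2_dE hK i).hasFDerivAt
  have b := fun i => (En2_dB hK i).hasFDerivAt
  have h := (((((a 0).fun_mul (a 0)).fun_add ((a 1).fun_mul (a 1))).fun_add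
    ((a 2).fun_mul (a 2))).fun_add ((((b 0).fun_mul (b 0)).fun_add
      ((b 1).fun_mul (b 1))).fun_add ((b 2).fun_mul (b 2)))).const_mul (1 / 2 : ℝ)
  rw [e, pd, h.fderiv, Fin.sum_univ_three]
  simp only [ContinuousLinearMap.smul_apply, ContinuousLinearMap.add_apply, smul_eq_mul, pd]
  simp only [cE, cB]
  ring

theorem En2_cross {K : ST → Ph} {p : ST} (hK : DifferentiableAt ℝ K p) (u : ST) (i : Fin 3) :
    pd u (fun r => cross3 (K r).1 (K r).2 i) p =
      (K p).1 (i + 1) * pd u (cB K (i + 2)) p + (K p).2 (i + 2) * pd u (cE K (i + 1)) p -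
        ((K p).1 (i + 2) * pd u (cB K (i + 1)) p + (K p).2 (i + 1) * pd u (cE K (i + 2)) p) := by
  have e : (fun r => cross3 (K r).1 (K r).2 i) = fun r =>
      cE K (i + 1) r * cB K (i + 2) r - cE K (i + 2) r * cB K (i + 1) r := by
    funext r
    rw [cross3_apply]
    rfl
  have a := fun i => (En2_dE hK i).hasFDerivAt
  have b := fun i => (En2_dB hK i).hasFDerivAt
  have h := ((a (i + 1)).fun_mul (b (i + 2))).fun_sub ((a (i + 2)).fun_mul (b (i + 1)))
  rw [e, pd, h.fderiv]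
  simp only [ContinuousLinearMap.smul_apply, ContinuousLinearMap.add_apply,
    ContinuousLinearMap.sub_apply, smul_eq_mul, pd]
  simp only [cE, cB]

/-- Poynting's identity for fields with `∂_t E - curl B = -j`, `∂_t B + curl E = 0` -/
theorem poynting {K : ST → Ph} {p : ST} (hK : DifferentiableAt ℝ K p) {j : Fin 3 → ℝ}
    (h1 : ∀ i, pd (1, 0) (cE K i) p - cu (cB K) i p = -j i)
    (h2 : ∀ i, pd (1, 0) (cB K i) p + cu (cE K) i p = 0) :
    pd (1, 0) (fun r => (‖(K r).1‖ ^ 2 + ‖(K r).2‖ ^ 2) / 2) p +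
      dx (fun i r => cross3 (K r).1 (K r).2 i) p = -∑ i, (K p).1 i * j i := by
  have a0 := h1 0
  have a1 := h1 1
  have a2 := h1 2
  have b0 := h2 0
  have b1 := h2 1
  have b2 := h2 2
  have e01 : (0 : Fin 3) + 1 = 1 := rfl
  have e02 : (0 : Fin 3) + 2 = 2 := rfl
  have e11 : (1 : Fin 3) + 1 = 2 := rfl
  have e12 : (1 : Fin 3) + 2 = 0 := rfl
  have e21 : (2 : Fin 3) + 1 = 0 := rfl
  have e22 : (2 : Fin 3) + 2 = 1 := rfl
  simp only [cu, e01, e02, e11, e12, e21, e22] at a0 a1 a2 b0 b1 b2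
  rw [En2_fld hK, dx]
  simp only [En2_cross hK, Fin.sum_univ_three, e01, e02, e11, e12, e21, e22]
  linear_combination (K p).1 0 * a0 + (K p).1 1 * a1 + (K p).1 2 * a2 + (K p).2 0 * b0 +
    (K p).2 1 * b1 + (K p).2 2 * b2

theorem En2_vs {S : Set ℝ} {P : ℝ} (hs : VS S P f) (g : TP → ℝ) : VS S P fun r => f r * g r :=
  fun p hp h => hs p hp (left_ne_zero_of_mul h)

theorem En2_pp : ContDiff ℝ ∞ fun r : TP => pp r.2.2 := contDiff_pp.comp contDiff_snd.snd

theorem En2_co (i : Fin 3) : ContDiff ℝ ∞ fun r : TP => r.2.2 i :=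
  (EuclideanSpace.proj (𝕜 := ℝ) i).contDiff.comp contDiff_snd.snd

/-- the momentum density tested against a vector -/
theorem En2_inner {S : Set ℝ} {P : ℝ} (hf : ContinuousOn f (S ×ˢ univ)) (hs : VS S P f) {p : ST}
    (hp : p.1 ∈ S) (n : R3) :
    ⟪n, vec fun i => vint (fun r => f r * r.2.2 i) p⟫ = ∫ v, f (p.1, p.2, v) * ⟪n, v⟫ := by
  have hi : ∀ i : Fin 3, Integrable fun v : R3 => n i * (f (p.1, p.2, v) * v i) := fun i =>
    (pint_integrable (g := fun r => f r * r.2.2 i) (hf.mul (En2_co i).continuous.continuousOn)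
      (En2_vs hs _) hp p.2).const_mul _
  rw [inner_eq_sum]
  simp only [vec_apply, vint, ← integral_const_mul]
  rw [← integral_finsetSum _ fun i _ => hi i]
  refine integral_congr_ae (Eventually.of_forall fun v => ?_)
  simp only [inner_eq_sum, Finset.mul_sum]
  exact Finset.sum_congr rfl fun i _ => by ring

theorem En2_int_inner {S : Set ℝ} {P : ℝ} (hf : ContinuousOn f (S ×ˢ univ)) (hs : VS S P f)
    {p : ST} (hp : p.1 ∈ S) (n : R3) : Integrable fun v : R3 => f (p.1, p.2, v) * ⟪n, v⟫ :=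
  pint_integrable (g := fun r => f r * ⟪n, r.2.2⟫)
    (hf.mul (continuous_const.inner continuous_snd.snd).continuousOn) (En2_vs hs _) hp p.2

theorem En2_int_pp {S : Set ℝ} {P : ℝ} (hf : ContinuousOn f (S ×ˢ univ)) (hs : VS S P f)
    {p : ST} (hp : p.1 ∈ S) : Integrable fun v : R3 => f (p.1, p.2, v) * pp v :=
  pint_integrable (g := fun r => f r * pp r.2.2)
    (hf.mul En2_pp.continuous.continuousOn) (En2_vs hs _) hp p.2

theorem En2_inner_nn (w : R3) : ⟪nn w, w⟫ = ‖w‖ := by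
  rw [nn, real_inner_smul_left, real_inner_self_eq_norm_sq]
  by_cases hw : ‖w‖ = 0
  · simp [hw]
  · field_simp

theorem En2_int_fd {U : Set ℝ} (hU : IsOpen U) {g : TP → ℝ}
    (hg : ContDiffOn ℝ 1 g (U ×ˢ univ)) {R : ℝ} (hs : VS U R g) {t : ℝ} (ht : t ∈ U) (x : R3)
    (μ : TP) : Integrable fun v => fderiv ℝ g (t, x, v) μ := by
  have hO : IsOpen (U ×ˢ (univ : Set Ph)) := hU.prod isOpen_univ
  refine pint_integrable (g := fun q => fderiv ℝ g q μ) (R := R)
    ((hg.continuousOn_fderiv_of_isOpen hO le_rfl).clm_apply continuousOn_const) ?_ ht x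
  intro q hq hne
  by_contra hlt
  rw [not_le] at hlt
  apply hne
  have h0 : g =ᶠ[𝓝 q] fun _ => 0 := by
    have a1 : ∀ᶠ r : TP in 𝓝 q, r.1 ∈ U := continuous_fst.continuousAt.eventually (hU.mem_nhds hq)
    have a2 : ∀ᶠ r : TP in 𝓝 q, R < ‖r.2.2‖ :=
      (continuous_snd.snd.norm.continuousAt (x := q)).eventually (lt_mem_nhds hlt)
    filter_upwards [a1, a2] with r h1 h2
    by_contra h3
    exact absurd (hs r h1 h3) (not_le.2 h2)
  simp [h0.fderiv_eq]

/-- a weight that only depends on the momentum -/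
theorem En2_wt {g : TP → ℝ} {w : R3 → ℝ} {q : TP} (hg : DifferentiableAt ℝ g q)
    (hw : DifferentiableAt ℝ w q.2.2) (τ : ℝ) (u : R3) :
    fderiv ℝ (fun r => g r * w r.2.2) q (τ, u, 0) = fderiv ℝ g q (τ, u, 0) * w q.2.2 := by
  have a : HasFDerivAt (fun r : TP => r.2.2)
      ((ContinuousLinearMap.snd ℝ R3 R3).comp (ContinuousLinearMap.snd ℝ ℝ Ph)) q :=
    hasFDerivAt_snd.comp q hasFDerivAt_snd
  have b : HasFDerivAt (fun r : TP => w r.2.2) _ q := hw.hasFDerivAt.comp q a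
  rw [(hg.hasFDerivAt.fun_mul b).fderiv]
  simp [mul_comm]

/-- the kinetic energy balance -/
theorem En2_kin {U : Set ℝ} (hU : IsOpen U) (hf : ContDiffOn ℝ 1 f (U ×ˢ univ)) {R : ℝ}
    (hs : VS U R f) {p : ST} (hp : p.1 ∈ U) (hv : ∀ v, Vlasov K f (p.1, p.2, v)) :
    fderiv ℝ (vint fun r => f r * pp r.2.2) p (1, 0) +
      ∑ i, fderiv ℝ (vint fun r => f r * r.2.2 i) p (0, ee i) = ∑ i, (K p).1 i * cur f i p := by
  have hO : IsOpen (U ×ˢ (univ : Set Ph)) := hU.prod isOpen_univ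
  have g0 : ContDiffOn ℝ 1 (fun r : TP => f r * pp r.2.2) (U ×ˢ univ) :=
    hf.mul (En2_pp.of_le (by simp)).contDiffOn
  have g1 : ∀ i : Fin 3, ContDiffOn ℝ 1 (fun r : TP => f r * r.2.2 i) (U ×ˢ univ) := fun i =>
    hf.mul ((En2_co i).of_le (by simp)).contDiffOn
  have hp' : p ∈ U ×ˢ (univ : Set R3) := ⟨hp, mem_univ _⟩
  have hat : ∀ v : R3, ContDiffAt ℝ 1 f (p.1, p.2, v) := fun v =>
    hf.contDiffAt (hO.mem_nhds ⟨hp, mem_univ _⟩)
  have hd : ∀ v : R3, DifferentiableAt ℝ f (p.1, p.2, v) := fun v =>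
    (hat v).differentiableAt (by simp)
  have hφ0 : ContDiff ℝ 1 fun v : R3 => f (p.1, p.2, v) := contDiff_iff_contDiffAt.2 fun v =>
    (hat v).comp v (f := fun v : R3 => ((p.1, p.2, v) : TP)) (by fun_prop)
  have hφ : ContDiff ℝ 1 fun v : R3 => f (p.1, p.2, v) * pp v :=
    hφ0.mul (contDiff_pp.of_le (by simp))
  have hc : HasCompactSupport fun v : R3 => f (p.1, p.2, v) * pp v :=
    HasCompactSupport.intro (isCompact_closedBall (0 : R3) R) fun v hv => by
      by_contra h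
      exact hv (mem_closedBall_zero_iff.2 (hs (p.1, p.2, v) hp (left_ne_zero_of_mul h)))
  have a3 := integral_force (K p) hφ hc
  have a1 := En2_int_fd hU g0 (En2_vs hs _) hp p.2 (1, 0, 0)
  have a2 := fun i => En2_int_fd hU (g1 i) (En2_vs hs _) hp p.2 (0, ee i, 0)
  have a4 : ∀ i : Fin 3, Integrable fun v : R3 => (K p).1 i * (f (p.1, p.2, v) * relVel v i) :=
    fun i => (pint_integrable (g := fun r => f r * relVel r.2.2 i)
      (hf.continuousOn.mul (pint_relVel i).continuous.continuousOn) (En2_vs hs _) hp p.2).const_mul _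
  have a5 : Integrable fun v : R3 =>
      fderiv ℝ (fun r : TP => f r * pp r.2.2) (p.1, p.2, v) (1, 0, 0) +
        ∑ i, fderiv ℝ (fun r : TP => f r * r.2.2 i) (p.1, p.2, v) (0, ee i, 0) :=
    a1.add (integrable_finsetSum _ fun i _ => a2 i)
  rw [(vint_contDiffOn hU g0 (En2_vs hs _)).2 p hp']
  simp only [fun i => (vint_contDiffOn hU (g1 i) (En2_vs hs _)).2 p hp' 0 (ee i), cur, vint,
    ← integral_const_mul]
  rw [← integral_finsetSum _ fun i _ => a2 i, ← integral_finsetSum _ fun i _ => a4 i,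
    ← integral_add a1 (integrable_finsetSum _ fun i _ => a2 i), ← sub_eq_zero,
    ← integral_sub a5 (integrable_finsetSum _ fun i _ => a4 i)]
  refine Eq.trans ?_ (neg_eq_zero.2 a3)
  rw [← integral_neg]
  refine integral_congr_ae (Eventually.of_forall fun v => ?_)
  have b1 : fderiv ℝ f (p.1, p.2, v) (1, relVel v, force (K p) v) = 0 := hv v
  have b2 : ((1, relVel v, force (K p) v) : TP) = (1, 0, 0) +
      ∑ i, relVel v i • (((0 : ℝ), ee i, (0 : R3)) : TP) + (0, 0, force (K p) v) := by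
    refine Prod.ext ?_ (Prod.ext ?_ ?_)
    · simp [Prod.fst_sum]
    · simp [Prod.fst_sum, Prod.snd_sum, sum_ee]
    · simp [Prod.snd_sum]
  rw [b2, map_add, map_add, map_sum] at b1
  simp only [map_smul, smul_eq_mul, Fin.sum_univ_three] at b1
  have c0 := En2_wt (w := pp) (hd v) (contDiff_pp.differentiable (by simp) _) 1 0
  have c1 := fun i => En2_wt (w := fun v : R3 => v i) (hd v)
    (EuclideanSpace.proj (𝕜 := ℝ) i).differentiableAt 0 (ee i)
  have c2 : fderiv ℝ (fun v : R3 => f (p.1, p.2, v) * pp v) v (force (K p) v) =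
      f (p.1, p.2, v) * ⟪(K p).1, relVel v⟫ +
        pp v * fderiv ℝ f (p.1, p.2, v) (0, 0, force (K p) v) := by
    rw [fderiv_fun_mul (hφ0.differentiable (by simp) v) (contDiff_pp.differentiable (by simp) v)]
    simp only [ContinuousLinearMap.add_apply, ContinuousLinearMap.smul_apply, smul_eq_mul]
    rw [pint_slice (hd v), fderiv_pp, real_inner_comm, inner_force]
  have c3 : ∀ i, v i = pp v * relVel v i := fun i => by
    conv_lhs => rw [← pp_smul_relVel v]
    rfl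
  simp only [Pi.add_apply, c0, c1, c2, Fin.sum_univ_three, Cross_inner]
  rw [c3 0, c3 1, c3 2]
  linear_combination pp v * b1

theorem TSol.cons_energy (h : TSol id T f₀ K₀ Kd f K Z) : Cons T (eD f K) (eS f K) := by
  obtain ⟨R, hR⟩ := h.supp
  have hs : VS (Icc 0 T) R f := fun p hp hne =>
    (norm_snd_le p.2).trans (hR p ⟨hp, mem_univ _⟩ hne)
  have hs' : VS (Ioo 0 T) R f := fun p hp => hs p (Ioo_subset_Icc_self hp)
  have hfc : ContinuousOn f (Icc 0 T ×ˢ univ) := h.hf.continuousOn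
  have hKc : ContinuousOn K (slab R3 T) := h.hK.continuousOn
  have hf1 : ContDiffOn ℝ 1 f (Ioo 0 T ×ˢ univ) :=
    (h.hf.of_le (by simp)).mono (prod_mono Ioo_subset_Icc_self Subset.rfl)
  have hK1 : ContDiffOn ℝ 1 K (oslab R3 T) :=
    (h.hK.of_le (by simp)).mono (prod_mono Ioo_subset_Icc_self Subset.rfl)
  have g0 : ContDiffOn ℝ 1 (vint fun r : TP => f r * pp r.2.2) (oslab R3 T) :=
    (vint_contDiffOn isOpen_Ioo (hf1.mul (En2_pp.of_le (by simp)).contDiffOn) (En2_vs hs' _)).1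
  have g1 : ∀ i : Fin 3, ContDiffOn ℝ 1 (vint fun r : TP => f r * r.2.2 i) (oslab R3 T) := fun i =>
    (vint_contDiffOn isOpen_Ioo (hf1.mul ((En2_co i).of_le (by simp)).contDiffOn) (En2_vs hs' _)).1
  have g2 : ContDiffOn ℝ 1 (fun r => (‖(K r).1‖ ^ 2 + ‖(K r).2‖ ^ 2) / 2) (oslab R3 T) :=
    ((hK1.fst.norm_sq ℝ).add (hK1.snd.norm_sq ℝ)).div_const 2
  have g3 : ContDiffOn ℝ 1 (fun r => cross3 (K r).1 (K r).2) (oslab R3 T) :=
    (contDiff_cross3.of_le (by simp)).comp_contDiffOn hK1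
  refine ⟨?_, ?_, g0.add g2, (contDiffOn_vec g1).add g3, fun p hp => ?_, fun p hp => ?_⟩
  · exact (vint_continuousOn (hfc.mul En2_pp.continuous.continuousOn) (En2_vs hs _)).add
      (((hKc.fst.norm.pow 2).add (hKc.snd.norm.pow 2)).div_const 2)
  · refine ContinuousOn.add ?_ (contDiff_cross3.continuous.comp_continuousOn hKc)
    exact (contDiffOn_vec (n := 0) fun i => contDiffOn_zero.2
      (vint_continuousOn (hfc.mul (En2_co i).continuous.continuousOn) (En2_vs hs _))).continuousOn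
  · refine (norm_add_le _ _).trans (add_le_add ?_ ?_)
    · rw [← En2_inner_nn, En2_inner hfc hs hp.1]
      refine integral_mono (En2_int_inner hfc hs hp.1 _) (En2_int_pp hfc hs hp.1) fun v => ?_
      refine mul_le_mul_of_nonneg_left ?_ (h.nonneg (p.1, p.2, v) ⟨hp.1, mem_univ _⟩)
      exact (real_inner_le_norm _ _).trans
        ((mul_le_of_le_one_left (norm_nonneg _) (norm_nn_le _)).trans (norm_le_pp v))
    · refine (norm_cross3_le _ _).trans ?_
      nlinarith [sq_nonneg (‖(K p).1‖ - ‖(K p).2‖)]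
  · have hO : oslab R3 T ∈ 𝓝 p := (isOpen_Ioo.prod isOpen_univ).mem_nhds hp
    have d0 := (g0.contDiffAt hO).differentiableAt (by simp)
    have d1 := fun i => ((g1 i).contDiffAt hO).differentiableAt (by simp)
    have d2 := (g2.contDiffAt hO).differentiableAt (by simp)
    have d3 : ∀ i : Fin 3, DifferentiableAt ℝ (fun r => cross3 (K r).1 (K r).2 i) p := fun i =>
      (EuclideanSpace.proj (𝕜 := ℝ) i).differentiableAt.comp p
        ((g3.contDiffAt hO).differentiableAt (by simp))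
    have dK := (hK1.contDiffAt hO).differentiableAt (by simp)
    have e1 := poynting dK (h.mxw p hp).1 (h.mxw p hp).2.1
    have e2 := En2_kin (K := K) isOpen_Ioo hf1 hs' hp.1 fun v =>
      h.vl (p.1, p.2, v) ⟨hp.1, mem_univ _⟩
    have e3 : pd (1, 0) (eD f K) p = fderiv ℝ (vint fun r => f r * pp r.2.2) p (1, 0) +
        pd (1, 0) (fun r => (‖(K r).1‖ ^ 2 + ‖(K r).2‖ ^ 2) / 2) p :=
      congrArg (fun B : ST →L[ℝ] ℝ => B (1, 0)) (fderiv_fun_add d0 d2)
    have e4 : ∀ i, pd (0, ee i) (fun q => eS f K q i) p =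
        fderiv ℝ (vint fun r => f r * r.2.2 i) p (0, ee i) +
          pd (0, ee i) (fun r => cross3 (K r).1 (K r).2 i) p := fun i =>
      congrArg (fun B : ST →L[ℝ] ℝ => B (0, ee i)) (fderiv_fun_add (d1 i) (d3 i))
    simp only [dx] at e1 ⊢
    simp only [e3, e4, Finset.sum_add_distrib]
    linarith

theorem Adm.energy_fin (h : Adm f₀ K₀) :
    ∫⁻ x, ENNReal.ofReal ((∫ v, f₀ (x, v) * pp v) + (‖(K₀ x).1‖ ^ 2 + ‖(K₀ x).2‖ ^ 2) / 2) < ⊤ := by
  have h1 : Integrable (fun z : Ph => f₀ z * pp z.2) (volume.prod volume) :=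
    (h.smooth.continuous.mul
      (contDiff_pp.continuous.comp continuous_snd)).integrable_of_hasCompactSupport h.cpt.mul_right
  have h2 := (memLp_two_iff_integrable_sq_norm h.l2E.1).1 h.l2E
  have h3 := (memLp_two_iff_integrable_sq_norm h.l2B.1).1 h.l2B
  exact (h1.integral_prod_left.add ((h2.add h3).div_const 2)).lintegral_lt_top

theorem Adm.energy (h : Adm f₀ K₀) : ∃ En, 0 ≤ En ∧ ∀ (T : ℝ) (Kd : ST → Ph) (f : TP → ℝ)
    (K : ST → Ph) (Z : ℝ → Ph → Ph), TSol id T f₀ K₀ Kd f K Z → EnB T f K En ∧ FluxB T f K En := by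
  refine ⟨_, ENNReal.toReal_nonneg (a := ∫⁻ x, ENNReal.ofReal ((∫ v, f₀ (x, v) * pp v) +
    (‖(K₀ x).1‖ ^ 2 + ‖(K₀ x).2‖ ^ 2) / 2)), fun T Kd f K Z hS => ?_⟩
  have hc := hS.cons_energy
  obtain ⟨R, hR⟩ := hS.supp
  have hs : VS (Icc 0 T) R f := fun p hp hne =>
    (norm_snd_le p.2).trans (hR p ⟨hp, mem_univ _⟩ hne)
  have hfc : ContinuousOn f (Icc 0 T ×ˢ univ) := hS.hf.continuousOn
  have e0 : ∫⁻ x, ENNReal.ofReal (eD f K (0, x)) = ENNReal.ofReal (∫⁻ x, ENNReal.ofReal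
      ((∫ v, f₀ (x, v) * pp v) + (‖(K₀ x).1‖ ^ 2 + ‖(K₀ x).2‖ ^ 2) / 2)).toReal := by
    rw [ENNReal.ofReal_toReal h.energy_fin.ne]
    refine lintegral_congr fun x => ?_
    simp only [eD, vint, hS.initK]
    congr 2
    exact integral_congr_ae (Eventually.of_forall fun v => by
      simp only []
      rw [hS.initf (x, v)])
  refine ⟨fun t ht => ?_, fun p hp => ?_⟩
  · have h1 := cons_tail hc ht 0
    have e1 : {x : R3 | 0 ≤ ‖x‖} = univ := eq_univ_of_forall fun x => norm_nonneg x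
    rw [e1, Measure.restrict_univ] at h1
    refine le_trans (le_of_eq (lintegral_congr fun x => ?_))
      (h1.trans ((setLIntegral_le_lintegral _ _).trans e0.le))
    have n1 : ∀ v, 0 ≤ f (t, x, v) * pp v := fun v =>
      mul_nonneg (hS.nonneg (t, x, v) ⟨ht, mem_univ _⟩) (pp_pos v).le
    rw [← ofReal_integral_eq_lintegral_ofReal (En2_int_pp (p := (t, x)) hfc hs ht)
      (Eventually.of_forall n1), ← ENNReal.ofReal_add (integral_nonneg n1) (by positivity)]
    rfl
  · refine le_trans (setLIntegral_mono' measurableSet_ball fun y hy => ?_)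
      ((cons_flux hc hp).trans e0.le)
    have hy' : ‖y‖ < p.1 := mem_ball_zero_iff.1 hy
    have ht : (cone2 p y).1 ∈ Icc 0 T :=
      ⟨sub_nonneg.2 hy'.le, (sub_le_self _ (norm_nonneg y)).trans hp.1.2⟩
    have e2 : ∀ v, f (cone p (y, v)) * (pp v * gap (nn y) (relVel v)) =
        f ((cone2 p y).1, (cone2 p y).2, v) * pp v -
          f ((cone2 p y).1, (cone2 p y).2, v) * ⟪nn y, v⟫ := fun v => by
      have : ⟪nn y, v⟫ = pp v * ⟪nn y, relVel v⟫ := by
        rw [← real_inner_smul_right, pp_smul_relVel]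
      rw [this, gap]
      change f ((cone2 p y).1, (cone2 p y).2, v) * _ = _
      ring
    have n1 : ∀ v, 0 ≤ f (cone p (y, v)) * (pp v * gap (nn y) (relVel v)) := fun v =>
      mul_nonneg (hS.nonneg _ ⟨ht, mem_univ _⟩) (mul_nonneg (pp_pos v).le
        (gap_nonneg (norm_nn_le y) (norm_relVel_lt v).le))
    have i1 := En2_int_pp hfc hs ht
    have i2 := En2_int_inner hfc hs ht (nn y)
    have i3 : Integrable fun v => f (cone p (y, v)) * (pp v * gap (nn y) (relVel v)) := by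
      simp only [e2]
      exact i1.sub i2
    rw [← ofReal_integral_eq_lintegral_ofReal i3 (Eventually.of_forall n1),
      ← ENNReal.ofReal_add (integral_nonneg n1) (by positivity)]
    refine ENNReal.ofReal_le_ofReal ?_
    have e3 := good_sq_le (norm_nn_le y) (K (cone2 p y)).1 (K (cone2 p y)).2
    simp only [e2]
    rw [integral_sub i1 i2, eS, inner_add_right, En2_inner hfc hs ht, eD, good]
    simp only [vint]
    linarith

end Crest.Agent.R106
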