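import Crest.Agent.R106.It4

/-!
# Row 106: characteristics of the limit

The fields `b n = vf (κ ∘ K n)` are uniformly bounded and uniformly Lipschitz in `z` on the slab (`LimD.bK 1`,
`Iter.lipκ`, `relVel_lip`, boundedness of `κ`) and converge uniformly to `b' = vf (κ ∘ K')`.  Gronwall
(`dist_le_of_approx_trajectories_ODE`): `Z n` is uniformly Cauchy on `Icc 0 T × Ph`; put
`Z' t z = lim Z n (projIcc t) z` (continuous, hence measurable); pass to the limit in the integral equation.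
`push`: the finite measures `volume.withDensity (ofReal f'(t, ·))` and `(volume.withDensity (ofReal f₀)).map (Z' t)`
agree on bounded continuous functions (`VSol.push`, dominated convergence;
`ext_of_forall_lintegral_eq_of_IsFiniteMeasure` or `Crest.Agent.R285.flow_measure_ext`).

-/

set_option autoImplicit false

noncomputable section

namespace Crest.Agent.R106

open MeasureTheory Set Metric Real Filter Topology
open scoped ContDiff ENNReal RealInnerProductSpace Classical
open Crest.AnalysisR.VecCalc3 Crest.AnalysisR.PDE.RVM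

variable {κ : Ph → Ph} {f₀ : Ph → ℝ} {K₀ : R3 → Ph} {K : ℕ → ST → Ph} {f : ℕ → TP → ℝ}
  {Z : ℕ → ℝ → Ph → Ph}


theorem LimZ_ode {X : Type} [NormedAddCommGroup X] [NormedSpace ℝ X] [CompleteSpace X] {T L : ℝ}
    (hT : 0 < T) (hL : 0 < L) {b : ℕ → ℝ × X → X} {b' : ℝ × X → X} {Z : ℕ → ℝ → X → X}
    (lip : ∀ n, ∀ t ∈ Icc 0 T, ∀ z z', ‖b n (t, z) - b n (t, z')‖ ≤ L * ‖z - z'‖)
    (unif : TendstoUniformlyOn b b' atTop (slab X T)) (cb : ∀ n, Continuous (b n))
    (cZ : ∀ n, Continuous fun p : ℝ × X => Z n p.1 p.2) (zero : ∀ n z, Z n 0 z = z)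
    (ode : ∀ n t z, HasDerivAt (fun s => Z n s z) (b n (t, Z n t z)) t) :
    ∃ Z' : ℝ → X → X, (Continuous fun p : ℝ × X => Z' p.1 p.2) ∧ (∀ z, Z' 0 z = z) ∧
      (∀ z, ∀ t ∈ Icc 0 T, HasDerivWithinAt (fun s => Z' s z) (b' (t, Z' t z)) (Icc 0 T) t) ∧
      ∀ t ∈ Icc 0 T, ∀ z, Tendsto (fun n => Z n t z) atTop (𝓝 (Z' t z)) := by
  set pr : ℝ → ℝ := fun s => (projIcc 0 T hT.le s : ℝ) with hpr
  have prm : ∀ s, pr s ∈ Icc 0 T := fun s => (projIcc 0 T hT.le s).2
  have pre : ∀ s ∈ Icc 0 T, pr s = s := fun s hs => by simp only [hpr, projIcc_of_mem _ hs]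
  have prc : Continuous pr := continuous_subtype_val.comp continuous_projIcc
  set W : ℕ → ℝ × X → X := fun n p => Z n (pr p.1) p.2 with hW
  have cW : ∀ n, Continuous (W n) := fun n =>
    (cZ n).comp ((prc.comp continuous_fst).prodMk continuous_snd)
  have hC : UniformCauchySeqOn W atTop univ := by
    rw [Metric.uniformCauchySeqOn_iff]
    intro ε hε
    have hE := Real.exp_pos (L * T)
    obtain ⟨N, hN⟩ := Metric.uniformCauchySeqOn_iff.1 unif.uniformCauchySeqOn
      (ε * L / exp (L * T)) (by positivity)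
    refine ⟨N, fun m hm n hn p _ => ?_⟩
    have h1 := dist_le_of_approx_trajectories_ODE_of_mem (K := ⟨L, hL.le⟩)
      (v := fun t z => b m (t, z)) (s := fun _ => univ) (f := fun s => Z m s p.2)
      (g := fun s => Z n s p.2) (f' := fun s => b m (s, Z m s p.2))
      (g' := fun s => b n (s, Z n s p.2)) (a := 0) (b := T) (εf := 0)
      (εg := ε * L / exp (L * T)) (δ := 0)
      (fun t ht => (LipschitzWith.of_dist_le_mul fun z z' => by
        rw [dist_eq_norm, dist_eq_norm]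
        exact lip m t (Ico_subset_Icc_self ht) z z').lipschitzOnWith)
      (fun t _ => (ode m t p.2).continuousAt.continuousWithinAt)
      (fun t _ => (ode m t p.2).hasDerivWithinAt) (fun t _ => by simp) (fun _ _ => trivial)
      (fun t _ => (ode n t p.2).continuousAt.continuousWithinAt)
      (fun t _ => (ode n t p.2).hasDerivWithinAt)
      (fun t ht => (hN n hn m hm _ ⟨Ico_subset_Icc_self ht, trivial⟩).le) (fun _ _ => trivial)
      (by simp [zero]) (pr p.1) (prm _)
    refine h1.trans_lt ?_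
    change gronwallBound 0 L _ _ < ε
    rw [gronwallBound_of_K_ne_0 hL.ne']
    have h2 : exp (L * (pr p.1 - 0)) ≤ exp (L * T) :=
      Real.exp_le_exp.2 (mul_le_mul_of_nonneg_left (by linarith [(prm p.1).2]) hL.le)
    have h3 : (0 + ε * L / exp (L * T)) / L = ε / exp (L * T) := by field_simp; ring
    simp only [zero_mul, zero_add] at h3 ⊢
    rw [h3, div_mul_eq_mul_div, div_lt_iff₀ hE]
    nlinarith
  choose W' hW' using fun p : ℝ × X => cauchySeq_tendsto_of_complete (hC.cauchySeq (mem_univ p))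
  have hU : TendstoUniformly W W' atTop :=
    tendstoUniformlyOn_univ.1 (hC.tendstoUniformlyOn_of_tendsto fun p _ => hW' p)
  have cW' : Continuous W' := hU.continuous (Eventually.of_forall cW).frequently
  have hlim : ∀ t ∈ Icc 0 T, ∀ z, Tendsto (fun n => Z n t z) atTop (𝓝 (W' (t, z))) := by
    intro t ht z
    have := hW' (t, z)
    simpa only [hW, pre t ht] using this
  refine ⟨fun t z => W' (t, z), cW', fun z => ?_, fun z t ht => ?_, hlim⟩
  · have := hlim 0 ⟨le_rfl, hT.le⟩ z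
    simp only [zero] at this
    exact (tendsto_nhds_unique tendsto_const_nhds this).symm
  · set D : ℕ → ℝ → X := fun n s => b n (pr s, W n (s, z)) with hD
    set D' : ℝ → X := fun s => b' (pr s, W' (s, z)) with hD'
    have cD : ∀ n, Continuous (D n) := fun n =>
      (cb n).comp (prc.prodMk ((cW n).comp (continuous_id.prodMk continuous_const)))
    have uD : TendstoUniformly D D' atTop := by
      rw [Metric.tendstoUniformly_iff]
      intro ε hε
      filter_upwards [Metric.tendstoUniformly_iff.1 hU (ε / 2 / L) (by positivity),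
        Metric.tendstoUniformlyOn_iff.1 unif (ε / 2) (by positivity)] with n h1 h2 s
      have h3 := h2 (pr s, W' (s, z)) ⟨prm s, trivial⟩
      have h4 := lip n (pr s) (prm s) (W' (s, z)) (W n (s, z))
      have h5 := h1 (s, z)
      rw [← dist_eq_norm, ← dist_eq_norm] at h4
      rw [lt_div_iff₀ hL] at h5
      have h6 := dist_triangle (D' s) (b n (pr s, W' (s, z))) (D n s)
      simp only [hD, hD'] at h6 ⊢
      linarith
    have cD' : Continuous D' := uD.continuous (Eventually.of_forall cD).frequently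
    have hI : ∀ s ∈ Icc 0 T, W' (s, z) = z + ∫ u in (0 : ℝ)..s, D' u := by
      intro s hs
      have h1 : ∀ n, Z n s z = z + ∫ u in (0 : ℝ)..s, D n u := fun n => by
        have hsub : uIcc 0 s ⊆ Icc 0 T := uIcc_subset_Icc ⟨le_rfl, hT.le⟩ hs
        rw [intervalIntegral.integral_eq_sub_of_hasDerivAt (f := fun u => Z n u z)
          (fun u hu => by
            simp only [hD, hW, pre u (hsub hu)]
            exact ode n u z) ((cD n).intervalIntegrable _ _), zero]
        abel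
      have h2 := (uD.tendstoUniformlyOn (s := uIcc 0 s)).tendsto_intervalIntegral_of_continuousOn
        (μ := volume) (Eventually.of_forall fun n => (cD n).continuousOn)
      have h3 := hlim s hs z
      simp only [h1] at h3
      exact tendsto_nhds_unique h3 (tendsto_const_nhds.add h2)
    have h4 : HasDerivAt (fun s => z + ∫ u in (0 : ℝ)..s, D' u) (D' t) t :=
      (cD'.integral_hasStrictDerivAt 0 t).hasDerivAt.const_add z
    have h5 : D' t = b' (t, W' (t, z)) := by simp only [hD', pre t ht]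
    rw [h5] at h4
    exact h4.hasDerivWithinAt.congr hI (hI t ht)

theorem LimZ_lip {k : ST → Ph} {t M C : ℝ} (hM : ∀ p, ‖k p‖ ≤ M) (hC : 0 ≤ C)
    (hk : ∀ x x', ‖k (t, x) - k (t, x')‖ ≤ C * ‖x - x'‖) (z z' : Ph) :
    ‖vf k (t, z) - vf k (t, z')‖ ≤ (2 + 2 * C + 2 * M) * ‖z - z'‖ := by
  have hM0 : 0 ≤ M := (norm_nonneg _).trans (hM 0)
  have h1 : ‖z.1 - z'.1‖ ≤ ‖z - z'‖ := norm_fst_le (z - z')
  have h2 : ‖z.2 - z'.2‖ ≤ ‖z - z'‖ := norm_snd_le (z - z')
  have h3 : ‖relVel z.2 - relVel z'.2‖ ≤ 2 * ‖z - z'‖ :=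
    (relVel_lip _ _).trans ((div_le_self (by positivity) (one_le_pp _)).trans (by linarith))
  have h4 : force (k (t, z.1)) z.2 - force (k (t, z'.1)) z'.2 =
      force (k (t, z.1) - k (t, z'.1)) z.2 + cross3 (relVel z.2 - relVel z'.2) (k (t, z'.1)).2 := by
    rw [← force_sub, cross3_sub_left]
    simp only [force]
    abel
  have h5 := norm_force_le (k (t, z.1) - k (t, z'.1)) z.2
  have h6 := norm_cross3_le (relVel z.2 - relVel z'.2) (k (t, z'.1)).2
  have h7 : ‖(k (t, z'.1)).2‖ ≤ M := (norm_snd_le _).trans (hM _)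
  have h8 := hk z.1 z'.1
  have h9 : ‖relVel z.2 - relVel z'.2‖ * ‖(k (t, z'.1)).2‖ ≤ 2 * ‖z - z'‖ * M :=
    mul_le_mul h3 h7 (norm_nonneg _) (by positivity)
  have h10 := mul_le_mul_of_nonneg_left h1 hC
  have hn := norm_nonneg (z - z')
  simp only [vf, Prod.mk_sub_mk, Prod.norm_mk]
  refine max_le (by nlinarith) ?_
  rw [h4]
  refine (norm_add_le _ _).trans ?_
  nlinarith

theorem LimZ_push {f₀ : Ph → ℝ} (h₀ : Continuous f₀) (hc : HasCompactSupport f₀) {g : ℕ → Ph → ℝ}
    {g' : Ph → ℝ} {Y : ℕ → Ph → Ph} {Y' : Ph → Ph} {A P : ℝ} (cg : ∀ n, Continuous (g n))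
    (cg' : Continuous g') (cY : ∀ n, Continuous (Y n)) (cY' : Continuous Y')
    (hA : ∀ n z, |g n z| ≤ A) (hP : ∀ n z, g n z ≠ 0 → ‖z‖ ≤ P)
    (lg : ∀ z, Tendsto (fun n => g n z) atTop (𝓝 (g' z)))
    (lY : ∀ z, Tendsto (fun n => Y n z) atTop (𝓝 (Y' z)))
    (hp : ∀ n, ∀ φ : Ph → ℝ≥0∞, Measurable φ →
      ∫⁻ z, ENNReal.ofReal (g n z) * φ z = ∫⁻ z, ENNReal.ofReal (f₀ z) * φ (Y n z))
    {φ : Ph → ℝ≥0∞} (hφ : Measurable φ) :
    ∫⁻ z, ENNReal.ofReal (g' z) * φ z = ∫⁻ z, ENNReal.ofReal (f₀ z) * φ (Y' z) := by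
  have : (volume : Measure Ph).IsAddHaarMeasure := Measure.prod.instIsAddHaarMeasure _ _
  have m0 : Measurable fun z => ENNReal.ofReal (f₀ z) := h₀.measurable.ennreal_ofReal
  have m1 : Measurable fun z => ENNReal.ofReal (g' z) := cg'.measurable.ennreal_ofReal
  have hfin : ∫⁻ z, ENNReal.ofReal (f₀ z) ≠ ⊤ :=
    (h₀.integrable_of_hasCompactSupport hc).lintegral_lt_top.ne
  have := isFiniteMeasure_withDensity hfin
  have e1 : ∀ ψ : Ph → ℝ≥0∞, Measurable ψ →
      ∫⁻ z, ψ z ∂((volume.withDensity fun z => ENNReal.ofReal (f₀ z)).map Y') =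
        ∫⁻ z, ENNReal.ofReal (f₀ z) * ψ (Y' z) := fun ψ hψ => by
    rw [lintegral_map hψ cY'.measurable]
    exact lintegral_withDensity_eq_lintegral_mul _ m0 (hψ.comp cY'.measurable)
  have e2 : ∀ ψ : Ph → ℝ≥0∞, Measurable ψ →
      ∫⁻ z, ψ z ∂(volume.withDensity fun z => ENNReal.ofReal (g' z)) =
        ∫⁻ z, ENNReal.ofReal (g' z) * ψ z := fun ψ hψ => by
    rw [lintegral_withDensity_eq_lintegral_mul _ m1 hψ]
    rfl
  have key : (volume.withDensity fun z => ENNReal.ofReal (f₀ z)).map Y' =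
      volume.withDensity fun z => ENNReal.ofReal (g' z) := by
    refine ext_of_forall_lintegral_eq_of_IsFiniteMeasure fun ψ => ?_
    have cψ : Continuous fun z => (ψ z : ℝ≥0∞) := ENNReal.continuous_coe.comp ψ.continuous
    have bψ : ∀ z, (ψ z : ℝ≥0∞) ≤ (nndist ψ 0 : ℝ≥0∞) := fun z =>
      ENNReal.coe_le_coe.2 (BoundedContinuousFunction.NNReal.upper_bound ψ z)
    rw [e1 _ cψ.measurable, e2 _ cψ.measurable]
    have t1 : Tendsto (fun n => ∫⁻ z, ENNReal.ofReal (f₀ z) * (ψ (Y n z) : ℝ≥0∞)) atTop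
        (𝓝 (∫⁻ z, ENNReal.ofReal (f₀ z) * (ψ (Y' z) : ℝ≥0∞))) := by
      refine tendsto_lintegral_of_dominated_convergence
        (fun z => ENNReal.ofReal (f₀ z) * (nndist ψ 0 : ℝ≥0∞))
        (fun n => m0.mul (cψ.comp (cY n)).measurable)
        (fun n => Eventually.of_forall fun z => mul_le_mul_right (bψ _) _) ?_
        (Eventually.of_forall fun z => ?_)
      · rw [lintegral_mul_const _ m0]
        exact ENNReal.mul_ne_top hfin ENNReal.coe_ne_top
      · exact ENNReal.Tendsto.const_mul ((cψ.tendsto _).comp (lY z)) (Or.inr ENNReal.ofReal_ne_top)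
    have t2 : Tendsto (fun n => ∫⁻ z, ENNReal.ofReal (g n z) * (ψ z : ℝ≥0∞)) atTop
        (𝓝 (∫⁻ z, ENNReal.ofReal (g' z) * (ψ z : ℝ≥0∞))) := by
      refine tendsto_lintegral_of_dominated_convergence
        ((closedBall (0 : Ph) P).indicator fun _ => ENNReal.ofReal A * (nndist ψ 0 : ℝ≥0∞))
        (fun n => (cg n).measurable.ennreal_ofReal.mul cψ.measurable)
        (fun n => Eventually.of_forall fun z => ?_) ?_ (Eventually.of_forall fun z => ?_)
      · by_cases hz : g n z = 0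
        · simp [hz]
        · rw [indicator_of_mem (mem_closedBall_zero_iff.2 (hP n z hz))]
          exact mul_le_mul' (ENNReal.ofReal_le_ofReal ((le_abs_self _).trans (hA n z))) (bψ z)
      · rw [lintegral_indicator_const measurableSet_closedBall]
        exact ENNReal.mul_ne_top (ENNReal.mul_ne_top ENNReal.ofReal_ne_top ENNReal.coe_ne_top)
          measure_closedBall_lt_top.ne
      · exact ENNReal.Tendsto.mul_const (ENNReal.tendsto_ofReal (lg z)) (Or.inr ENNReal.coe_ne_top)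
    simp only [fun n => hp n _ cψ.measurable] at t2
    exact tendsto_nhds_unique t1 t2
  rw [← e1 _ hφ, ← e2 _ hφ, key]

theorem Iter.lim_traj (h : Iter κ f₀ K₀ K f Z) {T : ℝ} {K' : ST → Ph} {f' : TP → ℝ}
    (hl : LimD T K f K' f') : ∃ Z', Traj T f₀ (κ ∘ K') f' Z' := by
  obtain ⟨M, hM0, hM⟩ := h.bddκ
  obtain ⟨M', hM0', -, hM'⟩ := h.lipκ
  obtain ⟨C, hC⟩ := h.c1 T
  obtain ⟨P, hP⟩ := h.supp T
  obtain ⟨A, hA⟩ := h.bddf
  have hC0 : 0 ≤ C := (norm_nonneg _).trans ((hC 0).1 0 ⟨⟨le_rfl, hl.hT.le⟩, trivial⟩)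
  have lip : ∀ n, ∀ t ∈ Icc 0 T, ∀ z z' : Ph, ‖vf (κ ∘ K n) (t, z) - vf (κ ∘ K n) (t, z')‖ ≤
      (2 + 2 * (M' * C) + 2 * M) * ‖z - z'‖ := by
    intro n t ht
    refine LimZ_lip (fun p => hM _) (by positivity) fun x x' => ?_
    have h1 := Convex.norm_image_sub_le_of_norm_fderiv_le (𝕜 := ℝ) (f := K n) (s := slab R3 T)
      (fun p _ => (h.smooth n).differentiable (by simp) p) (hC n).1
      ((convex_Icc 0 T).prod convex_univ) (x := (t, x')) (y := (t, x)) ⟨ht, trivial⟩ ⟨ht, trivial⟩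
    have h2 : ‖((t, x) : ST) - (t, x')‖ = ‖x - x'‖ := by simp [Prod.norm_mk]
    rw [h2] at h1
    refine (hM' _ _).trans ?_
    rw [mul_assoc]
    exact mul_le_mul_of_nonneg_left h1 hM0'
  have unif : TendstoUniformlyOn (fun n => vf (κ ∘ K n)) (vf (κ ∘ K')) atTop (slab Ph T) := by
    rw [Metric.tendstoUniformlyOn_iff]
    intro ε hε
    filter_upwards [Metric.tendstoUniformlyOn_iff.1 hl.uK (ε / (2 * M' + 1)) (by positivity)]
      with n hn p hp
    have h1 := hn (p.1, p.2.1) ⟨hp.1, trivial⟩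
    rw [lt_div_iff₀ (by positivity), dist_eq_norm] at h1
    have h2 := hM' (K' (p.1, p.2.1)) (K n (p.1, p.2.1))
    have h3 := norm_force_le (κ (K' (p.1, p.2.1)) - κ (K n (p.1, p.2.1))) p.2.2
    rw [dist_eq_norm]
    simp only [vf, Prod.mk_sub_mk, Prod.norm_mk, sub_self, norm_zero, Function.comp, force_sub]
    refine max_lt hε ?_
    nlinarith [norm_nonneg (K' (p.1, p.2.1) - K n (p.1, p.2.1))]
  obtain ⟨Z', c, z0, ode, lim⟩ := LimZ_ode hl.hT (by positivity) lip unif
    (fun n => (contDiff_vf (h.smoothκ n)).continuous) (fun n => (h.vsol n).cont)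
    (fun n => (h.vsol n).zero) (fun n => (h.vsol n).ode)
  refine ⟨Z', c.measurable, z0, ode, fun t ht g hg => ?_⟩
  have ci : Continuous fun z : Ph => ((t, z) : TP) := continuous_const.prodMk continuous_id
  exact LimZ_push h.adm.smooth.continuous h.adm.cpt (g := fun n z => f n (t, z))
    (Y := fun n => Z n t) (fun n => (h.vsol n).smooth.continuous.comp ci)
    (hl.sf.continuousOn.comp_continuous ci fun z => ⟨ht, trivial⟩)
    (fun n => (h.vsol n).cont.comp ci) (c.comp ci) (fun n z => hA n _)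
    (fun n z hz => hP n (t, z) ⟨ht, trivial⟩ hz)
    (fun z => hl.uf.tendsto_at (x := (t, z)) ⟨ht, trivial⟩) (lim t ht)
    (fun n φ hφ => (h.vsol n).push ht.1 hφ) hg

end Crest.Agent.R106
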