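import Crest.Agent.R106.LimPDE
import Crest.Agent.R106.LimZ

/-!
# Row 106: existence for the truncated system

Collect the previous files; `nonneg`, `le`, `supp`, `lip`, `init` pass to pointwise limits (`VSol.range`, the
mean value inequality in `t` with `LimD.bK 1`).

-/

set_option autoImplicit false

noncomputable section

namespace Crest.Agent.R106

open MeasureTheory Set Metric Real Filter Topology
open scoped ContDiff ENNReal RealInnerProductSpace Classical
open Crest.AnalysisR.VecCalc3 Crest.AnalysisR.PDE.RVM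

theorem exists_tsol {κ : Ph → Ph} {f₀ : Ph → ℝ} {K₀ : R3 → Ph} (h : Adm f₀ K₀) (hκ : ContDiff ℝ ∞ κ)
    (cκ : HasCompactSupport κ) {T : ℝ} (hT : 0 < T) :
    ∃ f K Z, TSol κ T f₀ K₀ (dat K₀ f₀) f K Z := by
  obtain ⟨K, f, Z, hI⟩ := exists_iter h hκ cκ
  obtain ⟨K', f', hl⟩ := hI.lim hT
  obtain ⟨Z', hZ⟩ := hI.lim_traj hl
  have tf : ∀ p ∈ slab Ph T, Tendsto (fun n => f n p) atTop (𝓝 (f' p)) :=
    fun p hp => hl.uf.tendsto_at hp
  have tK : ∀ p ∈ slab R3 T, Tendsto (fun n => K n p) atTop (𝓝 (K' p)) :=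
    fun p hp => hl.uK.tendsto_at hp
  have h0 : (0 : ℝ) ∈ Icc 0 T := ⟨le_rfl, hT.le⟩
  refine ⟨f', K', Z', hT, hl.sf, hl.sK, fun z => ?_, fun x => ?_, hI.lim_vl hl, hI.lim_mx hl,
    hI.lim_rep hl, fun p hp => ?_, fun A hA p hp => ?_, ?_, ?_, hZ⟩
  · have h1 := tf (0, z) ⟨h0, mem_univ _⟩
    simp only [(hI.vsol _).init z] at h1
    exact tendsto_nhds_unique h1 tendsto_const_nhds
  · have h1 := (tendsto_add_atTop_iff_nat 1).2 (tK (0, x) ⟨h0, mem_univ _⟩)
    simp only [hI.init] at h1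
    exact tendsto_nhds_unique h1 tendsto_const_nhds
  · refine ge_of_tendsto' (tf p hp) fun n => ?_
    obtain ⟨z, hz⟩ := (hI.vsol n).range p
    rw [hz]
    exact h.nonneg z
  · refine le_of_tendsto' (tf p hp) fun n => ?_
    obtain ⟨z, hz⟩ := (hI.vsol n).range p
    rw [hz]
    exact hA z
  · obtain ⟨P, hP⟩ := hI.supp T
    refine ⟨P, fun p hp hf => ?_⟩
    obtain ⟨n, hn⟩ := ((tf p hp).eventually_ne hf).exists
    exact hP n p hp hn
  · obtain ⟨C0, hC0⟩ := hl.bK 0
    obtain ⟨C1, hC1⟩ := hl.bK 1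
    refine ⟨max C0 C1, fun p hp => ?_, fun x t ht t' ht' => ?_⟩
    · refine le_of_tendsto' (tK p hp).norm fun n => le_max_of_le_left ?_
      simpa using hC0 n p hp
    · refine le_of_tendsto' ((tK (t, x) ⟨ht, mem_univ _⟩).sub (tK (t', x) ⟨ht', mem_univ _⟩)).norm
        fun n => ?_
      have hc : Convex ℝ (slab R3 T) := (convex_Icc 0 T).prod convex_univ
      have h1 := hc.norm_image_sub_le_of_norm_fderiv_le (𝕜 := ℝ) (f := K n) (C := max C0 C1)
        (fun p _ => ((hI.smooth n).differentiable (by simp)) p)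
        (fun p hp => le_max_of_le_right (by simpa using hC1 n p hp))
        (show (t', x) ∈ slab R3 T from ⟨ht', mem_univ _⟩)
        (show (t, x) ∈ slab R3 T from ⟨ht, mem_univ _⟩)
      simpa [Prod.norm_def] using h1

end Crest.Agent.R106
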