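import Crest.Agent.R106.Boot
import Crest.Agent.R106.TSolEx
import Crest.Agent.R106.En2

/-!
# Row 106: removing the truncation

`A`, `P₀` from the compact support of `f₀`, `En` from `Adm.energy`, `Cd` from `Adm.dat_bdd T 0`, `P` from
`mom_bound`, `M` from `field_bound P T A Cd`; `M' = max (max M Cd) 0 + 1`, `κ y = b y • y` with a `ContDiffBump`
`b` at `0` with `rIn = M'`.  For the solution of `exists_tsol`, with Lipschitz constant `C > 0` in time:
`‖K (0, x)‖ ≤ Cd` (`initK`; `RepAt` at `t = 0`, where `cyl 0 = ∅`, gives `K = dat`); induction on `n`: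
`‖K‖ ≤ M' - 1` on `slab (min (n/C) T)`: Lipschitz gives `≤ M'` on the next slab, `TSol.restrict` makes it a true
solution there, and `mom_bound`, `field_bound` give `≤ M`.

-/

set_option autoImplicit false

noncomputable section

namespace Crest.Agent.R106

open MeasureTheory Set Metric Real Filter Topology
open scoped ContDiff ENNReal RealInnerProductSpace Classical
open Crest.AnalysisR.VecCalc3 Crest.AnalysisR.PDE.RVM

theorem exists_true {f₀ : Ph → ℝ} {K₀ : R3 → Ph} (h : Adm f₀ K₀) {T : ℝ} (hT : 0 < T) :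
    ∃ f K Z, TSol id T f₀ K₀ (dat K₀ f₀) f K Z := by
  obtain ⟨A, hA⟩ := h.smooth.continuous.bounded_above_of_compact_support h.cpt
  have hA' : ∀ z, f₀ z ≤ A := fun z => (le_abs_self _).trans (hA z)
  obtain ⟨R, hR⟩ := h.cpt.isCompact.isBounded.exists_norm_le
  have hP₀ : ∀ z, f₀ z ≠ 0 → pp z.2 ≤ 1 + R := fun z hz =>
    (pp_le _).trans (by have := (norm_snd_le z).trans (hR z (subset_tsupport _ hz)); linarith)
  obtain ⟨En, -, hEn⟩ := h.energy
  obtain ⟨Cd, hCd⟩ := h.dat_bdd T 0
  simp only [norm_iteratedFDeriv_zero] at hCd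
  obtain ⟨C₀, hC₀⟩ := h.bdd 0
  simp only [norm_iteratedFDeriv_zero] at hC₀
  obtain ⟨P, hP⟩ := mom_bound A (1 + R) En Cd T
  obtain ⟨M, hM⟩ := field_bound P T A Cd
  set M₁ : ℝ := max (max M C₀) 0 with hM₁
  have m0 : 0 ≤ M₁ := le_max_right _ _
  have m1 : M ≤ M₁ := (le_max_left _ _).trans (le_max_left _ _)
  have m2 : C₀ ≤ M₁ := (le_max_right _ _).trans (le_max_left _ _)
  let b : ContDiffBump (0 : Ph) := ⟨M₁ + 1, M₁ + 2, by linarith, by linarith⟩
  have hb : ∀ y : Ph, ‖y‖ ≤ M₁ + 1 → b y • y = y := fun y hy => by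
    rw [b.one_of_mem_closedBall (mem_closedBall_zero_iff.2 hy), one_smul]
  obtain ⟨f, K, Z, hs⟩ := exists_tsol (κ := fun y => b y • y) h (b.contDiff.smul contDiff_id)
    (b.hasCompactSupport.smul_right (f' := fun y : Ph => y)) hT
  obtain ⟨C, -, hC⟩ := hs.lip
  set C' : ℝ := max C 1 with hC'
  have c0 : 0 < C' := lt_of_lt_of_le one_pos (le_max_right _ _)
  have key : ∀ n : ℕ, ∀ p ∈ slab R3 (min (n / C') T), ‖K p‖ ≤ M₁ := by
    intro n
    induction n with
    | zero =>
      rintro ⟨t, x⟩ ⟨⟨h0, h1⟩, -⟩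
      have h2 : t = 0 := le_antisymm (by simpa using h1.trans (min_le_left _ _)) h0
      rw [h2, hs.initK]
      exact (hC₀ x).trans m2
    | succ n ih =>
      have t0 : 0 < min (((n + 1 : ℕ) : ℝ) / C') T := lt_min (by positivity) hT
      have hs' := hs.restrict t0 (min_le_right _ _) (by
        rintro ⟨t, x⟩ ⟨⟨h0, h1⟩, -⟩
        refine hb _ ?_
        have n0 : 0 ≤ min ((n : ℝ) / C') T := le_min (by positivity) hT.le
        have h2 : t ≤ T := h1.trans (min_le_right _ _)
        have h3 : t ≤ n / C' + 1 / C' := by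
          have := h1.trans (min_le_left _ _)
          rwa [Nat.cast_succ, add_div] at this
        have h4 : 0 < 1 / C' := by positivity
        have h5 : t - min t (min ((n : ℝ) / C') T) ≤ 1 / C' := by
          have : t - 1 / C' ≤ min t (min ((n : ℝ) / C') T) :=
            le_min (by linarith) (le_min (by linarith) (by linarith))
          linarith
        have h6 := hC x t ⟨h0, h2⟩ (min t (min ((n : ℝ) / C') T))
          ⟨le_min h0 n0, (min_le_left _ _).trans h2⟩
        have h7 := ih (min t (min ((n : ℝ) / C') T), x) ⟨⟨le_min h0 n0, min_le_right _ _⟩, trivial⟩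
        have h8 : 0 ≤ t - min t (min ((n : ℝ) / C') T) := sub_nonneg.2 (min_le_left _ _)
        rw [abs_of_nonneg h8] at h6
        have h9 : C * (t - min t (min ((n : ℝ) / C') T)) ≤ 1 :=
          calc _ ≤ C' * (t - min t (min ((n : ℝ) / C') T)) :=
                mul_le_mul_of_nonneg_right (le_max_left _ _) h8
            _ ≤ C' * (1 / C') := mul_le_mul_of_nonneg_left h5 c0.le
            _ = 1 := by field_simp
        have h10 := norm_le_insert' (K (t, x)) (K (min t (min ((n : ℝ) / C') T), x))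
        linarith)
      have hd : ∀ p ∈ slab R3 (min (((n + 1 : ℕ) : ℝ) / C') T), ‖dat K₀ f₀ p‖ ≤ Cd :=
        fun p hp => hCd p ⟨⟨hp.1.1, hp.1.2.trans (min_le_right _ _)⟩, trivial⟩
      have he := hEn _ _ _ _ _ hs'
      have hm := hP _ _ _ _ _ _ _ ⟨hs', min_le_right _ _, hA', hP₀, hd, he.1, he.2⟩
      exact fun p hp => (hM _ _ _ _ _ _ _ hs' (min_le_right _ _) hA' hd hm p hp).trans m1
  obtain ⟨n, hn⟩ := exists_nat_ge (T * C')
  have hk := key n
  rw [min_eq_right ((le_div_iff₀ c0).2 hn)] at hk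
  exact ⟨f, K, Z, hs.restrict hT le_rfl fun p hp => hb _ ((hk p hp).trans (by linarith))⟩

end Crest.Agent.R106
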