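import Crest.Agent.R106.Basic

/-!
# Row 106: cross product, Lorentz force

Coordinates: `Fin.sum_univ_three`, `fin_cases`, `EuclideanSpace.inner_eq_star_dotProduct`/`PiLp.inner_apply`.
`integral_force`: `fderiv φ v (F v) = div (φ F) - φ div F`, `div F = 0` (`div_force`), and
`integral_fderiv_eq_zero`-type lemmas (`integral_bilinear_hasFDerivAt_right_eq_neg_left_of_integrable`,
`integral_mul_fderiv_eq_neg_fderiv_mul_of_integrable`) for compactly supported `C¹` functions.

-/

set_option autoImplicit false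

noncomputable section

namespace Crest.Agent.R106

open MeasureTheory Set Metric Real Filter Topology
open scoped ContDiff ENNReal RealInnerProductSpace Classical
open Crest.AnalysisR.VecCalc3 Crest.AnalysisR.PDE.RVM

theorem vec_apply (u : Fin 3 → ℝ) (i : Fin 3) : vec u i = u i := rfl

theorem norm_ee (i : Fin 3) : ‖ee i‖ = 1 := by
  simp [ee]

theorem inner_ee (u : R3) (i : Fin 3) : ⟪u, ee i⟫ = u i := by
  simp [ee, EuclideanSpace.inner_single_right]

theorem sum_ee (u : R3) : ∑ i, u i • ee i = u := by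
  ext j
  fin_cases j <;> simp [ee, Fin.sum_univ_three]

theorem inner_eq_sum (a b : R3) : ⟪a, b⟫ = ∑ i, a i * b i := by
  rw [PiLp.inner_apply]
  exact Finset.sum_congr rfl fun i _ => by simp [mul_comm]

theorem abs_apply_le (u : R3) (i : Fin 3) : |u i| ≤ ‖u‖ := by
  simpa using PiLp.norm_apply_le u i

theorem norm_le_sum (u : R3) : ‖u‖ ≤ ∑ i, |u i| := by
  calc ‖u‖ = ‖∑ i, u i • ee i‖ := by rw [sum_ee]
    _ ≤ ∑ i, ‖u i • ee i‖ := norm_sum_le _ _
    _ = ∑ i, |u i| := Finset.sum_congr rfl fun i _ => by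
      rw [norm_smul, norm_ee, mul_one, Real.norm_eq_abs]

theorem contDiff_vec {X : Type} [NormedAddCommGroup X] [NormedSpace ℝ X] {n : WithTop ℕ∞}
    {u : Fin 3 → X → ℝ} (h : ∀ i, ContDiff ℝ n (u i)) : ContDiff ℝ n fun x => vec fun i => u i x := by
  exact contDiff_euclidean.2 h

theorem contDiffOn_vec {X : Type} [NormedAddCommGroup X] [NormedSpace ℝ X] {n : WithTop ℕ∞}
    {u : Fin 3 → X → ℝ} {S : Set X} (h : ∀ i, ContDiffOn ℝ n (u i) S) :
    ContDiffOn ℝ n (fun x => vec fun i => u i x) S := by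
  exact contDiffOn_euclidean.2 h

theorem cross3_apply (a b : R3) (i : Fin 3) :
    cross3 a b i = a (i + 1) * b (i + 2) - a (i + 2) * b (i + 1) := by
  fin_cases i <;> rfl

theorem Cross_c0 (a b : R3) : cross3 a b 0 = a 1 * b 2 - a 2 * b 1 := rfl
theorem Cross_c1 (a b : R3) : cross3 a b 1 = a 2 * b 0 - a 0 * b 2 := rfl
theorem Cross_c2 (a b : R3) : cross3 a b 2 = a 0 * b 1 - a 1 * b 0 := rfl

theorem Cross_ext {a b : R3} (h0 : a 0 = b 0) (h1 : a 1 = b 1) (h2 : a 2 = b 2) : a = b := by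
  ext i
  fin_cases i
  exacts [h0, h1, h2]

theorem Cross_inner (a b : R3) : ⟪a, b⟫ = a 0 * b 0 + a 1 * b 1 + a 2 * b 2 := by
  rw [inner_eq_sum, Fin.sum_univ_three]

theorem Cross_norm_sq (a : R3) : ‖a‖ ^ 2 = a 0 ^ 2 + a 1 ^ 2 + a 2 ^ 2 := by
  rw [EuclideanSpace.real_norm_sq_eq, Fin.sum_univ_three]

/-- the cross product as a bilinear map -/
def Cross_lin : R3 →ₗ[ℝ] R3 →ₗ[ℝ] R3 :=
  LinearMap.mk₂ ℝ cross3
    (fun a a' b => by
      apply Cross_ext <;> simp only [Cross_c0, Cross_c1, Cross_c2, PiLp.add_apply] <;> ring)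
    (fun c a b => by
      apply Cross_ext <;>
        simp only [Cross_c0, Cross_c1, Cross_c2, PiLp.smul_apply, smul_eq_mul] <;> ring)
    (fun a b b' => by
      apply Cross_ext <;> simp only [Cross_c0, Cross_c1, Cross_c2, PiLp.add_apply] <;> ring)
    (fun c a b => by
      apply Cross_ext <;>
        simp only [Cross_c0, Cross_c1, Cross_c2, PiLp.smul_apply, smul_eq_mul] <;> ring)

theorem exists_crossL : ∃ L : R3 →L[ℝ] R3 →L[ℝ] R3, ∀ a b, L a b = cross3 a b := by
  exact ⟨LinearMap.toContinuousLinearMap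
    ((LinearMap.toContinuousLinearMap : (R3 →ₗ[ℝ] R3) ≃ₗ[ℝ] (R3 →L[ℝ] R3)).toLinearMap.comp Cross_lin),
    fun _ _ => rfl⟩

theorem contDiff_cross3 : ContDiff ℝ ∞ fun p : R3 × R3 => cross3 p.1 p.2 := by
  obtain ⟨L, hL⟩ := exists_crossL
  simp only [← hL]
  exact L.isBoundedBilinearMap.contDiff

theorem cross3_add_left (a a' b : R3) : cross3 (a + a') b = cross3 a b + cross3 a' b := by
  exact LinearMap.map_add₂ Cross_lin a a' b

theorem cross3_add_right (a b b' : R3) : cross3 a (b + b') = cross3 a b + cross3 a b' := by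
  exact (Cross_lin a).map_add b b'

theorem cross3_sub_left (a a' b : R3) : cross3 (a - a') b = cross3 a b - cross3 a' b := by
  exact LinearMap.map_sub₂ Cross_lin a a' b

theorem cross3_sub_right (a b b' : R3) : cross3 a (b - b') = cross3 a b - cross3 a b' := by
  exact (Cross_lin a).map_sub b b'

theorem cross3_smul_left (c : ℝ) (a b : R3) : cross3 (c • a) b = c • cross3 a b := by
  exact LinearMap.map_smul₂ Cross_lin c a b

theorem cross3_smul_right (c : ℝ) (a b : R3) : cross3 a (c • b) = c • cross3 a b := by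
  exact (Cross_lin a).map_smul c b

theorem cross3_anti (a b : R3) : cross3 a b = -cross3 b a := by
  apply Cross_ext <;> simp only [Cross_c0, Cross_c1, Cross_c2, PiLp.neg_apply] <;> ring

theorem norm_cross3_sq (a b : R3) : ‖cross3 a b‖ ^ 2 = ‖a‖ ^ 2 * ‖b‖ ^ 2 - ⟪a, b⟫ ^ 2 := by
  simp only [Cross_norm_sq, Cross_inner, Cross_c0, Cross_c1, Cross_c2]
  ring

theorem norm_cross3_le (a b : R3) : ‖cross3 a b‖ ≤ ‖a‖ * ‖b‖ := by
  refine (pow_le_pow_iff_left₀ (norm_nonneg _) (by positivity) two_ne_zero).1 ?_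
  rw [norm_cross3_sq, mul_pow]
  linarith [sq_nonneg ⟪a, b⟫]

theorem inner_cross3 (a b c : R3) : ⟪cross3 a b, c⟫ = ⟪a, cross3 b c⟫ := by
  simp only [Cross_inner, Cross_c0, Cross_c1, Cross_c2]
  ring

theorem inner_cross3_left (a b : R3) : ⟪cross3 a b, a⟫ = 0 := by
  simp only [Cross_inner, Cross_c0, Cross_c1, Cross_c2]
  ring

theorem inner_cross3_right (a b : R3) : ⟪cross3 a b, b⟫ = 0 := by
  simp only [Cross_inner, Cross_c0, Cross_c1, Cross_c2]
  ring

/-- the good component is controlled by the energy flux -/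
theorem good_sq_le {n : R3} (hn : ‖n‖ ≤ 1) (E B : R3) :
    ‖E + cross3 n B‖ ^ 2 / 2 ≤ (‖E‖ ^ 2 + ‖B‖ ^ 2) / 2 - ⟪n, cross3 E B⟫ := by
  have h1 : ⟪E, cross3 n B⟫ = -⟪n, cross3 E B⟫ := by
    simp only [Cross_inner, Cross_c0, Cross_c1, Cross_c2]
    ring
  have h2 : ‖cross3 n B‖ ≤ ‖B‖ :=
    (norm_cross3_le n B).trans (mul_le_of_le_one_left (norm_nonneg _) hn)
  have h3 := pow_le_pow_left₀ (norm_nonneg _) h2 2
  rw [norm_add_sq_real, h1]
  linarith

theorem contDiff_force : ContDiff ℝ ∞ fun p : Ph × R3 => force p.1 p.2 := by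
  exact contDiff_fst.fst.add
    (contDiff_cross3.comp ((contDiff_relVel.comp contDiff_snd).prodMk contDiff_fst.snd))

theorem norm_force_le (K : Ph) (v : R3) : ‖force K v‖ ≤ 2 * ‖K‖ := by
  have h1 : ‖cross3 (relVel v) K.2‖ ≤ ‖K.2‖ :=
    (norm_cross3_le _ _).trans (mul_le_of_le_one_left (norm_nonneg _) (norm_relVel_lt v).le)
  have h2 := norm_add_le K.1 (cross3 (relVel v) K.2)
  unfold force
  linarith [norm_fst_le K, norm_snd_le K]

theorem force_sub (K K' : Ph) (v : R3) : force K v - force K' v = force (K - K') v := by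
  simp only [force, Prod.fst_sub, Prod.snd_sub, cross3_sub_right]
  abel

theorem inner_force (K : Ph) (v : R3) : ⟪force K v, relVel v⟫ = ⟪K.1, relVel v⟫ := by
  rw [force, inner_add_left, inner_cross3_left, add_zero]

theorem Cross_contDiff_force (K : Ph) : ContDiff ℝ ∞ (force K) :=
  contDiff_force.comp (contDiff_const.prodMk contDiff_id)

theorem Cross_fderiv_force (K : Ph) (v u : R3) :
    fderiv ℝ (force K) v u = cross3 (fderiv ℝ relVel v u) K.2 := by
  obtain ⟨L, hL⟩ := exists_crossL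
  have h1 : HasFDerivAt relVel (fderiv ℝ relVel v) v :=
    (contDiff_relVel.differentiable (by simp) v).hasFDerivAt
  have h2 := ((L.flip K.2).hasFDerivAt.comp v h1).const_add K.1
  have e : force K = fun y => K.1 + (L.flip K.2 ∘ relVel) y := by
    funext y
    simp [force, hL]
  rw [e, h2.fderiv]
  simp [hL]

theorem div_force (K : Ph) (v : R3) : ∑ i, (fderiv ℝ (force K) v (ee i)) i = 0 := by
  simp only [Cross_fderiv_force, fderiv_relVel, inner_ee, Fin.sum_univ_three, Cross_c0, Cross_c1,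
    Cross_c2, PiLp.smul_apply, PiLp.sub_apply, smul_eq_mul]
  simp [ee]
  ring

theorem force_le_good (K : Ph) {n : R3} (hn : ‖n‖ ≤ 1) (v : R3) :
    ‖force K v‖ ≤ ‖K.1 + cross3 n K.2‖ + ang n (relVel v) * ‖K.2‖ := by
  have e : force K v = (K.1 + cross3 n K.2) + cross3 (relVel v - n) K.2 := by
    rw [force, cross3_sub_left]
    abel
  have h1 : ‖relVel v - n‖ ≤ ang n (relVel v) := by
    rw [norm_sub_rev]
    exact norm_sub_le_ang hn (norm_relVel_lt v).le
  rw [e]
  refine (norm_add_le _ _).trans (add_le_add le_rfl ?_)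
  exact (norm_cross3_le _ _).trans (mul_le_mul_of_nonneg_right h1 (norm_nonneg _))

theorem norm_vf_le (K : ST → Ph) (p : TP) : ‖vf K p‖ ≤ 1 + 2 * ‖K (p.1, p.2.1)‖ := by
  rw [vf, Prod.norm_mk]
  have h1 := norm_relVel_lt p.2.2
  have h2 := norm_force_le (K (p.1, p.2.1)) p.2.2
  have h3 := norm_nonneg (K (p.1, p.2.1))
  exact max_le (by linarith) (by linarith)

theorem Cross_le (n : ℕ∞) : (n : WithTop ℕ∞) ≤ ((⊤ : ℕ∞) : WithTop ℕ∞) := by exact_mod_cast le_top

theorem Cross_on {n : ℕ∞} {K : ST → Ph} {S : Set ℝ} (hK : ContDiffOn ℝ n K (S ×ˢ univ)) :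
    ContDiffOn ℝ n (fun r : TP => force (K (r.1, r.2.1)) r.2.2) (S ×ˢ univ) := by
  have h1 : ContDiffOn ℝ n (fun r : TP => K (r.1, r.2.1)) (S ×ˢ univ) :=
    hK.comp (contDiff_fst.prodMk contDiff_snd.fst).contDiffOn fun r hr => ⟨hr.1, mem_univ _⟩
  exact (contDiff_force.of_le (Cross_le n)).comp_contDiffOn (h1.prodMk contDiff_snd.snd.contDiffOn)

theorem Cross_all {n : ℕ∞} {K : ST → Ph} (hK : ContDiff ℝ n K) :
    ContDiff ℝ n (fun r : TP => force (K (r.1, r.2.1)) r.2.2) :=
  (contDiff_force.of_le (Cross_le n)).comp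
    ((hK.comp (contDiff_fst.prodMk contDiff_snd.fst)).prodMk contDiff_snd.snd)

theorem contDiff_vf {n : ℕ∞} {K : ST → Ph} (hK : ContDiff ℝ n K) : ContDiff ℝ n (vf K) := by
  exact ((contDiff_relVel.of_le (Cross_le n)).comp contDiff_snd.snd).prodMk (Cross_all hK)

theorem contDiffOn_vf {n : ℕ∞} {K : ST → Ph} {S : Set ℝ} (hK : ContDiffOn ℝ n K (S ×ˢ univ)) :
    ContDiffOn ℝ n (vf K) (S ×ˢ univ) := by
  exact ((contDiff_relVel.of_le (Cross_le n)).comp contDiff_snd.snd).contDiffOn.prodMk (Cross_on hK)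

theorem contDiff_gF {n : ℕ∞} {g : TP → ℝ} {K : ST → Ph} (hg : ContDiff ℝ n g)
    (hK : ContDiff ℝ n K) : ContDiff ℝ n (gF g K) := by
  exact hg.smul (Cross_all hK)

theorem contDiffOn_gF {n : ℕ∞} {g : TP → ℝ} {K : ST → Ph} {S : Set ℝ}
    (hg : ContDiffOn ℝ n g (S ×ˢ univ)) (hK : ContDiffOn ℝ n K (S ×ˢ univ)) :
    ContDiffOn ℝ n (gF g K) (S ×ˢ univ) := by
  exact hg.smul (Cross_on hK)

/-- the field `vf K (t, ·)` is divergence free -/
theorem trace_vf {K : ST → Ph} (hK : ContDiff ℝ 1 K) (t : ℝ) (z : Ph) :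
    LinearMap.trace ℝ Ph (fderiv ℝ (fun y => vf K (t, y)) z : Ph →ₗ[ℝ] Ph) = 0 := by
  have hG : DifferentiableAt ℝ (fun y => vf K (t, y)) z :=
    ((contDiff_vf (n := 1) hK).comp (contDiff_const.prodMk contDiff_id)).differentiable
      one_ne_zero z
  set L := fderiv ℝ (fun y => vf K (t, y)) z with hL
  have h1 : ∀ u : R3, (L (u, 0)).1 = 0 := by
    intro u
    have a1 := (hG.hasFDerivAt.comp (x := z.1) (f := fun x => (x, z.2))
      (hasFDerivAt_prodMk_left z.1 z.2)).fst
    have a2 : HasFDerivAt (fun _ : R3 => relVel z.2) (0 : R3 →L[ℝ] R3) z.1 := hasFDerivAt_const _ _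
    have a3 := a1.unique a2
    simpa using congrArg (fun T : R3 →L[ℝ] R3 => T u) a3
  have h2 : ∀ u : R3, (L (0, u)).2 = fderiv ℝ (force (K (t, z.1))) z.2 u := by
    intro u
    have a1 := (hG.hasFDerivAt.comp (x := z.2) (f := fun v => (z.1, v))
      (hasFDerivAt_prodMk_right z.1 z.2)).snd
    have a2 : HasFDerivAt (force (K (t, z.1))) (fderiv ℝ (force (K (t, z.1))) z.2) z.2 :=
      ((Cross_contDiff_force _).differentiable (by simp) _).hasFDerivAt
    have a3 := a1.unique a2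
    simpa using congrArg (fun T : R3 →L[ℝ] R3 => T u) a3
  rw [LinearMap.trace_eq_matrix_trace ℝ
    ((EuclideanSpace.basisFun (Fin 3) ℝ).toBasis.prod (EuclideanSpace.basisFun (Fin 3) ℝ).toBasis),
    Matrix.trace, Fintype.sum_sum_type]
  have e1 : ∀ i : Fin 3, (L (ee i, 0)).1 i = 0 := fun i => by rw [h1]; rfl
  have e2 := div_force (K (t, z.1)) z.2
  simp only [← h2] at e2
  simp only [Matrix.diag, LinearMap.toMatrix_apply, Module.Basis.prod_repr_inl,
    Module.Basis.prod_repr_inr, Module.Basis.prod_apply, Sum.elim_inl, Sum.elim_inr,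
    Function.comp_apply, LinearMap.inl_apply, LinearMap.inr_apply, OrthonormalBasis.coe_toBasis,
    OrthonormalBasis.coe_toBasis_repr_apply, EuclideanSpace.basisFun_apply,
    EuclideanSpace.basisFun_repr, ContinuousLinearMap.coe_coe]
  change ∑ i, (L (ee i, 0)).1 i + ∑ i, (L (0, ee i)).2 i = 0
  rw [e2, Finset.sum_eq_zero fun i _ => e1 i, add_zero]

theorem integral_force (K : Ph) {φ : R3 → ℝ} (hφ : ContDiff ℝ 1 φ) (hc : HasCompactSupport φ) :
    ∫ v, fderiv ℝ φ v (force K v) = 0 := by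
  have hF := Cross_contDiff_force K
  have hFi : ∀ i : Fin 3, ContDiff ℝ ∞ fun v => force K v i := contDiff_euclidean.1 hF
  have hd : ∀ (i : Fin 3) (v u : R3),
      fderiv ℝ (fun v => force K v i) v u = (fderiv ℝ (force K) v u) i := by
    intro i v u
    have a1 := (EuclideanSpace.proj (𝕜 := ℝ) i).hasFDerivAt.comp v
      (hF.differentiable (by simp) v).hasFDerivAt
    have a2 : fderiv ℝ (fun v => force K v i) v = _ := a1.fderiv
    rw [a2]
    rfl
  have c1 : ∀ i : Fin 3, Continuous fun v => fderiv ℝ φ v (ee i) := fun i =>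
    (hφ.continuous_fderiv one_ne_zero).clm_apply continuous_const
  have c2 : ∀ i : Fin 3, Continuous fun v => fderiv ℝ (fun v => force K v i) v (ee i) := fun i =>
    ((hFi i).continuous_fderiv (by simp)).clm_apply continuous_const
  have i1 : ∀ i : Fin 3, Integrable fun v => fderiv ℝ (fun v => force K v i) v (ee i) * φ v :=
    fun i => ((c2 i).mul hφ.continuous).integrable_of_hasCompactSupport hc.mul_left
  have i2 : ∀ i : Fin 3, Integrable fun v => force K v i * fderiv ℝ φ v (ee i) := fun i =>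
    ((hFi i).continuous.mul (c1 i)).integrable_of_hasCompactSupport
      (hc.fderiv_apply (𝕜 := ℝ) (ee i)).mul_left
  have i3 : ∀ i : Fin 3, Integrable fun v => force K v i * φ v := fun i =>
    ((hFi i).continuous.mul hφ.continuous).integrable_of_hasCompactSupport hc.mul_left
  have e1 : ∀ v, fderiv ℝ φ v (force K v) = ∑ i, force K v i * fderiv ℝ φ v (ee i) := by
    intro v
    conv_lhs => rw [← sum_ee (force K v)]
    simp only [map_sum, map_smul, smul_eq_mul]
  simp only [e1]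
  rw [integral_finset_sum _ fun i _ => i2 i]
  have e2 : ∀ i : Fin 3, ∫ v, force K v i * fderiv ℝ φ v (ee i) =
      -∫ v, fderiv ℝ (fun v => force K v i) v (ee i) * φ v := fun i =>
    integral_mul_fderiv_eq_neg_fderiv_mul_of_integrable (i1 i) (i2 i) (i3 i)
      (fun x _ => (hFi i).differentiable (by simp) x) fun x _ => hφ.differentiable one_ne_zero x
  simp only [e2]
  rw [Finset.sum_neg_distrib, ← integral_finset_sum _ fun i _ => i1 i]
  simp only [← Finset.sum_mul, hd, div_force, zero_mul, integral_zero, neg_zero]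

theorem Cross_dv_smul {g : TP → ℝ} {H : TP → R3} {p : TP} (hg : DifferentiableAt ℝ g p)
    (hH : DifferentiableAt ℝ H p) :
    dv (fun r => g r • H r) p = fderiv ℝ g p (0, 0, H p) + g p * dv H p := by
  have e1 : ((0 : ℝ), (0 : R3), H p) = ∑ i, H p i • (((0 : ℝ), (0 : R3), ee i) : TP) := by
    conv_lhs => rw [← sum_ee (H p)]
    simp [Fin.sum_univ_three]
  unfold dv
  rw [fderiv_fun_smul hg hH, e1, map_sum, Finset.mul_sum, ← Finset.sum_add_distrib]
  refine Finset.sum_congr rfl fun i _ => ?_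
  simp only [ContinuousLinearMap.add_apply, ContinuousLinearMap.smul_apply,
    ContinuousLinearMap.smulRight_apply, PiLp.add_apply, PiLp.smul_apply, smul_eq_mul, map_smul]
  ring

theorem dv_gF {g : TP → ℝ} {K : ST → Ph} {p : TP} (hg : DifferentiableAt ℝ g p)
    (hK : DifferentiableAt ℝ K (p.1, p.2.1)) :
    dv (gF g K) p = fderiv ℝ g p (0, 0, force (K (p.1, p.2.1)) p.2.2) := by
  have h1 : DifferentiableAt ℝ (fun r : TP => K (r.1, r.2.1)) p :=
    hK.comp p (differentiableAt_fst.prodMk differentiableAt_snd.fst)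
  have hH : DifferentiableAt ℝ (fun r : TP => force (K (r.1, r.2.1)) r.2.2) p :=
    (contDiff_force.differentiable (by simp) _).comp p (h1.prodMk differentiableAt_snd.snd)
  have h2 : ∀ u : R3, fderiv ℝ (fun r : TP => force (K (r.1, r.2.1)) r.2.2) p (0, 0, u) =
      fderiv ℝ (force (K (p.1, p.2.1))) p.2.2 u := by
    intro u
    have a0 : HasFDerivAt (fun v : R3 => ((p.1, p.2.1, v) : TP))
        ((ContinuousLinearMap.inr ℝ ℝ Ph).comp (ContinuousLinearMap.inr ℝ R3 R3)) p.2.2 :=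
      (hasFDerivAt_prodMk_right p.1 (p.2.1, p.2.2)).comp p.2.2
        (hasFDerivAt_prodMk_right p.2.1 p.2.2)
    have a1 := hH.hasFDerivAt.comp (x := p.2.2) (f := fun v : R3 => ((p.1, p.2.1, v) : TP)) a0
    have a2 : HasFDerivAt (force (K (p.1, p.2.1))) (fderiv ℝ (force (K (p.1, p.2.1))) p.2.2) p.2.2 :=
      ((Cross_contDiff_force _).differentiable (by simp) _).hasFDerivAt
    have a3 := a1.unique a2
    simpa using congrArg (fun T : R3 →L[ℝ] R3 => T u) a3
  have h3 : dv (fun r : TP => force (K (r.1, r.2.1)) r.2.2) p = 0 := by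
    unfold dv
    simp only [h2]
    exact div_force _ _
  have h4 := Cross_dv_smul hg hH
  rw [h3, mul_zero, add_zero] at h4
  exact h4

theorem dv_smul {g : TP → ℝ} {H : TP → R3} {p : TP} (hg : DifferentiableAt ℝ g p)
    (hH : DifferentiableAt ℝ H p) :
    dv (fun r => g r • H r) p = fderiv ℝ g p (0, 0, H p) + g p * dv H p := by
  exact Cross_dv_smul hg hH

end Crest.Agent.R106
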