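import Crest.Agent.R106.Supp

/-!
# Row 106: removing the initial layer

`exists_cut ε`.  Choose `ε` with `2εM ≤ 1` (`mom_lip`), so that `f r ≠ 0`, `r.1 ≤ 2ε` imply `pp v ≤ P₀ + 1`
(`supp_of`, `abs_pp_sub`), and with `4π vB(P) Tm · 3D · 2ε ≤ 1`, where `D` bounds `fderiv f` on the open slab
(`fderiv_bdd`, compact support).  `LW f - LW (γ f)` has the integrand
`r⁻¹ [-(Θ (1 - γ) Df(0,e,0)) - v̂_e ((1 - γ) Df(1,w,0) - γ' f)]`; use `cyl_bound` with `r⁻¹ ≤ Tm/r²` for the two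
parts.  `C = 1 + 4π vB(P₀ + 1) |A| |Tm| (1 + |P₀ + 1|)`.

-/

set_option autoImplicit false

noncomputable section

namespace Crest.Agent.R106

open MeasureTheory Set Metric Real Filter Topology
open scoped ContDiff ENNReal RealInnerProductSpace Classical
open Crest.AnalysisR.VecCalc3 Crest.AnalysisR.PDE.RVM

theorem Cut_c1 (p : ST) (q : Ph) : (cone p q).1 = p.1 - ‖q.1‖ := rfl

theorem Cut_c2 (p : ST) (q : Ph) : (cone p q).2.2 = q.2 := rfl

theorem Cut_div {a x t : ℝ} (ha : 0 ≤ a) (hx : 0 < x) (ht : x ≤ t) : a / x ≤ a * t / x ^ 2 := by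
  calc a / x = a * x / x ^ 2 := by field_simp
    _ ≤ _ := by gcongr

theorem Cut_D {T R : ℝ} {f : TP → ℝ} (hf : ContDiffOn ℝ 1 f (slab Ph T))
    (hR : ∀ p ∈ slab Ph T, f p ≠ 0 → ‖p.2‖ ≤ R) :
    ∃ D, 0 ≤ D ∧ ∀ r ∈ oslab Ph T, ‖fderiv ℝ f r‖ ≤ D := by
  obtain ⟨D, hD⟩ := fderiv_bdd hf R
  refine ⟨|D|, abs_nonneg _, fun r hr => ?_⟩
  rcases le_or_gt ‖r.2‖ R with hv | hv
  · exact (hD r hr hv).trans (le_abs_self _)
  · have h : f =ᶠ[𝓝 r] fun _ => 0 := by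
      filter_upwards [slab_mem_nhds hr, (isOpen_lt continuous_const
        (continuous_snd.norm : Continuous fun r : TP => ‖r.2‖)).mem_nhds hv] with z hz hz'
      by_contra h0
      exact absurd (hR z hz h0) (not_le.2 hz')
    rw [h.fderiv_eq, fderiv_fun_const, Pi.zero_apply, norm_zero]
    exact abs_nonneg _

theorem Cut_pt {T Tm A P : ℝ} {f : TP → ℝ} {g : ℝ → ℝ} (hT : T ≤ Tm)
    (h0 : ∀ r ∈ slab Ph T, 0 ≤ f r) (hA : ∀ r ∈ slab Ph T, f r ≤ A) (hg : ∀ τ, 0 ≤ g τ)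
    (hs : ∀ r ∈ slab Ph T, g r.1 * f r ≠ 0 → pp r.2.2 ≤ P) {p : ST} (hp : p ∈ slab R3 T)
    {c : Ph → ℝ} (hc : ∀ q : Ph, q.1 ≠ 0 → |c q| * ‖q.1‖ ≤ pp q.2) {q : Ph} (hq : q ∈ cyl p.1)
    (hy : q.1 ≠ 0) : |c q * (g (cone p q).1 * f (cone p q))| ≤
      |P| * |Tm| * |A| * g (p.1 - ‖q.1‖) / ‖q.1‖ ^ 2 := by
  have hm := cone_mem hp hq
  have h1 := hg (p.1 - ‖q.1‖)
  by_cases hz : g (cone p q).1 * f (cone p q) = 0
  · rw [hz, mul_zero, abs_zero]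
    positivity
  have h2 : pp q.2 ≤ P := Cut_c2 p q ▸ hs _ hm hz
  have h3 := norm_pos_iff.2 hy
  have h4 : ‖q.1‖ ≤ |Tm| :=
    (mem_ball_zero_iff.1 hq.1).le.trans (hp.1.2.trans (hT.trans (le_abs_self _)))
  have h5 : |c q| ≤ |P| * |Tm| / ‖q.1‖ ^ 2 :=
    ((le_div_iff₀ h3).2 ((hc q hy).trans (h2.trans (le_abs_self _)))).trans
      (Cut_div (abs_nonneg _) h3 h4)
  have h6 : g (cone p q).1 * f (cone p q) ≤ |A| * g (p.1 - ‖q.1‖) := by
    rw [mul_comm, Cut_c1]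
    exact mul_le_mul_of_nonneg_right ((hA _ hm).trans (le_abs_self _)) h1
  rw [abs_mul, abs_of_nonneg (mul_nonneg (hg _) (h0 _ hm))]
  calc _ ≤ |P| * |Tm| / ‖q.1‖ ^ 2 * (|A| * g (p.1 - ‖q.1‖)) :=
        mul_le_mul h5 h6 (mul_nonneg (hg _) (h0 _ hm)) (by positivity)
    _ = _ := by ring

theorem Cut_k {T Tm D : ℝ} {f : TP → ℝ} (hT : T ≤ Tm) (hD0 : 0 ≤ D)
    (hD : ∀ r ∈ oslab Ph T, ‖fderiv ℝ f r‖ ≤ D) {p : ST} (hp : p ∈ slab R3 T) {e w : R3}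
    (he : ‖e‖ ≤ 1) (hw : ‖w‖ ≤ 1) {q : Ph} (hq : q ∈ cyl p.1) (hy : q.1 ≠ 0) :
    |‖q.1‖⁻¹ * (-(gap w (relVel q.2) * fderiv ℝ f (cone p q) (0, e, 0)) -
      ⟪relVel q.2, e⟫ * fderiv ℝ f (cone p q) (1, w, 0))| ≤ 3 * D * |Tm| / ‖q.1‖ ^ 2 := by
  have h1 := hD _ (cone_mem_open hp hq hy)
  have h2 : ∀ μ : TP, ‖μ‖ ≤ 1 → |fderiv ℝ f (cone p q) μ| ≤ D := fun μ hμ =>
    ((fderiv ℝ f (cone p q)).le_opNorm μ).trans
      ((mul_le_mul h1 hμ (norm_nonneg _) hD0).trans (mul_one D).le)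
  have h3 := h2 (0, e, 0) (by simp [Prod.norm_def, he])
  have h4 := h2 (1, w, 0) (by simp [Prod.norm_def, hw])
  have hv := (norm_relVel_lt q.2).le
  have h5 : |gap w (relVel q.2)| ≤ 2 := by
    rw [abs_of_nonneg (gap_nonneg hw hv)]
    exact gap_le_two hw hv
  have h6 : |⟪relVel q.2, e⟫| ≤ 1 :=
    (abs_real_inner_le_norm _ _).trans (mul_le_one₀ hv (norm_nonneg _) he)
  have h7 := norm_pos_iff.2 hy
  have h8 : ‖q.1‖ ≤ |Tm| :=
    (mem_ball_zero_iff.1 hq.1).le.trans (hp.1.2.trans (hT.trans (le_abs_self _)))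
  refine le_trans ?_ (Cut_div (by positivity) h7 h8)
  rw [abs_mul, abs_inv, abs_norm, ← div_eq_inv_mul]
  refine div_le_div_of_nonneg_right ((abs_sub _ _).trans ?_) h7.le
  rw [abs_neg, abs_mul, abs_mul]
  have := mul_le_mul h5 h3 (abs_nonneg _) zero_le_two
  have := mul_le_mul h6 h4 (abs_nonneg _) zero_le_one
  linarith

theorem cutoff (A P₀ En Cd Tm : ℝ) : ∃ C, 0 ≤ C ∧ ∀ (T : ℝ) (f₀ : Ph → ℝ) (K₀ : R3 → Ph)
    (Kd : ST → Ph) (f : TP → ℝ) (K : ST → Ph) (Z : ℝ → Ph → Ph),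
    CSet A P₀ En Cd Tm T f₀ K₀ Kd f K Z → ∃ (γ : ℝ → ℝ) (ε : ℝ), 0 < ε ∧ ContDiff ℝ ∞ γ ∧
      (∀ τ, τ ≤ ε → γ τ = 0) ∧ (∀ τ, 0 ≤ γ τ ∧ γ τ ≤ 1) ∧ ∀ p ∈ slab R3 T,
        (∀ e w : R3, ‖e‖ ≤ 1 → ‖w‖ ≤ 1 → |LW e w f p - LW e w (fun r => γ r.1 * f r) p| ≤ C) ∧
        ∀ c : Ph → ℝ, (∀ q : Ph, q.1 ≠ 0 → |c q| * ‖q.1‖ ≤ pp q.2) →
          |∫ q in cyl p.1, c q * (deriv γ (cone p q).1 * f (cone p q))| ≤ C := by
  have hvB : ∀ P, 0 ≤ vB P := fun P => ENNReal.toReal_nonneg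
  have hB : 0 ≤ 4 * π * vB (P₀ + 1) * (|P₀ + 1| * |Tm| * |A|) := by
    have := hvB (P₀ + 1)
    positivity
  refine ⟨1 + 4 * π * vB (P₀ + 1) * (|P₀ + 1| * |Tm| * |A|), by linarith,
    fun T f₀ K₀ Kd f K Z h => ?_⟩
  obtain ⟨M, hM, hlip⟩ := h.sol.mom_lip
  obtain ⟨R, hR⟩ := h.sol.supp
  have hf1 : ContDiffOn ℝ 1 f (slab Ph T) := h.sol.hf.of_le (by simp)
  have hvs : VS (Icc 0 T) R f := fun r hr h0 => (norm_snd_le r.2).trans (hR r ⟨hr, trivial⟩ h0)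
  obtain ⟨D, hD0, hD⟩ := Cut_D hf1 hR
  obtain ⟨L, hL⟩ : ∃ L, L = 4 * π * vB R * (3 * D * |Tm|) := ⟨_, rfl⟩
  have hL0 : 0 ≤ L := by
    have := hvB R
    rw [hL]
    positivity
  obtain ⟨ε, hε, hεM, hεL⟩ : ∃ ε : ℝ, 0 < ε ∧ M * (2 * ε) ≤ 1 ∧ L * (2 * ε) ≤ 1 := by
    have h1 : ∀ x, x ≤ M + L → x * (2 * (1 / (2 * (M + L)))) ≤ 1 := fun x hx => by
      rw [show x * (2 * (1 / (2 * (M + L)))) = x / (M + L) by field_simp]
      exact div_le_one_of_le₀ hx (by linarith)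
    exact ⟨1 / (2 * (M + L)), by positivity, h1 M (by linarith), h1 L (by linarith)⟩
  obtain ⟨γ, hγ, g0, g1, g2, g3, g4, g5⟩ := exists_cut hε
  have hγ' : Continuous (deriv γ) := hγ.continuous_deriv (by simp)
  have hs : ∀ r ∈ slab Ph T, deriv γ r.1 * f r ≠ 0 → pp r.2.2 ≤ P₀ + 1 := by
    intro r hr h0
    have h1 : r.1 < 2 * ε := lt_of_not_ge fun h1 => left_ne_zero_of_mul h0 (g4 _ h1)
    refine h.sol.supp_of hr.1.2 (fun z hz s hs => ?_) r ⟨⟨hr.1.1, le_rfl⟩, trivial⟩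
      (right_ne_zero_of_mul h0)
    have h2 := hlip z s ⟨hs.1, hs.2.trans hr.1.2⟩ 0 ⟨le_rfl, h.sol.hT.le⟩
    rw [h.sol.traj.zero, sub_zero, abs_of_nonneg hs.1] at h2
    have h3 := (le_abs_self _).trans (abs_pp_sub (Z s z).2 z.2)
    have h4 := h.hP z hz
    have h5 := mul_le_mul_of_nonneg_left (hs.2.trans h1.le) hM.le
    linarith
  have hpt := fun (p : ST) (hp : p ∈ slab R3 T) (c : Ph → ℝ) hc (q : Ph) hq hy =>
    Cut_pt h.hT h.sol.nonneg (h.sol.le A h.hA) g3 hs hp (c := c) hc (q := q) hq hy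
  have hz : ∀ p ∈ slab R3 T, ∀ c : Ph → ℝ, ∀ q ∈ cyl p.1, q.1 ≠ 0 → P₀ + 1 < ‖q.2‖ →
      c q * (deriv γ (cone p q).1 * f (cone p q)) = 0 := fun p hp c q hq _ hv =>
    mul_eq_zero_of_right _ (by_contra fun h0 =>
      (not_le.2 hv) ((norm_le_pp q.2).trans (Cut_c2 p q ▸ hs _ (cone_mem hp hq) h0)))
  have hfar : ∀ p ∈ slab R3 T, ∀ c : Ph → ℝ, (∀ q : Ph, q.1 ≠ 0 → |c q| * ‖q.1‖ ≤ pp q.2) →
      |∫ q in cyl p.1, c q * (deriv γ (cone p q).1 * f (cone p q))| ≤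
        4 * π * vB (P₀ + 1) * (|P₀ + 1| * |Tm| * |A|) := by
    intro p hp c hc
    refine (cyl_bound (φ := fun r => |P₀ + 1| * |Tm| * |A| * deriv γ (p.1 - r))
      ((Continuous.integrableOn_Icc (by fun_prop)).mono_set Ioo_subset_Icc_self)
      (fun q hq hy _ => hpt p hp c hc q hq hy)
      (fun r _ => mul_nonneg (by positivity) (g3 _)) (hz p hp c)).trans ?_
    rw [integral_const_mul]
    have := hvB (P₀ + 1)
    exact mul_le_mul_of_nonneg_left (mul_le_of_le_one_right (by positivity) (g5 _)) (by positivity)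
  refine ⟨γ, ε, hε, hγ, g0, g2, fun p hp => ⟨fun e w he hw => ?_,
    fun c hc => (hfar p hp c hc).trans (by linarith)⟩⟩
  obtain ⟨k, hk⟩ : ∃ k : Ph → ℝ, k = fun q => ‖q.1‖⁻¹ *
      (-(gap w (relVel q.2) * fderiv ℝ f (cone p q) (0, e, 0)) -
        ⟪relVel q.2, e⟫ * fderiv ℝ f (cone p q) (1, w, 0)) := ⟨_, rfl⟩
  have hrv : Continuous relVel := contDiff_relVel.continuous
  have hcone := cyl_cont p
  have kb : ∀ q ∈ cyl p.1, q.1 ≠ 0 → |k q| ≤ 3 * D * |Tm| / ‖q.1‖ ^ 2 := fun q hq hy => by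
    rw [hk]
    exact Cut_k h.hT hD0 hD hp he hw hq hy
  have kz : ∀ q ∈ cyl p.1, q.1 ≠ 0 → R < ‖q.2‖ → k q = 0 := fun q hq hy hv => by
    simp only [hk, fderiv_zero_of_VS hvs (cone_mem_open hp hq hy) (Cut_c2 p q ▸ hv), zero_apply, mul_zero,
      neg_zero, sub_zero]
  have km : Measurable k := by
    have m1 := fun μ : TP => (measurable_fderiv_apply_const ℝ f μ).comp hcone.measurable
    have m2 : Continuous fun q : Ph => gap w (relVel q.2) := by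
      unfold gap
      fun_prop
    have m3 : Continuous fun q : Ph => ⟪relVel q.2, e⟫ := by fun_prop
    rw [hk]
    exact measurable_fst.norm.inv.mul
      ((m2.measurable.mul (m1 _)).neg.sub (m3.measurable.mul (m1 _)))
  have ki : IntegrableOn k (cyl p.1) := cyl_int km.aestronglyMeasurable kb kz
  have hγc : Continuous fun q => γ (cone p q).1 := hγ.continuous.comp hcone.fst
  have ki' : IntegrableOn (fun q => γ (cone p q).1 * k q) (cyl p.1) :=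
    Integrable.bdd_mul (c := 1) ki hγc.aestronglyMeasurable
      (Eventually.of_forall fun q => abs_le.2 ⟨by linarith [(g2 (cone p q).1).1], (g2 _).2⟩)
  have hc : ∀ q : Ph, q.1 ≠ 0 → |‖q.1‖⁻¹ * ⟪relVel q.2, e⟫| * ‖q.1‖ ≤ pp q.2 := fun q hy => by
    rw [abs_mul, abs_inv, abs_norm, mul_right_comm, inv_mul_cancel₀ (norm_ne_zero_iff.2 hy), one_mul]
    exact ((abs_real_inner_le_norm _ _).trans
      (mul_le_one₀ (norm_relVel_lt _).le (norm_nonneg _) he)).trans (one_le_pp _)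
  obtain ⟨G, hG⟩ := (isCompact_Icc (a := 0) (b := T)).exists_bound_of_continuousOn hγ'.continuousOn
  have ci : IntegrableOn (fun q : Ph => ‖q.1‖⁻¹ * ⟪relVel q.2, e⟫ *
      (deriv γ (cone p q).1 * f (cone p q))) (cyl p.1) := by
    refine cyl_int (C := |P₀ + 1| * |Tm| * |A| * G) (cyl_meas (ContinuousOn.mul
      ((continuous_fst.norm.continuousOn.inv₀ fun q hq => norm_ne_zero_iff.2 hq.2).mul
        (Continuous.continuousOn (by fun_prop)))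
      ((hγ'.comp hcone.fst).continuousOn.mul (cyl_comp hf1.continuousOn hp))))
      (fun q hq hy => (hpt p hp _ hc q hq hy).trans ?_) (hz p hp _)
    have h1 : deriv γ (p.1 - ‖q.1‖) ≤ G := (le_abs_self _).trans (Cut_c1 p q ▸ hG _ (cone_mem hp hq).1)
    gcongr
  have e1 : LW e w (fun r => γ r.1 * f r) p = ∫ q in cyl p.1, (γ (cone p q).1 * k q -
      ‖q.1‖⁻¹ * ⟪relVel q.2, e⟫ * (deriv γ (cone p q).1 * f (cone p q))) := by
    refine integral_congr_ae ?_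
    filter_upwards [ae_restrict_mem (measurableSet_cyl p.1), ae_restrict_of_ae ae_ne_zero]
      with q hq hy
    have d1 : HasFDerivAt (fun r : TP => γ r.1)
        (deriv γ (cone p q).1 • ContinuousLinearMap.fst ℝ ℝ Ph) (cone p q) :=
      (hγ.differentiable (by simp) _).hasDerivAt.comp_hasFDerivAt _ hasFDerivAt_fst
    have d2 : DifferentiableAt ℝ f (cone p q) :=
      (hf1.contDiffAt (slab_mem_nhds (cone_mem_open hp hq hy))).differentiableAt one_ne_zero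
    rw [fderiv_fun_mul d1.differentiableAt d2, d1.fderiv, hk]
    simp only [add_apply, smul_apply, ContinuousLinearMap.coe_fst', smul_eq_mul]
    ring
  have e2 : LW e w f p = ∫ q in cyl p.1, k q := by rw [hk, LW]
  have hK : 0 ≤ 3 * D * |Tm| := by positivity
  have hi : Integrable ((Ioo (p.1 - 2 * ε) p.1).indicator fun _ : ℝ => 3 * D * |Tm|) :=
    (integrableOn_const measure_Ioo_lt_top.ne).integrable_indicator measurableSet_Ioo
  have hi0 : ∀ r, 0 ≤ (Ioo (p.1 - 2 * ε) p.1).indicator (fun _ : ℝ => 3 * D * |Tm|) r :=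
    indicator_nonneg fun _ _ => hK
  have hnear : |∫ q in cyl p.1, (k q - γ (cone p q).1 * k q)| ≤ 1 := by
    refine (cyl_bound (P := R) hi.integrableOn (fun q hq hy _ => ?_) (fun r _ => hi0 r)
      fun q hq hy hv => by rw [kz q hq hy hv, mul_zero, sub_zero]).trans ?_
    · rcases le_or_gt (2 * ε) (p.1 - ‖q.1‖) with h1 | h1
      · rw [Cut_c1, g1 _ h1, one_mul, sub_self, abs_zero]
        exact div_nonneg (hi0 _) (sq_nonneg _)
      · rw [indicator_of_mem (show ‖q.1‖ ∈ Ioo (p.1 - 2 * ε) p.1 from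
          ⟨by linarith, mem_ball_zero_iff.1 hq.1⟩), ← one_sub_mul, abs_mul]
        obtain ⟨h2, h3⟩ := g2 (cone p q).1
        exact (mul_le_of_le_one_left (abs_nonneg _)
          (abs_le.2 ⟨by linarith, by linarith⟩)).trans (kb q hq hy)
    · have h1 := (setIntegral_le_integral (s := Ioo 0 p.1) hi (Eventually.of_forall hi0)).trans_eq
        (integral_indicator_const _ measurableSet_Ioo)
      rw [Real.volume_real_Ioo_of_le (by linarith), sub_sub_cancel, smul_eq_mul] at h1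
      have := hvB R
      refine (mul_le_mul_of_nonneg_left h1 (by positivity)).trans (le_trans (le_of_eq ?_) hεL)
      rw [hL]
      ring
  rw [integral_sub ki ki'] at hnear
  rw [e1, e2, integral_sub ki' ci, ← sub_add]
  exact (abs_add_le _ _).trans (add_le_add hnear (hfar p hp _ hc))

end Crest.Agent.R106
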