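import Mathlib
import Crest.Prelude.Def_VlasovMaxwell

/-!
# Row 106 (relativistic Vlasov–Maxwell, global smooth solutions): definitions (do not edit)

Overview.  Part B (standard): for a bounded truncation `κ` of the field we iterate
`K n ↦ f n` (transport by `κ ∘ K n`) `↦ K (n+1) = mx K₀ (f n)` (Maxwell by retarded potentials), prove
uniform `C^k` bounds on `[0,T]` with the Glassey–Strauss integration by parts, and pass to the limit
(`TSol κ`).  Part C (new): an a priori bound for the momenta of a true solution (`TSol id`) removes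
the truncation.  Weighted energy estimates give uniqueness and the `L²` statements.

Conventions: `p : TP` is `(t, x, v)`, `p : ST` is `(t, x)`, `q : Ph` is `(y, v)` with `y` the vector
from the source to the observer, `K p : Ph` is `(E, B)`.  Norms on products are sup norms.
-/

set_option autoImplicit false

noncomputable section

namespace Crest.Agent.R106

open MeasureTheory Set Metric Real
open scoped ContDiff ENNReal RealInnerProductSpace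
open Crest.AnalysisR.VecCalc3 Crest.AnalysisR.PDE.RVM

abbrev Ph : Type := R3 × R3
abbrev ST : Type := ℝ × R3
abbrev TP : Type := ℝ × R3 × R3

/-! ## Elementary quantities -/

/-- `⟨v⟩` -/
def pp (v : R3) : ℝ := √(1 + ‖v‖ ^ 2)
/-- the unit vector `y / |y|` (`0` at `0`) -/
def nn (y : R3) : R3 := ‖y‖⁻¹ • y
/-- `1 - a·b` -/
def gap (a b : R3) : ℝ := 1 - ⟪a, b⟫
/-- the "angle" `√(2(1 - a·b))` between two vectors of the unit ball -/
def ang (a b : R3) : ℝ := √(2 * gap a b)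
/-- basis vectors -/
def ee (i : Fin 3) : R3 := EuclideanSpace.single i 1
/-- the vector with coordinates `u i` -/
def vec (u : Fin 3 → ℝ) : R3 := WithLp.toLp 2 u
/-- Lorentz force -/
def force (K : Ph) (v : R3) : R3 := K.1 + cross3 (relVel v) K.2
/-- the characteristic vector field -/
def vf (K : ST → Ph) (p : TP) : Ph := (relVel p.2.2, force (K (p.1, p.2.1)) p.2.2)

/-- closed time slab -/
def slab (X : Type) (T : ℝ) : Set (ℝ × X) := Icc 0 T ×ˢ univ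
/-- open time slab -/
def oslab (X : Type) (T : ℝ) : Set (ℝ × X) := Ioo 0 T ×ˢ univ

section Calc
variable {X Y : Type} [NormedAddCommGroup X] [NormedSpace ℝ X] [NormedAddCommGroup Y]
  [NormedSpace ℝ Y]

/-- directional derivative -/
def pd (u : X) (g : X → Y) : X → Y := fun p => fderiv ℝ g p u
/-- iterated directional derivative -/
def pdl (L : List X) (g : X → Y) : X → Y := L.foldr pd g
/-- the `k`-th space derivative at time `t` is bounded by `C` -/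
def DB (k : ℕ) (g : ℝ × X → Y) (t C : ℝ) : Prop :=
  ∀ z, ‖iteratedFDeriv ℝ k (fun z => g (t, z)) z‖ ≤ C
/-- iterated `x`-derivatives of a function of `(t, x)` -/
def pdx (L : List R3) (K : ST → Y) : ST → Y := pdl (L.map fun u => ((0 : ℝ), u)) K
/-- iterated `x`-derivatives of a function of `(t, x, v)` -/
def pdX (L : List R3) (g : TP → Y) : TP → Y := pdl (L.map fun u => ((0 : ℝ), u, (0 : R3))) g
/-- momentum support bound on the time set `S` -/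
def VS (S : Set ℝ) (R : ℝ) (g : TP → Y) : Prop := ∀ p : TP, p.1 ∈ S → g p ≠ 0 → ‖p.2.2‖ ≤ R
/-- locally uniform (in time) momentum support bound -/
def LS (g : TP → Y) : Prop := ∀ a : ℝ, ∃ R, VS (Icc (-a) a) R g

end Calc

/-- momentum integral -/
def vint (g : TP → ℝ) (p : ST) : ℝ := ∫ v, g (p.1, p.2, v)
/-- current density, component `i` (the charge density is `vint f`) -/
def cur (f : TP → ℝ) (i : Fin 3) : ST → ℝ := vint fun p => f p * relVel p.2.2 i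
/-- curl, component `i` -/
def cu (u : Fin 3 → ST → ℝ) (i : Fin 3) (p : ST) : ℝ :=
  pd (0, ee (i + 1)) (u (i + 2)) p - pd (0, ee (i + 2)) (u (i + 1)) p
/-- divergence in `x` -/
def dx (u : Fin 3 → ST → ℝ) (p : ST) : ℝ := ∑ i, pd (0, ee i) (u i) p
/-- divergence in `v` -/
def dv (H : TP → R3) (p : TP) : ℝ := ∑ i, (fderiv ℝ H p (0, 0, ee i)) i
/-- components of the electric field -/
def cE (K : ST → Ph) (i : Fin 3) (p : ST) : ℝ := (K p).1 i
/-- components of the magnetic field -/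
def cB (K : ST → Ph) (i : Fin 3) (p : ST) : ℝ := (K p).2 i

/-- the Vlasov equation at `p` -/
def Vlasov (K : ST → Ph) (f : TP → ℝ) (p : TP) : Prop := fderiv ℝ f p (1, vf K p) = 0

/-- the Maxwell equations at `p` -/
def Maxwell (K : ST → Ph) (f : TP → ℝ) (p : ST) : Prop :=
  (∀ i, pd (1, 0) (cE K i) p - cu (cB K) i p = -cur f i p) ∧
  (∀ i, pd (1, 0) (cB K i) p + cu (cE K) i p = 0) ∧
  dx (cE K) p = vint f p ∧ dx (cB K) p = 0

/-- admissible data -/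
structure Adm (f₀ : Ph → ℝ) (K₀ : R3 → Ph) : Prop where
  nonneg : ∀ z, 0 ≤ f₀ z
  smooth : ContDiff ℝ ∞ f₀
  cpt : HasCompactSupport f₀
  smoothK : ContDiff ℝ ∞ K₀
  bdd : ∀ n : ℕ, ∃ C, ∀ x, ‖iteratedFDeriv ℝ n K₀ x‖ ≤ C
  l2E : MemLp (fun x => (K₀ x).1) 2
  l2B : MemLp (fun x => (K₀ x).2) 2
  divE : ∀ x, ∑ i, pd (ee i) (fun y => (K₀ y).1 i) x = ∫ v, f₀ (x, v)
  divB : ∀ x, ∑ i, pd (ee i) (fun y => (K₀ y).2 i) x = 0

/-! ## Retarded integrals -/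

/-- Duhamel operator of the wave equation -/
def Du (h : ST → ℝ) (p : ST) : ℝ :=
  p.1 ^ 2 / (4 * π) * ∫ η in ball (0 : R3) 1, ‖η‖⁻¹ * h (p.1 - p.1 * ‖η‖, p.2 - p.1 • η)

/-- the point of the backward light cone -/
def cone2 (p : ST) (y : R3) : ST := (p.1 - ‖y‖, p.2 - y)
/-- the point of the backward light cone, with momentum -/
def cone (p : ST) (q : Ph) : TP := (p.1 - ‖q.1‖, p.2 - q.1, q.2)
/-- domain of the cone integrals -/
def cyl (t : ℝ) : Set Ph := ball 0 t ×ˢ univ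
/-- retarded integral of the derivative of `g` in direction `μ` against the kernel `a` -/
def Ret (a : Ph → ℝ) (μ : TP) (g : TP → ℝ) (p : ST) : ℝ :=
  ∫ q in cyl p.1, a q * fderiv ℝ g (cone p q) μ

/-- retarded integral of `g` against the kernel `a` -/
def Pot (a : Ph → ℝ) (g : TP → ℝ) (p : ST) : ℝ := ∫ q in cyl p.1, a q * g (cone p q)
/-- volume of the momentum ball -/
def vB (P : ℝ) : ℝ := (volume (closedBall (0 : R3) P)).toReal
/-- `g` times the Lorentz force -/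
def gF (g : TP → ℝ) (K : ST → Ph) (r : TP) : R3 := g r • force (K (r.1, r.2.1)) r.2.2

/-- the kernel `1/r` -/
def k0 (q : Ph) : ℝ := ‖q.1‖⁻¹
/-- the kernels `v̂_i/r` -/
def kv (i : Fin 3) (q : Ph) : ℝ := relVel q.2 i * ‖q.1‖⁻¹

/-- `a = ∂_t 𝒟 E₀` -/
def aE (K₀ : R3 → Ph) (i : Fin 3) : ST → ℝ := pd (1, 0) (Du fun p => (K₀ p.2).1 i)
/-- `b = ∂_t 𝒟 B₀` -/
def bB (K₀ : R3 → Ph) (i : Fin 3) : ST → ℝ := pd (1, 0) (Du fun p => (K₀ p.2).2 i)

/-- the solution of Maxwell's equations with data `K₀` and sources given by `f` -/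
def mx (K₀ : R3 → Ph) (f : TP → ℝ) (p : ST) : Ph :=
  (vec fun i => pd (1, 0) (aE K₀ i) p + cu (bB K₀) i p - pd (0, ee i) (Du (vint f)) p -
      pd (1, 0) (Du (cur f i)) p,
   vec fun i => pd (1, 0) (bB K₀ i) p - cu (aE K₀) i p + cu (fun j => Du (cur f j)) i p)

/-- the part of the field that only depends on the data -/
def dat (K₀ : R3 → Ph) (f₀ : Ph → ℝ) (p : ST) : Ph :=
  (vec fun i => pd (1, 0) (aE K₀ i) p + cu (bB K₀) i p -
      pd (1, 0) (Du (cur (fun p => f₀ p.2) i)) p,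
   vec fun i => pd (1, 0) (bB K₀ i) p - cu (aE K₀) i p)

/-- the representation formula at `p` -/
def RepAt (Kd K : ST → Ph) (f : TP → ℝ) (p : ST) : Prop :=
  (∀ i, (K p).1 i = (Kd p).1 i -
    (Ret k0 (0, ee i, 0) f p + Ret (kv i) (1, 0, 0) f p) / (4 * π)) ∧
  ∀ i, (K p).2 i = (Kd p).2 i +
    (Ret (kv (i + 2)) (0, ee (i + 1), 0) f p - Ret (kv (i + 1)) (0, ee (i + 2), 0) f p) / (4 * π)

/-- kernels that are smooth off `y = 0` and homogeneous of degree `-m` in `y` -/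
def Ker (m : ℕ) (a : Ph → ℝ) : Prop :=
  ContDiffOn ℝ ∞ a ({0}ᶜ ×ˢ univ) ∧
    ∀ (c : ℝ) (y v : R3), 0 < c → y ≠ 0 → a (c • y, v) = c⁻¹ ^ m * a (y, v)

/-- kernels with a singularity of order at most `1/r` -/
def KerB (a : Ph → ℝ) : Prop :=
  ContDiffOn ℝ 1 a ({0}ᶜ ×ˢ univ) ∧ ∀ R : ℝ, ∃ C, ∀ y v u : R3, y ≠ 0 → ‖y‖ ≤ R → ‖v‖ ≤ R →
    |a (y, v)| ≤ C / ‖y‖ ∧ |fderiv ℝ a (y, v) (u, 0)| ≤ C * ‖u‖ / ‖y‖ ^ 2 ∧
      |fderiv ℝ a (y, v) (0, u)| ≤ C * ‖u‖ / ‖y‖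

/-- `g` solves `(∂_t + v̂·∇_x) g + div_v H = s` in the slab -/
structure Trans (T P : ℝ) (g : TP → ℝ) (H : TP → R3) (s : TP → ℝ) : Prop where
  hg : ContDiffOn ℝ 1 g (slab Ph T)
  hH : ContDiffOn ℝ 1 H (slab Ph T)
  hs : ContinuousOn s (slab Ph T)
  vg : VS (Icc 0 T) P g
  vH : VS (Icc 0 T) P H
  vs : VS (Icc 0 T) P s
  eq : ∀ p ∈ oslab Ph T, fderiv ℝ g p (1, relVel p.2.2, 0) + dv H p = s p

/-- coefficient of `S g` in the Glassey–Strauss splitting of `a ∂_{(τ,u)} g` -/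
def gsC (a : Ph → ℝ) (τ : ℝ) (u : R3) (q : Ph) : ℝ :=
  a q * (τ - ⟪nn q.1, u⟫) / gap (nn q.1) (relVel q.2)
/-- the kernel that hits `g` after the tangential integration by parts -/
def gsT (a : Ph → ℝ) (τ : ℝ) (u : R3) (q : Ph) : ℝ :=
  fderiv ℝ a q (u, 0) - fderiv ℝ (gsC a τ u) q (relVel q.2, 0)

/-! ## Solutions -/

/-- global smooth solution of the linear Vlasov equation with its characteristics -/
structure VSol (f₀ : Ph → ℝ) (K : ST → Ph) (f : TP → ℝ) (Z : ℝ → Ph → Ph) : Prop where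
  smooth : ContDiff ℝ ∞ f
  init : ∀ z, f (0, z) = f₀ z
  eq : ∀ p, Vlasov K f p
  cont : Continuous fun p : TP => Z p.1 p.2
  zero : ∀ z, Z 0 z = z
  ode : ∀ t z, HasDerivAt (fun s => Z s z) (vf K (t, Z t z)) t
  surj : ∀ t, Function.Surjective (Z t)
  mp : ∀ t, 0 ≤ t → MeasurePreserving (Z t) volume volume

/-- the iteration scheme -/
structure Iter (κ : Ph → Ph) (f₀ : Ph → ℝ) (K₀ : R3 → Ph) (K : ℕ → ST → Ph) (f : ℕ → TP → ℝ)
    (Z : ℕ → ℝ → Ph → Ph) : Prop where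
  adm : Adm f₀ K₀
  hκ : ContDiff ℝ ∞ κ
  cκ : HasCompactSupport κ
  zero : K 0 = fun _ => 0
  smooth : ∀ n, ContDiff ℝ ∞ (K n)
  vsol : ∀ n, VSol f₀ (κ ∘ K n) (f n) (Z n)
  succ : ∀ n, K (n + 1) = mx K₀ (f n)

/-- limit of the iteration scheme on `[0, T]` -/
structure LimD (T : ℝ) (K : ℕ → ST → Ph) (f : ℕ → TP → ℝ) (K' : ST → Ph) (f' : TP → ℝ) :
    Prop where
  hT : 0 < T
  bK : ∀ k : ℕ, ∃ C, ∀ n, ∀ p ∈ slab R3 T, ‖iteratedFDeriv ℝ k (K n) p‖ ≤ C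
  bf : ∀ k : ℕ, ∃ C, ∀ n, ∀ p ∈ slab Ph T, ‖iteratedFDeriv ℝ k (f n) p‖ ≤ C
  uK : TendstoUniformlyOn K K' Filter.atTop (slab R3 T)
  uf : TendstoUniformlyOn f f' Filter.atTop (slab Ph T)
  sK : ContDiffOn ℝ ∞ K' (slab R3 T)
  sf : ContDiffOn ℝ ∞ f' (slab Ph T)
  dK : ∀ p ∈ oslab R3 T,
    Filter.Tendsto (fun n => fderiv ℝ (K n) p) Filter.atTop (nhds (fderiv ℝ K' p))
  df : ∀ p ∈ oslab Ph T,
    Filter.Tendsto (fun n => fderiv ℝ (f n) p) Filter.atTop (nhds (fderiv ℝ f' p))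

/-- characteristics on `[0, T]` that carry `f₀` to `f` -/
structure Traj (T : ℝ) (f₀ : Ph → ℝ) (K : ST → Ph) (f : TP → ℝ) (Z : ℝ → Ph → Ph) : Prop where
  meas : Measurable fun p : TP => Z p.1 p.2
  zero : ∀ z, Z 0 z = z
  ode : ∀ z, ∀ t ∈ Icc 0 T, HasDerivWithinAt (fun s => Z s z) (vf K (t, Z t z)) (Icc 0 T) t
  push : ∀ t ∈ Icc 0 T, ∀ g : Ph → ℝ≥0∞, Measurable g →
    ∫⁻ z, ENNReal.ofReal (f (t, z)) * g z = ∫⁻ z, ENNReal.ofReal (f₀ z) * g (Z t z)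

/-- smooth solution on `[0, T]` of the system with truncated force; `κ = id` is the true system -/
structure TSol (κ : Ph → Ph) (T : ℝ) (f₀ : Ph → ℝ) (K₀ : R3 → Ph) (Kd : ST → Ph) (f : TP → ℝ)
    (K : ST → Ph) (Z : ℝ → Ph → Ph) : Prop where
  hT : 0 < T
  hf : ContDiffOn ℝ ∞ f (slab Ph T)
  hK : ContDiffOn ℝ ∞ K (slab R3 T)
  initf : ∀ z, f (0, z) = f₀ z
  initK : ∀ x, K (0, x) = K₀ x
  vl : ∀ p ∈ oslab Ph T, Vlasov (κ ∘ K) f p
  mxw : ∀ p ∈ oslab R3 T, Maxwell K f p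
  rep : ∀ p ∈ slab R3 T, RepAt Kd K f p
  nonneg : ∀ p ∈ slab Ph T, 0 ≤ f p
  le : ∀ A, (∀ z, f₀ z ≤ A) → ∀ p ∈ slab Ph T, f p ≤ A
  supp : ∃ R, ∀ p ∈ slab Ph T, f p ≠ 0 → ‖p.2‖ ≤ R
  lip : ∃ C, (∀ p ∈ slab R3 T, ‖K p‖ ≤ C) ∧
    ∀ x, ∀ t ∈ Icc 0 T, ∀ t' ∈ Icc 0 T, ‖K (t, x) - K (t', x)‖ ≤ C * |t - t'|
  traj : Traj T f₀ (κ ∘ K) f Z

/-- classical `C¹` solution on `[0, T)` (without the `L²` conditions) -/
structure CSol (T : ℝ) (f₀ : Ph → ℝ) (K₀ : R3 → Ph) (f : TP → ℝ) (K : ST → Ph) : Prop where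
  hf : ContDiffOn ℝ 1 f (Ico 0 T ×ˢ univ)
  hK : ContDiffOn ℝ 1 K (Ico 0 T ×ˢ univ)
  initf : ∀ z, f (0, z) = f₀ z
  initK : ∀ x, K (0, x) = K₀ x
  vl : ∀ p ∈ oslab Ph T, Vlasov K f p
  mxw : ∀ p ∈ oslab R3 T, Maxwell K f p
  supp : ∀ T', 0 ≤ T' → T' < T → ∃ R, ∀ p ∈ slab Ph T', f p ≠ 0 → ‖p.2‖ ≤ R

/-! ## Energy -/

/-- energy density -/
def eD (f : TP → ℝ) (K : ST → Ph) (p : ST) : ℝ :=
  vint (fun r => f r * pp r.2.2) p + (‖(K p).1‖ ^ 2 + ‖(K p).2‖ ^ 2) / 2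
/-- energy flux -/
def eS (f : TP → ℝ) (K : ST → Ph) (p : ST) : R3 :=
  (vec fun i => vint (fun r => f r * r.2.2 i) p) + cross3 (K p).1 (K p).2

/-- a local (sub-)conservation law with subluminal flux -/
structure Cons (T : ℝ) (e : ST → ℝ) (S : ST → R3) : Prop where
  ce : ContinuousOn e (slab R3 T)
  cS : ContinuousOn S (slab R3 T)
  de : ContDiffOn ℝ 1 e (oslab R3 T)
  dS : ContDiffOn ℝ 1 S (oslab R3 T)
  dom : ∀ p ∈ slab R3 T, ‖S p‖ ≤ e p
  law : ∀ p ∈ oslab R3 T, pd (1, 0) e p + dx (fun i q => S q i) p ≤ 0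

/-- energy bound on time slices -/
def EnB (T : ℝ) (f : TP → ℝ) (K : ST → Ph) (En : ℝ) : Prop :=
  ∀ t ∈ Icc 0 T, ∫⁻ x, ((∫⁻ v, ENNReal.ofReal (f (t, x, v) * pp v)) +
    ENNReal.ofReal ((‖(K (t, x)).1‖ ^ 2 + ‖(K (t, x)).2‖ ^ 2) / 2)) ≤ ENNReal.ofReal En

/-- the good field component `E + n × B` on the cone -/
def good (K : ST → Ph) (p : ST) (y : R3) : R3 :=
  (K (cone2 p y)).1 + cross3 (nn y) (K (cone2 p y)).2

/-- energy bound on backward light cones -/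
def FluxB (T : ℝ) (f : TP → ℝ) (K : ST → Ph) (En : ℝ) : Prop :=
  ∀ p ∈ slab R3 T, ∫⁻ y in ball (0 : R3) p.1,
    ((∫⁻ v, ENNReal.ofReal (f (cone p (y, v)) * (pp v * gap (nn y) (relVel v)))) +
      ENNReal.ofReal (‖good K p y‖ ^ 2 / 2)) ≤ ENNReal.ofReal En

end Crest.Agent.R106
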