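import Crest.Agent.R106.Cross
import Crest.Agent.R068.Sphere

/-!
# Row 106: radial integrals and integration by parts with a singularity

`radial`: `Crest.Agent.R068.lintegral_polar`, `sphereMeasure_univ` (the sphere measure is carried by unit
vectors).  `sibp`: multiply by `1 - χ(y/ε)` with a smooth bump `χ`; the product is `C¹` with compact
support, so the integral of its derivative vanishes; `∫ |u| |∇χ_ε| ≤ C ε`, and
`∫ (1 - χ_ε) ∂u → ∫ ∂u` by dominated convergence.

-/

set_option autoImplicit false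

noncomputable section

namespace Crest.Agent.R106

open MeasureTheory Set Metric Real Filter Topology
open scoped ContDiff ENNReal RealInnerProductSpace Classical
open Crest.AnalysisR.VecCalc3 Crest.AnalysisR.PDE.RVM

theorem radial {φ : ℝ → ℝ≥0∞} (hφ : Measurable φ) (t : ℝ) :
    ∫⁻ y in ball (0 : R3) t, φ ‖y‖ * ENNReal.ofReal (1 / ‖y‖ ^ 2) =
      ENNReal.ofReal (4 * π) * ∫⁻ r in Ioo 0 t, φ r := by
  have hm : Measurable fun y : R3 => φ ‖y‖ * ENNReal.ofReal (1 / ‖y‖ ^ 2) :=
    (hφ.comp measurable_norm).mul (by fun_prop)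
  have hu := Crest.Agent.R068.sphereMeasure_univ
  rw [← lintegral_indicator measurableSet_ball,
    Crest.Agent.R068.lintegral_polar (hm.indicator measurableSet_ball)]
  have key : ∀ w : sphere (0 : R3) 1, ∫⁻ r in Ioi (0 : ℝ), ENNReal.ofReal (r ^ 2) *
      (ball (0 : R3) t).indicator (fun y : R3 => φ ‖y‖ * ENNReal.ofReal (1 / ‖y‖ ^ 2)) (r • w.1) =
      ∫⁻ r in Ioo 0 t, φ r := by
    intro w
    have hw : ‖w.1‖ = 1 := norm_eq_of_mem_sphere w
    rw [← Ioi_inter_Iio, inter_comm, ← Measure.restrict_restrict measurableSet_Iio,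
      ← lintegral_indicator measurableSet_Iio]
    refine setLIntegral_congr_fun measurableSet_Ioi fun r hr => ?_
    have hr' : 0 < r := hr
    have hn : ‖r • w.1‖ = r := by rw [norm_smul, hw, mul_one, Real.norm_of_nonneg hr'.le]
    by_cases h : r < t
    · have h1 : r • w.1 ∈ ball (0 : R3) t := by rw [mem_ball_zero_iff, hn]; exact h
      have h2 : r ∈ Iio t := h
      simp only [indicator_of_mem h1, indicator_of_mem h2, hn]
      rw [mul_left_comm, ← ENNReal.ofReal_mul (sq_nonneg r), mul_one_div_cancel (by positivity),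
        ENNReal.ofReal_one, mul_one]
    · have h1 : r • w.1 ∉ ball (0 : R3) t := by rw [mem_ball_zero_iff, hn]; exact h
      have h2 : r ∉ Iio t := h
      simp only [indicator_of_notMem h1, indicator_of_notMem h2, mul_zero]
  unfold Crest.AnalysisR.PDE.Boltzmann.sphereMeasure at hu ⊢
  rw [Crest.Agent.R068.sph_emb.map_apply, preimage_univ] at hu
  rw [Crest.Agent.R068.sph_emb.lintegral_map, lintegral_congr key, lintegral_const, hu, mul_comm]

theorem lintegral_inv_sq (t : ℝ) :
    ∫⁻ y in ball (0 : R3) t, ENNReal.ofReal (1 / ‖y‖ ^ 2) = ENNReal.ofReal (4 * π * t) := by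
  have h := radial (φ := fun _ => 1) measurable_const t
  simp only [one_mul] at h
  rw [h, setLIntegral_one, Real.volume_Ioo, sub_zero, ← ENNReal.ofReal_mul (by positivity)]

theorem integrableOn_inv_sq (t : ℝ) :
    IntegrableOn (fun y : R3 => 1 / ‖y‖ ^ 2) (ball 0 t) := by
  rw [integrableOn_fun_norm_addHaar (volume : Measure R3) (f := fun r : ℝ => 1 / r ^ 2),
    finrank_euclideanSpace_fin]
  refine (integrableOn_congr_fun (g := fun _ => (1 : ℝ)) (fun r hr => ?_) measurableSet_Ioo).2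
    (integrableOn_const (by simp))
  have : r ≠ 0 := hr.1.ne'
  simp only [smul_eq_mul]
  field_simp

theorem integrableOn_inv (t : ℝ) : IntegrableOn (fun y : R3 => ‖y‖⁻¹) (ball 0 t) := by
  rw [integrableOn_fun_norm_addHaar (volume : Measure R3) (f := fun r : ℝ => r⁻¹),
    finrank_euclideanSpace_fin]
  refine (integrableOn_congr_fun (g := fun r : ℝ => r) (fun r hr => ?_) measurableSet_Ioo).2
    (continuous_id.integrableOn_Icc.mono_set Ioo_subset_Icc_self)
  have : r ≠ 0 := hr.1.ne'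
  simp only [smul_eq_mul]
  field_simp

/-- Bochner version of `radial` -/
theorem radial_integral {φ : ℝ → ℝ} {t : ℝ} (hφ : IntegrableOn φ (Ioo 0 t)) :
    IntegrableOn (fun y : R3 => φ ‖y‖ / ‖y‖ ^ 2) (ball 0 t) ∧
      ∫ y in ball (0 : R3) t, φ ‖y‖ / ‖y‖ ^ 2 = 4 * π * ∫ r in Ioo 0 t, φ r := by
  have e : ∀ r ∈ Ioo (0 : ℝ) t, r ^ (3 - 1) • (φ r / r ^ 2) = φ r := by
    intro r hr
    have : r ≠ 0 := hr.1.ne'
    simp only [smul_eq_mul]
    field_simp
    ring
  constructor
  · rw [integrableOn_fun_norm_addHaar (volume : Measure R3) (f := fun r : ℝ => φ r / r ^ 2),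
      finrank_euclideanSpace_fin]
    exact (integrableOn_congr_fun e measurableSet_Ioo).2 hφ
  · have h := integral_fun_norm_addHaar (volume : Measure R3)
      ((Iio t).indicator fun r : ℝ => φ r / r ^ 2)
    rw [finrank_euclideanSpace_fin] at h
    have e1 : ∫ y in ball (0 : R3) t, φ ‖y‖ / ‖y‖ ^ 2 =
        ∫ y : R3, (Iio t).indicator (fun r : ℝ => φ r / r ^ 2) ‖y‖ := by
      rw [← integral_indicator measurableSet_ball]
      refine integral_congr_ae (Eventually.of_forall fun y => ?_)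
      simp [indicator]
    have e2 : ∫ r in Ioi (0 : ℝ), r ^ (3 - 1) • (Iio t).indicator (fun r : ℝ => φ r / r ^ 2) r =
        ∫ r in Ioo 0 t, φ r := by
      rw [← setIntegral_congr_fun measurableSet_Ioo e, ← Ioi_inter_Iio,
        ← setIntegral_indicator measurableSet_Iio]
      refine setIntegral_congr_fun measurableSet_Ioi fun r _ => ?_
      by_cases h : r ∈ Iio t
      · simp only [indicator_of_mem h]
      · simp only [indicator_of_notMem h, smul_zero]
    rw [e1, h, e2, Measure.real, EuclideanSpace.volume_ball_fin_three]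
    simp only [ENNReal.ofReal_one, one_pow, one_mul, smul_eq_mul, nsmul_eq_mul]
    rw [ENNReal.toReal_ofReal (by positivity)]
    push_cast
    ring

theorem sibp_ae_ne : ∀ᵐ y : R3, y ≠ 0 := by
  have : ∀ᵐ y : R3, y ∉ ({0} : Set R3) := compl_mem_ae_iff.2 (measure_singleton _)
  exact this

theorem sibp_meas {F : R3 → ℝ} (hF : ContinuousOn F {0}ᶜ) : AEStronglyMeasurable F volume := by
  have := hF.aestronglyMeasurable (μ := (volume : Measure R3)) (measurableSet_singleton _).compl
  rwa [restrict_compl_singleton] at this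

theorem sibp_dom {F b : R3 → ℝ} {R : ℝ} (hs : ∀ y, R < ‖y‖ → F y = 0)
    (hle : ∀ y, y ≠ 0 → ‖F y‖ ≤ b y) :
    ∀ᵐ y : R3, ‖F y‖ ≤ (ball (0 : R3) (R + 1)).indicator b y := by
  filter_upwards [sibp_ae_ne] with y hy
  by_cases h : y ∈ ball (0 : R3) (R + 1)
  · rw [indicator_of_mem h]; exact hle y hy
  · rw [indicator_of_notMem h, hs y, norm_zero]
    rw [mem_ball_zero_iff, not_lt] at h
    linarith

theorem sibp_int {F b : R3 → ℝ} {R : ℝ} (hF : AEStronglyMeasurable F volume)
    (hb : IntegrableOn b (ball 0 (R + 1))) (hs : ∀ y, R < ‖y‖ → F y = 0)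
    (hle : ∀ y, y ≠ 0 → ‖F y‖ ≤ b y) : Integrable F :=
  (hb.integrable_indicator measurableSet_ball).mono' hF (sibp_dom hs hle)

theorem sibp_fderiv_zero {u : R3 → ℝ} {R : ℝ} (hs : ∀ y, R < ‖y‖ → u y = 0) {y : R3}
    (hy : R < ‖y‖) : fderiv ℝ u y = 0 := by
  have : u =ᶠ[𝓝 y] fun _ => 0 := by
    filter_upwards [(isOpen_lt continuous_const continuous_norm).mem_nhds hy] with z hz
    exact hs z hz
  rw [this.fderiv_eq]
  simp

/-- cutoffs that remove a small neighbourhood of the origin -/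
theorem sibp_cut : ∃ (ψ : ℕ → R3 → ℝ) (K : ℝ), (∀ n, ContDiff ℝ 1 (ψ n)) ∧
    (∀ n, (0 : R3) ∉ tsupport (ψ n)) ∧ (∀ n y, ‖ψ n y‖ ≤ 1) ∧
    (∀ n y, y ≠ 0 → ‖fderiv ℝ (ψ n) y‖ ≤ K / ‖y‖) ∧
    ∀ y, y ≠ 0 → ∀ᶠ n in atTop, ψ n y = 1 ∧ fderiv ℝ (ψ n) y = 0 := by
  let χ : ContDiffBump (0 : R3) := ⟨1, 2, one_pos, one_lt_two⟩
  have hχ : ContDiff ℝ 1 χ := χ.contDiff
  obtain ⟨K, hK⟩ := (hχ.continuous_fderiv one_ne_zero).bounded_above_of_compact_support
    (χ.hasCompactSupport.fderiv ℝ)
  have hz : ∀ z : R3, 2 < ‖z‖ → χ z = 0 := fun z hz =>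
    χ.zero_of_le_dist (by rw [dist_zero_right]; exact hz.le)
  have hd : ∀ (c : ℝ) (y : R3), fderiv ℝ (fun y : R3 => 1 - χ (c • y)) y =
      -(c • fderiv ℝ χ (c • y)) := by
    intro c y
    have h1 : HasFDerivAt (fun y : R3 => c • y) (c • ContinuousLinearMap.id ℝ R3) y :=
      (hasFDerivAt_id y).const_smul c
    have h2 := ((hχ.differentiable one_ne_zero (c • y)).hasFDerivAt.comp y h1).const_sub 1
    refine h2.fderiv.trans ?_
    ext v
    simp
  have hK0 : 0 ≤ K := (norm_nonneg _).trans (hK 0)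
  refine ⟨fun n y => 1 - χ (((n : ℝ) + 1) • y), 2 * K, fun n => ?_, fun n => ?_, fun n y => ?_,
    fun n y hy => ?_, fun y hy => ?_⟩
  · exact contDiff_const.sub (hχ.comp (contDiff_id.const_smul _))
  · rw [notMem_tsupport_iff_eventuallyEq]
    have hc : Continuous fun y : R3 => ‖((n : ℝ) + 1) • y‖ := by fun_prop
    have h0 : (0 : R3) ∈ {y : R3 | ‖((n : ℝ) + 1) • y‖ < 1} := by simp
    filter_upwards [(isOpen_lt hc continuous_const).mem_nhds h0] with z hz'
    have : χ (((n : ℝ) + 1) • z) = 1 :=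
      χ.one_of_mem_closedBall (by rw [mem_closedBall_zero_iff]; exact le_of_lt hz')
    simp [this]
  · have h1 := χ.nonneg (x := ((n : ℝ) + 1) • y)
    have h2 := χ.le_one (x := ((n : ℝ) + 1) • y)
    rw [Real.norm_eq_abs, abs_le]
    constructor <;> linarith
  · have hy' : 0 < ‖y‖ := norm_pos_iff.2 hy
    have hc : (0 : ℝ) < (n : ℝ) + 1 := by positivity
    rw [hd, norm_neg, norm_smul, Real.norm_of_nonneg hc.le]
    by_cases h : 2 < ‖((n : ℝ) + 1) • y‖
    · rw [sibp_fderiv_zero hz h, norm_zero, mul_zero]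
      positivity
    · rw [norm_smul, Real.norm_of_nonneg hc.le, not_lt] at h
      rw [le_div_iff₀ hy']
      calc ((n : ℝ) + 1) * ‖fderiv ℝ χ (((n : ℝ) + 1) • y)‖ * ‖y‖
          = (((n : ℝ) + 1) * ‖y‖) * ‖fderiv ℝ χ (((n : ℝ) + 1) • y)‖ := by ring
        _ ≤ 2 * K := mul_le_mul h (hK _) (norm_nonneg _) (by norm_num)
  · have hy' : 0 < ‖y‖ := norm_pos_iff.2 hy
    filter_upwards [tendsto_natCast_atTop_atTop.eventually_ge_atTop (2 / ‖y‖)] with n hn
    have hc : (0 : ℝ) < (n : ℝ) + 1 := by positivity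
    have h : 2 < ‖((n : ℝ) + 1) • y‖ := by
      rw [norm_smul, Real.norm_of_nonneg hc.le]
      rw [div_le_iff₀ hy'] at hn
      nlinarith
    refine ⟨by rw [hz _ h, sub_zero], ?_⟩
    rw [hd, sibp_fderiv_zero hz h]
    simp

/-- polar coordinates for Bochner integrals -/
theorem sibp_polar {F : R3 → ℝ} (hF : Integrable F) :
    ∫ y, F y = ∫ w : sphere (0 : R3) 1, (∫ r in Ioi (0 : ℝ), r ^ 2 * F (r • w.1))
      ∂(volume : Measure R3).toSphere := by
  have h := (volume : Measure R3).measurePreserving_homeomorphUnitSphereProd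
  rw [finrank_euclideanSpace_fin] at h
  have h2 := MeasurePreserving.symm (homeomorphUnitSphereProd R3).toMeasurableEquiv h
  have h3 : MeasurePreserving (Subtype.val : ({0}ᶜ : Set R3) → R3)
      ((volume : Measure R3).comap Subtype.val) volume := by
    have := measurePreserving_subtype_coe (μa := (volume : Measure R3))
      (measurableSet_singleton (0 : R3)).compl
    rwa [restrict_compl_singleton] at this
  have h4 : MeasurePreserving
      (fun q : sphere (0 : R3) 1 × Ioi (0 : ℝ) => q.2.1 • q.1.1) _ _ := h3.comp h2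
  have h5 := h4.integrable_comp_of_integrable hF
  have h6 := integral_map h4.measurable.aemeasurable (f := F)
    (by rw [h4.map_eq]; exact hF.aestronglyMeasurable)
  rw [h4.map_eq] at h6
  rw [h6]
  refine (integral_prod _ h5).trans (integral_congr_ae (Eventually.of_forall fun w => ?_))
  simp only [Measure.volumeIoiPow, ENNReal.ofReal, Function.comp_apply]
  rw [integral_withDensity_eq_integral_smul,
    integral_subtype_comap measurableSet_Ioi
      fun a : ℝ => Real.toNNReal (a ^ (3 - 1)) • F (a • w.1)]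
  · refine setIntegral_congr_fun measurableSet_Ioi fun x hx => ?_
    beta_reduce
    rw [NNReal.smul_def, Real.coe_toNNReal _ (pow_nonneg hx.out.le _), smul_eq_mul]
  · exact (measurable_subtype_coe.pow_const _).real_toNNReal

theorem sibp {u : R3 → ℝ} (hu : ContDiffOn ℝ 1 u {0}ᶜ) {R C : ℝ} (hs : ∀ y, R < ‖y‖ → u y = 0)
    (h0 : ∀ y, y ≠ 0 → |u y| ≤ C / ‖y‖) (h1 : ∀ y, y ≠ 0 → ‖fderiv ℝ u y‖ ≤ C / ‖y‖ ^ 2)
    (e : R3) : Integrable (fun y => fderiv ℝ u y e) ∧ ∫ y, fderiv ℝ u y e = 0 := by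
  obtain ⟨ψ, K, hψ, hψ0, hψ1, hψd, hlim⟩ := sibp_cut
  have hmu : AEStronglyMeasurable u volume := sibp_meas hu.continuousOn
  have hmd : AEStronglyMeasurable (fun y => fderiv ℝ u y e) volume :=
    (measurable_fderiv_apply_const ℝ u e).aestronglyMeasurable
  have hi : Integrable (fun y => fderiv ℝ u y e) := by
    refine sibp_int (R := R) hmd ((integrableOn_inv_sq (R + 1)).const_mul (C * ‖e‖))
      (fun y hy => by rw [sibp_fderiv_zero hs hy]; rfl) fun y hy => ?_
    calc ‖fderiv ℝ u y e‖ ≤ ‖fderiv ℝ u y‖ * ‖e‖ := ContinuousLinearMap.le_opNorm _ _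
      _ ≤ C / ‖y‖ ^ 2 * ‖e‖ := mul_le_mul_of_nonneg_right (h1 y hy) (norm_nonneg _)
      _ = _ := by ring
  have hiu : Integrable u := by
    refine sibp_int (R := R) hmu ((integrableOn_inv (R + 1)).const_mul C) hs fun y hy => ?_
    rw [← div_eq_mul_inv]
    exact h0 y hy
  refine ⟨hi, ?_⟩
  have hm2 : ∀ n, AEStronglyMeasurable (fun y => fderiv ℝ (ψ n) y e * u y) volume := fun n =>
    (measurable_fderiv_apply_const ℝ (ψ n) e).aestronglyMeasurable.mul hmu
  have hs2 : ∀ n y, R < ‖y‖ → fderiv ℝ (ψ n) y e * u y = 0 := fun n y hy => by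
    rw [hs y hy, mul_zero]
  have hb2 : ∀ n y, y ≠ 0 → ‖fderiv ℝ (ψ n) y e * u y‖ ≤ (K * ‖e‖ * C) * (1 / ‖y‖ ^ 2) := by
    intro n y hy
    have a1 : ‖fderiv ℝ (ψ n) y e‖ ≤ K / ‖y‖ * ‖e‖ :=
      (ContinuousLinearMap.le_opNorm _ _).trans
        (mul_le_mul_of_nonneg_right (hψd n y hy) (norm_nonneg _))
    rw [norm_mul]
    calc ‖fderiv ℝ (ψ n) y e‖ * ‖u y‖ ≤ (K / ‖y‖ * ‖e‖) * (C / ‖y‖) :=
          mul_le_mul a1 (h0 y hy) (norm_nonneg _) ((norm_nonneg _).trans a1)
      _ = _ := by ring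
  have hbi := (integrableOn_inv_sq (R + 1)).const_mul (K * ‖e‖ * C)
  have hibp : ∀ n, ∫ y, ψ n y * fderiv ℝ u y e = -∫ y, fderiv ℝ (ψ n) y e * u y := by
    intro n
    have hc : AEStronglyMeasurable (ψ n) volume := (hψ n).continuous.aestronglyMeasurable
    refine integral_mul_fderiv_eq_neg_fderiv_mul_of_integrable
      (sibp_int (hm2 n) hbi (hs2 n) (hb2 n))
      (hi.bdd_mul hc (Eventually.of_forall (hψ1 n)))
      (hiu.bdd_mul hc (Eventually.of_forall (hψ1 n)))
      (fun x _ => (hψ n).differentiable one_ne_zero x) fun x hx => ?_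
    have hx0 : x ∈ ({0}ᶜ : Set R3) := by
      rintro rfl
      exact hψ0 n hx
    exact (hu.contDiffAt (isOpen_compl_singleton.mem_nhds hx0)).differentiableAt one_ne_zero
  have l1 : Tendsto (fun n => ∫ y, ψ n y * fderiv ℝ u y e) atTop (𝓝 (∫ y, fderiv ℝ u y e)) := by
    refine tendsto_integral_of_dominated_convergence (fun y => ‖fderiv ℝ u y e‖)
      (fun n => (hψ n).continuous.aestronglyMeasurable.mul hmd) hi.norm
      (fun n => Eventually.of_forall fun y => ?_) ?_
    · rw [norm_mul]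
      exact mul_le_of_le_one_left (norm_nonneg _) (hψ1 n y)
    · filter_upwards [sibp_ae_ne] with y hy
      refine tendsto_const_nhds.congr' ?_
      filter_upwards [hlim y hy] with n hn
      rw [hn.1, one_mul]
  have l2 : Tendsto (fun n => ∫ y, fderiv ℝ (ψ n) y e * u y) atTop (𝓝 (∫ _ : R3, (0 : ℝ))) := by
    refine tendsto_integral_of_dominated_convergence _ hm2
      (IntegrableOn.integrable_indicator hbi measurableSet_ball)
      (fun n => sibp_dom (hs2 n) (hb2 n)) ?_
    filter_upwards [sibp_ae_ne] with y hy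
    refine tendsto_const_nhds.congr' ?_
    filter_upwards [hlim y hy] with n hn
    rw [hn.2]
    simp
  rw [integral_zero] at l2
  have l3 := l2.neg
  rw [neg_zero] at l3
  exact tendsto_nhds_unique l1 (l3.congr fun n => (hibp n).symm)

/-- `div (y / |y|³) = 4π δ` -/
theorem sibp_delta {G : R3 → ℝ} (hG : ContDiffOn ℝ 1 G {0}ᶜ) (hc : Continuous G) {R C : ℝ}
    (hs : ∀ y, R < ‖y‖ → G y = 0) (h1 : ∀ y, y ≠ 0 → ‖fderiv ℝ G y‖ ≤ C) :
    ∫ y, fderiv ℝ G y (nn y) / ‖y‖ ^ 2 = -(4 * π * G 0) := by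
  have hD : ContinuousOn (fderiv ℝ G) {0}ᶜ :=
    hG.continuousOn_fderiv_of_isOpen isOpen_compl_singleton le_rfl
  have hnn : ContinuousOn nn ({0}ᶜ : Set R3) :=
    (continuous_norm.continuousOn.inv₀ fun y hy => norm_ne_zero_iff.2 hy).smul continuousOn_id
  have hF : ContinuousOn (fun y : R3 => fderiv ℝ G y (nn y) / ‖y‖ ^ 2) {0}ᶜ :=
    (hD.clm_apply hnn).div (continuous_norm.pow 2).continuousOn
      fun y hy => pow_ne_zero 2 (norm_ne_zero_iff.2 hy)
  have hi : Integrable (fun y : R3 => fderiv ℝ G y (nn y) / ‖y‖ ^ 2) := by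
    refine sibp_int (R := R) (sibp_meas hF) ((integrableOn_inv_sq (R + 1)).const_mul C)
      (fun y hy => by rw [sibp_fderiv_zero hs hy]; simp) fun y hy => ?_
    have hy' : 0 < ‖y‖ := norm_pos_iff.2 hy
    have hn : ‖nn y‖ = 1 := by
      rw [nn, norm_smul, norm_inv, norm_norm, inv_mul_cancel₀ hy'.ne']
    have a1 : ‖fderiv ℝ G y (nn y)‖ ≤ C := by
      refine (ContinuousLinearMap.le_opNorm _ _).trans ?_
      rw [hn, mul_one]
      exact h1 y hy
    rw [norm_div, Real.norm_of_nonneg (sq_nonneg ‖y‖), mul_one_div]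
    exact div_le_div_of_nonneg_right a1 (sq_nonneg _)
  have key : ∀ w : sphere (0 : R3) 1,
      ∫ r in Ioi (0 : ℝ), r ^ 2 * (fderiv ℝ G (r • w.1) (nn (r • w.1)) / ‖r • w.1‖ ^ 2) = -G 0 := by
    intro w
    have hw : ‖w.1‖ = 1 := norm_eq_of_mem_sphere w
    have hn : ∀ r : ℝ, 0 < r → ‖r • w.1‖ = r := fun r hr => by
      rw [norm_smul, hw, mul_one, Real.norm_of_nonneg hr.le]
    have hne : ∀ r : ℝ, 0 < r → r • w.1 ≠ 0 := fun r hr e => by
      have := hn r hr
      rw [e, norm_zero] at this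
      exact hr.ne this
    have e1 : ∀ r ∈ Ioi (0 : ℝ), r ^ 2 * (fderiv ℝ G (r • w.1) (nn (r • w.1)) / ‖r • w.1‖ ^ 2) =
        fderiv ℝ G (r • w.1) w.1 := by
      intro r hr
      have hr' : 0 < r := hr
      rw [nn, hn r hr', smul_smul, inv_mul_cancel₀ hr'.ne', one_smul]
      field_simp
    rw [setIntegral_congr_fun measurableSet_Ioi e1]
    have hcl : Continuous fun r : ℝ => r • w.1 := by fun_prop
    have h2 := integral_Ioi_of_hasDerivAt_of_tendsto (f := fun r : ℝ => G (r • w.1))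
      (f' := fun r : ℝ => fderiv ℝ G (r • w.1) w.1) (a := 0) (m := 0)
      (hc.comp hcl).continuousWithinAt (fun r hr => ?_) ?_ ?_
    · rw [h2]; simp
    · have hd : DifferentiableAt ℝ G (r • w.1) :=
        (hG.contDiffAt (isOpen_compl_singleton.mem_nhds (hne r hr))).differentiableAt one_ne_zero
      have h3 : HasDerivAt (fun r : ℝ => r • w.1) w.1 r := by
        simpa using (hasDerivAt_id r).smul_const w.1
      exact hd.hasFDerivAt.comp_hasDerivAt r h3
    · have hm : AEStronglyMeasurable (fun r : ℝ => fderiv ℝ G (r • w.1) w.1)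
          (volume.restrict (Ioi 0)) :=
        ((measurable_fderiv_apply_const ℝ G w.1).comp hcl.measurable).aestronglyMeasurable
      have hb : Integrable ((Icc (0 : ℝ) R).indicator fun _ => C) :=
        IntegrableOn.integrable_indicator (integrableOn_const (by simp)) measurableSet_Icc
      refine Integrable.mono' hb.integrableOn hm ?_
      filter_upwards [ae_restrict_mem measurableSet_Ioi] with r hr
      have hr' : 0 < r := hr
      by_cases h : r ∈ Icc (0 : ℝ) R
      · rw [indicator_of_mem h]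
        refine (ContinuousLinearMap.le_opNorm _ _).trans ?_
        rw [hw, mul_one]
        exact h1 _ (hne r hr')
      · rw [indicator_of_notMem h, sibp_fderiv_zero hs]
        · simp
        · rw [hn r hr']
          by_contra h'
          exact h ⟨hr'.le, not_lt.1 h'⟩
    · refine tendsto_const_nhds.congr' ?_
      filter_upwards [eventually_gt_atTop 0, eventually_gt_atTop R] with r hr hR
      exact (hs _ (by rw [hn r hr]; exact hR)).symm
  have hu := Crest.Agent.R068.sphereMeasure_univ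
  unfold Crest.AnalysisR.PDE.Boltzmann.sphereMeasure at hu
  rw [Crest.Agent.R068.sph_emb.map_apply, preimage_univ] at hu
  rw [sibp_polar hi, integral_congr_ae (Eventually.of_forall key), integral_const, Measure.real, hu,
    ENNReal.toReal_ofReal (by positivity), smul_eq_mul]
  ring

end Crest.Agent.R106
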