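import Crest.Agent.R106.PInt
import Crest.Agent.R106.SIBP

/-!
# Row 106: the Duhamel operator

Smoothness and `x`-derivatives: `Crest.Agent.R240.param_scalar` needs an integrand that is smooth in the
integration variable too, which `η ↦ ‖η‖` is not: use it with `α = ℝ × R3` and the image measure under
`η ↦ (‖η‖, η)`, or prove `ContDiff n` by induction with `hasFDerivAt_integral_of_dominated_of_fderiv_le`
(the integrand is `‖η‖⁻¹ • h (A_η p)` with `A_η : ST →L[ℝ] ST` of norm `≤ 2`, any normed target space).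
`Du_y`: scaling `η = y/t` (`Measure.integral_comp_smul`, `setIntegral_comp_smul`).  `pt_Du`: by continuity it
suffices to take `t > 0`; in the `y`-form extend `h` by zero to `τ < 0`, which is locally Lipschitz in `τ`
since `h (0, ·) = 0`; `hasDerivAt_integral_of_dominated_loc_of_lip` (a.e. `|y| ≠ t`).

-/

set_option autoImplicit false

noncomputable section

namespace Crest.Agent.R106

open MeasureTheory Set Metric Real Filter Topology
open scoped ContDiff ENNReal RealInnerProductSpace Classical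
open Crest.AnalysisR.VecCalc3 Crest.AnalysisR.PDE.RVM

variable {h h' : ST → ℝ}

theorem du1_int {g : R3 → ℝ} (hg : Continuous g) :
    IntegrableOn (fun η : R3 => ‖η‖⁻¹ * g η) (ball 0 1) :=
  (integrableOn_inv 1).mul_continuousOn_of_subset hg.continuousOn measurableSet_ball
    (isCompact_closedBall 0 1) ball_subset_closedBall

theorem du1_int' (hh : Continuous h) (p : ST) :
    IntegrableOn (fun η : R3 => ‖η‖⁻¹ * h (p.1 - p.1 * ‖η‖, p.2 - p.1 • η)) (ball 0 1) :=
  du1_int (by fun_prop)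

theorem du1_core (hh : ContDiff ℝ ∞ h) :
    ContDiff ℝ ∞ (fun p : ST => ∫ η in ball (0 : R3) 1, ‖η‖⁻¹ * h (p.1 - p.1 * ‖η‖, p.2 - p.1 • η)) ∧
      ∀ p v : ST, fderiv ℝ
        (fun p : ST => ∫ η in ball (0 : R3) 1, ‖η‖⁻¹ * h (p.1 - p.1 * ‖η‖, p.2 - p.1 • η)) p v =
        ∫ η in ball (0 : R3) 1, ‖η‖⁻¹ *
          fderiv ℝ h (p.1 - p.1 * ‖η‖, p.2 - p.1 • η) (v.1 - v.1 * ‖η‖, v.2 - v.1 • η) := by
  have hg : Measurable fun η : R3 => ((‖η‖, η) : ST) := by fun_prop
  have hA : ContDiff ℝ ∞ fun q : ST × ST => ((q.1.1 - q.1.1 * q.2.1, q.1.2 - q.1.1 • q.2.2) : ST) := by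
    fun_prop
  have hΦ : ContDiff ℝ ∞ fun q : ST × ST => h (q.1.1 - q.1.1 * q.2.1, q.1.2 - q.1.1 • q.2.2) :=
    hh.comp hA
  have hf : Measurable fun a : ST => a.1⁻¹ := by fun_prop
  have key := R240.contDiff_integral_cpt
    ((volume.restrict (ball (0 : R3) 1)).map fun η : R3 => ((‖η‖, η) : ST))
    (isCompact_closedBall (0 : ST) 1) (f := fun a : ST => a.1⁻¹) (by
      rw [Measure.map_apply hg measurableSet_closedBall.compl,
        Measure.restrict_apply (hg measurableSet_closedBall.compl)]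
      convert measure_empty (μ := (volume : Measure R3))
      ext η
      simp only [mem_inter_iff, mem_preimage, mem_compl_iff, mem_closedBall_zero_iff, Prod.norm_mk,
        norm_norm, max_self, mem_ball_zero_iff, mem_empty_iff_false, iff_false, not_and, not_lt,
        not_le]
      exact le_of_lt)
    ((integrable_map_measure hf.aestronglyMeasurable hg.aemeasurable).2 (integrableOn_inv 1)) hΦ
  have e : ∀ F : ST → ℝ, Continuous F →
      ∫ x, x.1⁻¹ • F x ∂((volume.restrict (ball (0 : R3) 1)).map fun η : R3 => ((‖η‖, η) : ST)) =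
        ∫ η in ball (0 : R3) 1, ‖η‖⁻¹ * F (‖η‖, η) := fun F hF =>
    integral_map hg.aemeasurable (hf.smul hF.measurable).aestronglyMeasurable
  have e1 : (fun q : ST => ∫ x, x.1⁻¹ • h (q.1 - q.1 * x.1, q.2 - q.1 • x.2)
      ∂((volume.restrict (ball (0 : R3) 1)).map fun η : R3 => ((‖η‖, η) : ST))) =
      fun p : ST => ∫ η in ball (0 : R3) 1, ‖η‖⁻¹ * h (p.1 - p.1 * ‖η‖, p.2 - p.1 • η) := by
    funext q
    have := hh.continuous
    exact e (fun x => h (q.1 - q.1 * x.1, q.2 - q.1 • x.2)) (by fun_prop)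
  obtain ⟨k1, k2⟩ := key
  refine ⟨e1 ▸ k1, fun p v => ?_⟩
  rw [← e1]
  refine (k2 p v).trans ?_
  have e2 : ∀ x : ST, fderiv ℝ
      (fun q : ST × ST => h (q.1.1 - q.1.1 * q.2.1, q.1.2 - q.1.1 • q.2.2)) (p, x) (v, 0) =
      fderiv ℝ h (p.1 - p.1 * x.1, p.2 - p.1 • x.2) (v.1 - v.1 * x.1, v.2 - v.1 • x.2) := by
    intro x
    have l1 : HasDerivAt (fun s : ℝ => ((p, x) : ST × ST) + s • ((v, 0) : ST × ST)) (v, 0) 0 := by
      simpa using ((hasDerivAt_id (0 : ℝ)).smul_const ((v, 0) : ST × ST)).const_add (p, x)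
    have l2 : HasDerivAt (fun s : ℝ => ((p.1 - p.1 * x.1, p.2 - p.1 • x.2) : ST) +
        s • ((v.1 - v.1 * x.1, v.2 - v.1 • x.2) : ST)) (v.1 - v.1 * x.1, v.2 - v.1 • x.2) 0 := by
      simpa using ((hasDerivAt_id (0 : ℝ)).smul_const
        ((v.1 - v.1 * x.1, v.2 - v.1 • x.2) : ST)).const_add (p.1 - p.1 * x.1, p.2 - p.1 • x.2)
    have d1 := (hΦ.differentiable (by simp) (p, x)).hasFDerivAt.comp_hasDerivAt_of_eq 0 l1 (by simp)
    have d2 := (hh.differentiable (by simp)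
      (p.1 - p.1 * x.1, p.2 - p.1 • x.2)).hasFDerivAt.comp_hasDerivAt_of_eq 0 l2 (by simp)
    refine d1.unique (d2.congr_of_eventuallyEq (Eventually.of_forall fun s => ?_))
    simp only [Function.comp, Prod.mk_add_mk, Prod.smul_mk, smul_zero, add_zero, Prod.fst_add,
      Prod.snd_add, Prod.smul_fst, Prod.smul_snd, smul_eq_mul]
    congr 2
    · ring
    · rw [add_smul, smul_sub, mul_smul]; abel
  simp only [e2]
  have := hh.continuous_fderiv (by simp)
  exact e (fun x => fderiv ℝ h (p.1 - p.1 * x.1, p.2 - p.1 • x.2) (v.1 - v.1 * x.1, v.2 - v.1 • x.2))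
    (by fun_prop)

theorem du1_fderiv (hh : ContDiff ℝ ∞ h) (p v : ST) : fderiv ℝ (Du h) p v =
    2 * p.1 * v.1 / (4 * π) * (∫ η in ball (0 : R3) 1, ‖η‖⁻¹ * h (p.1 - p.1 * ‖η‖, p.2 - p.1 • η)) +
      p.1 ^ 2 / (4 * π) * ∫ η in ball (0 : R3) 1, ‖η‖⁻¹ *
        fderiv ℝ h (p.1 - p.1 * ‖η‖, p.2 - p.1 • η) (v.1 - v.1 * ‖η‖, v.2 - v.1 • η) := by
  obtain ⟨k1, k2⟩ := du1_core hh
  have d1 : HasFDerivAt (fun p : ST => p.1 ^ 2 / (4 * π)) _ p :=
    ((hasDerivAt_pow 2 p.1).div_const (4 * π)).comp_hasFDerivAt p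
      (hasFDerivAt_fst (𝕜 := ℝ) (p := p))
  have d2 : HasFDerivAt (Du h) _ p := d1.mul (k1.differentiable (by simp) p).hasFDerivAt
  rw [d2.fderiv, ← k2 p v]
  simp only [ContinuousLinearMap.add_apply, ContinuousLinearMap.smul_apply, smul_eq_mul,
    ContinuousLinearMap.coe_fst']
  push_cast
  ring

/-- the radial integration by parts behind `pt_Du` -/
theorem du1_radial (hh : ContDiff ℝ ∞ h) (h0 : ∀ x, h (0, x) = 0) (p : ST) :
    2 * (∫ η in ball (0 : R3) 1, ‖η‖⁻¹ * h (p.1 - p.1 * ‖η‖, p.2 - p.1 • η)) =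
      p.1 * ∫ η in ball (0 : R3) 1, ‖η‖⁻¹ *
        fderiv ℝ h (p.1 - p.1 * ‖η‖, p.2 - p.1 • η) (‖η‖, η) := by
  have c0 := hh.continuous
  have c1 := hh.continuous_fderiv (by simp)
  have i1 := (du1_int' c0 p).const_mul 2
  have i2 := (du1_int (g := fun η => fderiv ℝ h (p.1 - p.1 * ‖η‖, p.2 - p.1 • η) (‖η‖, η))
    (by fun_prop)).const_mul p.1
  have i3 : IntegrableOn (fun η : R3 => 2 * (‖η‖⁻¹ * h (p.1 - p.1 * ‖η‖, p.2 - p.1 • η)) -
      p.1 * (‖η‖⁻¹ * fderiv ℝ h (p.1 - p.1 * ‖η‖, p.2 - p.1 • η) (‖η‖, η))) (ball 0 1) := i1.sub i2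
  rw [← sub_eq_zero, ← integral_const_mul, ← integral_const_mul, ← integral_sub i1 i2,
    ← integral_indicator measurableSet_ball,
    sibp_polar ((integrable_indicator_iff measurableSet_ball).2 i3)]
  refine integral_eq_zero_of_ae (Eventually.of_forall fun w => ?_)
  have hw : ‖w.1‖ = 1 := norm_eq_of_mem_sphere w
  have hd : ∀ r : ℝ, HasDerivAt (fun r : ℝ => r ^ 2 * h (p.1 - p.1 * r, p.2 - p.1 • r • w.1))
      (2 * r * h (p.1 - p.1 * r, p.2 - p.1 • r • w.1) -
        p.1 * (r * fderiv ℝ h (p.1 - p.1 * r, p.2 - p.1 • r • w.1) (r, r • w.1))) r := by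
    intro r
    have l1 : HasDerivAt (fun r : ℝ => ((p.1 - p.1 * r, p.2 - p.1 • r • w.1) : ST))
        ((-p.1) • ((1 : ℝ), w.1)) r := by
      refine HasDerivAt.prodMk ?_ ?_
      · simpa using ((hasDerivAt_id r).const_mul p.1).const_sub p.1
      · simpa using (((hasDerivAt_id r).smul_const w.1).const_smul p.1).const_sub p.2
    have l2 := (hh.differentiable (by simp) _).hasFDerivAt.comp_hasDerivAt r l1
    refine ((hasDerivAt_pow 2 r).mul l2).congr_deriv ?_
    rw [show ((r, r • w.1) : ST) = r • ((1 : ℝ), w.1) by simp, map_smul, map_smul]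
    simp only [Function.comp, smul_eq_mul]
    push_cast
    ring
  have hI := intervalIntegral.integral_eq_sub_of_hasDerivAt (a := 0) (b := 1) (fun r _ => hd r)
    (Continuous.intervalIntegrable (by fun_prop) _ _)
  rw [mul_one, sub_self, h0, intervalIntegral.integral_of_le zero_le_one,
    integral_Ioc_eq_integral_Ioo] at hI
  change (∫ r in Ioi (0 : ℝ), _) = 0
  rw [setIntegral_eq_of_subset_of_forall_sdiff_eq_zero measurableSet_Ioi
    (show Ioo (0 : ℝ) 1 ⊆ Ioi 0 from Ioo_subset_Ioi_self)]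
  · refine Eq.trans (setIntegral_congr_fun measurableSet_Ioo fun r hr => ?_) (hI.trans (by simp))
    have e : ‖r • w.1‖ = r := by rw [norm_smul, hw, mul_one, Real.norm_of_nonneg hr.1.le]
    have := hr.1.ne'
    rw [indicator_of_mem (by rw [mem_ball_zero_iff, e]; exact hr.2), e]
    field_simp
  · rintro r ⟨hr, hr'⟩
    have e : ‖r • w.1‖ = r := by rw [norm_smul, hw, mul_one, Real.norm_of_nonneg (le_of_lt hr)]
    rw [indicator_of_notMem (by rw [mem_ball_zero_iff, e]; exact fun h => hr' ⟨hr, h⟩), mul_zero]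

theorem contDiff_Du (hh : ContDiff ℝ ∞ h) : ContDiff ℝ ∞ (Du h) :=
  ((contDiff_fst.pow 2).div_const _).mul (du1_core hh).1

theorem pd_Du (hh : ContDiff ℝ ∞ h) (u : R3) : pd (0, u) (Du h) = Du (pd (0, u) h) := by
  funext p
  rw [pd, du1_fderiv hh]
  simp [Du, pd]

theorem pdx_Du (hh : ContDiff ℝ ∞ h) (L : List R3) : pdx L (Du h) = Du (pdx L h) := by
  induction L with
  | nil => rfl
  | cons u L ih =>
    have e : ∀ g : ST → ℝ, pdx (u :: L) g = pd (0, u) (pdx L g) := fun g => rfl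
    rw [e, e, ih]
    exact pd_Du (h := pdx L h) (contDiff_pdl hh _) u

theorem Du_add (hh : Continuous h) (hh' : Continuous h') :
    Du (fun p => h p + h' p) = fun p => Du h p + Du h' p := by
  funext p
  simp only [Du, mul_add]
  rw [integral_add (du1_int' hh p) (du1_int' hh' p), mul_add]

theorem Du_sub (hh : Continuous h) (hh' : Continuous h') :
    Du (fun p => h p - h' p) = fun p => Du h p - Du h' p := by
  funext p
  simp only [Du, mul_sub]
  rw [integral_sub (du1_int' hh p) (du1_int' hh' p), mul_sub]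

theorem Du_zero : Du (fun _ => 0) = fun _ => 0 := by
  funext p
  simp [Du]

theorem Du_sum {ι : Type} (s : Finset ι) {g : ι → ST → ℝ} (hg : ∀ i, Continuous (g i)) :
    Du (fun p => ∑ i ∈ s, g i p) = fun p => ∑ i ∈ s, Du (g i) p := by
  funext p
  simp only [Du, Finset.mul_sum]
  rw [integral_finset_sum _ fun i _ => du1_int' (hg i) p, Finset.mul_sum]

theorem Du_congr {p : ST} (hp : 0 ≤ p.1) (he : ∀ r : ST, r.1 ∈ Icc 0 p.1 → h r = h' r) :
    Du h p = Du h' p := by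
  unfold Du
  congr 1
  refine setIntegral_congr_fun measurableSet_ball fun η hη => ?_
  have h1 := mem_ball_zero_iff.1 hη
  have h2 := mul_nonneg hp (norm_nonneg η)
  have h3 := mul_le_of_le_one_right hp h1.le
  exact congrArg (fun z => ‖η‖⁻¹ * z)
    (he (p.1 - p.1 * ‖η‖, p.2 - p.1 • η) ⟨sub_nonneg.2 h3, sub_le_self _ h2⟩)

theorem Du_y (h : ST → ℝ) {p : ST} (hp : 0 ≤ p.1) :
    Du h p = (∫ y in ball (0 : R3) p.1, ‖y‖⁻¹ * h (cone2 p y)) / (4 * π) := by
  rcases hp.eq_or_lt with h0 | h0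
  · simp [Du, ← h0]
  have h1 := Measure.setIntegral_comp_smul_of_pos volume
    (fun y : R3 => ‖y‖⁻¹ * h (cone2 p y)) (ball (0 : R3) 1) h0
  rw [smul_unitBall_of_pos h0, finrank_euclideanSpace_fin, smul_eq_mul] at h1
  have h2 : ∫ η in ball (0 : R3) 1, ‖p.1 • η‖⁻¹ * h (cone2 p (p.1 • η)) =
      p.1⁻¹ * ∫ η in ball (0 : R3) 1, ‖η‖⁻¹ * h (p.1 - p.1 * ‖η‖, p.2 - p.1 • η) := by
    rw [← integral_const_mul]
    congr 1
    funext η
    rw [cone2, norm_smul, Real.norm_of_nonneg hp, mul_inv, mul_assoc]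
  rw [h2] at h1
  have h3 := h0.ne'
  rw [Du, div_mul_eq_mul_div]
  congr 1
  generalize (∫ η in ball (0 : R3) 1, ‖η‖⁻¹ * h (p.1 - p.1 * ‖η‖, p.2 - p.1 • η)) = A at h1 ⊢
  generalize (∫ y in ball (0 : R3) p.1, ‖y‖⁻¹ * h (cone2 p y)) = B at h1 ⊢
  field_simp at h1
  linarith

theorem Du_init (h : ST → ℝ) (x : R3) : Du h (0, x) = 0 := by
  simp [Du]

theorem pt_Du_init (hh : ContDiff ℝ ∞ h) (x : R3) : pd (1, 0) (Du h) (0, x) = 0 := by
  rw [pd, du1_fderiv hh]
  simp

theorem pt_Du (hh : ContDiff ℝ ∞ h) (h0 : ∀ x, h (0, x) = 0) {p : ST} (hp : 0 ≤ p.1) :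
    pd (1, 0) (Du h) p = Du (pd (1, 0) h) p := by
  have c1 := hh.continuous_fderiv (by simp)
  have e : ∀ η : R3, ‖η‖⁻¹ * fderiv ℝ h (p.1 - p.1 * ‖η‖, p.2 - p.1 • η)
      ((1 : ℝ) - 1 * ‖η‖, (0 : R3) - (1 : ℝ) • η) =
      ‖η‖⁻¹ * fderiv ℝ h (p.1 - p.1 * ‖η‖, p.2 - p.1 • η) (1, 0) -
        ‖η‖⁻¹ * fderiv ℝ h (p.1 - p.1 * ‖η‖, p.2 - p.1 • η) (‖η‖, η) := fun η => by
    rw [← mul_sub, ← map_sub, one_mul, one_smul, Prod.mk_sub_mk]
  have h1 := du1_radial hh h0 p
  rw [pd, du1_fderiv hh]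
  simp only [e, Du, pd]
  rw [integral_sub (du1_int (by fun_prop)) (du1_int (by fun_prop))]
  linear_combination (p.1 / (4 * π)) * h1

/-- the general form: the boundary term is the time derivative of the potential of the frozen source -/
theorem pt_Du' (hh : ContDiff ℝ ∞ h) {p : ST} (hp : 0 ≤ p.1) :
    pd (1, 0) (Du h) p = Du (pd (1, 0) h) p + pd (1, 0) (Du fun r => h (0, r.2)) p := by
  have s0 : ContDiff ℝ ∞ fun r : ST => h (0, r.2) := hh.comp (by fun_prop)
  have s1 : ContDiff ℝ ∞ fun r : ST => h r - h (0, r.2) := hh.sub s0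
  have e1 : Du h = fun p => Du (fun r : ST => h r - h (0, r.2)) p + Du (fun r => h (0, r.2)) p := by
    rw [← Du_add s1.continuous s0.continuous]
    simp
  have e2 : pd (1, 0) (fun r : ST => h r - h (0, r.2)) = pd (1, 0) h := by
    funext r
    have d0 : HasFDerivAt (fun r : ST => h (0, r.2)) _ r :=
      (hh.differentiable (by simp) (0, r.2)).hasFDerivAt.comp r
        ((hasFDerivAt_const (0 : ℝ) r).prodMk hasFDerivAt_snd)
    have d1 : HasFDerivAt (fun r : ST => h r - h (0, r.2)) _ r :=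
      (hh.differentiable (by simp) r).hasFDerivAt.sub d0
    rw [pd, d1.fderiv, pd]
    change fderiv ℝ h r (1, 0) - fderiv ℝ h (0, r.2) (0, 0) = _
    rw [show (((0 : ℝ), (0 : R3)) : ST) = 0 from rfl, map_zero, sub_zero]
  have e3 := pt_Du s1 (fun x => sub_self _) hp
  rw [e2] at e3
  rw [← e3]
  conv_lhs => rw [e1]
  have d2 : HasFDerivAt (fun p => Du (fun r : ST => h r - h (0, r.2)) p +
      Du (fun r => h (0, r.2)) p) _ p :=
    ((contDiff_Du s1).differentiable (by simp) p).hasFDerivAt.add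
      ((contDiff_Du s0).differentiable (by simp) p).hasFDerivAt
  rw [pd, d2.fderiv]
  rfl

end Crest.Agent.R106
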