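import Crest.Agent.R106.Du1

/-!
# Row 106: the Duhamel operator solves the wave equation

By continuity take `t > 0`.  Step 1: `h`, `h_t`, `h_tt` vanish at `t = 0`.  Then (`pt_Du` twice, on the open set
`t > 0`, and `pd_Du`) the left side is `Du (h_tt - Δh)`.  With `G(y) = h(cone2 p y)` and
`V_i(y) = 1[|y| < t] (∂_i h - n_i h_t)(cone2 p y)/|y|` (which is `C¹` off `0`: all derivatives of `h` of order
`≤ 2` vanish at `τ = 0`) one has `div V = (h_tt - Δh)/r + (fderiv G y n)/r²`; `sibp` and `sibp_delta` (for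
`1[|y| < t] G`) finish.  (To avoid gluing, one may first multiply `h` by a time cut-off `γ_ε` vanishing near
`τ ≤ 0` and pass to the limit, or prove a small lemma: a `C¹` function whose value and derivative vanish on
`|y| = t` stays `C¹` after extension by zero.)  Step 2: for general `h` let `H` be the triple primitive in `t`
vanishing at `0` (smooth: `H₁(t, x) = t ∫_0^1 h(st, x) ds`); `Du h = ∂_t³ Du H` for `t > 0`; differentiate the
identity for `H` three times in `t` (`pd_comm`, `pdl_congr`).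

-/

set_option autoImplicit false

noncomputable section

namespace Crest.Agent.R106

open MeasureTheory Set Metric Real Filter Topology
open scoped ContDiff ENNReal RealInnerProductSpace Classical
open Crest.AnalysisR.VecCalc3 Crest.AnalysisR.PDE.RVM

/-- the wave operator -/
def du2bx (u : ST → ℝ) (p : ST) : ℝ :=
  pd (1, 0) (pd (1, 0) u) p - ∑ i, pd (0, ee i) (pd (0, ee i) u) p

theorem du2_smooth {u : ST → ℝ} (hu : ContDiff ℝ ∞ u) : ContDiff ℝ ∞ (du2bx u) :=
  (contDiff_pd (contDiff_pd hu _) _).sub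
    (ContDiff.sum fun _ _ => contDiff_pd (contDiff_pd hu _) _)

theorem du2_comm {u : ST → ℝ} (hu : ContDiff ℝ ∞ u) (μ : ST) :
    pd μ (du2bx u) = du2bx (pd μ u) := by
  have h2 : ∀ a, ContDiff ℝ ∞ (pd a (pd a u)) := fun a => contDiff_pd (contDiff_pd hu _) _
  have h3 : ∀ a, pd μ (pd a (pd a u)) = pd a (pd a (pd μ u)) := fun a => pd_pdl hu μ [a, a]
  have h4 := pdl_sub (h2 (1, 0)) (ContDiff.sum (s := Finset.univ) fun i _ => h2 (0, ee i)) [μ]
  rw [pdl_sum _ fun i => h2 (0, ee i)] at h4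
  refine h4.trans (funext fun p => ?_)
  simp only [pdl_cons, pdl_nil, h3, du2bx]

theorem du2_congr {u v : ST → ℝ} {p : ST} (h : u =ᶠ[𝓝 p] v) : du2bx u p = du2bx v p := by
  have h3 : ∀ a, pd a (pd a u) p = pd a (pd a v) p := fun a => (pdl_congr h [a, a]).eq_of_nhds
  simp only [du2bx, h3]

theorem du2_pos {p : ST} (hp : 0 < p.1) : ∀ᶠ q : ST in 𝓝 p, 0 < q.1 :=
  continuous_fst.continuousAt.eventually (lt_mem_nhds hp)

theorem du2_desc {g : ST → ℝ} (hg : ContDiff ℝ ∞ g) (h0 : ∀ x, g (0, x) = 0)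
    (h : ∀ p : ST, 0 < p.1 → du2bx (Du g) p = g p) (p : ST) (hp : 0 < p.1) :
    du2bx (Du (pd (1, 0) g)) p = pd (1, 0) g p := by
  have h1 : Du (pd (1, 0) g) =ᶠ[𝓝 p] pd (1, 0) (Du g) :=
    (du2_pos hp).mono fun q hq => (pt_Du hg h0 hq.le).symm
  have h2 : du2bx (Du g) =ᶠ[𝓝 p] g := (du2_pos hp).mono h
  rw [du2_congr h1, ← du2_comm (contDiff_Du hg)]
  exact (pdl_congr h2 [(1, 0)]).eq_of_nhds

theorem du2_prim {h : ST → ℝ} (hh : ContDiff ℝ ∞ h) :
    ∃ H : ST → ℝ, ContDiff ℝ ∞ H ∧ (∀ x, H (0, x) = 0) ∧ h = pd (1, 0) H := by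
  have h1 := (Crest.Agent.R240.contDiff_integral_cpt (volume.restrict (Ioc (0 : ℝ) 1))
    (isCompact_Icc (a := 0) (b := 1)) (by
      rw [Measure.restrict_apply measurableSet_Icc.compl]
      exact measure_mono_null (fun s hs => hs.1 (Ioc_subset_Icc_self hs.2)) measure_empty)
    (f := fun _ => 1) (integrable_const _) (Φ := fun z : ST × ℝ => h (z.2 * z.1.1, z.1.2))
    (hh.comp (by fun_prop))).1
  have h2 : ContDiff ℝ ∞ fun p : ST => ∫ s in (0 : ℝ)..p.1, h (s, p.2) := by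
    have e : (fun p : ST => ∫ s in (0 : ℝ)..p.1, h (s, p.2)) = fun p : ST =>
        p.1 * ∫ s in Ioc (0 : ℝ) 1, (1 : ℝ) • h (s * p.1, p.2) := funext fun p => by
      simp only [one_smul]
      rw [← intervalIntegral.integral_of_le zero_le_one,
        intervalIntegral.mul_integral_comp_mul_right (f := fun s => h (s, p.2))]
      simp
    rw [e]
    exact contDiff_fst.mul h1
  refine ⟨_, h2, fun x => by simp, funext fun p => ?_⟩
  have h3 := (h2.differentiable (by simp) p).hasFDerivAt.comp_hasDerivAt_of_eq p.1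
    ((hasDerivAt_id p.1).prodMk (hasDerivAt_const p.1 p.2)) rfl
  have hc : Continuous fun s : ℝ => h (s, p.2) := hh.continuous.comp (by fun_prop)
  exact (intervalIntegral.integral_hasDerivAt_right (hc.intervalIntegrable 0 p.1)
    (hc.stronglyMeasurableAtFilter _ _) hc.continuousAt).unique h3

theorem du2_lin (g : ST → ℝ) (p : ST) (τ : ℝ) (u : R3) :
    fderiv ℝ g p (τ, u) = τ * pd (1, 0) g p + ∑ i, u i * pd (0, ee i) g p := by
  have e : ((τ, u) : ST) = τ • ((1, 0) : ST) + ∑ i, u i • ((0, ee i) : ST) := by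
    refine Prod.ext ?_ ?_
    · simp [Prod.fst_sum]
    · simp [Prod.snd_sum, sum_ee]
  rw [e, map_add, map_sum]
  simp only [map_smul, smul_eq_mul, pd]

theorem du2_van {g : ST → ℝ} (hg : ContDiff ℝ ∞ g) (h0 : ∀ x, g (0, x) = 0) (u x : R3) :
    pd (0, u) g (0, x) = 0 := by
  have := pdl_slice_congr hg (g' := fun _ => 0) contDiff_const h0 [u] x
  rwa [pdl_zero] at this

/-- extension by zero to negative times, composed with the cone -/
theorem du2_cone {g : ST → ℝ} (hg : ContDiff ℝ ∞ g) (h0 : ∀ x, g (0, x) = 0)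
    (h1 : ∀ x, pd (1, 0) g (0, x) = 0) (p : ST) : ∃ (A : R3 → ℝ) (M : ℝ), 0 ≤ M ∧ Continuous A ∧
      ContDiffOn ℝ 1 A {0}ᶜ ∧ (∀ y, p.1 < ‖y‖ → A y = 0) ∧ (∀ y, |A y| ≤ M) ∧
      (∀ y, y ≠ 0 → ‖fderiv ℝ A y‖ ≤ M) ∧ (∀ y, ‖y‖ ≤ p.1 → A y = g (cone2 p y)) ∧
      ∀ y, y ≠ 0 → ‖y‖ ≤ p.1 → ∀ u, fderiv ℝ A y u =
        -⟪nn y, u⟫ * pd (1, 0) g (cone2 p y) - ∑ i, u i * pd (0, ee i) g (cone2 p y) := by
  have hd : ∀ x, fderiv ℝ g (0, x) = 0 := fun x => ContinuousLinearMap.ext fun u => by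
    rw [du2_lin g _ u.1 u.2, h1]
    simp [du2_van hg h0]
  let G : ST → ℝ := fun r => if 0 ≤ r.1 then g r else 0
  let G' : ST → ST →L[ℝ] ℝ := fun r => if 0 ≤ r.1 then fderiv ℝ g r else 0
  have hG : ∀ r, HasFDerivAt G (G' r) r := by
    intro r
    have hr := (hg.differentiable (by simp) r).hasFDerivAt
    rcases lt_trichotomy r.1 0 with h | h | h
    · simp only [G', if_neg h.not_ge]
      refine (hasFDerivAt_const (0 : ℝ) r).congr_of_eventuallyEq ?_
      filter_upwards [continuous_fst.continuousAt.eventually (gt_mem_nhds h)] with q hq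
      exact if_neg hq.not_ge
    · obtain ⟨τ, x⟩ := r
      obtain rfl : τ = 0 := h
      simp only [G', le_refl, if_true]
      rw [hd] at hr ⊢
      rw [hasFDerivAt_iff_isLittleO] at hr ⊢
      refine (Asymptotics.IsBigO.of_bound 1 (Eventually.of_forall fun q => ?_)).trans_isLittleO hr
      simp only [G, le_refl, if_true, h0, sub_zero, zero_apply, one_mul]
      split_ifs <;> simp
    · simp only [G', if_pos h.le]
      refine hr.congr_of_eventuallyEq ?_
      filter_upwards [du2_pos h] with q hq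
      exact if_pos hq.le
  have hG' : Continuous G' := Continuous.if_le (hg.continuous_fderiv (by simp)) continuous_const
    continuous_const continuous_fst fun r hr => by
      obtain ⟨τ, x⟩ := r
      obtain rfl : 0 = τ := hr
      exact hd x
  have hGc : ContDiff ℝ 1 G := contDiff_one_iff_fderiv.2
    ⟨fun r => (hG r).differentiableAt, by rwa [funext fun r => (hG r).fderiv]⟩
  have hc : Continuous (cone2 p) := by unfold cone2; fun_prop
  have hcd : ∀ y : R3, y ≠ 0 → HasFDerivAt (fun y => G (cone2 p y)) ((G' (cone2 p y)).comp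
      ((-innerSL ℝ (nn y)).prod (-ContinuousLinearMap.id ℝ R3))) y := fun y hy =>
    (hG _).comp y (((hasFDerivAt_norm hy).const_sub p.1).prodMk ((hasFDerivAt_id y).const_sub p.2))
  have hz : ∀ y : R3, p.1 < ‖y‖ → ¬0 ≤ (cone2 p y).1 := fun y hy => by
    simp only [cone2]; linarith
  obtain ⟨M₁, hM₁⟩ := (isCompact_closedBall (0 : R3) p.1).exists_bound_of_continuousOn
    (hGc.continuous.comp hc).continuousOn
  obtain ⟨M₂, hM₂⟩ := (isCompact_closedBall (0 : R3) p.1).exists_bound_of_continuousOn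
    (hG'.comp hc).continuousOn
  refine ⟨fun y => G (cone2 p y), |M₁| + |M₂|, by positivity, hGc.continuous.comp hc,
    fun y hy => (hGc.contDiffAt.comp y ((contDiffAt_const.sub (contDiffAt_norm ℝ hy)).prodMk
      (contDiffAt_const.sub contDiffAt_id))).contDiffWithinAt,
    fun y hy => if_neg (hz y hy), fun y => ?_, fun y hy => ?_,
    fun y hy => if_pos (sub_nonneg.2 hy), fun y hy hy' u => ?_⟩
  · rcases le_or_gt ‖y‖ p.1 with h | h
    · have := hM₁ y (mem_closedBall_zero_iff.2 h)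
      exact this.trans (by linarith [le_abs_self M₁, abs_nonneg M₂])
    · simp only [G, if_neg (hz y h), abs_zero]
      positivity
  · rw [(hcd y hy).fderiv]
    rcases le_or_gt ‖y‖ p.1 with h | h
    · refine ContinuousLinearMap.opNorm_le_bound _ (by positivity) fun u => ?_
      refine ((G' (cone2 p y)).le_opNorm _).trans (mul_le_mul ((hM₂ y
        (mem_closedBall_zero_iff.2 h)).trans (by linarith [le_abs_self M₂, abs_nonneg M₁])) ?_
        (norm_nonneg _) (by positivity))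
      refine norm_prod_le_iff.2 ⟨?_, by simp⟩
      have := norm_inner_le_norm (𝕜 := ℝ) (nn y) u
      rw [norm_nn hy, one_mul] at this
      simpa using this
    · simp only [G', if_neg (hz y h), ContinuousLinearMap.zero_comp, norm_zero]
      positivity
  · rw [(hcd y hy).fderiv]
    simp only [G', if_pos (show 0 ≤ (cone2 p y).1 from sub_nonneg.2 hy')]
    change fderiv ℝ g (cone2 p y) (-⟪nn y, u⟫, -u) = _
    rw [du2_lin]
    simp [sub_eq_add_neg]

theorem du2_inv {y : R3} (hy : y ≠ 0) :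
    HasFDerivAt (fun y : R3 => ‖y‖⁻¹) ((-(‖y‖ ^ 2)⁻¹) • innerSL ℝ (nn y)) y :=
  (hasDerivAt_inv (norm_ne_zero_iff.2 hy)).comp_hasFDerivAt y (hasFDerivAt_norm hy)

theorem du2_flat {h : ST → ℝ} (hh : ContDiff ℝ ∞ h) (h0 : ∀ x, h (0, x) = 0)
    (h1 : ∀ x, pd (1, 0) h (0, x) = 0) (h2 : ∀ x, pd (1, 0) (pd (1, 0) h) (0, x) = 0) (p : ST)
    (hp : 0 < p.1) : du2bx (Du h) p = h p := by
  have ht := contDiff_pd hh (1, 0)
  have hx := fun i => contDiff_pd hh (0, ee i)
  have e1 : du2bx (Du h) p = Du (du2bx h) p := by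
    have a1 : pd (1, 0) (Du h) =ᶠ[𝓝 p] Du (pd (1, 0) h) :=
      (du2_pos hp).mono fun q hq => pt_Du hh h0 hq.le
    have a2 : pd (1, 0) (pd (1, 0) (Du h)) p = pd (1, 0) (Du (pd (1, 0) h)) p :=
      (pdl_congr a1 [(1, 0)]).eq_of_nhds
    have a3 := Du_sub (contDiff_pd ht (1, 0)).continuous
      (continuous_finsetSum Finset.univ fun i _ => (contDiff_pd (hx i) (0, ee i)).continuous)
    rw [Du_sum _ fun i => (contDiff_pd (hx i) (0, ee i)).continuous] at a3
    refine Eq.trans ?_ (congrFun a3 p).symm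
    simp only [du2bx, a2, pt_Du ht h1 hp.le, pd_Du hh, pd_Du (hx _)]
  obtain ⟨G, M₁, -, g1, g2, g3, -, g5, g6, g7⟩ := du2_cone hh h0 h1 p
  obtain ⟨C, M₂, hM₂, c1, c2, c3, c4, c5, c6, c7⟩ := du2_cone ht h1 h2 p
  choose A M hM a1 a2 a3 a4 a5 a6 a7 using fun i => du2_cone (hx i) (du2_van hh h0 _)
    (fun x => by rw [pd_comm hh]; exact du2_van ht h1 _ x) p
  have hdiff : ∀ {F : R3 → ℝ}, ContDiffOn ℝ 1 F {0}ᶜ → ∀ {y : R3}, y ≠ 0 →
      HasFDerivAt F (fderiv ℝ F y) y := fun hF y hy =>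
    ((hF.contDiffAt (isOpen_compl_singleton.mem_nhds hy)).differentiableAt one_ne_zero).hasFDerivAt
  have hnorm : ContDiffOn ℝ 1 (fun y : R3 => ‖y‖) {0}ᶜ := fun y hy =>
    (contDiffAt_norm ℝ hy).contDiffWithinAt
  have hin : ∀ y : R3, ‖innerSL ℝ (nn y)‖ ≤ 1 := fun y => by
    rw [innerSL_apply_norm]; exact norm_nn_le y
  -- the vector part
  have u0 : ∀ i y, p.1 < ‖y‖ → ‖y‖⁻¹ * A i y = 0 := fun i y hy => by rw [a3 i y hy, mul_zero]
  have ud : ∀ i {y : R3}, y ≠ 0 → fderiv ℝ (fun y => ‖y‖⁻¹ * A i y) y =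
      ‖y‖⁻¹ • fderiv ℝ (A i) y + A i y • (-(‖y‖ ^ 2)⁻¹) • innerSL ℝ (nn y) := fun i y hy =>
    ((du2_inv hy).mul (hdiff (a2 i) hy)).fderiv
  have hU : ∀ i, Integrable (fun y => fderiv ℝ (fun y => ‖y‖⁻¹ * A i y) y (ee i)) ∧
      ∫ y, fderiv ℝ (fun y => ‖y‖⁻¹ * A i y) y (ee i) = 0 := fun i => by
    have hMi := hM i
    refine sibp (u := fun y => ‖y‖⁻¹ * A i y) (C := M i * (p.1 + 1))
      ((hnorm.inv fun y hy => norm_ne_zero_iff.2 hy).mul (a2 i))
      (u0 i) (fun y hy => ?_) (fun y hy => ?_) _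
    · have := norm_pos_iff.2 hy
      rw [abs_mul, abs_of_pos (by positivity), inv_mul_eq_div]
      gcongr
      nlinarith [a4 i y]
    · have hr := norm_pos_iff.2 hy
      rcases le_or_gt ‖y‖ p.1 with h | h
      · rw [ud i hy]
        refine (norm_add_le _ _).trans ?_
        rw [norm_smul, norm_smul, norm_smul, norm_neg, norm_inv, norm_inv, norm_pow, norm_norm,
          Real.norm_eq_abs]
        calc _ ≤ ‖y‖⁻¹ * M i + M i * ((‖y‖ ^ 2)⁻¹ * 1) := by
              gcongr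
              exacts [a5 i y hy, a4 i y, hin y]
          _ = M i * (‖y‖ + 1) / ‖y‖ ^ 2 := by field_simp
          _ ≤ _ := by gcongr
      · rw [sibp_fderiv_zero (u0 i) h, norm_zero]
        positivity
  -- the radial part
  have w0 : ∀ y, p.1 < ‖y‖ → G y + ‖y‖ * C y = 0 := fun y hy => by
    rw [g3 y hy, c3 y hy, mul_zero, add_zero]
  have wd : ∀ {y : R3}, y ≠ 0 → fderiv ℝ (fun y => G y + ‖y‖ * C y) y =
      fderiv ℝ G y + (‖y‖ • fderiv ℝ C y + C y • innerSL ℝ (nn y)) := fun {y} hy =>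
    ((hdiff g2 hy).add ((hasFDerivAt_norm hy).mul (hdiff c2 hy))).fderiv
  have hW := sibp_delta (G := fun y => G y + ‖y‖ * C y)
    (C := |M₁| + (p.1 * M₂ + M₂ * 1)) (g2.add (hnorm.mul c2))
    (g1.add (continuous_norm.mul c1)) w0 fun y hy => by
      rcases le_or_gt ‖y‖ p.1 with h | h
      · rw [wd hy]
        refine (norm_add_le _ _).trans (add_le_add ((g5 y hy).trans (le_abs_self _))
          ((norm_add_le _ _).trans ?_))
        rw [norm_smul, norm_smul, norm_norm, Real.norm_eq_abs]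
        gcongr
        exacts [c5 y hy, c4 y, hin y]
      · rw [sibp_fderiv_zero w0 h, norm_zero]
        positivity
  have hZ : IntegrableOn (fun y : R3 => ‖y‖⁻¹ * du2bx h (cone2 p y)) (ball 0 p.1) :=
    (integrableOn_inv p.1).mul_continuousOn_of_subset
      ((du2_smooth hh).continuous.comp (by unfold cone2; fun_prop)).continuousOn
      measurableSet_ball (isCompact_closedBall 0 p.1) ball_subset_closedBall
  have hae : (fun y => fderiv ℝ (fun y => G y + ‖y‖ * C y) y (nn y) / ‖y‖ ^ 2) =ᵐ[volume]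
      fun y => ∑ i, fderiv ℝ (fun y => ‖y‖⁻¹ * A i y) y (ee i) -
        (ball (0 : R3) p.1).indicator (fun y => ‖y‖⁻¹ * du2bx h (cone2 p y)) y := by
    have hs : ∀ᵐ y : R3, y ∉ sphere (0 : R3) p.1 :=
      compl_mem_ae_iff.2 (Measure.addHaar_sphere volume _ _)
    filter_upwards [sibp_ae_ne, hs] with y hy hy'
    rcases lt_trichotomy ‖y‖ p.1 with hl | hl | hl
    · have hr := (norm_pos_iff.2 hy).ne'
      have hn : ⟪nn y, nn y⟫ = 1 := by rw [real_inner_self_eq_norm_sq, norm_nn hy, one_pow]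
      rw [indicator_of_mem (mem_ball_zero_iff.2 hl), wd hy]
      simp only [ud _ hy, add_apply, smul_apply, smul_eq_mul, innerSL_apply_apply, g7 y hy hl.le,
        c7 y hy hl.le, a7 _ y hy hl.le, c6 y hl.le, a6 _ y hl.le, hn, inner_ee, du2bx,
        pd_comm hh (1, 0) (0, ee _), Fin.sum_univ_three]
      simp [ee]
      field_simp
      ring
    · exact absurd (mem_sphere_zero_iff_norm.2 hl) hy'
    · rw [indicator_of_notMem (by simpa using hl.le), sibp_fderiv_zero w0 hl]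
      simp [sibp_fderiv_zero (u0 _) hl]
  rw [integral_congr_ae hae, integral_sub (integrable_finsetSum _ fun i _ => (hU i).1)
    (hZ.integrable_indicator measurableSet_ball), integral_finsetSum _ fun i _ => (hU i).1,
    integral_indicator measurableSet_ball, g6 0 (by simpa using hp.le)] at hW
  simp only [(hU _).2, Finset.sum_const_zero, zero_sub, neg_inj, norm_zero, zero_mul, add_zero,
    cone2, sub_zero] at hW
  rw [e1, Du_y _ hp.le]
  simp only [cone2]
  rw [hW]
  field_simp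

theorem box_Du {h : ST → ℝ} (hh : ContDiff ℝ ∞ h) {p : ST} (hp : 0 ≤ p.1) :
    pd (1, 0) (pd (1, 0) (Du h)) p - ∑ i, pd (0, ee i) (pd (0, ee i) (Du h)) p = h p := by
  obtain ⟨H₁, s₁, z₁, rfl⟩ := du2_prim hh
  obtain ⟨H₂, s₂, z₂, rfl⟩ := du2_prim s₁
  obtain ⟨H₃, s₃, z₃, rfl⟩ := du2_prim s₂
  have h1 := du2_desc s₁ z₁ (du2_desc s₂ z₂ (du2_desc s₃ z₃ (du2_flat s₃ z₃ z₂ z₁)))
  have h2 : EqOn _ _ (Ioi (0 : ℝ) ×ˢ (univ : Set R3)) := fun q hq => h1 q hq.1
  refine h2.closure (du2_smooth (contDiff_Du hh)).continuous hh.continuous ?_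
  rw [closure_prod_eq, closure_Ioi, closure_univ]
  exact ⟨hp, mem_univ _⟩

end Crest.Agent.R106
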