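import Crest.Agent.R106.Du1
import Crest.Agent.R106.Calc2

/-!
# Row 106: bounds for the data part of the field

`Du h = (t²/4π) · W`, `W p = ∫ ‖η‖⁻¹ h (A_η p)`, `pdl L W p = ∫ ‖η‖⁻¹ D^k h (A_η p) (A_η L)`, `‖A_η‖ ≤ 2`;
`norm_iter_le`, `norm_iteratedFDeriv_mul_le`.  For `dat`: the components of `K₀ ∘ snd` have bounded
derivatives by `Adm.bdd`; `cur (f₀ ∘ snd) i = c ∘ snd` with `c` smooth with compact support.  A class of
functions "smooth with all derivatives bounded on `slab T`" closed under `pd`, `+`, `-`, `vec`, pairs helps.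

-/

set_option autoImplicit false

noncomputable section

namespace Crest.Agent.R106

open MeasureTheory Set Metric Real Filter Topology
open scoped ContDiff ENNReal RealInnerProductSpace Classical
open Crest.AnalysisR.VecCalc3 Crest.AnalysisR.PDE.RVM

section Aux
variable {Y Z : Type} [NormedAddCommGroup Y] [NormedSpace ℝ Y] [NormedAddCommGroup Z]
  [NormedSpace ℝ Z]

/-- smooth with all derivatives bounded on `S` -/
def du3BS (S : Set ST) (g : ST → Y) : Prop :=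
  ContDiff ℝ ∞ g ∧ ∀ k : ℕ, ∃ C, ∀ p ∈ S, ‖iteratedFDeriv ℝ k g p‖ ≤ C

theorem du3BS.add {S : Set ST} {g g' : ST → Y} (h : du3BS S g) (h' : du3BS S g') :
    du3BS S fun p => g p + g' p := by
  refine ⟨h.1.add h'.1, fun k => ?_⟩
  obtain ⟨C, hC⟩ := h.2 k
  obtain ⟨C', hC'⟩ := h'.2 k
  refine ⟨C + C', fun p hp => norm_iter_le (h.1.add h'.1) fun L hL hu => ?_⟩
  rw [pdl_add h.1 h'.1]
  subst hL
  exact (norm_add_le _ _).trans (add_le_add ((norm_pdl_le h.1 hu p).trans (hC p hp))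
    ((norm_pdl_le h'.1 hu p).trans (hC' p hp)))

theorem du3BS.clm {S : Set ST} {g : ST → Y} (h : du3BS S g) (A : Y →L[ℝ] Z) :
    du3BS S fun p => A (g p) := by
  refine ⟨A.contDiff.comp h.1, fun k => ?_⟩
  obtain ⟨C, hC⟩ := h.2 k
  refine ⟨‖A‖ * C, fun p hp => ?_⟩
  exact (A.norm_iteratedFDeriv_comp_left h.1.contDiffAt (c2_natle k)).trans
    (mul_le_mul_of_nonneg_left (hC p hp) (norm_nonneg _))

theorem du3BS.sub {S : Set ST} {g g' : ST → Y} (h : du3BS S g) (h' : du3BS S g') :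
    du3BS S fun p => g p - g' p := by
  have := h.add (h'.clm (-ContinuousLinearMap.id ℝ Y))
  simpa [sub_eq_add_neg] using this

theorem du3BS.pd {S : Set ST} {g : ST → Y} (h : du3BS S g) {u : ST} (hu : ‖u‖ ≤ 1) :
    du3BS S (pd u g) := by
  refine ⟨contDiff_pd h.1 u, fun k => ?_⟩
  obtain ⟨C, hC⟩ := h.2 (k + 1)
  refine ⟨C, fun p hp => norm_iter_le (contDiff_pd h.1 u) fun L hL hL1 => ?_⟩
  have e : pdl L (Crest.Agent.R106.pd u g) = pdl (L ++ [u]) g := by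
    rw [pdl_append]; rfl
  rw [e]
  have h1 : ∀ w ∈ L ++ [u], ‖w‖ ≤ 1 := by
    intro w hw
    rcases List.mem_append.1 hw with hw | hw
    · exact hL1 w hw
    · rw [List.mem_singleton.1 hw]; exact hu
  have h2 := norm_pdl_le h.1 h1 p
  have h3 : (L ++ [u]).length = k + 1 := by simp [hL]
  rw [h3] at h2
  exact h2.trans (hC p hp)

theorem du3BS.mul {S : Set ST} {g g' : ST → ℝ} (h : du3BS S g) (h' : du3BS S g') :
    du3BS S fun p => g p * g' p := by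
  refine ⟨h.1.mul h'.1, fun k => ?_⟩
  obtain ⟨C, hC0, hC⟩ := c2_unif (p := fun i C => ∀ p ∈ S, ‖iteratedFDeriv ℝ i g p‖ ≤ C)
    (fun i C C' h1 h2 p hp => (h1 p hp).trans h2) h.2 k
  obtain ⟨C', -, hC'⟩ := c2_unif (p := fun i C => ∀ p ∈ S, ‖iteratedFDeriv ℝ i g' p‖ ≤ C)
    (fun i C C' h1 h2 p hp => (h1 p hp).trans h2) h'.2 k
  refine ⟨‖ContinuousLinearMap.mul ℝ ℝ‖ * 2 ^ k * (C * C'), fun p hp => ?_⟩
  exact c2_bil (ContinuousLinearMap.mul ℝ ℝ) h.1 h'.1 p k le_rfl fun i hi =>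
    mul_le_mul (hC i hi p hp) (hC' _ (Nat.sub_le _ _) p hp) (norm_nonneg _) hC0

theorem du3BS.vec {S : Set ST} {u : Fin 3 → ST → ℝ} (h : ∀ i, du3BS S (u i)) :
    du3BS S fun p => vec fun i => u i p := by
  have := (((h 0).clm (ContinuousLinearMap.toSpanSingleton ℝ (ee 0))).add
    ((h 1).clm (ContinuousLinearMap.toSpanSingleton ℝ (ee 1)))).add
    ((h 2).clm (ContinuousLinearMap.toSpanSingleton ℝ (ee 2)))
  convert this using 2 with p
  rw [← sum_ee (Crest.Agent.R106.vec fun i => u i p), Fin.sum_univ_three]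
  simp only [vec_apply, ContinuousLinearMap.toSpanSingleton_apply]

theorem du3BS.prod {S : Set ST} {g : ST → Y} {g' : ST → Z} (h : du3BS S g) (h' : du3BS S g') :
    du3BS S fun p => (g p, g' p) := by
  have := (h.clm (ContinuousLinearMap.inl ℝ Y Z)).add (h'.clm (ContinuousLinearMap.inr ℝ Y Z))
  simpa using this

theorem du3_norm_t : ‖((1, 0) : ST)‖ ≤ 1 := by simp [Prod.norm_def]

theorem du3_norm_x (i : Fin 3) : ‖((0, ee i) : ST)‖ ≤ 1 := by simp [Prod.norm_def, norm_ee]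

theorem du3BS.cu {S : Set ST} {u : Fin 3 → ST → ℝ} (h : ∀ i, du3BS S (u i)) (i : Fin 3) :
    du3BS S (cu u i) :=
  ((h _).pd (du3_norm_x _)).sub ((h _).pd (du3_norm_x _))

theorem du3BS_time {φ : ℝ → ℝ} (hφ : ContDiff ℝ ∞ φ) (T : ℝ) :
    du3BS (slab R3 T) fun p => φ p.1 := by
  refine ⟨hφ.comp contDiff_fst, fun k => ?_⟩
  obtain ⟨C, hC⟩ := (isCompact_Icc (a := (0 : ℝ)) (b := T)).exists_bound_of_continuousOn
    (hφ.continuous_iteratedFDeriv (c2_natle k)).continuousOn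
  refine ⟨C, fun p hp => ?_⟩
  exact (c2_right (ContinuousLinearMap.fst ℝ ℝ R3) (ContinuousLinearMap.norm_fst_le ..) hφ k p).trans
    (hC _ hp.1)

/-- the linear map to the cone -/
def du3A (a : ℝ × R3) : ST →L[ℝ] ST :=
  ContinuousLinearMap.id ℝ ST - (ContinuousLinearMap.fst ℝ ℝ R3).smulRight a

theorem du3A_apply (a : ℝ × R3) (p : ST) : du3A a p = (p.1 - p.1 * a.1, p.2 - p.1 • a.2) := by
  ext <;> simp [du3A]

theorem du3A_norm {a : ℝ × R3} (ha : ‖a‖ ≤ 1) : ‖du3A a‖ ≤ 2 := by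
  refine (norm_sub_le _ _).trans ?_
  rw [ContinuousLinearMap.norm_smulRight_apply]
  have h1 : ‖ContinuousLinearMap.id ℝ ST‖ ≤ 1 := ContinuousLinearMap.norm_id_le
  have h2 : ‖ContinuousLinearMap.fst ℝ ℝ R3‖ ≤ 1 := ContinuousLinearMap.norm_fst_le ..
  nlinarith [norm_nonneg (ContinuousLinearMap.fst ℝ ℝ R3), norm_nonneg a]

theorem du3_slice {Φ : ST × (ℝ × R3) → ℝ} (hΦ : ContDiff ℝ ∞ Φ) (L : List ST) (a : ℝ × R3) :
    (fun q => pdl (L.map fun u => (u, (0 : ℝ × R3))) Φ (q, a)) = pdl L fun q => Φ (q, a) := by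
  induction L with
  | nil => rfl
  | cons u L ih =>
    rw [List.map_cons, pdl_cons, pdl_cons, ← ih]
    funext q
    have h1 : DifferentiableAt ℝ (pdl (L.map fun u => (u, (0 : ℝ × R3))) Φ) (q, a) :=
      Calc_diff hΦ _ _
    have h2 : HasFDerivAt (fun q : ST => (q, a)) (ContinuousLinearMap.inl ℝ ST (ℝ × R3)) q :=
      hasFDerivAt_prodMk_left q a
    have h3 := (h1.hasFDerivAt.comp q h2).fderiv
    unfold Crest.Agent.R106.pd
    rw [show (fun q => pdl (L.map fun u => (u, (0 : ℝ × R3))) Φ (q, a)) =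
      pdl (L.map fun u => (u, (0 : ℝ × R3))) Φ ∘ fun q : ST => (q, a) from rfl, h3]
    rfl

theorem du3_pdl_int (μ : Measure (ℝ × R3)) {K : Set (ℝ × R3)} (hK : IsCompact K) (hμ : μ Kᶜ = 0)
    {f : ℝ × R3 → ℝ} (hf : Integrable f μ) {Φ : ST × (ℝ × R3) → ℝ} (hΦ : ContDiff ℝ ∞ Φ)
    (L : List ST) :
    pdl L (fun q => ∫ x, f x • Φ (q, x) ∂μ) =
      fun q => ∫ x, f x • pdl (L.map fun u => (u, (0 : ℝ × R3))) Φ (q, x) ∂μ := by
  induction L with
  | nil => rfl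
  | cons u L ih =>
    rw [List.map_cons, pdl_cons, pdl_cons, ih]
    funext q
    exact (Crest.Agent.R240.contDiff_integral_cpt μ hK hμ hf (contDiff_pdl hΦ _)).2 q u

theorem du3BS_W {h : ST → ℝ} (hh : du3BS univ h) :
    du3BS univ fun p : ST =>
      ∫ η in ball (0 : R3) 1, ‖η‖⁻¹ * h (p.1 - p.1 * ‖η‖, p.2 - p.1 • η) := by
  set e : R3 → ℝ × R3 := fun η => (‖η‖, η) with he
  have ce : Continuous e := by fun_prop
  have me : MeasurableEmbedding e :=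
    ce.measurableEmbedding fun a b hab => congrArg Prod.snd hab
  set μ : Measure (ℝ × R3) := Measure.map e (volume.restrict (ball (0 : R3) 1)) with hμ
  have hK : IsCompact (closedBall (0 : ℝ × R3) 1) := isCompact_closedBall _ _
  have hμK : μ (closedBall (0 : ℝ × R3) 1)ᶜ = 0 := by
    rw [hμ, me.map_apply, Measure.restrict_apply' measurableSet_ball]
    convert measure_empty (μ := (volume : Measure R3))
    ext η
    simp only [mem_inter_iff, mem_preimage, mem_compl_iff, mem_closedBall_zero_iff,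
      mem_ball_zero_iff, he, Prod.norm_def, norm_norm, max_self, mem_empty_iff_false, iff_false,
      not_and, not_lt, not_le]
    exact fun h => h.le
  have hf : Integrable (fun a : ℝ × R3 => ‖a.2‖⁻¹) μ := by
    rw [hμ, me.integrable_map_iff]
    exact integrableOn_inv 1
  set Φ : ST × (ℝ × R3) → ℝ := fun z => h (z.1.1 - z.1.1 * z.2.1, z.1.2 - z.1.1 • z.2.2) with hΦd
  have hΦ : ContDiff ℝ ∞ Φ := hh.1.comp (by fun_prop)
  have eW : (fun p : ST =>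
      ∫ η in ball (0 : R3) 1, ‖η‖⁻¹ * h (p.1 - p.1 * ‖η‖, p.2 - p.1 • η)) =
      fun q => ∫ x, ‖x.2‖⁻¹ • Φ (q, x) ∂μ := by
    funext q
    rw [hμ, me.integral_map]
    rfl
  rw [eW]
  have hW := (Crest.Agent.R240.contDiff_integral_cpt μ hK hμK hf hΦ).1
  refine ⟨hW, fun k => ?_⟩
  obtain ⟨C, hC⟩ := hh.2 k
  refine ⟨∫ x : ℝ × R3, ‖‖x.2‖⁻¹‖ * (C * 2 ^ k) ∂μ, fun p _ => norm_iter_le hW fun L hL hu => ?_⟩
  rw [du3_pdl_int μ hK hμK hf hΦ]
  refine norm_integral_le_of_norm_le (hf.norm.mul_const _) ?_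
  have hae : ∀ᵐ x ∂μ, x ∈ closedBall (0 : ℝ × R3) 1 := hμK
  filter_upwards [hae] with x hx
  rw [norm_smul]
  refine mul_le_mul_of_nonneg_left ?_ (norm_nonneg _)
  have h1 := congrFun (du3_slice hΦ L x) p
  have h2 : (fun q => Φ (q, x)) = h ∘ du3A x := by
    funext q
    simp only [hΦd, Function.comp, du3A_apply]
  rw [h1, h2]
  refine (norm_pdl_le (hh.1.comp (du3A x).contDiff) hu p).trans ?_
  rw [hL, (du3A x).iteratedFDeriv_comp_right hh.1 p (c2_natle k)]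
  refine (ContinuousMultilinearMap.norm_compContinuousLinearMap_le _ _).trans ?_
  have h3 := du3A_norm (mem_closedBall_zero_iff.1 hx)
  refine mul_le_mul (hC _ (mem_univ _)) ?_ (by positivity)
    ((norm_nonneg _).trans (hC p (mem_univ _)))
  rw [Finset.prod_const, Finset.card_univ, Fintype.card_fin]
  exact pow_le_pow_left₀ (norm_nonneg _) h3 k

theorem du3BS_Du {h : ST → ℝ} (hh : du3BS univ h) (T : ℝ) : du3BS (slab R3 T) (Du h) := by
  have h1 := du3BS_W hh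
  have h2 : du3BS (slab R3 T) fun p : ST =>
      ∫ η in ball (0 : R3) 1, ‖η‖⁻¹ * h (p.1 - p.1 * ‖η‖, p.2 - p.1 • η) :=
    ⟨h1.1, fun k => (h1.2 k).imp fun C hC p _ => hC p (mem_univ _)⟩
  exact (du3BS_time (φ := fun t => t ^ 2 / (4 * π)) (by fun_prop) T).mul h2

end Aux

theorem Du_bdd {h : ST → ℝ} (hh : ContDiff ℝ ∞ h)
    (hb : ∀ k : ℕ, ∃ C, ∀ p, ‖iteratedFDeriv ℝ k h p‖ ≤ C) (T : ℝ) (k : ℕ) :
    ∃ C, ∀ p ∈ slab R3 T, ‖iteratedFDeriv ℝ k (Du h) p‖ ≤ C :=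
  (du3BS_Du ⟨hh, fun k => (hb k).imp fun _ hC p _ => hC p⟩ T).2 k

theorem Adm.ls {f₀ : Ph → ℝ} {K₀ : R3 → Ph} (h : Adm f₀ K₀) : LS fun p : TP => f₀ p.2 := by
  obtain ⟨R, hR⟩ := h.cpt.isCompact.isBounded.subset_closedBall (0 : Ph)
  intro a
  refine ⟨R, fun p _ hp => ?_⟩
  have := mem_closedBall_zero_iff.1 (hR (subset_tsupport _ hp))
  exact (norm_snd_le p.2).trans this

theorem du3BS_K {f₀ : Ph → ℝ} {K₀ : R3 → Ph} (h : Adm f₀ K₀) :
    du3BS univ fun p : ST => K₀ p.2 := by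
  refine ⟨h.smoothK.comp contDiff_snd, fun k => ?_⟩
  obtain ⟨C, hC⟩ := h.bdd k
  exact ⟨C, fun p _ => (c2_right (ContinuousLinearMap.snd ℝ ℝ R3) (ContinuousLinearMap.norm_snd_le ..)
    h.smoothK k p).trans (hC _)⟩

theorem du3BS_cur {f₀ : Ph → ℝ} {K₀ : R3 → Ph} (h : Adm f₀ K₀) (i : Fin 3) :
    du3BS univ (cur (fun p => f₀ p.2) i) := by
  have hf : ContDiff ℝ ∞ fun p : TP => f₀ p.2 := h.smooth.comp contDiff_snd
  refine ⟨cur_contDiff hf h.ls i, fun k => ?_⟩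
  set G : Ph → ℝ := fun z => f₀ z * relVel z.2 i with hG
  have sG : ContDiff ℝ ∞ G := h.smooth.mul ((pint_relVel' i).comp contDiff_snd)
  have cG : HasCompactSupport G := h.cpt.mul_right
  obtain ⟨C, -, hC⟩ := c2_cpt sG cG k
  obtain ⟨R, hR⟩ := cG.isCompact.isBounded.subset_closedBall (0 : Ph)
  have key : ∀ r : TP, ‖iteratedFDeriv ℝ k (fun p : TP => f₀ p.2 * relVel p.2.2 i) r‖ ≤
      ‖iteratedFDeriv ℝ k G r.2‖ := fun r =>
    c2_right (ContinuousLinearMap.snd ℝ ℝ Ph) (ContinuousLinearMap.norm_snd_le ..) sG k r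
  refine ⟨C * vB R, fun p _ => norm_iter_vint_le (hf.mul (pint_relVel i)) h.ls.mul k
    (fun v hv => ?_) fun v => (key _).trans (hC k le_rfl _)⟩
  have h1 : iteratedFDeriv ℝ k G (p.2, v) ≠ 0 := by
    intro h0
    have := key (p.1, p.2, v)
    rw [h0, norm_zero] at this
    exact hv (norm_le_zero_iff.1 this)
  have h2 := mem_closedBall_zero_iff.1
    (hR (support_iteratedFDeriv_subset (𝕜 := ℝ) (f := G) k h1))
  exact (norm_snd_le (p.2, v)).trans h2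

theorem du3BS_dat {f₀ : Ph → ℝ} {K₀ : R3 → Ph} (h : Adm f₀ K₀) (T : ℝ) :
    du3BS (slab R3 T) (dat K₀ f₀) := by
  have ha : ∀ i, du3BS (slab R3 T) (aE K₀ i) := fun i =>
    (du3BS_Du ((du3BS_K h).clm ((EuclideanSpace.proj (𝕜 := ℝ) i).comp
      (ContinuousLinearMap.fst ℝ R3 R3))) T).pd du3_norm_t
  have hb : ∀ i, du3BS (slab R3 T) (bB K₀ i) := fun i =>
    (du3BS_Du ((du3BS_K h).clm ((EuclideanSpace.proj (𝕜 := ℝ) i).comp
      (ContinuousLinearMap.snd ℝ R3 R3))) T).pd du3_norm_t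
  exact (du3BS.vec fun i => (((ha i).pd du3_norm_t).add (du3BS.cu hb i)).sub
    ((du3BS_Du (du3BS_cur h i) T).pd du3_norm_t)).prod
    (du3BS.vec fun i => ((hb i).pd du3_norm_t).sub (du3BS.cu ha i))

theorem Adm.contDiff_dat {f₀ : Ph → ℝ} {K₀ : R3 → Ph} (h : Adm f₀ K₀) :
    ContDiff ℝ ∞ (dat K₀ f₀) :=
  (du3BS_dat h 0).1

theorem Adm.dat_bdd {f₀ : Ph → ℝ} {K₀ : R3 → Ph} (h : Adm f₀ K₀) (T : ℝ) (k : ℕ) :
    ∃ C, ∀ p ∈ slab R3 T, ‖iteratedFDeriv ℝ k (dat K₀ f₀) p‖ ≤ C :=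
  (du3BS_dat h T).2 k

end Crest.Agent.R106
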