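import Crest.Agent.R106.Cyl

/-!
# Row 106: weighted form of a local conservation law

`Φ τ = ∫ e(τ, x) W(τ, x) dx` is continuous on `[0, T]` and differentiable on `(0, T)` with
`Φ' = ∫ (∂_t e W + e ∂_t W) ≤ ∫ (-div S W + e ∂_t W) = ∫ fderiv W (e, S)` (integration by parts for compactly
supported `C¹` functions of `x`); the last integral is continuous in `τ ∈ [0, T]`; monotonicity from the sign
of the derivative, then Fubini.  `cons_tail`: `W = h₁(pp x - τ - a) h₂(pp x + τ - b)` with `h₁` increasing from `0`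
to `1` on `[0, 1]` (`Real.smoothTransition`), `h₂ s = h₁ (-s)`, `a = R - t - 1`; `fderiv W (e, S) ≤ 0` since
`‖∇ pp‖ ≤ 1`, `‖S‖ ≤ e`; let `b → ∞` (monotone convergence, or Fatou).

-/

set_option autoImplicit false

noncomputable section

namespace Crest.Agent.R106

open MeasureTheory Set Metric Real Filter Topology
open scoped ContDiff ENNReal RealInnerProductSpace Classical
open Crest.AnalysisR.VecCalc3 Crest.AnalysisR.PDE.RVM

variable {T : ℝ} {e : ST → ℝ} {S : ST → R3}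

/-- forget the dummy variable -/
def en0_pi : TP →L[ℝ] ST :=
  (ContinuousLinearMap.fst ℝ ℝ Ph).prod
    ((ContinuousLinearMap.snd ℝ R3 R3).comp (ContinuousLinearMap.snd ℝ ℝ Ph))

theorem en0_pi_apply (r : TP) : en0_pi r = (r.1, r.2.2) := rfl

theorem en0_fderiv {Y : Type} [NormedAddCommGroup Y] [NormedSpace ℝ Y] {g : ST → Y} {r : TP}
    (hg : DifferentiableAt ℝ g (en0_pi r)) (u : TP) :
    fderiv ℝ (g ∘ en0_pi) r u = fderiv ℝ g (en0_pi r) (en0_pi u) := by
  rw [(hg.hasFDerivAt.comp r en0_pi.hasFDerivAt).fderiv]; rfl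

theorem en0_split (L : ST →L[ℝ] ℝ) (a : ℝ) (u : R3) :
    L (a, u) = a * L (1, 0) + ∑ i, u i * L (0, ee i) := by
  have : ((a, u) : ST) = a • ((1, 0) : ST) + ∑ i, u i • ((0, ee i) : ST) := by
    ext j
    · simp [Prod.fst_sum]
    · simp [Prod.snd_sum, ee, Pi.single_apply]
  rw [this, map_add, map_sum]
  simp only [map_smul, smul_eq_mul]

theorem en0_point (h : Cons T e S) {W : ST → ℝ} (hW : ContDiff ℝ 1 W) (h0 : ∀ p, 0 ≤ W p) {r : TP}
    (hr : r ∈ oslab Ph T) :
    fderiv ℝ ((fun p => e p * W p) ∘ en0_pi) r (1, 0, 0) + dv ((fun p => W p • S p) ∘ en0_pi) r ≤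
      fderiv ℝ W (en0_pi r) (e (en0_pi r), S (en0_pi r)) := by
  have hp : en0_pi r ∈ oslab R3 T := ⟨hr.1, trivial⟩
  have hn := (isOpen_oslab R3 T).mem_nhds hp
  have de := (h.de.contDiffAt hn).differentiableAt one_ne_zero
  have dS := (h.dS.contDiffAt hn).differentiableAt one_ne_zero
  have dW := hW.differentiable one_ne_zero (en0_pi r)
  have hl := mul_le_mul_of_nonneg_left (h.law _ hp) (h0 (en0_pi r))
  have e1 : ∀ i : Fin 3, pd (0, ee i) (fun q => S q i) (en0_pi r) = fderiv ℝ S (en0_pi r) (0, ee i) i :=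
    fun i => by
      have := ((EuclideanSpace.proj i : R3 →L[ℝ] ℝ).hasFDerivAt.comp _ dS.hasFDerivAt).fderiv
      exact congrArg (fun L : ST →L[ℝ] ℝ => L (0, ee i)) this
  unfold dv
  simp only [en0_fderiv (de.fun_mul dW), en0_fderiv (dW.fun_smul dS), fderiv_fun_mul de dW,
    fderiv_fun_smul dW dS]
  simp only [dx, e1] at hl
  rw [en0_split (fderiv ℝ W _) (e _)]
  simp only [pd, en0_pi_apply, add_apply, smul_apply,
    ContinuousLinearMap.smulRight_apply, PiLp.add_apply, PiLp.smul_apply, smul_eq_mul,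
    Fin.sum_univ_three] at hl ⊢
  linarith

theorem cons_weight (h : Cons T e S) {W : ST → ℝ} (hW : ContDiff ℝ 1 W) (h0 : ∀ p, 0 ≤ W p) {R : ℝ}
    (hR : ∀ p ∈ slab R3 T, R < ‖p.2‖ → W p = 0) {t : ℝ} (ht : t ∈ Icc 0 T) :
    IntegrableOn (fun p => fderiv ℝ W p (e p, S p)) (Ioo 0 t ×ˢ univ) ∧
      ∫ x, e (t, x) * W (t, x) ≤
        (∫ x, e (0, x) * W (0, x)) + ∫ p in Ioo 0 t ×ˢ univ, fderiv ℝ W p (e p, S p) := by
  have hpi : ∀ A : Set ℝ, MapsTo en0_pi (A ×ˢ (univ : Set Ph)) (A ×ˢ (univ : Set R3)) :=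
    fun A r hr => ⟨hr.1, trivial⟩
  have hoo : Ioo (0 : ℝ) T ⊆ Icc 0 T := Ioo_subset_Icc_self
  have hto : Ioo (0 : ℝ) t ⊆ Ioo 0 T := Ioo_subset_Ioo_right ht.2
  set φ : ST → ℝ := fun p => fderiv ℝ W p (e p, S p) with hφ
  set G : TP → ℝ := (fun p => e p * W p) ∘ en0_pi with hG
  set H : TP → R3 := (fun p => W p • S p) ∘ en0_pi with hH
  have cφ : ContinuousOn φ (slab R3 T) :=
    (hW.continuous_fderiv one_ne_zero).continuousOn.clm_apply (h.ce.prodMk h.cS)
  have vW : VS (Icc 0 T) R (W ∘ en0_pi) := fun r hr hne =>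
    not_lt.1 fun hlt => hne (hR _ ⟨hr, trivial⟩ hlt)
  have vG : VS (Icc 0 T) R G := fun r hr hne => vW r hr (right_ne_zero_of_mul hne)
  have vH : VS (Icc 0 T) R H := fun r hr hne => vW r hr (left_ne_zero_of_smul hne)
  have zφ : ∀ p ∈ oslab R3 T, R < ‖p.2‖ → φ p = 0 := fun p hp hlt => by
    have h1 := fderiv_zero_of_VS vW (r := (p.1, 0, p.2)) ⟨hp.1, trivial⟩ hlt
    have h2 := en0_fderiv (r := (p.1, 0, p.2)) (hW.differentiable one_ne_zero _) (e p, 0, S p)
    rw [h1] at h2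
    exact h2.symm
  have cG : ContinuousOn G (Icc 0 T ×ˢ univ) :=
    (h.ce.mul hW.continuous.continuousOn).comp en0_pi.continuous.continuousOn (hpi _)
  have dG : ContDiffOn ℝ 1 G (Ioo 0 T ×ˢ univ) :=
    (h.de.mul hW.contDiffOn).comp en0_pi.contDiff.contDiffOn (hpi _)
  have dH : ContDiffOn ℝ 1 H (Ioo 0 T ×ˢ univ) :=
    (hW.contDiffOn.smul h.dS).comp en0_pi.contDiff.contDiffOn (hpi _)
  have hi : IntegrableOn φ (Ioo 0 t ×ˢ univ) := by
    have h1 : IntegrableOn φ (Icc 0 T ×ˢ closedBall 0 R) :=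
      (cφ.mono (prod_mono le_rfl (subset_univ _))).integrableOn_compact
        (isCompact_Icc.prod (isCompact_closedBall _ _))
    refine h1.of_forall_sdiff_eq_zero (measurableSet_Ioo.prod MeasurableSet.univ) fun p hp => ?_
    refine zφ p ⟨hto hp.1.1, trivial⟩ (not_le.1 fun hle => hp.2 ⟨hoo (hto hp.1.1), ?_⟩)
    exact mem_closedBall_zero_iff.2 hle
  refine ⟨hi, ?_⟩
  have hi' : Integrable φ ((volume.restrict (Ioo 0 t)).prod volume) := by
    rw [Measure.restrict_prod_eq_prod_univ]; exact hi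
  have hfub : ∫ p in Ioo 0 t ×ˢ univ, φ p = ∫ τ in (0 : ℝ)..t, ∫ x, φ (τ, x) := by
    rw [intervalIntegral.integral_of_le ht.1, integral_Ioc_eq_integral_Ioo, ← integral_prod _ hi',
      Measure.restrict_prod_eq_prod_univ]
    rfl
  obtain ⟨d1, d2⟩ := vint_contDiffOn isOpen_Ioo dG fun r hr => vG r (hoo hr)
  have key := intervalIntegral.sub_le_integral_of_hasDeriv_right_of_le (g := fun τ => vint G (τ, 0))
    (g' := fun τ => ∫ v, fderiv ℝ G (τ, 0, v) (1, 0, 0)) (φ := fun τ => ∫ x, φ (τ, x)) ht.1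
    ((vint_continuousOn cG vG).comp (by fun_prop) fun τ hτ => ⟨⟨hτ.1, hτ.2.trans ht.2⟩, trivial⟩)
    (fun τ hτ => by
      have h1 := ((d1.contDiffAt ((isOpen_oslab R3 T).mem_nhds
        (show ((τ, 0) : ST) ∈ oslab R3 T from ⟨hto hτ, trivial⟩))).differentiableAt one_ne_zero).hasFDerivAt
      have h2 := h1.comp_hasDerivAt τ ((hasDerivAt_id τ).prodMk (hasDerivAt_const τ (0 : R3)))
      rw [d2 _ ⟨hto hτ, trivial⟩] at h2
      exact h2.hasDerivWithinAt)
    ((integrableOn_Icc_iff_integrableOn_Ioo (by simp) (by simp)).2 hi'.integral_prod_left)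
    (fun τ hτ => by
      have ho := isOpen_oslab Ph T
      have i1 : Integrable fun v => fderiv ℝ G (τ, 0, v) (1, 0, 0) :=
        integrable_slice (g := fun r => fderiv ℝ G r (1, 0, 0)) (R := R)
          ((dG.continuousOn_fderiv_of_isOpen ho le_rfl).clm_apply continuousOn_const)
          (fun r hr hne => not_lt.1 fun hlt => hne (by
            simp [fderiv_zero_of_VS vG ⟨hr, trivial⟩ hlt])) (hto hτ) 0
      have i2 : Integrable fun v => dv H (τ, 0, v) :=
        integrable_slice (g := dv H) (R := R)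
          (continuousOn_finsetSum _ fun i _ => (EuclideanSpace.proj i : R3 →L[ℝ] ℝ).continuous.comp_continuousOn
            ((dH.continuousOn_fderiv_of_isOpen ho le_rfl).clm_apply continuousOn_const))
          (fun r hr hne => not_lt.1 fun hlt => hne (by
            simp [dv, fderiv_zero_of_VS vH ⟨hr, trivial⟩ hlt])) (hto hτ) 0
      have i3 : Integrable fun v => φ (τ, v) :=
        integrable_slice (g := φ ∘ en0_pi) (R := R) (S := Ioo 0 T)
          ((cφ.mono (prod_mono hoo le_rfl)).comp en0_pi.continuous.continuousOn (hpi _))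
          (fun r hr hne => not_lt.1 fun hlt => hne (zφ _ ⟨hr, trivial⟩ hlt)) (hto hτ) 0
      have h1 := integral_dv (H := H) (t := τ) (x := 0) (R := R)
        (fun v => dH.contDiffAt (ho.mem_nhds ⟨hto hτ, trivial⟩)) fun v => vH _ (hoo (hto hτ))
      rw [← add_zero (∫ v, fderiv ℝ G (τ, 0, v) (1, 0, 0)), ← h1, ← integral_add i1 i2]
      exact integral_mono (i1.add i2) i3 fun v => en0_point h hW h0 (r := (τ, 0, v)) ⟨hto hτ, trivial⟩)
  rw [hfub]
  exact sub_le_iff_le_add'.1 key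

theorem cons_tail (h : Cons T e S) {t : ℝ} (ht : t ∈ Icc 0 T) (R : ℝ) :
    ∫⁻ x in {x : R3 | R ≤ ‖x‖}, ENNReal.ofReal (e (t, x)) ≤
      ∫⁻ x in {x : R3 | R - t - 2 ≤ ‖x‖}, ENNReal.ofReal (e (0, x)) := by
  have he : ∀ p ∈ slab R3 T, 0 ≤ e p := fun p hp => (norm_nonneg _).trans (h.dom p hp)
  have hU : {x : R3 | R ≤ ‖x‖} = ⋃ n : ℕ, {x : R3 | R ≤ ‖x‖ ∧ ‖x‖ ≤ n} := by
    ext x
    simp only [mem_ofPred_eq, mem_iUnion]
    exact ⟨fun hx => (exists_nat_ge ‖x‖).imp fun _ hn => ⟨hx, hn⟩, fun ⟨_, hx, _⟩ => hx⟩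
  have hmon : Monotone fun n : ℕ => {x : R3 | R ≤ ‖x‖ ∧ ‖x‖ ≤ n} := fun m n hmn x hx =>
    ⟨hx.1, hx.2.trans (by exact_mod_cast hmn)⟩
  rw [hU, setLIntegral_iUnion_of_directed _ hmon.directed_le]
  refine iSup_le fun n => ?_
  set k := Real.smoothTransition with hk
  have k1 : ContDiff ℝ 1 k := Real.smoothTransition.contDiff
  have k2 : ∀ s, 0 ≤ deriv k s := fun s => Real.smoothTransition.monotone.deriv_nonneg
  have k3 : ∀ s, HasDerivAt k (deriv k s) s := fun s => (k1.differentiable one_ne_zero s).hasDerivAt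
  have k4 : ∀ s, 0 ≤ k s := Real.smoothTransition.nonneg
  have k5 : ∀ s, k s ≤ 1 := Real.smoothTransition.le_one
  have p1 : ContDiff ℝ 1 fun p : ST => pp p.2 := (contDiff_pp.of_le (by simp)).comp contDiff_snd
  set W : ST → ℝ := fun p => k (pp p.2 - p.1 - (R - t - 1)) * k (n + t + 2 - (pp p.2 + p.1)) with hW
  have W1 : ContDiff ℝ 1 W := (k1.comp ((p1.sub contDiff_fst).sub contDiff_const)).mul
    (k1.comp (contDiff_const.sub (p1.add contDiff_fst)))
  have W0 : ∀ p, 0 ≤ W p := fun p => mul_nonneg (k4 _) (k4 _)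
  have WR : ∀ p ∈ slab R3 T, n + t + 2 < ‖p.2‖ → W p = 0 := fun p hp hlt =>
    mul_eq_zero_of_right _ (Real.smoothTransition.zero_of_nonpos
      (by linarith [norm_le_pp p.2, hp.1.1]))
  obtain ⟨-, h1⟩ := cons_weight h W1 W0 WR ht
  have h2 : ∫ p in Ioo 0 t ×ˢ univ, fderiv ℝ W p (e p, S p) ≤ 0 := by
    refine setIntegral_nonpos (measurableSet_Ioo.prod MeasurableSet.univ) fun p hp => ?_
    have q1 : HasFDerivAt (fun p : ST => pp p.2) _ p := (basic_pp p.2).comp p hasFDerivAt_snd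
    have q2 := ((k3 _).comp_hasFDerivAt p ((q1.sub hasFDerivAt_fst).sub_const (R - t - 1))).mul
      ((k3 _).comp_hasFDerivAt p ((q1.add hasFDerivAt_fst).const_sub (n + t + 2)))
    have q3 : |⟪relVel p.2, S p⟫| ≤ e p := (abs_real_inner_le_norm _ _).trans
      ((mul_le_of_le_one_left (norm_nonneg _) (norm_relVel_lt _).le).trans
        (h.dom p ⟨⟨hp.1.1.le, hp.1.2.le.trans ht.2⟩, trivial⟩))
    obtain ⟨q4, q5⟩ := abs_le.1 q3
    rw [show fderiv ℝ W p = _ from q2.fderiv]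
    simp only [add_apply, smul_apply,
      sub_apply, neg_apply, ContinuousLinearMap.comp_apply,
      ContinuousLinearMap.coe_fst', ContinuousLinearMap.coe_snd', innerSL_apply_apply, smul_eq_mul,
      Function.comp_apply]
    exact add_nonpos (mul_nonpos_of_nonneg_of_nonpos (k4 _)
      (mul_nonpos_of_nonneg_of_nonpos (k2 _) (by linarith)))
      (mul_nonpos_of_nonneg_of_nonpos (k4 _) (mul_nonpos_of_nonneg_of_nonpos (k2 _) (by linarith)))
  have h3 : ∀ τ ∈ Icc 0 T, ENNReal.ofReal (∫ x, e (τ, x) * W (τ, x)) =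
      ∫⁻ x, ENNReal.ofReal (e (τ, x) * W (τ, x)) := fun τ hτ =>
    ofReal_integral_eq_lintegral_ofReal
      (integrable_slice (g := (fun p => e p * W p) ∘ en0_pi) (R := n + t + 2) (S := Icc 0 T)
        ((h.ce.mul W1.continuous.continuousOn).comp en0_pi.continuous.continuousOn
          fun r hr => ⟨hr.1, trivial⟩)
        (fun r hr hne => not_lt.1 fun hlt => right_ne_zero_of_mul hne (WR _ ⟨hr, trivial⟩ hlt)) hτ 0)
      (Eventually.of_forall fun x => mul_nonneg (he _ ⟨hτ, trivial⟩) (W0 _))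
  have h0 : (0 : ℝ) ∈ Icc 0 T := ⟨le_rfl, ht.1.trans ht.2⟩
  have m1 : MeasurableSet {x : R3 | R ≤ ‖x‖ ∧ ‖x‖ ≤ n} :=
    (measurableSet_le measurable_const measurable_norm).inter
      (measurableSet_le measurable_norm measurable_const)
  have m2 : MeasurableSet {x : R3 | R - t - 2 ≤ ‖x‖} := measurableSet_le measurable_const measurable_norm
  calc _ = ∫⁻ x in {x : R3 | R ≤ ‖x‖ ∧ ‖x‖ ≤ n}, ENNReal.ofReal (e (t, x) * W (t, x)) := by
        refine setLIntegral_congr_fun m1 fun x hx => ?_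
        have a1 : k (pp x - t - (R - t - 1)) = 1 :=
          Real.smoothTransition.one_of_one_le (by linarith [norm_le_pp x, hx.1])
        have a2 : k (n + t + 2 - (pp x + t)) = 1 :=
          Real.smoothTransition.one_of_one_le (by linarith [pp_le x, hx.2])
        simp only [hW, a1, a2, mul_one]
    _ ≤ ∫⁻ x, ENNReal.ofReal (e (t, x) * W (t, x)) := setLIntegral_le_lintegral _ _
    _ ≤ ∫⁻ x, ENNReal.ofReal (e (0, x) * W (0, x)) := by
        rw [← h3 t ht, ← h3 0 h0]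
        exact ENNReal.ofReal_le_ofReal (by linarith)
    _ ≤ _ := by
        rw [← lintegral_indicator m2]
        refine lintegral_mono fun x => ?_
        by_cases hx : x ∈ {x : R3 | R - t - 2 ≤ ‖x‖}
        · rw [indicator_of_mem hx]
          exact ENNReal.ofReal_le_ofReal (mul_le_of_le_one_right (he _ ⟨h0, trivial⟩)
            (mul_le_one₀ (k5 _) (k4 _) (k5 _)))
        · have a1 : k (pp x - 0 - (R - t - 1)) = 0 :=
            Real.smoothTransition.zero_of_nonpos (by linarith [pp_le x, not_le.1 (show ¬ R - t - 2 ≤ ‖x‖ from hx)])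
          simp only [hW, a1, zero_mul, mul_zero, ENNReal.ofReal_zero, zero_le]

end Crest.Agent.R106
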