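import Crest.Agent.R106.LDB2

/-!
# Row 106: the main terms, by Cauchy–Schwarz in every cell

`k1 + 1[r ≤ T] k3 = g(s, y)/(p φ r)` with `g = G/φ₀ + 1[r ≤ T] B ψ`.  By `cover` the kernel is at most the sum
over the cells of `g 1_Cell/(pφr)`; in each cell `I_eq'`, `lintegral_cs` give `(∬_dom g²)^{1/2} J^{1/2}`,
and `∬ g² ≤ 2 En T/φ₀² + 2 ∬_{r ≤ T} 2 D B² ≤ C T/φ₀²` (`kg`, `sl_near`).

-/

set_option autoImplicit false

noncomputable section

namespace Crest.Agent.R106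

open MeasureTheory Set Metric Real Filter Topology
open scoped ContDiff ENNReal RealInnerProductSpace Classical
open Crest.AnalysisR.VecCalc3 Crest.AnalysisR.PDE.RVM

/-- the field factor of the main kernel -/
def EstI_g (L : LD) (φ₀ : ℝ) (p : ST) : ℝ :=
  L.G p / φ₀ + if ‖p.2‖ ≤ L.T then L.B p * ang (nn p.2) (L.w p.1) else 0

/-- the cell factor of the main kernel -/
def EstI_c (L : LD) (p₀ θ₀ : ℝ) (q : TP) : ℝ :=
  if L.Cell p₀ θ₀ q then 1 / (pv q * ph q * rr q) else 0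

section
variable {L : LD} {A En Tm : ℝ}

theorem EstI_g_meas (h : L.OK A En Tm) (φ₀ : ℝ) : Measurable (EstI_g L φ₀) := by
  have hG := h.mG
  have hB := h.mB
  have hw := h.mw
  unfold EstI_g
  refine (hG.div_const _).add (Measurable.ite ?_ (hB.mul ?_) measurable_const)
  · exact measurableSet_le (by fun_prop) measurable_const
  · exact measurable_ang' (measurable_nn' measurable_snd) (hw.comp measurable_fst)

theorem EstI_g_nonneg (h : L.OK A En Tm) {φ₀ : ℝ} (h0 : 0 < φ₀) (p : ST) : 0 ≤ EstI_g L φ₀ p := by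
  have hG := h.G0 p
  have hB := h.B0 p
  have ha := ang_nonneg (nn p.2) (L.w p.1)
  unfold EstI_g
  split_ifs <;> positivity

theorem EstI_c_meas (h : L.OK A En Tm) (p₀ θ₀ : ℝ) : Measurable (EstI_c L p₀ θ₀) := by
  unfold EstI_c
  exact Measurable.ite (h.meas_cell p₀ θ₀)
    (((measurable_pv.mul measurable_ph).mul measurable_rr).const_div 1) measurable_const

theorem EstI_c_nonneg (L : LD) (p₀ θ₀ : ℝ) (q : TP) : 0 ≤ EstI_c L p₀ θ₀ q := by
  have h1 : 0 < pv q := pp_pos _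
  have h2 := ph_pos q
  have h3 : 0 ≤ rr q := norm_nonneg _
  unfold EstI_c
  split_ifs <;> positivity

/-- Cauchy–Schwarz in one cell -/
theorem EstI_cell (h : L.OK A En Tm) {φ₀ : ℝ} (h0 : 0 < φ₀) (p₀ θ₀ : ℝ) :
    L.I (fun q => EstI_g L φ₀ (q.1, q.2.1) * EstI_c L p₀ θ₀ q) ≤
      (∫⁻ p in L.dom, ENNReal.ofReal (EstI_g L φ₀ p) ^ 2) ^ (1 / 2 : ℝ) *
        L.J p₀ θ₀ ^ (1 / 2 : ℝ) := by
  have hg := EstI_g_meas h φ₀
  have hc := EstI_c_meas h p₀ θ₀
  have hf := h.mf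
  have hF : Measurable fun q : ST × R3 =>
      ENNReal.ofReal (L.fc (q.1.1, q.1.2, q.2) * EstI_c L p₀ θ₀ (q.1.1, q.1.2, q.2)) :=
    ((hf.mul hc).comp (by fun_prop : Measurable fun q : ST × R3 =>
      ((q.1.1, q.1.2, q.2) : TP))).ennreal_ofReal
  have ha : Measurable fun p : ST =>
      ∫⁻ v, ENNReal.ofReal (L.fc (p.1, p.2, v) * EstI_c L p₀ θ₀ (p.1, p.2, v)) :=
    hF.lintegral_prod_right'
  have hk : Measurable fun q : TP => EstI_g L φ₀ (q.1, q.2.1) * EstI_c L p₀ θ₀ q :=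
    (hg.comp (by fun_prop : Measurable fun q : TP => ((q.1, q.2.1) : ST))).mul hc
  rw [h.I_eq' hk]
  have e : ∀ p : ST, ∫⁻ v, ENNReal.ofReal (L.fc (p.1, p.2, v) *
      (EstI_g L φ₀ (p.1, p.2) * EstI_c L p₀ θ₀ (p.1, p.2, v))) =
      ENNReal.ofReal (EstI_g L φ₀ p) *
        ∫⁻ v, ENNReal.ofReal (L.fc (p.1, p.2, v) * EstI_c L p₀ θ₀ (p.1, p.2, v)) := by
    intro p
    rw [← lintegral_const_mul' _ _ ENNReal.ofReal_ne_top]
    refine lintegral_congr fun v => ?_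
    rw [← ENNReal.ofReal_mul (EstI_g_nonneg h h0 p)]
    congr 1
    ring
  simp only [e]
  refine (lintegral_cs _ hg.ennreal_ofReal.aemeasurable ha.aemeasurable).trans ?_
  gcongr
  exact setLIntegral_le_lintegral _ _

/-- the square integral of the field factor -/
theorem EstI_sq (h : L.OK A En Tm) (hE : 0 ≤ En) {φ₀ : ℝ} (h0 : 0 < φ₀) (h1 : φ₀ ≤ 1) :
    ∫⁻ p in L.dom, ENNReal.ofReal (EstI_g L φ₀ p) ^ 2 ≤
      ENNReal.ofReal (10 * En * L.T / φ₀ ^ 2) := by
  have hT := h.Tpos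
  have hS : MeasurableSet {p : ST | ‖p.2‖ ≤ L.T} := measurableSet_le (by fun_prop) measurable_const
  set F : ST → ℝ≥0∞ := fun p => ENNReal.ofReal (gap (nn p.2) (L.w p.1)) *
      ((∫⁻ v, ENNReal.ofReal (L.fc (p.1, p.2, v) * pp v)) + ENNReal.ofReal (L.B p ^ 2)) with hF
  have hpt : ∀ p : ST, ENNReal.ofReal (EstI_g L φ₀ p) ^ 2 ≤
      ENNReal.ofReal (2 / φ₀ ^ 2) * ENNReal.ofReal (L.G p ^ 2) +
        ENNReal.ofReal 4 * {p : ST | ‖p.2‖ ≤ L.T}.indicator F p := by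
    intro p
    rw [← ENNReal.ofReal_pow (EstI_g_nonneg h h0 p), ← ENNReal.ofReal_mul (by positivity)]
    by_cases hp : ‖p.2‖ ≤ L.T
    · have hD : 0 ≤ gap (nn p.2) (L.w p.1) := gap_nonneg (norm_nn_le _) (h.norm_w_lt _).le
      have hsq := ang_sq (norm_nn_le p.2) (h.norm_w_lt p.1).le
      rw [Set.indicator_of_mem (show p ∈ {p : ST | ‖p.2‖ ≤ L.T} from hp)]
      calc ENNReal.ofReal (EstI_g L φ₀ p ^ 2)
          ≤ ENNReal.ofReal (2 / φ₀ ^ 2 * L.G p ^ 2 + 4 * (gap (nn p.2) (L.w p.1) * L.B p ^ 2)) := by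
            refine ENNReal.ofReal_le_ofReal ?_
            unfold EstI_g
            rw [if_pos hp]
            have e1 : 2 / φ₀ ^ 2 * L.G p ^ 2 = 2 * (L.G p / φ₀) ^ 2 := by ring
            have e2 : 4 * (gap (nn p.2) (L.w p.1) * L.B p ^ 2) =
                2 * (L.B p * ang (nn p.2) (L.w p.1)) ^ 2 := by
              rw [mul_pow, hsq]; ring
            rw [e1, e2]
            nlinarith [sq_nonneg (L.G p / φ₀ - L.B p * ang (nn p.2) (L.w p.1))]
        _ ≤ _ := by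
            refine ENNReal.ofReal_add_le.trans (add_le_add le_rfl ?_)
            rw [ENNReal.ofReal_mul (by norm_num), ENNReal.ofReal_mul hD, hF]
            exact mul_le_mul' le_rfl (mul_le_mul' le_rfl le_add_self)
    · refine le_add_right (ENNReal.ofReal_le_ofReal ?_)
      unfold EstI_g
      rw [if_neg hp]
      have e1 : 2 / φ₀ ^ 2 * L.G p ^ 2 = 2 * (L.G p / φ₀) ^ 2 := by ring
      rw [e1, add_zero]
      nlinarith [sq_nonneg (L.G p / φ₀)]
  have hGm : Measurable fun p => ENNReal.ofReal (2 / φ₀ ^ 2) * ENNReal.ofReal (L.G p ^ 2) :=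
    (h.mG.pow_const 2).ennreal_ofReal.const_mul _
  have hnear := h.sl_near hE hT.le
  refine (lintegral_mono hpt).trans ?_
  rw [lintegral_add_left hGm, lintegral_const_mul' _ _ ENNReal.ofReal_ne_top,
    lintegral_const_mul' _ _ ENNReal.ofReal_ne_top, lintegral_indicator hS,
    Measure.restrict_restrict hS, Set.inter_comm]
  calc _ ≤ ENNReal.ofReal (2 / φ₀ ^ 2) * ENNReal.ofReal (En * L.T) +
        ENNReal.ofReal 4 * ENNReal.ofReal (En * (L.T + L.T)) :=
        add_le_add (mul_le_mul' le_rfl h.kg) (mul_le_mul' le_rfl hnear)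
    _ ≤ _ := by
        rw [← ENNReal.ofReal_mul (by positivity), ← ENNReal.ofReal_mul (by norm_num),
          ← ENNReal.ofReal_add (by positivity) (by positivity)]
        refine ENNReal.ofReal_le_ofReal ?_
        have h2 : φ₀ ^ 2 ≤ 1 := pow_le_one₀ h0.le h1
        have h3 : 0 < φ₀ ^ 2 := by positivity
        have h4 : En * L.T ≤ En * L.T / φ₀ ^ 2 := by
          rw [le_div_iff₀ h3]
          have : 0 ≤ En * L.T := by positivity
          nlinarith
        have e1 : 2 / φ₀ ^ 2 * (En * L.T) = 2 * (En * L.T / φ₀ ^ 2) := by ring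
        have e2 : 10 * En * L.T / φ₀ ^ 2 = 10 * (En * L.T / φ₀ ^ 2) := by ring
        rw [e1, e2]
        linarith

end

theorem est_I (A En Tm : ℝ) (hE : 0 ≤ En) : ∃ C, 0 < C ∧ ∀ L : LD, L.OK A En Tm → ∀ (φ₀ : ℝ) (N : ℕ),
    0 < φ₀ → φ₀ ≤ 1 → L.Q < 2 ^ N →
    L.I (fun q => L.k1 φ₀ q + if rr q ≤ L.T then L.k3 q else 0) ≤
      ENNReal.ofReal (C * (√L.T / φ₀)) *
        ∑ j ∈ Finset.range N, ∑ k ∈ Finset.range (N + 2), L.J (2 ^ j) (2 / 2 ^ k) ^ (1 / 2 : ℝ) := by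
  refine ⟨√(10 * En) + 1, by positivity, fun L h φ₀ N h0 h1 hN => ?_⟩
  have hT := h.Tpos
  have hg := EstI_g_meas h φ₀
  have hk : ∀ j k : ℕ, Measurable fun q : TP =>
      EstI_g L φ₀ (q.1, q.2.1) * EstI_c L (2 ^ j) (2 / 2 ^ k) q := fun j k =>
    (hg.comp (by fun_prop : Measurable fun q : TP => ((q.1, q.2.1) : ST))).mul
      (EstI_c_meas h _ _)
  have hsq : (∫⁻ p in L.dom, ENNReal.ofReal (EstI_g L φ₀ p) ^ 2) ^ (1 / 2 : ℝ) ≤
      ENNReal.ofReal ((√(10 * En) + 1) * (√L.T / φ₀)) := by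
    refine (ENNReal.rpow_le_rpow (EstI_sq h hE h0 h1) (by norm_num)).trans ?_
    rw [ENNReal.ofReal_rpow_of_nonneg (by positivity) (by norm_num), ← Real.sqrt_eq_rpow]
    refine ENNReal.ofReal_le_ofReal ?_
    rw [Real.sqrt_div' _ (by positivity), Real.sqrt_sq h0.le, Real.sqrt_mul (by positivity),
      mul_div_assoc]
    gcongr
    linarith
  calc _ ≤ L.I (fun q => ∑ j ∈ Finset.range N, ∑ k ∈ Finset.range (N + 2),
        EstI_g L φ₀ (q.1, q.2.1) * EstI_c L (2 ^ j) (2 / 2 ^ k) q) := by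
        refine h.I_mono fun q hq _ => ?_
        obtain ⟨j, hj, k, hk', hc⟩ := h.cover hN hq
        have hnn : ∀ j k : ℕ, 0 ≤ EstI_g L φ₀ (q.1, q.2.1) * EstI_c L (2 ^ j) (2 / 2 ^ k) q :=
          fun j k => mul_nonneg (EstI_g_nonneg h h0 _) (EstI_c_nonneg L _ _ q)
        refine le_trans ?_ (Finset.single_le_sum
          (f := fun j => ∑ k ∈ Finset.range (N + 2),
            EstI_g L φ₀ (q.1, q.2.1) * EstI_c L (2 ^ j) (2 / 2 ^ k) q)
          (fun j _ => Finset.sum_nonneg fun k _ => hnn j k) hj)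
        refine le_trans (le_of_eq ?_) (Finset.single_le_sum
          (f := fun k => EstI_g L φ₀ (q.1, q.2.1) * EstI_c L (2 ^ j) (2 / 2 ^ k) q)
          (fun k _ => hnn j k) hk')
        by_cases hr : ‖q.2.1‖ ≤ L.T
        · simp only [EstI_g, EstI_c, if_pos hc, LD.k1, LD.k3, LD.ps, rr, hr, if_true]
          ring
        · simp only [EstI_g, EstI_c, if_pos hc, LD.k1, LD.k3, LD.ps, rr, hr, if_false]
          ring
    _ ≤ ∑ j ∈ Finset.range N, ∑ k ∈ Finset.range (N + 2),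
        L.I (fun q => EstI_g L φ₀ (q.1, q.2.1) * EstI_c L (2 ^ j) (2 / 2 ^ k) q) := by
        refine (h.I_sum _ fun j => Finset.measurable_sum _ fun k _ => hk j k).trans ?_
        exact Finset.sum_le_sum fun j _ => h.I_sum _ (hk j)
    _ ≤ _ := by
        rw [Finset.mul_sum]
        refine Finset.sum_le_sum fun j _ => ?_
        rw [Finset.mul_sum]
        refine Finset.sum_le_sum fun k _ => ?_
        exact (EstI_cell h h0 _ _).trans (mul_le_mul' hsq le_rfl)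

end Crest.Agent.R106
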