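import Crest.Agent.R106.PolS

/-!
# Row 106: momentum integrals with an angular singularity

Write `v = ρ n` (`Crest.Agent.R068.lintegral_polar`, then Tonelli to have the sphere integral inside),
`p = √(1 + ρ²)`, `β = ρ/p`; then `ang a v̂ = ang n (β • a)` and `‖β • a‖ ≤ β ≤ 1 - 1/(2p²)`, so the lemmas of
`PolS` apply for each `ρ`; finally integrate over `0 < ρ ≤ P` using `ρ ≤ p ≤ P`
(`volF`: `φ ≤ (μ/p²)^{1/3}`).  `volV` packages the first two steps.

-/

set_option autoImplicit false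

noncomputable section

namespace Crest.Agent.R106

open MeasureTheory Set Metric Real Filter Topology
open scoped ContDiff ENNReal RealInnerProductSpace Classical
open Crest.AnalysisR.VecCalc3 Crest.AnalysisR.PDE.RVM

theorem volV (a : R3) {F : ℝ → ℝ → ℝ≥0∞} (hF : Measurable (Function.uncurry F)) :
    ∫⁻ v, F (pp v) (ang a (relVel v)) = ∫⁻ ρ in Ioi (0 : ℝ), ENNReal.ofReal (ρ ^ 2) *
      ∫⁻ n, F (√(1 + ρ ^ 2)) (ang n ((ρ / √(1 + ρ ^ 2)) • a)) ∂σ2 := by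
  have hang : Measurable fun v : R3 => ang a (relVel v) :=
    (continuous_ang.comp (continuous_const.prodMk contDiff_relVel.continuous)).measurable
  have hm : Measurable fun v : R3 => F (pp v) (ang a (relVel v)) :=
    hF.comp (contDiff_pp.continuous.measurable.prodMk hang)
  have : IsFiniteMeasure σ2 :=
    ⟨by rw [Crest.Agent.R068.sphereMeasure_univ]; exact ENNReal.ofReal_lt_top⟩
  rw [Crest.Agent.R068.lintegral_polar hm, lintegral_lintegral_swap]
  · refine setLIntegral_congr_fun measurableSet_Ioi fun ρ hρ => ?_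
    have hρ' : 0 < ρ := hρ
    rw [lintegral_const_mul' _ _ ENNReal.ofReal_ne_top]
    congr 1
    refine lintegral_congr_ae ?_
    filter_upwards [ae_sphere] with n hn
    have h1 : pp (ρ • n) = √(1 + ρ ^ 2) := by
      rw [pp, norm_smul, hn, mul_one, Real.norm_of_nonneg hρ'.le]
    have h2 : ang a (relVel (ρ • n)) = ang n ((ρ / √(1 + ρ ^ 2)) • a) := by
      rw [relVel_eq, h1, ang, ang, gap, gap, smul_smul, real_inner_smul_right,
        real_inner_smul_right, real_inner_comm, div_eq_inv_mul]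
    rw [h1, h2]
  · exact (Measurable.mul (by fun_prop)
      (hm.comp (measurable_snd.smul measurable_fst))).aemeasurable

theorem polv_scale {c B : ℝ} (hc : 0 ≤ c) {f g : R3 → ℝ}
    (h : ∫⁻ n, ENNReal.ofReal (g n) ∂σ2 ≤ ENNReal.ofReal B) (hf : ∀ n, f n ≤ c * g n) {M : ℝ}
    (hM : c * B ≤ M) : ∫⁻ n, ENNReal.ofReal (f n) ∂σ2 ≤ ENNReal.ofReal M := by
  calc ∫⁻ n, ENNReal.ofReal (f n) ∂σ2 ≤ ∫⁻ n, ENNReal.ofReal c * ENNReal.ofReal (g n) ∂σ2 :=
        lintegral_mono fun n => by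
          rw [← ENNReal.ofReal_mul hc]
          exact ENNReal.ofReal_le_ofReal (hf n)
    _ = ENNReal.ofReal c * ∫⁻ n, ENNReal.ofReal (g n) ∂σ2 :=
        lintegral_const_mul' _ _ ENNReal.ofReal_ne_top
    _ ≤ ENNReal.ofReal c * ENNReal.ofReal B := by gcongr
    _ ≤ _ := by
        rw [← ENNReal.ofReal_mul hc]
        exact ENNReal.ofReal_le_ofReal hM

theorem polv_le_one {p : ℝ} {w : R3} (hw : ‖w‖ ≤ 1 - 1 / (2 * p ^ 2)) : ‖w‖ ≤ 1 :=
  hw.trans (sub_le_self _ (by positivity))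

theorem polv_main {a : R3} (ha : ‖a‖ ≤ 1) (F : ℝ → ℝ → ℝ)
    (hF : Measurable fun q : ℝ × ℝ => F q.1 q.2) {P M B : ℝ} (hM : 0 ≤ M) (hB : M * P ≤ B)
    (h0 : ∀ p φ, ¬ p ≤ P → F p φ = 0)
    (h : ∀ (p : ℝ) (w : R3), 1 ≤ p → p ≤ P → ‖w‖ ≤ 1 - 1 / (2 * p ^ 2) →
      ∫⁻ n, ENNReal.ofReal (F p (ang n w)) ∂σ2 ≤ ENNReal.ofReal (M / p ^ 2)) :
    ∫⁻ v, ENNReal.ofReal (F (pp v) (ang a (relVel v))) ≤ ENNReal.ofReal B := by
  rw [volV a (F := fun p φ => ENNReal.ofReal (F p φ)) hF.ennreal_ofReal]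
  calc _ ≤ ∫⁻ ρ in Ioi (0 : ℝ), (Ioc (0 : ℝ) P).indicator (fun _ => ENNReal.ofReal M) ρ := by
        refine setLIntegral_mono' measurableSet_Ioi fun ρ hρ => ?_
        have hρ' : 0 < ρ := hρ
        have hp2 : √(1 + ρ ^ 2) ^ 2 = 1 + ρ ^ 2 := Real.sq_sqrt (by positivity)
        have hp1 : 1 ≤ √(1 + ρ ^ 2) := Real.one_le_sqrt.2 (by nlinarith)
        generalize √(1 + ρ ^ 2) = p at hp1 hp2
        have hp0 : 0 < p := by linarith
        by_cases hp : p ≤ P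
        · have hρp : ρ ≤ p := by nlinarith
          rw [indicator_of_mem (show ρ ∈ Ioc 0 P from ⟨hρ', hρp.trans hp⟩)]
          have hw : ‖(ρ / p) • a‖ ≤ 1 - 1 / (2 * p ^ 2) := by
            rw [norm_smul, Real.norm_of_nonneg (by positivity)]
            refine (mul_le_of_le_one_right (by positivity) ha).trans ?_
            rw [le_sub_iff_add_le, div_add_div _ _ hp0.ne' (by positivity),
              div_le_one (by positivity)]
            nlinarith [mul_nonneg hp0.le (sq_nonneg (p - ρ))]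
          refine (mul_le_mul' le_rfl (h p _ hp1 hp hw)).trans ?_
          rw [← ENNReal.ofReal_mul (by positivity)]
          refine ENNReal.ofReal_le_ofReal ?_
          rw [← mul_div_assoc, div_le_iff₀ (by positivity)]
          nlinarith
        · simp [h0 p _ hp]
    _ ≤ ∫⁻ ρ, (Ioc (0 : ℝ) P).indicator (fun _ => ENNReal.ofReal M) ρ :=
        setLIntegral_le_lintegral _ _
    _ ≤ _ := by
        rw [lintegral_indicator_const measurableSet_Ioc, Real.volume_Ioc, sub_zero,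
          ← ENNReal.ofReal_mul hM]
        exact ENNReal.ofReal_le_ofReal hB

theorem polv_m1 (P : ℝ) : MeasurableSet {q : ℝ × ℝ | q.1 ≤ P} :=
  measurableSet_le measurable_fst measurable_const

theorem polv_m2 (P δ : ℝ) : MeasurableSet {q : ℝ × ℝ | q.1 ≤ P ∧ q.2 ≤ δ} :=
  (polv_m1 P).inter (measurableSet_le measurable_snd measurable_const)

theorem polv_up {p P x : ℝ} (hp : 1 ≤ p) (hP : p ≤ P) (hx : 0 ≤ x) : 1 * x ≤ P ^ 2 * x / p ^ 2 := by
  rw [le_div_iff₀ (by positivity), one_mul, mul_comm]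
  gcongr

theorem polv_up1 {p P x : ℝ} (hp : 1 ≤ p) (hP : p ≤ P) (hx : 0 ≤ x) :
    1 / p * x ≤ P * x / p ^ 2 := by
  rw [le_div_iff₀ (by positivity)]
  calc 1 / p * x * p ^ 2 = p * x := by field_simp
    _ ≤ _ := by gcongr

theorem volA : ∃ C, 0 < C ∧ ∀ (a : R3) (P δ : ℝ), ‖a‖ ≤ 1 → 1 ≤ P → 0 < δ →
    ∫⁻ v, ENNReal.ofReal (if pp v ≤ P ∧ ang a (relVel v) ≤ δ then 1 else 0) ≤
      ENNReal.ofReal (C * P ^ 3 * δ ^ 2) := by
  obtain ⟨C, hC, h⟩ := sph_cap
  refine ⟨C, hC, fun a P δ ha hP hδ => ?_⟩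
  refine polv_main ha (fun p φ => if p ≤ P ∧ φ ≤ δ then 1 else 0)
    (Measurable.ite (polv_m2 P δ) measurable_const measurable_const) (P := P)
    (M := P ^ 2 * (C * δ ^ 2)) (by positivity) (le_of_eq (by ring))
    (fun p φ hp => if_neg fun h => hp h.1) fun p w h1 h2 hw => ?_
  refine polv_scale zero_le_one (h w δ (polv_le_one hw) hδ) (fun n => ?_)
    (polv_up h1 h2 (by positivity))
  simp [h2]

theorem volB : ∃ C, 0 < C ∧ ∀ (a : R3) (P δ : ℝ), ‖a‖ ≤ 1 → 1 ≤ P → 0 < δ →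
    ∫⁻ v, ENNReal.ofReal (if pp v ≤ P ∧ ang a (relVel v) ≤ δ then 1 / ang a (relVel v) else 0) ≤
      ENNReal.ofReal (C * P ^ 3 * δ) := by
  obtain ⟨C, hC, h⟩ := sph_cap_inv
  refine ⟨C, hC, fun a P δ ha hP hδ => ?_⟩
  refine polv_main ha (fun p φ => if p ≤ P ∧ φ ≤ δ then 1 / φ else 0)
    (Measurable.ite (polv_m2 P δ) (by fun_prop) measurable_const) (P := P)
    (M := P ^ 2 * (C * δ)) (by positivity) (le_of_eq (by ring))
    (fun p φ hp => if_neg fun h => hp h.1) fun p w h1 h2 hw => ?_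
  refine polv_scale zero_le_one (h w δ (polv_le_one hw) hδ) (fun n => ?_)
    (polv_up h1 h2 (by positivity))
  simp [h2]

theorem volC : ∃ C, 0 < C ∧ ∀ (a : R3) (P : ℝ), ‖a‖ ≤ 1 → 1 ≤ P →
    ∫⁻ v, ENNReal.ofReal (if pp v ≤ P then 1 / ang a (relVel v) ^ 2 else 0) ≤
      ENNReal.ofReal (C * P ^ 3 * (1 + Real.log P)) := by
  obtain ⟨C, hC, h⟩ := sph_inv_sq
  refine ⟨C, hC, fun a P ha hP => ?_⟩
  have hL := Real.log_nonneg hP
  refine polv_main ha (fun p φ => if p ≤ P then 1 / φ ^ 2 else 0)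
    (Measurable.ite (polv_m1 P) (by fun_prop) measurable_const) (P := P)
    (M := P ^ 2 * (C * (1 + Real.log P))) (by positivity) (le_of_eq (by ring))
    (fun p φ hp => if_neg hp) fun p w h1 h2 hw => ?_
  refine polv_scale zero_le_one (h w p h1 hw) (fun n => ?_)
    (le_trans ?_ (polv_up h1 h2 (by positivity)))
  · simp [h2]
  · gcongr

theorem volD : ∃ C, 0 < C ∧ ∀ (a : R3) (P : ℝ), ‖a‖ ≤ 1 → 1 ≤ P →
    ∫⁻ v, ENNReal.ofReal (if pp v ≤ P then 1 / (pp v * ang a (relVel v) ^ 2) else 0) ≤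
      ENNReal.ofReal (C * P ^ 2 * (1 + Real.log P)) := by
  obtain ⟨C, hC, h⟩ := sph_inv_sq
  refine ⟨C, hC, fun a P ha hP => ?_⟩
  have hL := Real.log_nonneg hP
  refine polv_main ha (fun p φ => if p ≤ P then 1 / (p * φ ^ 2) else 0)
    (Measurable.ite (polv_m1 P) (by fun_prop) measurable_const) (P := P)
    (M := P * (C * (1 + Real.log P))) (by positivity) (le_of_eq (by ring))
    (fun p φ hp => if_neg hp) fun p w h1 h2 hw => ?_
  refine polv_scale (c := 1 / p) (by positivity) (h w p h1 hw) (fun n => ?_)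
    (le_trans ?_ (polv_up1 h1 h2 (by positivity)))
  · rw [if_pos h2, one_div_mul_one_div]
  · gcongr

theorem volE : ∃ C, 0 < C ∧ ∀ (a : R3) (P : ℝ), ‖a‖ ≤ 1 → 1 ≤ P →
    ∫⁻ v, ENNReal.ofReal (if pp v ≤ P then 1 / (pp v ^ 3 * ang a (relVel v) ^ 4) else 0) ≤
      ENNReal.ofReal (C * P ^ 2) := by
  obtain ⟨C, hC, h⟩ := sph_inv_four
  refine ⟨C, hC, fun a P ha hP => ?_⟩
  refine polv_main ha (fun p φ => if p ≤ P then 1 / (p ^ 3 * φ ^ 4) else 0)
    (Measurable.ite (polv_m1 P) (by fun_prop) measurable_const) (P := P)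
    (M := P * C) (by positivity) (le_of_eq (by ring))
    (fun p φ hp => if_neg hp) fun p w h1 h2 hw => ?_
  refine polv_scale (c := 1 / p ^ 3) (by positivity) (h w p h1 hw) (fun n => ?_)
    (le_trans (le_of_eq ?_) (polv_up1 h1 h2 hC.le))
  · rw [if_pos h2, one_div_mul_one_div]
  · field_simp

theorem volF : ∃ C, 0 < C ∧ ∀ (a : R3) (P μ : ℝ), ‖a‖ ≤ 1 → 1 ≤ P → 0 < μ →
    ∫⁻ v, ENNReal.ofReal (if pp v ≤ P ∧ pp v ^ 2 * ang a (relVel v) ^ 3 ≤ μ then
      1 / (pp v * ang a (relVel v)) else 0) ≤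
      ENNReal.ofReal (C * P ^ (4 / 3 : ℝ) * μ ^ (1 / 3 : ℝ)) := by
  obtain ⟨C, hC, h⟩ := sph_cap_inv
  refine ⟨C, hC, fun a P μ ha hP hμ => ?_⟩
  have hP0 : 0 < P := by linarith
  refine polv_main ha (fun p φ => if p ≤ P ∧ p ^ 2 * φ ^ 3 ≤ μ then 1 / (p * φ) else 0)
    (Measurable.ite ((polv_m1 P).inter (measurableSet_le
      (f := fun q : ℝ × ℝ => q.1 ^ 2 * q.2 ^ 3) (by fun_prop) measurable_const))
      (by fun_prop) measurable_const) (P := P)
    (M := C * P ^ (1 / 3 : ℝ) * μ ^ (1 / 3 : ℝ)) (by positivity) (le_of_eq ?_)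
    (fun p φ hp => if_neg fun h => hp h.1) fun p w h1 h2 hw => ?_
  · rw [show (4 / 3 : ℝ) = 1 / 3 + 1 by norm_num, Real.rpow_add_one hP0.ne']
    ring
  have hp0 : 0 < p := by linarith
  obtain ⟨q, hq0, hq, hqP⟩ : ∃ q : ℝ, 0 < q ∧ q ^ 3 = p ∧ q ≤ P ^ (1 / 3 : ℝ) :=
    ⟨p ^ (1 / 3 : ℝ), by positivity, by
      rw [← Real.rpow_natCast, ← Real.rpow_mul hp0.le]; norm_num, by gcongr⟩
  obtain ⟨m, hm0, hm, hm'⟩ : ∃ m : ℝ, 0 < m ∧ m ^ 3 = μ ∧ μ ^ (1 / 3 : ℝ) = m :=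
    ⟨μ ^ (1 / 3 : ℝ), by positivity, by
      rw [← Real.rpow_natCast, ← Real.rpow_mul hμ.le]; norm_num, rfl⟩
  rw [hm']
  refine polv_scale (c := 1 / p) (by positivity)
    (h w (m / q ^ 2) (polv_le_one hw) (by positivity)) (fun n => ?_) ?_
  · have hφ := ang_nonneg n w
    split_ifs with c1 c2
    · rw [one_div_mul_one_div]
    · refine absurd ?_ c2
      rw [le_div_iff₀ (by positivity)]
      refine le_of_pow_le_pow_left₀ three_ne_zero hm0.le ?_
      rw [hm]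
      refine le_trans (le_of_eq ?_) c1.2
      rw [← hq]
      ring
    · positivity
    · simp
  · rw [le_div_iff₀ (by positivity)]
    calc 1 / p * (C * (m / q ^ 2)) * p ^ 2 = C * q * m := by
          rw [← hq]
          field_simp
      _ ≤ _ := by gcongr

theorem volG : ∃ C, 0 < C ∧ ∀ (a : R3) (P δ : ℝ), ‖a‖ ≤ 1 → 1 ≤ P → 0 < δ →
    ∫⁻ v, ENNReal.ofReal (if pp v ≤ P ∧ ang a (relVel v) ≤ δ then
      1 / (pp v ^ 2 * ang a (relVel v)) else 0) ≤ ENNReal.ofReal (C * P * δ) := by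
  obtain ⟨C, hC, h⟩ := sph_cap_inv
  refine ⟨C, hC, fun a P δ ha hP hδ => ?_⟩
  refine polv_main ha (fun p φ => if p ≤ P ∧ φ ≤ δ then 1 / (p ^ 2 * φ) else 0)
    (Measurable.ite (polv_m2 P δ) (by fun_prop) measurable_const) (P := P)
    (M := C * δ) (by positivity) (le_of_eq (by ring))
    (fun p φ hp => if_neg fun h => hp h.1) fun p w h1 h2 hw => ?_
  refine polv_scale (c := 1 / p ^ 2) (by positivity) (h w δ (polv_le_one hw) hδ) (fun n => ?_)
    (le_of_eq (by ring))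
  by_cases c : ang n w ≤ δ
  · rw [if_pos ⟨h2, c⟩, if_pos c, one_div_mul_one_div]
  · simp [c]

end Crest.Agent.R106
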