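import Crest.Agent.R106.PolS

/-!
# Row 106: space integrals with an angular singularity

Polar coordinates `y = r n` (`Crest.Agent.R068.lintegral_polar`, `nn (r • n) = n` for unit `n`), the
`r`-integral first, then the lemmas of `PolS`.

-/

set_option autoImplicit false

noncomputable section

namespace Crest.Agent.R106

open MeasureTheory Set Metric Real Filter Topology
open scoped ContDiff ENNReal RealInnerProductSpace Classical
open Crest.AnalysisR.VecCalc3 Crest.AnalysisR.PDE.RVM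

theorem PolY_meas_ang (w : R3) : Measurable fun y : R3 => ang (nn y) w := by
  have h : Continuous fun a : R3 => ang a w := by
    unfold ang gap
    fun_prop
  exact h.measurable.comp measurable_nn

theorem PolY_gen {P : R3 → Prop} [DecidablePred P] (hP : MeasurableSet {y | P y}) (g : R3 → ℝ)
    {c : ℝ} (hc : 0 ≤ c) (h : ∀ n : R3, ‖n‖ = 1 → ∀ r : ℝ, 0 < r → P (r • n) → r ≤ c * g n) :
    ∫⁻ y : R3, ENNReal.ofReal (if P y then 1 / ‖y‖ ^ 2 else 0) ≤
      ENNReal.ofReal c * ∫⁻ n, ENNReal.ofReal (g n) ∂σ2 := by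
  have hm : Measurable fun y : R3 => ENNReal.ofReal (if P y then 1 / ‖y‖ ^ 2 else 0) :=
    (Measurable.ite hP (by fun_prop) measurable_const).ennreal_ofReal
  rw [Crest.Agent.R068.lintegral_polar hm, ← lintegral_const_mul' _ _ ENNReal.ofReal_ne_top]
  refine lintegral_mono_ae ?_
  filter_upwards [ae_sphere] with n hn
  rw [← ENNReal.ofReal_mul hc]
  calc _ ≤ ∫⁻ r in Ioi (0 : ℝ), (Iic (c * g n)).indicator 1 r := by
        refine setLIntegral_mono' measurableSet_Ioi fun r hr => ?_
        have hr : 0 < r := hr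
        split_ifs with hp
        · rw [indicator_of_mem (show r ∈ Iic (c * g n) from h n hn r hr hp), norm_smul, hn, mul_one,
            Real.norm_of_nonneg hr.le, ← ENNReal.ofReal_mul (by positivity), mul_one_div,
            div_self (by positivity), ENNReal.ofReal_one]
          rfl
        · simp
    _ = ENNReal.ofReal (c * g n) := by
        rw [lintegral_indicator_one measurableSet_Iic, Measure.restrict_apply measurableSet_Iic,
          Iic_inter_Ioi, Real.volume_Ioc, sub_zero]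

theorem volYA : ∃ C, 0 < C ∧ ∀ (w : R3) (R δ : ℝ), ‖w‖ ≤ 1 → 0 < R → 0 < δ →
    ∫⁻ y : R3, ENNReal.ofReal (if ‖y‖ ≤ R ∧ ang (nn y) w ≤ δ then 1 / ‖y‖ ^ 2 else 0) ≤
      ENNReal.ofReal (C * R * δ ^ 2) := by
  obtain ⟨C, hC, H⟩ := sph_cap
  refine ⟨C, hC, fun w R δ hw hR hδ => ?_⟩
  refine (PolY_gen (P := fun y => ‖y‖ ≤ R ∧ ang (nn y) w ≤ δ)
    ((measurableSet_le measurable_norm measurable_const).inter
      (measurableSet_le (PolY_meas_ang w) measurable_const))
    (fun n => if ang n w ≤ δ then 1 else 0) hR.le fun n hn r hr h => ?_).trans ?_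
  · rw [nn_smul hr, nn_of_norm hn, norm_smul, hn, mul_one, Real.norm_of_nonneg hr.le] at h
    simp only [if_pos h.2, mul_one]
    exact h.1
  · rw [mul_comm C R, mul_assoc, ENNReal.ofReal_mul hR.le]
    exact mul_le_mul_right (H w δ hw hδ) _

theorem volYB : ∃ C, 0 < C ∧ ∀ (w : R3) (Q ρ : ℝ), 1 ≤ Q → ‖w‖ ≤ 1 - 1 / (2 * Q ^ 2) → 0 < ρ →
    ∫⁻ y : R3, ENNReal.ofReal (if ‖y‖ * ang (nn y) w ^ 2 ≤ ρ then 1 / ‖y‖ ^ 2 else 0) ≤
      ENNReal.ofReal (C * ρ * (1 + Real.log Q)) := by
  obtain ⟨C, hC, H⟩ := sph_inv_sq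
  refine ⟨C, hC, fun w Q ρ hQ hw hρ => ?_⟩
  refine (PolY_gen (P := fun y => ‖y‖ * ang (nn y) w ^ 2 ≤ ρ)
    (measurableSet_le (measurable_norm.mul ((PolY_meas_ang w).pow_const 2)) measurable_const)
    (fun n => 1 / ang n w ^ 2) hρ.le fun n hn r hr h => ?_).trans ?_
  · rw [nn_smul hr, nn_of_norm hn, norm_smul, hn, mul_one, Real.norm_of_nonneg hr.le] at h
    have h1 : 0 < 1 / (2 * Q ^ 2) := by positivity
    have h2 := ang_pos hn.le (show ‖w‖ < 1 by linarith)
    rw [mul_one_div, le_div_iff₀ (by positivity)]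
    exact h
  · rw [mul_comm C ρ, mul_assoc, ENNReal.ofReal_mul hρ.le]
    exact mul_le_mul_right (H w Q hQ hw) _

theorem volYC : ∃ C, 0 < C ∧ ∀ (w : R3) (ρ : ℝ), ‖w‖ < 1 → 0 < ρ →
    ∫⁻ y : R3, ENNReal.ofReal (if ‖y‖ * ang (nn y) w ≤ ρ then 1 / ‖y‖ ^ 2 else 0) ≤
      ENNReal.ofReal (C * ρ) := by
  obtain ⟨C, hC, H⟩ := sph_inv
  refine ⟨C, hC, fun w ρ hw hρ => ?_⟩
  refine (PolY_gen (P := fun y => ‖y‖ * ang (nn y) w ≤ ρ)
    (measurableSet_le (measurable_norm.mul (PolY_meas_ang w)) measurable_const)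
    (fun n => 1 / ang n w) hρ.le fun n hn r hr h => ?_).trans ?_
  · rw [nn_smul hr, nn_of_norm hn, norm_smul, hn, mul_one, Real.norm_of_nonneg hr.le] at h
    rw [mul_one_div, le_div_iff₀ (ang_pos hn.le hw)]
    exact h
  · rw [mul_comm C ρ, ENNReal.ofReal_mul hρ.le]
    exact mul_le_mul_right (H w hw.le) _

theorem volYD (R : ℝ) (hR : 0 < R) :
    ∫⁻ y in ball (0 : R3) R, ENNReal.ofReal (‖y‖ ^ (-(5 / 2) : ℝ)) ≤
      ENNReal.ofReal (8 * π * √R) := by
  have hm : Measurable ((ball (0 : R3) R).indicator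
      fun y => ENNReal.ofReal (‖y‖ ^ (-(5 / 2) : ℝ))) :=
    Measurable.indicator (by fun_prop) measurableSet_ball
  rw [← lintegral_indicator measurableSet_ball, Crest.Agent.R068.lintegral_polar hm]
  have h1 : ∫⁻ r in Ioc (0 : ℝ) R, ENNReal.ofReal (r ^ (-(1 / 2) : ℝ)) =
      ENNReal.ofReal (2 * √R) := by
    have hi : IntegrableOn (fun r : ℝ => r ^ (-(1 / 2) : ℝ)) (Ioc 0 R) :=
      (intervalIntegral.intervalIntegrable_rpow' (by norm_num)).1
    rw [← ofReal_integral_eq_lintegral_ofReal hi, ← intervalIntegral.integral_of_le hR.le,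
      integral_rpow (Or.inl (by norm_num)), Real.sqrt_eq_rpow]
    · congr 1
      norm_num
      ring
    · filter_upwards [ae_restrict_mem measurableSet_Ioc] with r hr
      exact Real.rpow_nonneg hr.1.le _
  calc _ ≤ ∫⁻ _, ENNReal.ofReal (2 * √R) ∂σ2 := by
        refine lintegral_mono_ae ?_
        filter_upwards [ae_sphere] with n hn
        rw [← h1, ← Iic_inter_Ioi, ← Measure.restrict_restrict measurableSet_Iic,
          ← lintegral_indicator measurableSet_Iic]
        refine setLIntegral_mono' measurableSet_Ioi fun r hr => ?_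
        have hr : 0 < r := hr
        have e : ‖r • n‖ = r := by rw [norm_smul, hn, mul_one, Real.norm_of_nonneg hr.le]
        by_cases hb : r • n ∈ ball (0 : R3) R
        · rw [indicator_of_mem hb, indicator_of_mem
            (show r ∈ Iic R by rw [mem_ball_zero_iff, e] at hb; exact hb.le), e,
            ← ENNReal.ofReal_mul (by positivity), ← Real.rpow_natCast, ← Real.rpow_add hr]
          norm_num
        · rw [indicator_of_notMem hb]
          simp
    _ = ENNReal.ofReal (8 * π * √R) := by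
        rw [lintegral_const, Crest.Agent.R068.sphereMeasure_univ,
          ← ENNReal.ofReal_mul (by positivity)]
        congr 1
        ring

end Crest.Agent.R106
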