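import Crest.Agent.R106.LDB2
import Crest.Agent.R106.PolV
import Crest.Agent.R106.PolY

/-!
# Row 106: the freezing error

`a(s, y) = ∫ fc/(pφ²) dv`, `e₀ = ∫ fc p dv`, `L = Lg Q`.  `I k2 ≤ η (En T)^{1/2} (∬ a²/r²)^{1/2}` (`kg`,
`lintegral_cs`).  `a ≤ C Q² L` (`volD`) and `a² ≤ C Q² e₀` (Cauchy–Schwarz, `volE`).  Four regions:
`rψ ≤ R₀`: `Q⁴L² T R₀` (`volYC`); `r ≤ T, rψ > R₀`: `a²/r² ≤ C Q² · 2 D e₀/R₀²`, `sl_near`: `Q² T/R₀²`;
`rψ² ≤ R₁`: `Q⁴L² T R₁ L` (`volYB`); `r > T, rψ² > R₁`: `a²/r² ≤ C Q² · 2 D e₀/(R₁ r)`,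
`1/r ≤ h(τ) = 2/max T (s₀ + T - τ)` for `τ = s - r` (as `s₀ + T - τ ≤ T + r ≤ 2r`), `sl`,
`∫_0^{s₁} h ≤ C(1 + log((Tm + 1)/T)) ≤ C L` (`Tge`): `Q² L/R₁`.  Take `R₀ = (Q L)^{-2/3}`, `R₁ = 1/(Q L √T)`;
cover `r ≤ T` by regions 1, 2 and `r > T` by regions 3, 4.

-/

set_option autoImplicit false

noncomputable section

namespace Crest.Agent.R106

open MeasureTheory Set Metric Real Filter Topology
open scoped ContDiff ENNReal RealInnerProductSpace Classical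
open Crest.AnalysisR.VecCalc3 Crest.AnalysisR.PDE.RVM

theorem e2_half {x y : ℝ≥0∞} {a b Z : ℝ} (hx : x ≤ ENNReal.ofReal a) (hy : y ≤ ENNReal.ofReal b)
    (ha : 0 ≤ a) (hZ : 0 ≤ Z) (h : a * b ≤ Z ^ 2) :
    x ^ (1 / 2 : ℝ) * y ^ (1 / 2 : ℝ) ≤ ENNReal.ofReal Z := by
  rw [← ENNReal.mul_rpow_of_nonneg _ _ (by norm_num)]
  have h1 : x * y ≤ ENNReal.ofReal Z ^ 2 := by
    refine (mul_le_mul' hx hy).trans ?_
    rw [← ENNReal.ofReal_mul ha, ← ENNReal.ofReal_pow hZ]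
    exact ENNReal.ofReal_le_ofReal h
  refine (ENNReal.rpow_le_rpow h1 (by norm_num)).trans (le_of_eq ?_)
  rw [← ENNReal.rpow_natCast, ← ENNReal.rpow_mul]
  norm_num

theorem e2_sq {x y z : ℝ≥0∞} (h : x ≤ y ^ (1 / 2 : ℝ) * z ^ (1 / 2 : ℝ)) : x ^ 2 ≤ y * z := by
  rw [← ENNReal.mul_rpow_of_nonneg _ _ (by norm_num)] at h
  refine (pow_le_pow_left' h 2).trans (le_of_eq ?_)
  rw [← ENNReal.rpow_natCast, ← ENNReal.rpow_mul]
  norm_num

theorem e2_log {c s : ℝ} (hs : 0 ≤ s) (hc : s < c) :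
    ∫⁻ τ in Icc 0 s, ENNReal.ofReal ((c - τ)⁻¹) = ENNReal.ofReal (Real.log (c / (c - s))) := by
  have hcont : ContinuousOn (fun τ : ℝ => (c - τ)⁻¹) (Icc 0 s) :=
    (continuousOn_const.sub continuousOn_id).inv₀ fun τ hτ => by
      have : 0 < c - τ := by linarith [hτ.2]
      exact this.ne'
  rw [← ofReal_integral_eq_lintegral_ofReal (hcont.integrableOn_compact isCompact_Icc)
      ((ae_restrict_mem measurableSet_Icc).mono fun τ hτ => inv_nonneg.2 (by linarith [hτ.2])),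
    integral_Icc_eq_integral_Ioc, ← intervalIntegral.integral_of_le hs,
    intervalIntegral.integral_comp_sub_left (fun x : ℝ => x⁻¹) c, sub_zero,
    integral_inv_of_pos (by linarith) (by linarith)]

/-- the momentum integral `a` -/
def e2a (L : LD) (p : ST) : ℝ≥0∞ :=
  ∫⁻ v, ENNReal.ofReal (L.fc (p.1, p.2, v) * (1 / (pp v * ang (nn p.2) (relVel v) ^ 2)))

theorem e2_mST : Measurable fun z : ST × R3 => ((z.1.1, z.1.2, z.2) : TP) := by fun_prop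

theorem e2a_meas {L : LD} {A En Tm : ℝ} (h : L.OK A En Tm) : Measurable (e2a L) := by
  have h1 : Measurable fun q : TP => ENNReal.ofReal (L.fc q * (1 / (pv q * ph q ^ 2))) :=
    (h.mf.mul (measurable_const.div (measurable_pv.mul (measurable_ph.pow_const 2)))).ennreal_ofReal
  exact (h1.comp e2_mST).lintegral_prod_right'

theorem e2e_meas {L : LD} {A En Tm : ℝ} (h : L.OK A En Tm) :
    Measurable fun p : ST => ∫⁻ v, ENNReal.ofReal (L.fc (p.1, p.2, v) * pp v) := by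
  have h1 : Measurable fun q : TP => ENNReal.ofReal (L.fc q * pv q) :=
    (h.mf.mul measurable_pv).ennreal_ofReal
  exact (h1.comp e2_mST).lintegral_prod_right'

theorem e2_fc {L : LD} {A En Tm : ℝ} (h : L.OK A En Tm) (p : ST) {g : R3 → ℝ} (hg : ∀ v, 0 ≤ g v)
    {c : ℝ} (hc : ∫⁻ v, ENNReal.ofReal (if pp v ≤ L.Q then g v else 0) ≤ ENNReal.ofReal c) :
    ∫⁻ v, ENNReal.ofReal (L.fc (p.1, p.2, v) * g v) ≤ ENNReal.ofReal (A * c) := by
  rw [ENNReal.ofReal_mul h.A_nonneg]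
  refine le_trans ?_ (mul_le_mul_right hc _)
  rw [← lintegral_const_mul' _ _ ENNReal.ofReal_ne_top]
  refine lintegral_mono fun v => ?_
  rw [← ENNReal.ofReal_mul h.A_nonneg]
  refine ENNReal.ofReal_le_ofReal ?_
  by_cases h0 : L.fc (p.1, p.2, v) = 0
  · rw [h0, zero_mul]
    refine mul_nonneg h.A_nonneg ?_
    split_ifs
    · exact hg v
    · exact le_rfl
  · rw [if_pos (show pp v ≤ L.Q from (h.supp _ h0).2)]
    exact mul_le_mul_of_nonneg_right (h.fA _) (hg v)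

theorem e2a_le : ∃ C, 0 < C ∧ ∀ {L : LD} {A En Tm : ℝ}, L.OK A En Tm → ∀ p : ST,
    e2a L p ≤ ENNReal.ofReal (A * (C * L.Q ^ 2 * Lg L.Q)) := by
  obtain ⟨C, hC0, hC⟩ := volD
  refine ⟨C, hC0, fun {L A En Tm} h p => e2_fc h p (fun v => ?_)
    (hC _ _ (norm_nn_le _) (by linarith [h.hQ]))⟩
  have := pp_pos v
  positivity

theorem e2a_sq : ∃ C, 0 < C ∧ ∀ {L : LD} {A En Tm : ℝ}, L.OK A En Tm → ∀ p : ST,
    e2a L p ^ 2 ≤ ENNReal.ofReal (A * (C * L.Q ^ 2)) *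
      ∫⁻ v, ENNReal.ofReal (L.fc (p.1, p.2, v) * pp v) := by
  obtain ⟨C, hC0, hC⟩ := volE
  refine ⟨C, hC0, fun {L A En Tm} h p => ?_⟩
  have m0 : Measurable fun v : R3 => ((p.1, p.2, v) : TP) := by fun_prop
  have m1 : Measurable fun q : TP => ENNReal.ofReal (√(L.fc q * (1 / (pv q ^ 3 * ph q ^ 4)))) :=
    (h.mf.mul (measurable_const.div ((measurable_pv.pow_const 3).mul
      (measurable_ph.pow_const 4)))).sqrt.ennreal_ofReal
  have m2 : Measurable fun q : TP => ENNReal.ofReal (√(L.fc q * pv q)) :=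
    (h.mf.mul measurable_pv).sqrt.ennreal_ofReal
  have h1 := e2_sq (lintegral_cs volume (m1.comp m0).aemeasurable (m2.comp m0).aemeasurable)
  have e1 : e2a L p = ∫⁻ v, ENNReal.ofReal (√(L.fc (p.1, p.2, v) *
      (1 / (pv (p.1, p.2, v) ^ 3 * ph (p.1, p.2, v) ^ 4)))) *
      ENNReal.ofReal (√(L.fc (p.1, p.2, v) * pv (p.1, p.2, v))) := by
    refine lintegral_congr fun v => ?_
    have a1 := pp_pos v
    have a2 : 0 < ang (nn p.2) (relVel v) := ph_pos (p.1, p.2, v)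
    have a3 := h.f0 (p.1, p.2, v)
    rw [← ENNReal.ofReal_mul (Real.sqrt_nonneg _), ← Real.sqrt_mul (by
      simp only [pv, ph]; positivity)]
    congr 1
    symm
    rw [Real.sqrt_eq_iff_mul_self_eq (by simp only [pv, ph]; positivity) (by positivity)]
    simp only [pv, ph]
    field_simp
  rw [e1]
  refine h1.trans (mul_le_mul' ?_ (le_of_eq ?_))
  · refine le_trans (le_of_eq ?_) (e2_fc h p (g := fun v => 1 / (pp v ^ 3 * ang (nn p.2) (relVel v) ^ 4))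
      (fun v => by have := pp_pos v; positivity) (hC _ _ (norm_nn_le _) (by linarith [h.hQ])))
    refine lintegral_congr fun v => ?_
    have a1 := pp_pos v
    have a3 := h.f0 (p.1, p.2, v)
    simp only [Function.comp]
    rw [← ENNReal.ofReal_pow (Real.sqrt_nonneg _), Real.sq_sqrt (by simp only [pv, ph]; positivity)]
    rfl
  · refine lintegral_congr fun v => ?_
    have a1 := pp_pos v
    have a3 := h.f0 (p.1, p.2, v)
    simp only [Function.comp]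
    rw [← ENNReal.ofReal_pow (Real.sqrt_nonneg _), Real.sq_sqrt (by simp only [pv]; positivity)]
    rfl

/-- Cauchy–Schwarz against the good field -/
theorem e2_cs {L : LD} {A En Tm : ℝ} (h : L.OK A En Tm) {η : ℝ} (hη : 0 ≤ η) :
    L.I (L.k2 η) ≤ (∫⁻ p in L.dom, ENNReal.ofReal (L.G p ^ 2)) ^ (1 / 2 : ℝ) *
      (ENNReal.ofReal (η ^ 2) *
        ∫⁻ p in L.dom, ENNReal.ofReal (1 / ‖p.2‖ ^ 2) * e2a L p ^ 2) ^ (1 / 2 : ℝ) := by
  rw [h.I_eq' (h.meas_k2 η)]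
  have m1 : Measurable fun p : ST => ENNReal.ofReal (L.G p) := h.mG.ennreal_ofReal
  have m2 : Measurable fun p : ST => ENNReal.ofReal (η / ‖p.2‖) * e2a L p :=
    (measurable_const.div measurable_snd.norm).ennreal_ofReal.mul (e2a_meas h)
  have h1 := lintegral_cs (volume.restrict L.dom) m1.aemeasurable m2.aemeasurable
  refine le_trans (le_of_eq ?_) (h1.trans (le_of_eq ?_))
  · refine lintegral_congr fun p => ?_
    rw [← mul_assoc, ← ENNReal.ofReal_mul (h.G0 p), e2a,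
      ← lintegral_const_mul' _ _ ENNReal.ofReal_ne_top]
    refine lintegral_congr fun v => ?_
    have := h.G0 p
    rw [← ENNReal.ofReal_mul (by positivity)]
    congr 1
    simp only [LD.k2, pv, ph, rr]
    ring
  · congr 2
    · exact lintegral_congr fun p => (ENNReal.ofReal_pow (h.G0 p) 2).symm
    · rw [← lintegral_const_mul' _ _ ENNReal.ofReal_ne_top]
      refine lintegral_congr fun p => ?_
      rw [mul_pow, ← ENNReal.ofReal_pow (by positivity), ← mul_assoc,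
        ← ENNReal.ofReal_mul (by positivity)]
      congr 2
      ring

/-- the four regions -/
theorem e2_pt {L : LD} {A En Tm : ℝ} (h : L.OK A En Tm) {α β R₀ R₁ : ℝ} (hα : 0 ≤ α) (hβ : 0 ≤ β)
    (h0 : 0 < R₀) (h1 : 0 < R₁) {p : ST} (hp : p ∈ L.dom) {a e : ℝ≥0∞} (ha : a ≤ ENNReal.ofReal α)
    (hb : a ^ 2 ≤ ENNReal.ofReal β * e) :
    ENNReal.ofReal (1 / ‖p.2‖ ^ 2) * a ^ 2 ≤
      ENNReal.ofReal (α ^ 2) * ENNReal.ofReal
        (if ‖p.2‖ * ang (nn p.2) (L.w p.1) ≤ R₀ then 1 / ‖p.2‖ ^ 2 else 0) +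
      ENNReal.ofReal (α ^ 2) * ENNReal.ofReal
        (if ‖p.2‖ * ang (nn p.2) (L.w p.1) ^ 2 ≤ R₁ then 1 / ‖p.2‖ ^ 2 else 0) +
      ENNReal.ofReal (β * (2 / R₀ ^ 2)) * {p : ST | ‖p.2‖ ≤ L.T}.indicator
        (fun p => ENNReal.ofReal (gap (nn p.2) (L.w p.1))) p * e +
      ENNReal.ofReal (β * (6 / R₁)) * (ENNReal.ofReal (gap (nn p.2) (L.w p.1)) * e *
        ENNReal.ofReal ((L.s₀ + 2 * L.T - (p.1 - ‖p.2‖))⁻¹)) := by
  have ha2 : a ^ 2 ≤ ENNReal.ofReal (α ^ 2) := by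
    rw [ENNReal.ofReal_pow hα]
    exact pow_le_pow_left' ha 2
  have hψ : ang (nn p.2) (L.w p.1) ^ 2 = 2 * gap (nn p.2) (L.w p.1) := h.ps_sq (p.1, p.2, 0)
  have hψ0 : 0 < ang (nn p.2) (L.w p.1) := h.ps_pos (p.1, p.2, 0)
  have hD : 0 ≤ gap (nn p.2) (L.w p.1) := by nlinarith
  have hT := h.Tpos
  by_cases c1 : ‖p.2‖ * ang (nn p.2) (L.w p.1) ≤ R₀
  · rw [if_pos c1, mul_comm]
    exact (mul_le_mul_left ha2 _).trans (le_self_add.trans (le_self_add.trans le_self_add))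
  by_cases c2 : ‖p.2‖ * ang (nn p.2) (L.w p.1) ^ 2 ≤ R₁
  · rw [if_pos c2, mul_comm]
    exact (mul_le_mul_left ha2 _).trans (le_add_self.trans (le_self_add.trans le_self_add))
  have c1' := not_le.1 c1
  have c2' := not_le.1 c2
  have hr : 0 < ‖p.2‖ := (mul_pos_iff_of_pos_right hψ0).1 (h0.trans c1')
  by_cases c3 : ‖p.2‖ ≤ L.T
  · refine le_trans ?_ (le_add_self.trans le_self_add)
    rw [indicator_of_mem (show p ∈ {p : ST | ‖p.2‖ ≤ L.T} from c3)]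
    refine (mul_le_mul_right hb _).trans ?_
    rw [← mul_assoc, ← ENNReal.ofReal_mul (by positivity), ← ENNReal.ofReal_mul (by positivity)]
    refine mul_le_mul_left (ENNReal.ofReal_le_ofReal ?_) _
    have : 1 / ‖p.2‖ ^ 2 ≤ 2 / R₀ ^ 2 * gap (nn p.2) (L.w p.1) := by
      rw [div_mul_eq_mul_div, ← hψ, div_le_div_iff₀ (by positivity) (by positivity), one_mul,
        ← mul_pow]
      exact pow_le_pow_left₀ h0.le (by rw [mul_comm]; exact c1'.le) 2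
    nlinarith
  · refine le_trans ?_ le_add_self
    have c3' := not_le.1 c3
    refine (mul_le_mul_right hb _).trans ?_
    have hs1 : L.s₀ ≤ p.1 := hp.1.1
    have hs2 : p.1 ≤ L.s₀ + L.T := hp.1.2.trans h.s1
    have hd : 0 < L.s₀ + 2 * L.T - (p.1 - ‖p.2‖) := by linarith
    rw [mul_right_comm (ENNReal.ofReal (gap _ _)), ← mul_assoc, ← mul_assoc,
      ← ENNReal.ofReal_mul (by positivity), ← ENNReal.ofReal_mul hD,
      ← ENNReal.ofReal_mul (by positivity)]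
    refine mul_le_mul_left (ENNReal.ofReal_le_ofReal ?_) _
    have : 1 / ‖p.2‖ ^ 2 ≤ 6 / R₁ * (gap (nn p.2) (L.w p.1) *
        (L.s₀ + 2 * L.T - (p.1 - ‖p.2‖))⁻¹) := by
      have e : 6 / R₁ * (gap (nn p.2) (L.w p.1) * (L.s₀ + 2 * L.T - (p.1 - ‖p.2‖))⁻¹) =
          3 * ang (nn p.2) (L.w p.1) ^ 2 / (R₁ * (L.s₀ + 2 * L.T - (p.1 - ‖p.2‖))) := by
        rw [hψ]
        field_simp
        ring
      rw [e, div_le_div_iff₀ (by positivity) (by positivity), one_mul]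
      have b1 : L.s₀ + 2 * L.T - (p.1 - ‖p.2‖) ≤ 3 * ‖p.2‖ := by linarith
      calc R₁ * (L.s₀ + 2 * L.T - (p.1 - ‖p.2‖))
          ≤ (‖p.2‖ * ang (nn p.2) (L.w p.1) ^ 2) * (3 * ‖p.2‖) :=
            mul_le_mul c2'.le b1 hd.le (by positivity)
        _ = _ := by ring
    nlinarith

theorem e2_time {L : LD} {A En Tm : ℝ} (h : L.OK A En Tm) :
    ∫⁻ τ in Icc 0 L.s₁, ENNReal.ofReal ((L.s₀ + 2 * L.T - τ)⁻¹) ≤
      ENNReal.ofReal ((Real.log (|Tm| + 2) + 2) * Lg L.Q) := by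
  have hT := h.Tpos
  have hs0 := h.s0
  have hQ := h.hQ
  rw [e2_log (h.s0.trans h.s01) (by linarith [h.s1])]
  refine ENNReal.ofReal_le_ofReal ?_
  have b1 : L.T ≤ L.s₀ + 2 * L.T - L.s₁ := by linarith [h.s1]
  have b2 : L.s₀ + 2 * L.T ≤ |Tm| + 2 := by linarith [h.s01, h.sm, h.Tle, le_abs_self Tm]
  have b3 : 1 ≤ L.T * L.Q ^ 2 := by
    have := h.Tge
    rwa [div_le_iff₀ (by positivity)] at this
  have b4 : (L.s₀ + 2 * L.T) / (L.s₀ + 2 * L.T - L.s₁) ≤ (|Tm| + 2) * L.Q ^ 2 := by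
    rw [div_le_iff₀ (by linarith)]
    have c1 : 0 ≤ (|Tm| + 2) * L.Q ^ 2 := by positivity
    have c2 : 0 ≤ |Tm| + 2 := by positivity
    nlinarith [mul_le_mul_of_nonneg_left b1 c1, mul_le_mul_of_nonneg_left b3 c2]
  refine (Real.log_le_log (div_pos (by linarith) (by linarith)) b4).trans ?_
  rw [Real.log_mul (by positivity) (by positivity), Real.log_pow, Lg]
  have c1 : 0 ≤ Real.log (|Tm| + 2) := Real.log_nonneg (by linarith [abs_nonneg Tm])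
  have c2 : 0 ≤ Real.log L.Q := Real.log_nonneg (by linarith)
  push_cast
  nlinarith [mul_nonneg c1 c2]

theorem e2_four {X : Type} [MeasurableSpace X] (ν : Measure X) {f₁ f₂ f₃ f₄ : X → ℝ≥0∞}
    (m₁ : Measurable f₁) (m₂ : Measurable f₂) (m₃ : Measurable f₃) {a₁ a₂ a₃ a₄ : ℝ} (h₁ : 0 ≤ a₁)
    (h₂ : 0 ≤ a₂) (h₃ : 0 ≤ a₃) (h₄ : 0 ≤ a₄) (b₁ : ∫⁻ x, f₁ x ∂ν ≤ ENNReal.ofReal a₁)
    (b₂ : ∫⁻ x, f₂ x ∂ν ≤ ENNReal.ofReal a₂) (b₃ : ∫⁻ x, f₃ x ∂ν ≤ ENNReal.ofReal a₃)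
    (b₄ : ∫⁻ x, f₄ x ∂ν ≤ ENNReal.ofReal a₄) :
    ∫⁻ x, f₁ x + f₂ x + f₃ x + f₄ x ∂ν ≤ ENNReal.ofReal (a₁ + a₂ + a₃ + a₄) := by
  rw [lintegral_add_left ((m₁.fun_add m₂).fun_add m₃), lintegral_add_left (m₁.fun_add m₂),
    lintegral_add_left m₁, ENNReal.ofReal_add (by positivity) h₄,
    ENNReal.ofReal_add (by positivity) h₃, ENNReal.ofReal_add h₁ h₂]
  gcongr


theorem e2_main (Tm : ℝ) : ∃ C₁ C₂ C₃, 0 < C₁ ∧ 0 < C₂ ∧ 0 < C₃ ∧ ∀ {L : LD} {A En : ℝ}, 0 ≤ En →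
    L.OK A En Tm → ∀ {α β R₀ R₁ : ℝ}, 0 ≤ α → 0 ≤ β → 0 < R₀ → 0 < R₁ →
    (∀ p, e2a L p ≤ ENNReal.ofReal α) →
    (∀ p, e2a L p ^ 2 ≤ ENNReal.ofReal β * ∫⁻ v, ENNReal.ofReal (L.fc (p.1, p.2, v) * pp v)) →
    ∫⁻ p in L.dom, ENNReal.ofReal (1 / ‖p.2‖ ^ 2) * e2a L p ^ 2 ≤
      ENNReal.ofReal (α ^ 2 * (L.T * (C₁ * R₀)) + α ^ 2 * (L.T * (C₂ * R₁ * Lg L.Q)) +
        β * (2 / R₀ ^ 2) * (En * (L.T + L.T)) + β * (6 / R₁) * (En * (C₃ * Lg L.Q))) := by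
  obtain ⟨C₁, hC₁, hY₁⟩ := volYC
  obtain ⟨C₂, hC₂, hY₂⟩ := volYB
  have c1 : 0 ≤ Real.log (|Tm| + 2) := Real.log_nonneg (by linarith [abs_nonneg Tm])
  refine ⟨C₁, C₂, Real.log (|Tm| + 2) + 2, hC₁, hC₂, by linarith,
    fun {L A En} hE h {α β R₀ R₁} hα hβ h0 h1 ha hb => ?_⟩
  have hT := h.Tpos
  have hQ : 1 ≤ L.Q := by linarith [h.hQ]
  have hL := one_le_Lg hQ
  have m0 : Measurable fun p : ST => ((p.1, p.2, 0) : TP) := by fun_prop
  have mψ : Measurable fun p : ST => ang (nn p.2) (L.w p.1) := by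
    have := h.meas_ps.comp m0
    simpa only [Function.comp_def, LD.ps] using this
  have mD : Measurable fun p : ST => ENNReal.ofReal (gap (nn p.2) (L.w p.1)) := by
    have := (h.meas_DD.comp m0).ennreal_ofReal
    simpa only [Function.comp_def, LD.DD] using this
  have mr : Measurable fun p : ST => ‖p.2‖ := measurable_snd.norm
  have m1 : Measurable fun p : ST => ENNReal.ofReal
      (if ‖p.2‖ * ang (nn p.2) (L.w p.1) ≤ R₀ then 1 / ‖p.2‖ ^ 2 else 0) :=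
    (Measurable.ite (measurableSet_le (mr.mul mψ) measurable_const)
      (measurable_const.div (mr.pow_const 2)) measurable_const).ennreal_ofReal
  have m2 : Measurable fun p : ST => ENNReal.ofReal
      (if ‖p.2‖ * ang (nn p.2) (L.w p.1) ^ 2 ≤ R₁ then 1 / ‖p.2‖ ^ 2 else 0) :=
    (Measurable.ite (measurableSet_le (mr.mul (mψ.pow_const 2)) measurable_const)
      (measurable_const.div (mr.pow_const 2)) measurable_const).ennreal_ofReal
  have mS : MeasurableSet {p : ST | ‖p.2‖ ≤ L.T} := measurableSet_le mr measurable_const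
  have me : Measurable fun p : ST => (∫⁻ v, ENNReal.ofReal (L.fc (p.1, p.2, v) * pp v)) +
      ENNReal.ofReal (L.B p ^ 2) := (e2e_meas h).add (h.mB.pow_const 2).ennreal_ofReal
  refine (setLIntegral_mono' L.measurableSet_dom fun p hp => e2_pt h hα hβ h0 h1 hp (ha p)
    (e := (∫⁻ v, ENNReal.ofReal (L.fc (p.1, p.2, v) * pp v)) + ENNReal.ofReal (L.B p ^ 2))
    ((hb p).trans (mul_le_mul_right le_self_add _))).trans ?_
  refine e2_four _ (m1.const_mul _) (m2.const_mul _) (((mD.indicator mS).const_mul _).fun_mul me)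
    (by positivity) (by positivity) (by positivity) (by positivity) ?_ ?_ ?_ ?_
  · rw [lintegral_const_mul' _ _ ENNReal.ofReal_ne_top, ENNReal.ofReal_mul (by positivity),
      ENNReal.ofReal_mul hT.le]
    refine mul_le_mul_right (h.time_le m1 fun s _ => (setLIntegral_le_lintegral _ _).trans ?_) _
    have := hY₁ (L.w s) R₀ (h.norm_w_lt s) h0
    simpa only using this
  · rw [lintegral_const_mul' _ _ ENNReal.ofReal_ne_top, ENNReal.ofReal_mul (by positivity),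
      ENNReal.ofReal_mul hT.le]
    refine mul_le_mul_right (h.time_le m2 fun s _ => (setLIntegral_le_lintegral _ _).trans ?_) _
    have := hY₂ (L.w s) L.Q R₁ hQ (h.hw s) h1
    simpa only [Lg] using this
  · simp only [mul_assoc (ENNReal.ofReal (β * (2 / R₀ ^ 2)))]
    rw [lintegral_const_mul' _ _ ENNReal.ofReal_ne_top,
      ENNReal.ofReal_mul (p := β * (2 / R₀ ^ 2)) (by positivity)]
    refine mul_le_mul_right (le_trans (le_of_eq ?_) (h.sl_near hE hT.le)) _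
    rw [inter_comm, ← Measure.restrict_restrict mS, ← lintegral_indicator mS]
    refine lintegral_congr fun p => ?_
    by_cases hp : p ∈ {p : ST | ‖p.2‖ ≤ L.T}
    · simp only [indicator_of_mem hp]
    · simp only [indicator_of_notMem hp, zero_mul]
  · rw [lintegral_const_mul' _ _ ENNReal.ofReal_ne_top,
      ENNReal.ofReal_mul (p := β * (6 / R₁)) (by positivity), ENNReal.ofReal_mul hE]
    refine mul_le_mul_right ((h.sl (fun τ => ENNReal.ofReal ((L.s₀ + 2 * L.T - τ)⁻¹))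
      (by fun_prop)).trans (mul_le_mul_right (e2_time h) _)) _

theorem est_II (A En Tm : ℝ) (hE : 0 ≤ En) : ∃ C, 0 < C ∧ ∀ L : LD, L.OK A En Tm → ∀ η : ℝ, 0 ≤ η →
    L.I (L.k2 η) ≤ ENNReal.ofReal (C * (η * (L.T * L.Q ^ (5 / 3 : ℝ) * Lg L.Q ^ (2 / 3 : ℝ) +
      L.T ^ (3 / 4 : ℝ) * L.Q ^ (3 / 2 : ℝ) * Lg L.Q))) := by
  obtain ⟨Ca, hCa, ha⟩ := e2a_le
  obtain ⟨Cb, hCb, hb⟩ := e2a_sq
  obtain ⟨C₁, C₂, C₃, hC₁, hC₂, hC₃, hm⟩ := e2_main Tm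
  obtain ⟨c, hc⟩ : ∃ c, c = (A * Ca) ^ 2 * (C₁ + C₂) + |A| * Cb * En * (4 + 6 * C₃) := ⟨_, rfl⟩
  have hc0 : 0 ≤ c := by rw [hc]; positivity
  refine ⟨√(En * c) + 1, by positivity, fun L h η hη => ?_⟩
  have hT := h.Tpos
  have hQ : 1 ≤ L.Q := by linarith [h.hQ]
  have hQ0 : 0 < L.Q := by linarith
  have hL := one_le_Lg hQ
  have hL0 : 0 < Lg L.Q := by linarith
  have hA := h.A_nonneg
  rw [abs_of_nonneg hA] at hc
  obtain ⟨u, hu⟩ : ∃ u, u = (L.Q * Lg L.Q) ^ (1 / 3 : ℝ) := ⟨_, rfl⟩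
  have hu0 : 0 < u := by rw [hu]; positivity
  have hu3 : u ^ 3 = L.Q * Lg L.Q := by
    rw [hu, ← Real.rpow_natCast, ← Real.rpow_mul (by positivity)]
    norm_num
  have hX : L.Q ^ (5 / 3 : ℝ) * Lg L.Q ^ (2 / 3 : ℝ) = L.Q * u ^ 2 := by
    rw [hu, ← Real.rpow_natCast, ← Real.rpow_mul (by positivity),
      Real.mul_rpow hQ0.le hL0.le, ← mul_assoc, show (5 / 3 : ℝ) = 1 + 2 / 3 by norm_num,
      Real.rpow_add hQ0, Real.rpow_one]
    norm_num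
  obtain ⟨t, ht⟩ : ∃ t, t = √L.T := ⟨_, rfl⟩
  have ht0 : 0 < t := by rw [ht]; positivity
  have ht2 : t ^ 2 = L.T := by rw [ht, Real.sq_sqrt hT.le]
  have hY : (L.T ^ (3 / 4 : ℝ) * L.Q ^ (3 / 2 : ℝ) * Lg L.Q) ^ 2 =
      L.T * t * L.Q ^ 3 * Lg L.Q ^ 2 := by
    rw [mul_pow, mul_pow, ← Real.rpow_natCast (L.T ^ _), ← Real.rpow_natCast (L.Q ^ _),
      ← Real.rpow_mul hT.le, ← Real.rpow_mul hQ0.le, ht, Real.sqrt_eq_rpow,
      show (3 / 4 : ℝ) * (2 : ℕ) = 1 + 1 / 2 by norm_num, Real.rpow_add hT, Real.rpow_one,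
      show (3 / 2 : ℝ) * (2 : ℕ) = (3 : ℕ) by norm_num, Real.rpow_natCast]
  obtain ⟨Y, hYd⟩ : ∃ Y, Y = L.T ^ (3 / 4 : ℝ) * L.Q ^ (3 / 2 : ℝ) * Lg L.Q := ⟨_, rfl⟩
  have hY0 : 0 ≤ Y := by rw [hYd]; positivity
  rw [mul_assoc L.T, hX, ← hYd]
  rw [← hYd] at hY
  have h1 := hm hE h (α := A * (Ca * L.Q ^ 2 * Lg L.Q)) (β := A * (Cb * L.Q ^ 2)) (R₀ := 1 / u ^ 2)
    (R₁ := 1 / (L.Q * Lg L.Q * t)) (by positivity) (by positivity) (by positivity) (by positivity)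
    (ha h) (hb h)
  have h2 := mul_le_mul_right h1 (ENNReal.ofReal (η ^ 2))
  rw [← ENNReal.ofReal_mul (by positivity)] at h2
  refine (e2_cs h hη).trans (e2_half h.kg h2 (by positivity) (by positivity) ?_)
  have e1 : (A * (Ca * L.Q ^ 2 * Lg L.Q)) ^ 2 * (L.T * (C₁ * (1 / u ^ 2))) =
      (A * Ca) ^ 2 * C₁ * (L.T * (L.Q * u ^ 2) ^ 2) := by
    have : Lg L.Q = u ^ 3 / L.Q := by rw [hu3]; field_simp
    rw [this]
    field_simp
  have e2 : (A * (Ca * L.Q ^ 2 * Lg L.Q)) ^ 2 * (L.T * (C₂ * (1 / (L.Q * Lg L.Q * t)) * Lg L.Q)) =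
      (A * Ca) ^ 2 * C₂ * (t * L.Q ^ 3 * Lg L.Q ^ 2) := by
    rw [← ht2]
    field_simp
  have e3 : A * (Cb * L.Q ^ 2) * (2 / (1 / u ^ 2) ^ 2) * (En * (L.T + L.T)) =
      A * Cb * En * 4 * (L.T * (L.Q * u ^ 2) ^ 2) := by
    field_simp
    ring
  have e4 : A * (Cb * L.Q ^ 2) * (6 / (1 / (L.Q * Lg L.Q * t))) * (En * (C₃ * Lg L.Q)) =
      A * Cb * En * (6 * C₃) * (t * L.Q ^ 3 * Lg L.Q ^ 2) := by
    field_simp
  rw [e1, e2, e3, e4]
  obtain ⟨X, hXd⟩ : ∃ X, X = L.T * (L.Q * u ^ 2) := ⟨_, rfl⟩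
  have hX0 : 0 ≤ X := by rw [hXd]; positivity
  have e5 : En * L.T * (η ^ 2 * ((A * Ca) ^ 2 * C₁ * (L.T * (L.Q * u ^ 2) ^ 2) +
      (A * Ca) ^ 2 * C₂ * (t * L.Q ^ 3 * Lg L.Q ^ 2) + A * Cb * En * 4 * (L.T * (L.Q * u ^ 2) ^ 2) +
      A * Cb * En * (6 * C₃) * (t * L.Q ^ 3 * Lg L.Q ^ 2))) =
      En * η ^ 2 * (((A * Ca) ^ 2 * C₁ + A * Cb * En * 4) * X ^ 2 +
        ((A * Ca) ^ 2 * C₂ + A * Cb * En * (6 * C₃)) * Y ^ 2) := by
    rw [hY, hXd]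
    ring
  rw [e5, ← hXd]
  have f1 : 0 ≤ (A * Ca) ^ 2 * C₁ + A * Cb * En * 4 := by positivity
  have f2 : 0 ≤ (A * Ca) ^ 2 * C₂ + A * Cb * En * (6 * C₃) := by positivity
  have f3 : ((A * Ca) ^ 2 * C₁ + A * Cb * En * 4) * X ^ 2 +
      ((A * Ca) ^ 2 * C₂ + A * Cb * En * (6 * C₃)) * Y ^ 2 ≤ c * (X + Y) ^ 2 := by
    have g1 : X ^ 2 ≤ (X + Y) ^ 2 := by nlinarith
    have g2 : Y ^ 2 ≤ (X + Y) ^ 2 := by nlinarith
    have := add_le_add (mul_le_mul_of_nonneg_left g1 f1) (mul_le_mul_of_nonneg_left g2 f2)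
    refine this.trans (le_of_eq ?_)
    rw [hc]
    ring
  have f4 : En * c ≤ (√(En * c) + 1) ^ 2 := by
    have g1 := Real.sq_sqrt (mul_nonneg hE hc0)
    nlinarith [Real.sqrt_nonneg (En * c)]
  calc _ ≤ En * η ^ 2 * (c * (X + Y) ^ 2) := mul_le_mul_of_nonneg_left f3 (by positivity)
    _ = En * c * (η * (X + Y)) ^ 2 := by ring
    _ ≤ (√(En * c) + 1) ^ 2 * (η * (X + Y)) ^ 2 := mul_le_mul_of_nonneg_right f4 (by positivity)
    _ = _ := by ring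

end Crest.Agent.R106
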