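import Crest.Agent.R106.LDB2
import Crest.Agent.R106.PolV
import Crest.Agent.R106.PolY

/-!
# Row 106: the far magnetic term

`a(s, y) = ∫ fc/(pφ) dv`, `e₁ = ∫ fc p φ² dv`.  For `μ > 0`: `a ≤ e₁/μ + C Q^{4/3} μ^{1/3}` (`p²φ³ > μ` or `volF`),
so `a ≤ C Q e₁^{1/4}` (`opt_bath`).  With `h(τ) = (s₀ + T - τ)^{-3/4}` (`τ = s - r`; for `0 < r`, `s ≤ s₀ + T`,
`T < r`: `0 < s₀ + T - τ ≤ 2r`): `∬ B ψ a/r ≤ C Q (∬ 2 D B² h)^{1/2} (∬ e₁^{1/2} (2r)^{3/4}/r²)^{1/2}`, the first
factor by `sl` (`∫_0^{s₁} h ≤ 4 (Tm + 1)^{1/4}`), the second by `lintegral_cs`, `flx_total`, `volYD`,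
`time_le`: `≤ (En T)^{1/2} (C T √Tm)^{1/2}`.

-/

set_option autoImplicit false

noncomputable section

namespace Crest.Agent.R106

open MeasureTheory Set Metric Real Filter Topology
open scoped ContDiff ENNReal RealInnerProductSpace Classical
open Crest.AnalysisR.VecCalc3 Crest.AnalysisR.PDE.RVM

/-- the bathtub bound for the momentum integral -/
theorem estIII_bath (A : ℝ) : ∃ K, 0 < K ∧ ∀ (En Tm : ℝ) (L : LD), L.OK A En Tm → ∀ p : ST,
    ∫⁻ v, ENNReal.ofReal (L.fc (p.1, p.2, v) * (1 / (pp v * ph (p.1, p.2, v)))) ≤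
      ENNReal.ofReal (K * L.Q) *
        (∫⁻ v, ENNReal.ofReal (L.fc (p.1, p.2, v) *
          (pv (p.1, p.2, v) * ph (p.1, p.2, v) ^ 2))) ^ (1 / 4 : ℝ) := by
  obtain ⟨CF, hCF, hF⟩ := volF
  set A' : ℝ := |A| + 1 with hA'
  have hA0 : 0 < A' := by positivity
  refine ⟨2 * (A' * CF) ^ (3 / 4 : ℝ), by positivity, ?_⟩
  intro En Tm L h p
  have hQ : 0 < L.Q := by linarith [h.hQ]
  have key := opt_bath
    (x := ∫⁻ v, ENNReal.ofReal (L.fc (p.1, p.2, v) * (1 / (pp v * ph (p.1, p.2, v)))))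
    (e := ∫⁻ v, ENNReal.ofReal (L.fc (p.1, p.2, v) * (pv (p.1, p.2, v) * ph (p.1, p.2, v) ^ 2)))
    (a := A' * CF * L.Q ^ (4 / 3 : ℝ)) (by positivity) (fun μ hμ => by
      have hm : Measurable fun v : R3 => ENNReal.ofReal (L.fc (p.1, p.2, v) *
          (pv (p.1, p.2, v) * ph (p.1, p.2, v) ^ 2)) := by
        have m0 : Measurable fun v : R3 => ((p.1, p.2, v) : TP) := by fun_prop
        exact ((h.mf.comp m0).mul ((measurable_pv.comp m0).mul
          ((measurable_ph.comp m0).pow_const 2))).ennreal_ofReal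
      have h1 := hF (nn p.2) L.Q μ (norm_nn_le _) (by linarith [h.hQ]) hμ
      calc ∫⁻ v, ENNReal.ofReal (L.fc (p.1, p.2, v) * (1 / (pp v * ph (p.1, p.2, v))))
          ≤ ∫⁻ v, (ENNReal.ofReal (L.fc (p.1, p.2, v) *
              (pv (p.1, p.2, v) * ph (p.1, p.2, v) ^ 2)) * (ENNReal.ofReal μ)⁻¹ +
            ENNReal.ofReal A' * ENNReal.ofReal (if pp v ≤ L.Q ∧
              pp v ^ 2 * ang (nn p.2) (relVel v) ^ 3 ≤ μ then
                1 / (pp v * ang (nn p.2) (relVel v)) else 0)) := by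
            refine lintegral_mono (fun v => ?_)
            have hp := pp_pos v
            have hφ : 0 < ang (nn p.2) (relVel v) := ph_pos (p.1, p.2, v)
            have hf0 := h.f0 (p.1, p.2, v)
            have e1 : ph (p.1, p.2, v) = ang (nn p.2) (relVel v) := rfl
            have e2 : pv (p.1, p.2, v) = pp v := rfl
            simp only [e1, e2]
            by_cases hz : L.fc (p.1, p.2, v) = 0
            · simp [hz]
            by_cases hc : pp v ^ 2 * ang (nn p.2) (relVel v) ^ 3 ≤ μ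
            · refine le_add_left ?_
              rw [if_pos ⟨(h.supp _ hz).2, hc⟩, ← ENNReal.ofReal_mul hA0.le]
              refine ENNReal.ofReal_le_ofReal (mul_le_mul_of_nonneg_right ?_ (by positivity))
              linarith [h.fA (p.1, p.2, v), le_abs_self A]
            · refine le_add_right ?_
              push Not at hc
              rw [← ENNReal.ofReal_inv_of_pos hμ, ← ENNReal.ofReal_mul (by positivity), mul_assoc]
              refine ENNReal.ofReal_le_ofReal (mul_le_mul_of_nonneg_left ?_ hf0)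
              rw [← div_eq_mul_inv, div_le_div_iff₀ (by positivity) hμ]
              nlinarith
        _ ≤ _ := by
            rw [lintegral_add_left (hm.mul_const _), lintegral_mul_const _ hm,
              lintegral_const_mul' _ _ ENNReal.ofReal_ne_top, div_eq_mul_inv]
            refine add_le_add_right ?_ _
            refine le_trans (mul_le_mul_right h1 _) (le_of_eq ?_)
            rw [← ENNReal.ofReal_mul hA0.le]
            congr 1
            ring)
  refine le_trans key (le_of_eq ?_)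
  congr 1
  rw [Real.mul_rpow (by positivity) (by positivity), ← Real.rpow_mul hQ.le,
    show (4 / 3 : ℝ) * (3 / 4) = 1 by norm_num, Real.rpow_one, mul_assoc,
    ENNReal.ofReal_mul (by norm_num : (0 : ℝ) ≤ 2)]
  simp

theorem estIII_h {b s Tm : ℝ} (hb : 0 < b) (hs : s ≤ b) (hT : b ≤ Tm + 1) :
    ∫⁻ τ in Icc 0 s, ENNReal.ofReal ((b - τ) ^ (-(3 / 4) : ℝ)) ≤
      ENNReal.ofReal (4 * (Tm + 1) ^ (1 / 4 : ℝ)) := by
  have hi : IntervalIntegrable (fun x : ℝ => x ^ (-(3 / 4) : ℝ)) volume b 0 :=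
    intervalIntegral.intervalIntegrable_rpow' (by norm_num)
  have hi2 : IntervalIntegrable (fun x : ℝ => (b - x) ^ (-(3 / 4) : ℝ)) volume 0 b := by
    simpa using hi.comp_sub_left b
  have hi3 : IntegrableOn (fun x : ℝ => (b - x) ^ (-(3 / 4) : ℝ)) (Icc 0 b) :=
    (intervalIntegrable_iff_integrableOn_Icc_of_le hb.le).1 hi2
  refine le_trans (lintegral_mono_set (Icc_subset_Icc_right hs)) ?_
  rw [← ofReal_integral_eq_lintegral_ofReal hi3 (by
    filter_upwards [ae_restrict_mem measurableSet_Icc] with x hx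
    exact Real.rpow_nonneg (by linarith [hx.2]) _)]
  refine ENNReal.ofReal_le_ofReal ?_
  rw [integral_Icc_eq_integral_Ioc, ← intervalIntegral.integral_of_le hb.le,
    intervalIntegral.integral_comp_sub_left (fun x : ℝ => x ^ (-(3 / 4) : ℝ)) b,
    integral_rpow (Or.inl (by norm_num))]
  simp only [sub_self, sub_zero]
  rw [show (-(3 / 4) + 1 : ℝ) = 1 / 4 by norm_num, Real.zero_rpow (by norm_num)]
  have := Real.rpow_le_rpow hb.le hT (by norm_num : (0 : ℝ) ≤ 1 / 4)
  linarith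

theorem estIII_pt {r x : ℝ} (hx : 0 < x) (hxr : x ≤ 2 * r) :
    1 / r ≤ x ^ (-(3 / 8) : ℝ) * (2 * r ^ (-(5 / 8) : ℝ)) := by
  have hr : 0 < r := by linarith
  have h1 : (2 * r) ^ (-(3 / 8) : ℝ) ≤ x ^ (-(3 / 8) : ℝ) :=
    Real.rpow_le_rpow_of_nonpos hx hxr (by norm_num)
  have h2 : (2 : ℝ) ^ (-1 : ℝ) ≤ 2 ^ (-(3 / 8) : ℝ) :=
    Real.rpow_le_rpow_of_exponent_le (by norm_num) (by norm_num)
  rw [Real.rpow_neg_one] at h2
  rw [Real.mul_rpow (by norm_num) hr.le] at h1
  have h3 : r ^ (-(3 / 8) : ℝ) * r ^ (-(5 / 8) : ℝ) = 1 / r := by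
    rw [← Real.rpow_add hr, show (-(3 / 8) + -(5 / 8) : ℝ) = -1 by norm_num, Real.rpow_neg_one,
      one_div]
  have h4 : 0 < r ^ (-(3 / 8) : ℝ) := by positivity
  have h5 : 0 < r ^ (-(5 / 8) : ℝ) := by positivity
  have h6 : 2⁻¹ * r ^ (-(3 / 8) : ℝ) ≤ x ^ (-(3 / 8) : ℝ) :=
    le_trans (mul_le_mul_of_nonneg_right h2 h4.le) h1
  rw [← h3]
  nlinarith [mul_le_mul_of_nonneg_right h6 h5.le]

theorem estIII_half (x : ℝ) : ENNReal.ofReal x ^ (1 / 2 : ℝ) = ENNReal.ofReal (√x) := by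
  rcases le_total 0 x with h | h
  · rw [ENNReal.ofReal_rpow_of_nonneg h (by norm_num), Real.sqrt_eq_rpow]
  · rw [ENNReal.ofReal_of_nonpos h, Real.sqrt_eq_zero'.2 h]
    simp

theorem est_III (A En Tm : ℝ) (hE : 0 ≤ En) : ∃ C, 0 < C ∧ ∀ L : LD, L.OK A En Tm →
    L.I (fun q => if rr q ≤ L.T then 0 else L.k3 q) ≤ ENNReal.ofReal (C * (√L.T * L.Q)) := by
  obtain ⟨K, hK, hbath⟩ := estIII_bath A
  set c1 : ℝ := 2 * (En * (4 * (Tm + 1) ^ (1 / 4 : ℝ))) with hc1
  set c2 : ℝ := 16 * (8 * π * √Tm) with hc2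
  refine ⟨K * (√c1 * √(√c2 * √En)) + 1, by positivity, fun L h => ?_⟩
  have hQ : 0 < L.Q := by linarith [h.hQ]
  have hT := h.Tpos
  have hTm : 0 ≤ Tm := le_trans (le_trans h.s0 h.s01) h.sm
  set b : ℝ := L.s₀ + L.T with hb
  set e1 : ST → ℝ≥0∞ := fun p => ∫⁻ v, ENNReal.ofReal (L.fc (p.1, p.2, v) *
    (pv (p.1, p.2, v) * ph (p.1, p.2, v) ^ 2)) with he1
  set f : ST → ℝ≥0∞ := fun p => ENNReal.ofReal
    (L.B p * ang (nn p.2) (L.w p.1) * (b - (p.1 - ‖p.2‖)) ^ (-(3 / 8) : ℝ)) with hf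
  set g : ST → ℝ≥0∞ := fun p => ENNReal.ofReal (2 * ‖p.2‖ ^ (-(5 / 8) : ℝ)) with hg
  have mk2 : Measurable fun q : TP => pv q * ph q ^ 2 :=
    measurable_pv.mul (measurable_ph.pow_const 2)
  have me1 : Measurable e1 := by
    have m0 : Measurable fun z : ST × R3 => ((z.1.1, z.1.2, z.2) : TP) := by fun_prop
    exact Measurable.lintegral_prod_right'
      (f := fun z : ST × R3 => ENNReal.ofReal (L.fc (z.1.1, z.1.2, z.2) *
        (pv (z.1.1, z.1.2, z.2) * ph (z.1.1, z.1.2, z.2) ^ 2)))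
      ((h.mf.comp m0).mul (mk2.comp m0)).ennreal_ofReal
  have mf : Measurable f := by
    have m2 : Measurable fun p : ST => (nn p.2, L.w p.1) :=
      (measurable_nn.comp measurable_snd).prodMk (h.mw.comp measurable_fst)
    have m3 := continuous_ang.measurable.comp m2
    have m1 : Measurable fun p : ST => ang (nn p.2) (L.w p.1) := by
      simpa only [Function.comp_def] using m3
    exact ((h.mB.mul m1).mul (by fun_prop)).ennreal_ofReal
  have mg : Measurable g := by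
    refine Measurable.ennreal_ofReal ?_
    fun_prop
  have mk : Measurable fun q : TP => if rr q ≤ L.T then 0 else L.k3 q :=
    Measurable.ite (measurableSet_le measurable_rr measurable_const) measurable_const h.meas_k3
  -- pointwise bound on the cones
  have hpt : ∀ p ∈ L.dom, ∫⁻ v, ENNReal.ofReal (L.fc (p.1, p.2, v) *
      (if rr (p.1, p.2, v) ≤ L.T then 0 else L.k3 (p.1, p.2, v))) ≤
        ENNReal.ofReal (K * L.Q) * (f p * (g p * e1 p ^ (1 / 4 : ℝ))) := by
    intro p hp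
    have er : ∀ v : R3, rr (p.1, p.2, v) = ‖p.2‖ := fun _ => rfl
    simp only [er]
    by_cases hr : ‖p.2‖ ≤ L.T
    · simp [hr]
    simp only [hr, if_false]
    push Not at hr
    have hB := h.B0 p
    have hψ := ang_nonneg (nn p.2) (L.w p.1)
    have hx : 0 < b - (p.1 - ‖p.2‖) := by linarith [hp.1.2, h.s1]
    have hxr : b - (p.1 - ‖p.2‖) ≤ 2 * ‖p.2‖ := by linarith [hp.1.1]
    have h1 : ENNReal.ofReal (L.B p * ang (nn p.2) (L.w p.1) * (1 / ‖p.2‖)) ≤ f p * g p := by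
      simp only [hf, hg]
      rw [← ENNReal.ofReal_mul (by positivity), mul_assoc (L.B p * _)]
      exact ENNReal.ofReal_le_ofReal (mul_le_mul_of_nonneg_left (estIII_pt hx hxr) (by positivity))
    calc ∫⁻ v, ENNReal.ofReal (L.fc (p.1, p.2, v) * L.k3 (p.1, p.2, v))
        = ∫⁻ v, ENNReal.ofReal (L.B p * ang (nn p.2) (L.w p.1) * (1 / ‖p.2‖)) *
            ENNReal.ofReal (L.fc (p.1, p.2, v) * (1 / (pp v * ph (p.1, p.2, v)))) := by
          refine lintegral_congr (fun v => ?_)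
          rw [← ENNReal.ofReal_mul (by positivity)]
          congr 1
          simp only [LD.k3, LD.ps, pv, rr]
          ring
      _ ≤ (f p * g p) * (ENNReal.ofReal (K * L.Q) * e1 p ^ (1 / 4 : ℝ)) := by
          rw [lintegral_const_mul' _ _ ENNReal.ofReal_ne_top]
          exact mul_le_mul' h1 (hbath En Tm L h p)
      _ = _ := by ring
  -- the three factors
  have b1 : ∫⁻ p in L.dom, f p ^ 2 ≤ ENNReal.ofReal c1 := by
    have hs := h.sl (fun τ => ENNReal.ofReal ((b - τ) ^ (-(3 / 4) : ℝ)))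
      (Measurable.ennreal_ofReal (by fun_prop))
    have hh := estIII_h (b := b) (s := L.s₁) (Tm := Tm) (by linarith [h.s0]) h.s1
      (by linarith [h.s01, h.sm, h.Tle])
    calc ∫⁻ p in L.dom, f p ^ 2
        ≤ ∫⁻ p in L.dom, 2 * (ENNReal.ofReal (gap (nn p.2) (L.w p.1)) *
            ((∫⁻ v, ENNReal.ofReal (L.fc (p.1, p.2, v) * pp v)) + ENNReal.ofReal (L.B p ^ 2)) *
              ENNReal.ofReal ((b - (p.1 - ‖p.2‖)) ^ (-(3 / 4) : ℝ))) := by
          refine setLIntegral_mono' L.measurableSet_dom (fun p hp => ?_)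
          have hB := h.B0 p
          have hψ := ang_nonneg (nn p.2) (L.w p.1)
          have hx : 0 ≤ b - (p.1 - ‖p.2‖) := by linarith [hp.1.2, h.s1, norm_nonneg p.2]
          have hD := gap_nonneg (norm_nn_le p.2) (h.norm_w_lt p.1).le
          have e : (L.B p * ang (nn p.2) (L.w p.1) * (b - (p.1 - ‖p.2‖)) ^ (-(3 / 8) : ℝ)) ^ 2 =
              2 * (gap (nn p.2) (L.w p.1) * L.B p ^ 2 * (b - (p.1 - ‖p.2‖)) ^ (-(3 / 4) : ℝ)) := by
            rw [mul_pow, mul_pow, ang_sq (norm_nn_le _) (h.norm_w_lt _).le,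
              ← Real.rpow_natCast (_ ^ (-(3 / 8) : ℝ)) 2, ← Real.rpow_mul hx,
              show (-(3 / 8) : ℝ) * ((2 : ℕ) : ℝ) = -(3 / 4) by norm_num]
            ring
          simp only [hf]
          rw [← ENNReal.ofReal_pow (by positivity), e,
            ENNReal.ofReal_mul (by norm_num : (0 : ℝ) ≤ 2), ENNReal.ofReal_mul (by positivity),
            ENNReal.ofReal_mul hD, ENNReal.ofReal_ofNat]
          gcongr
          exact le_add_self
      _ ≤ ENNReal.ofReal c1 := by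
          rw [lintegral_const_mul' _ _ (by simp), hc1,
            ENNReal.ofReal_mul (by norm_num : (0 : ℝ) ≤ 2), ENNReal.ofReal_mul hE,
            ENNReal.ofReal_ofNat]
          gcongr
          exact le_trans hs (mul_le_mul_right hh _)
  have b2 : ∫⁻ p in L.dom, (g p ^ 2) ^ 2 ≤ ENNReal.ofReal (L.T * c2) := by
    rw [ENNReal.ofReal_mul hT.le]
    refine h.time_le ((mg.pow_const 2).pow_const 2) (fun s hs => ?_)
    rcases le_or_gt s 0 with h0 | h0
    · rw [ball_eq_empty.2 h0]; simp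
    have e : ∀ y : R3, (g (s, y) ^ 2) ^ 2 = 16 * ENNReal.ofReal (‖y‖ ^ (-(5 / 2) : ℝ)) := by
      intro y
      simp only [hg]
      rw [← pow_mul, ← ENNReal.ofReal_pow (by positivity), mul_pow,
        ← Real.rpow_natCast (_ ^ (-(5 / 8) : ℝ)) (2 * 2), ← Real.rpow_mul (norm_nonneg _),
        show (-(5 / 8) : ℝ) * ((2 * 2 : ℕ) : ℝ) = -(5 / 2) by norm_num,
        show (2 : ℝ) ^ (2 * 2) = 16 by norm_num, ENNReal.ofReal_mul (by norm_num),
        ENNReal.ofReal_ofNat]
    simp only [e]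
    rw [lintegral_const_mul' _ _ (by simp), hc2, ENNReal.ofReal_mul (by norm_num : (0 : ℝ) ≤ 16),
      ENNReal.ofReal_ofNat]
    gcongr
    refine le_trans (volYD s h0) (ENNReal.ofReal_le_ofReal ?_)
    have := Real.sqrt_le_sqrt (le_trans hs.2 h.sm)
    have := Real.pi_pos
    gcongr
  have b3 : ∫⁻ p in L.dom, (e1 p ^ (1 / 2 : ℝ)) ^ 2 ≤ ENNReal.ofReal (En * L.T) := by
    have e : ∀ p, (e1 p ^ (1 / 2 : ℝ)) ^ 2 = e1 p := by
      intro p
      rw [← ENNReal.rpow_natCast, ← ENNReal.rpow_mul]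
      norm_num
    simp only [e]
    have := h.flx_total hE
    rwa [h.I_eq' mk2] at this
  have b4 : ∫⁻ p in L.dom, (g p * e1 p ^ (1 / 4 : ℝ)) ^ 2 ≤
      ENNReal.ofReal (L.T * (√c2 * √En)) := by
    have e : ∀ p, (g p * e1 p ^ (1 / 4 : ℝ)) ^ 2 = g p ^ 2 * e1 p ^ (1 / 2 : ℝ) := by
      intro p
      rw [mul_pow, ← ENNReal.rpow_natCast (e1 p ^ (1 / 4 : ℝ)), ← ENNReal.rpow_mul]
      norm_num
    simp only [e]
    refine le_trans (lintegral_cs _ (mg.pow_const 2).aemeasurable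
      (me1.pow_const _).aemeasurable) ?_
    refine le_trans (mul_le_mul' (ENNReal.rpow_le_rpow b2 (by norm_num))
      (ENNReal.rpow_le_rpow b3 (by norm_num))) (le_of_eq ?_)
    rw [estIII_half, estIII_half, ← ENNReal.ofReal_mul (Real.sqrt_nonneg _),
      Real.sqrt_mul hT.le, Real.sqrt_mul hE]
    congr 1
    have := Real.mul_self_sqrt hT.le
    linear_combination (√c2 * √En) * this
  rw [h.I_eq' mk]
  refine le_trans (setLIntegral_mono' L.measurableSet_dom hpt) ?_
  rw [lintegral_const_mul' _ _ ENNReal.ofReal_ne_top]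
  have b5 := lintegral_cs (volume.restrict L.dom) mf.aemeasurable
    (mg.mul (me1.pow_const (1 / 4 : ℝ))).aemeasurable
  have b6 := le_trans b5 (mul_le_mul' (ENNReal.rpow_le_rpow b1 (by norm_num))
    (ENNReal.rpow_le_rpow b4 (by norm_num)))
  refine le_trans (mul_le_mul_right b6 _) ?_
  rw [estIII_half, estIII_half, ← ENNReal.ofReal_mul (Real.sqrt_nonneg _),
    ← ENNReal.ofReal_mul (by positivity), Real.sqrt_mul hT.le]
  refine ENNReal.ofReal_le_ofReal ?_
  have : 0 ≤ √L.T * L.Q := by positivity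
  nlinarith

end Crest.Agent.R106
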