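import Crest.Agent.R106.LDB2
import Crest.Agent.R106.PolV
import Crest.Agent.R106.PolY

/-!
# Row 106: the geometric term in a cell

In the cell and with `φ ≤ 2φ₀ψ ≤ ψ/5`: `4ψ/5 ≤ θ ≤ 6ψ/5`, so `5θ₀/6 ≤ ψ ≤ 5θ₀/2`, `φ ≤ 5φ₀θ₀`.
`r ≤ R`: `volA` (with `a = n`, `δ = 5φ₀θ₀`), `volYA`, `time_le` give `C T R p₀³ φ₀ θ₀⁴`.
`r > R`: `u = r(D + θ₀²) ∈ (R θ₀², 5 r θ₀²]`, `D ≥ θ₀²/3`, so `1/(φ₀ r²) ≤ 75 θ₀² D/(φ₀ u²)`; `layer2` gives
`C (M₀/R² + M₁/R)/(φ₀θ₀²)`.  Conclude with `opt3` and `φ₀ ≤ 1`.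

-/

set_option autoImplicit false

noncomputable section

namespace Crest.Agent.R106

open MeasureTheory Set Metric Real Filter Topology
open scoped ContDiff ENNReal RealInnerProductSpace Classical
open Crest.AnalysisR.VecCalc3 Crest.AnalysisR.PDE.RVM

theorem estR_pt {φ ψ θ φ₀ θ₀ D : ℝ} (h0 : 0 < φ₀) (h1 : φ₀ ≤ 1 / 10) (hθ : 0 < θ₀) (hψ : 0 < ψ)
    (hD : ψ ^ 2 = 2 * D) (t1 : ψ ≤ φ + θ) (t2 : θ ≤ φ + ψ) (c1 : θ₀ ≤ θ) (c2 : θ < 2 * θ₀)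
    (h : φ ≤ 2 * φ₀ * ψ) :
    ψ ≤ 5 * θ₀ / 2 ∧ φ ≤ 5 * φ₀ * θ₀ ∧ θ₀ ^ 2 / 3 ≤ D ∧ D ≤ 4 * θ₀ ^ 2 := by
  have a1 : φ ≤ ψ / 5 := by nlinarith
  have a2 : ψ ≤ 5 * θ₀ / 2 := by linarith
  have a3 : 5 * θ₀ / 6 ≤ ψ := by linarith
  refine ⟨a2, by nlinarith, by nlinarith, by nlinarith⟩

theorem estR_far {r R φ₀ θ₀ D : ℝ} (h0 : 0 < φ₀) (hθ : 0 < θ₀) (hR : 0 < R) (hr : R < r)
    (d1 : θ₀ ^ 2 / 3 ≤ D) (d2 : D ≤ 4 * θ₀ ^ 2) :
    R * θ₀ ^ 2 < r * (D + θ₀ ^ 2) ∧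
      1 / (φ₀ * r ^ 2) ≤ 75 * θ₀ ^ 2 / φ₀ * (D / (r * (D + θ₀ ^ 2)) ^ 2) := by
  have hr0 : 0 < r := hR.trans hr
  have ht : 0 < θ₀ ^ 2 := by positivity
  have hD : 0 < D := by linarith
  refine ⟨by nlinarith, ?_⟩
  rw [div_mul_div_comm, div_le_div_iff₀ (by positivity) (by positivity)]
  have a1 : (D + θ₀ ^ 2) ^ 2 ≤ 75 * θ₀ ^ 2 * D := by nlinarith
  have a2 := mul_le_mul_of_nonneg_left a1 (show 0 ≤ φ₀ * r ^ 2 by positivity)
  nlinarith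

theorem estR_near (A En Tm : ℝ) : ∃ K, 0 < K ∧ ∀ L : LD, L.OK A En Tm → ∀ φ₀ p₀ θ₀ R : ℝ, 0 < φ₀ →
    1 ≤ p₀ → 0 < θ₀ → 0 < R →
    L.I (fun q => if (pv q ≤ 2 * p₀ ∧ ph q ≤ 5 * φ₀ * θ₀) ∧ (rr q ≤ R ∧ L.ps q ≤ 5 * θ₀ / 2)
      then 1 / (φ₀ * rr q ^ 2) else 0) ≤ ENNReal.ofReal (K * L.T * p₀ ^ 3 * φ₀ * θ₀ ^ 4 * R) := by
  obtain ⟨CA, hCA, hA⟩ := volA
  obtain ⟨CY, hCY, hY⟩ := volYA
  refine ⟨1250 * (|A| + 1) * CA * CY, by positivity, fun L h φ₀ p₀ θ₀ R h0 hp hθ hR => ?_⟩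
  have hps := h.meas_ps
  have hw := h.mw
  have hm : Measurable fun q : TP => if (pv q ≤ 2 * p₀ ∧ ph q ≤ 5 * φ₀ * θ₀) ∧
      (rr q ≤ R ∧ L.ps q ≤ 5 * θ₀ / 2) then 1 / (φ₀ * rr q ^ 2) else 0 := by
    refine Measurable.ite ?_ (measurable_const.div ((measurable_rr.pow_const 2).const_mul _))
      measurable_const
    exact ((measurableSet_le measurable_pv measurable_const).inter
      (measurableSet_le measurable_ph measurable_const)).inter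
      ((measurableSet_le measurable_rr measurable_const).inter (measurableSet_le hps measurable_const))
  rw [h.I_eq' hm]
  set c : ℝ := (|A| + 1) / φ₀ with hc
  have hc0 : 0 ≤ c := by positivity
  set G : ST → ℝ := fun p => if ‖p.2‖ ≤ R ∧ ang (nn p.2) (L.w p.1) ≤ 5 * θ₀ / 2 then 1 / ‖p.2‖ ^ 2
    else 0 with hG
  have hG0 : ∀ p, 0 ≤ G p := fun p => by simp only [hG]; split_ifs <;> positivity
  have hGm : Measurable G := by
    refine Measurable.ite ?_ (by fun_prop) measurable_const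
    have m1 : Measurable fun p : ST => ‖p.2‖ := by fun_prop
    have m2 : Measurable fun p : ST => ang (nn p.2) (L.w p.1) := by fun_prop
    exact (measurableSet_le m1 measurable_const).inter (measurableSet_le m2 measurable_const)
  set V : ℝ := CA * (2 * p₀) ^ 3 * (5 * φ₀ * θ₀) ^ 2 with hV
  have hV0 : 0 ≤ V := by positivity
  have key : ∀ p : ST, ∫⁻ v, ENNReal.ofReal (L.fc (p.1, p.2, v) *
      (if (pv (p.1, p.2, v) ≤ 2 * p₀ ∧ ph (p.1, p.2, v) ≤ 5 * φ₀ * θ₀) ∧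
        (rr (p.1, p.2, v) ≤ R ∧ L.ps (p.1, p.2, v) ≤ 5 * θ₀ / 2)
        then 1 / (φ₀ * rr (p.1, p.2, v) ^ 2) else 0)) ≤
      ENNReal.ofReal (c * V) * ENNReal.ofReal (G p) := by
    intro p
    calc _ ≤ ∫⁻ v, ENNReal.ofReal (c * G p) * ENNReal.ofReal
            (if pp v ≤ 2 * p₀ ∧ ang (nn p.2) (relVel v) ≤ 5 * φ₀ * θ₀ then 1 else 0) := by
          refine lintegral_mono fun v => ?_
          rw [← ENNReal.ofReal_mul (mul_nonneg hc0 (hG0 p))]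
          refine ENNReal.ofReal_le_ofReal ?_
          split_ifs with h1 h2 h2
          · have h3 : G p = 1 / ‖p.2‖ ^ 2 := if_pos h1.2
            have h4 : L.fc (p.1, p.2, v) ≤ |A| + 1 := by linarith [h.fA (p.1, p.2, v), le_abs_self A]
            rw [h3, mul_one, hc, div_mul_div_comm, mul_one, mul_one_div]
            exact div_le_div_of_nonneg_right h4 (by positivity)
          · exact absurd h1.1 h2
          · rw [mul_zero, mul_one]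
            exact mul_nonneg hc0 (hG0 p)
          · simp
      _ ≤ ENNReal.ofReal (c * G p) * ENNReal.ofReal V := by
          rw [lintegral_const_mul' _ _ ENNReal.ofReal_ne_top]
          exact mul_le_mul_right (hA _ _ _ (norm_nn_le _) (by linarith) (by positivity)) _
      _ = _ := by
          rw [← ENNReal.ofReal_mul (mul_nonneg hc0 (hG0 p)), ← ENNReal.ofReal_mul (mul_nonneg hc0 hV0)]
          congr 1
          ring
  refine (lintegral_mono key).trans ?_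
  refine (h.time_le (F := fun p => ENNReal.ofReal (c * V) * ENNReal.ofReal (G p))
    (hGm.ennreal_ofReal.const_mul _)
    (c := ENNReal.ofReal (c * V) * ENNReal.ofReal (CY * R * (5 * θ₀ / 2) ^ 2)) fun s _ => ?_).trans
    (le_of_eq ?_)
  · rw [lintegral_const_mul' _ _ ENNReal.ofReal_ne_top]
    exact mul_le_mul_right ((setLIntegral_le_lintegral _ _).trans
      (hY (L.w s) R _ (h.norm_w_lt s).le hR (by positivity))) _
  · rw [← ENNReal.ofReal_mul (mul_nonneg hc0 hV0), ← ENNReal.ofReal_mul h.Tpos.le]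
    congr 1
    rw [hc, hV]
    field_simp
    ring

theorem est_R (A En Tm : ℝ) : ∃ C, 0 < C ∧ ∀ L : LD, L.OK A En Tm → ∀ φ₀ p₀ θ₀ M₀ M₁ : ℝ, 0 < φ₀ →
    φ₀ ≤ 1 / 10 → 1 ≤ p₀ → 0 < θ₀ → 0 ≤ M₀ → 0 ≤ M₁ → L.Meet p₀ θ₀ M₀ M₁ →
    L.I (fun q => if L.Cell p₀ θ₀ q then L.k4 φ₀ q else 0) ≤
      ENNReal.ofReal (C * rB L.T p₀ θ₀ M₀ M₁) := by
  obtain ⟨K, hK, hn⟩ := estR_near A En Tm
  refine ⟨3 * (√(150 * K) + (75 * K ^ 2) ^ (1 / 3 : ℝ)), by positivity,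
    fun L h φ₀ p₀ θ₀ M₀ M₁ h0 h1 hp hθ hM₀ hM₁ hm => ?_⟩
  have hT := h.Tpos
  have hp0 : 0 < p₀ := by linarith
  refine (opt3 (a := K * L.T * p₀ ^ 3 * φ₀ * θ₀ ^ 4) (b := 75 * M₀ / (φ₀ * θ₀ ^ 2))
    (c := 150 * M₁ / (φ₀ * θ₀ ^ 2)) (by positivity) (by positivity) (by positivity)
    fun R hR => ?_).trans (ENNReal.ofReal_le_ofReal ?_)
  · have hps := h.meas_ps
    have hm1 : Measurable fun q : TP => if (pv q ≤ 2 * p₀ ∧ ph q ≤ 5 * φ₀ * θ₀) ∧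
        (rr q ≤ R ∧ L.ps q ≤ 5 * θ₀ / 2) then 1 / (φ₀ * rr q ^ 2) else 0 := by
      refine Measurable.ite ?_ (measurable_const.div ((measurable_rr.pow_const 2).const_mul _))
        measurable_const
      exact ((measurableSet_le measurable_pv measurable_const).inter
        (measurableSet_le measurable_ph measurable_const)).inter
        ((measurableSet_le measurable_rr measurable_const).inter
          (measurableSet_le hps measurable_const))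
    have hc : 0 ≤ 75 * θ₀ ^ 2 / φ₀ := by positivity
    refine le_trans (h.I_mono fun q _ _ => ?_) ((h.I_add (k' := fun q => 75 * θ₀ ^ 2 / φ₀ *
      (if L.Cell p₀ θ₀ q ∧ R * θ₀ ^ 2 < rr q * (L.DD q + θ₀ ^ 2)
        then L.DD q / (rr q * (L.DD q + θ₀ ^ 2)) ^ 2 else 0)) hm1).trans ?_)
    · have hD : 0 ≤ L.DD q := by linarith [h.ps_sq q, sq_nonneg (L.ps q)]
      have n1 : 0 ≤ (if (pv q ≤ 2 * p₀ ∧ ph q ≤ 5 * φ₀ * θ₀) ∧ (rr q ≤ R ∧ L.ps q ≤ 5 * θ₀ / 2)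
          then 1 / (φ₀ * rr q ^ 2) else 0) := by split_ifs <;> positivity
      have n2 : 0 ≤ 75 * θ₀ ^ 2 / φ₀ * (if L.Cell p₀ θ₀ q ∧ R * θ₀ ^ 2 < rr q * (L.DD q + θ₀ ^ 2)
          then L.DD q / (rr q * (L.DD q + θ₀ ^ 2)) ^ 2 else 0) := by split_ifs <;> positivity
      by_cases hC : L.Cell p₀ θ₀ q
      · rw [if_pos hC, LD.k4]
        by_cases hb : ph q ≤ 2 * φ₀ * L.ps q
        · rw [if_pos hb]
          obtain ⟨a1, a2, a3, a4⟩ := estR_pt h0 h1 hθ (h.ps_pos q) (h.ps_sq q) (h.tri q).2.1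
            (h.tri q).2.2 hC.2.2.1 hC.2.2.2 hb
          rcases le_or_gt (rr q) R with hr | hr
          · rw [if_pos ⟨⟨hC.2.1.le, a2⟩, hr, a1⟩]
            linarith
          · obtain ⟨b1, b2⟩ := estR_far h0 hθ hR hr a3 a4
            rw [if_pos (show L.Cell p₀ θ₀ q ∧ _ from ⟨hC, b1⟩)]
            linarith
        · rw [if_neg hb]
          linarith
      · rw [if_neg hC]
        linarith
    · rw [h.I_const_mul hc, add_assoc, ENNReal.ofReal_add (by positivity) (by positivity)]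
      refine add_le_add (hn L h φ₀ p₀ θ₀ R h0 hp hθ hR) ?_
      refine (mul_le_mul_right (h.layer2 hθ hM₀ hM₁ hm (by positivity)) _).trans (le_of_eq ?_)
      rw [← ENNReal.ofReal_mul hc]
      congr 1
      field_simp
      ring
  · have e1 : K * L.T * p₀ ^ 3 * φ₀ * θ₀ ^ 4 * (150 * M₁ / (φ₀ * θ₀ ^ 2)) =
        150 * K * (L.T * p₀ ^ 3 * θ₀ ^ 2 * M₁) := by field_simp
    have e2 : (K * L.T * p₀ ^ 3 * φ₀ * θ₀ ^ 4) ^ 2 * (75 * M₀ / (φ₀ * θ₀ ^ 2)) =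
        φ₀ * (75 * K ^ 2 * (L.T ^ 2 * p₀ ^ 6 * θ₀ ^ 6 * M₀)) := by field_simp
    have e3 : (φ₀ * (75 * K ^ 2 * (L.T ^ 2 * p₀ ^ 6 * θ₀ ^ 6 * M₀))) ^ (1 / 3 : ℝ) ≤
        (75 * K ^ 2) ^ (1 / 3 : ℝ) * (L.T ^ 2 * p₀ ^ 6 * θ₀ ^ 6 * M₀) ^ (1 / 3 : ℝ) := by
      rw [← Real.mul_rpow (by positivity) (by positivity)]
      exact Real.rpow_le_rpow (by positivity)
        (mul_le_of_le_one_left (by positivity) (by linarith)) (by norm_num)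
    rw [e1, e2, Real.sqrt_mul (by positivity), rB]
    have p1 : 0 ≤ √(150 * K) * (L.T ^ 2 * p₀ ^ 6 * θ₀ ^ 6 * M₀) ^ (1 / 3 : ℝ) := by positivity
    have p2 : 0 ≤ (75 * K ^ 2) ^ (1 / 3 : ℝ) * √(L.T * p₀ ^ 3 * θ₀ ^ 2 * M₁) := by positivity
    linarith

end Crest.Agent.R106
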