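import Crest.Agent.R106.EstJ
import Crest.Agent.R106.EstR
import Crest.Agent.R106.EstI
import Crest.Agent.R106.EstII
import Crest.Agent.R106.EstIII

/-!
# Row 106: the total bound

`kt = (k1 + 1[r ≤ T] k3) + k2 + 1[r > T] k3 + k4`, `k4 ≤ ∑_cells 1_Cell k4` (`cover`); add up.

-/

set_option autoImplicit false

noncomputable section

namespace Crest.Agent.R106

open MeasureTheory Set Metric Real Filter Topology
open scoped ContDiff ENNReal RealInnerProductSpace Classical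
open Crest.AnalysisR.VecCalc3 Crest.AnalysisR.PDE.RVM

theorem est_cells (A En Tm : ℝ) (hE : 0 ≤ En) : ∃ C, 0 < C ∧ ∀ L : LD, L.OK A En Tm →
    ∀ (φ₀ η : ℝ) (N : ℕ) (M₀ M₁ : ℕ → ℕ → ℝ), 0 < φ₀ → φ₀ ≤ 1 / 10 → 0 ≤ η → L.Q < 2 ^ N →
    (2 : ℝ) ^ N ≤ 2 * L.Q →
    (∀ j < N, ∀ k < N + 2, 0 ≤ M₀ j k ∧ 0 ≤ M₁ j k ∧ L.Meet (2 ^ j) (2 / 2 ^ k) (M₀ j k) (M₁ j k)) →
    L.I (L.kt φ₀ η) ≤ ENNReal.ofReal (C * totB L.T L.Q φ₀ η N M₀ M₁) := by
  obtain ⟨CJ, hCJ, HJ⟩ := est_J A En Tm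
  obtain ⟨CR, hCR, HR⟩ := est_R A En Tm
  obtain ⟨C1, hC1, H1⟩ := est_I A En Tm hE
  obtain ⟨C2, hC2, H2⟩ := est_II A En Tm hE
  obtain ⟨C3, hC3, H3⟩ := est_III A En Tm hE
  refine ⟨C1 * CJ + C2 + C3 + CR, by positivity,
    fun L h φ₀ η N M₀ M₁ hφ hφ1 hη hN hN2 hM => ?_⟩
  have hT := h.Tpos
  have hQ : 0 < L.Q := by linarith [h.hQ]
  have hLg : 0 < Lg L.Q := lt_of_lt_of_le one_pos (one_le_Lg (by linarith [h.hQ]))
  have jB0 : ∀ j ∈ Finset.range N, ∀ k ∈ Finset.range (N + 2),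
      0 ≤ jB L.T L.Q (2 ^ j) (2 / 2 ^ k) (M₀ j k) (M₁ j k) := fun j hj k hk => by
    obtain ⟨a, b, -⟩ := hM j (Finset.mem_range.1 hj) k (Finset.mem_range.1 hk)
    unfold jB
    positivity
  have rB0 : ∀ j ∈ Finset.range N, ∀ k ∈ Finset.range (N + 2),
      0 ≤ rB L.T (2 ^ j) (2 / 2 ^ k) (M₀ j k) (M₁ j k) := fun j hj k hk => by
    obtain ⟨a, b, -⟩ := hM j (Finset.mem_range.1 hj) k (Finset.mem_range.1 hk)
    unfold rB
    positivity
  set SJ := ∑ j ∈ Finset.range N, ∑ k ∈ Finset.range (N + 2),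
    jB L.T L.Q (2 ^ j) (2 / 2 ^ k) (M₀ j k) (M₁ j k) with hSJ
  set SR := ∑ j ∈ Finset.range N, ∑ k ∈ Finset.range (N + 2),
    rB L.T (2 ^ j) (2 / 2 ^ k) (M₀ j k) (M₁ j k) with hSR
  have SJ0 : 0 ≤ SJ := Finset.sum_nonneg fun j hj => Finset.sum_nonneg (jB0 j hj)
  have SR0 : 0 ≤ SR := Finset.sum_nonneg fun j hj => Finset.sum_nonneg (rB0 j hj)
  have sumE : ∀ (c : ℝ) (g : ℕ → ℕ → ℝ) (F : ℕ → ℕ → ℝ≥0∞), 0 ≤ c →
      (∀ j ∈ Finset.range N, ∀ k ∈ Finset.range (N + 2), 0 ≤ g j k) →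
      (∀ j ∈ Finset.range N, ∀ k ∈ Finset.range (N + 2), F j k ≤ ENNReal.ofReal (c * g j k)) →
      ∑ j ∈ Finset.range N, ∑ k ∈ Finset.range (N + 2), F j k ≤
        ENNReal.ofReal (c * ∑ j ∈ Finset.range N, ∑ k ∈ Finset.range (N + 2), g j k) := by
    intro c g F hc hg hF
    rw [Finset.mul_sum, ENNReal.ofReal_sum_of_nonneg fun j hj =>
      mul_nonneg hc (Finset.sum_nonneg (hg j hj))]
    refine Finset.sum_le_sum fun j hj => ?_
    rw [Finset.mul_sum, ENNReal.ofReal_sum_of_nonneg fun k hk => mul_nonneg hc (hg j hj k hk)]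
    exact Finset.sum_le_sum (hF j hj)
  have b1 : L.I (fun q => L.k1 φ₀ q + if rr q ≤ L.T then L.k3 q else 0) ≤
      ENNReal.ofReal (C1 * (√L.T / φ₀) * (CJ * SJ)) := by
    refine (H1 L h φ₀ N hφ (by linarith) hN).trans ?_
    rw [ENNReal.ofReal_mul (p := C1 * (√L.T / φ₀)) (by positivity)]
    refine mul_le_mul_right (sumE CJ _ _ hCJ.le jB0 fun j hj k hk => ?_) _
    obtain ⟨a, b, c⟩ := hM j (Finset.mem_range.1 hj) k (Finset.mem_range.1 hk)
    refine HJ L h _ _ _ _ (one_le_pow₀ one_le_two) ?_ (by positivity) ?_ a b c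
    · exact (pow_le_pow_right₀ one_le_two (Finset.mem_range.1 hj).le).trans hN2
    · exact div_le_self zero_le_two (one_le_pow₀ one_le_two)
  have k40 : ∀ q, 0 ≤ L.k4 φ₀ q := fun q => by
    unfold LD.k4
    split_ifs
    · positivity
    · exact le_rfl
  have b4 : L.I (L.k4 φ₀) ≤ ENNReal.ofReal (CR * SR) := by
    have mk : ∀ j k : ℕ, Measurable fun q => if L.Cell (2 ^ j) (2 / 2 ^ k) q then L.k4 φ₀ q else 0 :=
      fun j k => Measurable.ite (h.meas_cell _ _) (h.meas_k4 φ₀) measurable_const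
    have n0 : ∀ (j k : ℕ) (q : TP), 0 ≤ if L.Cell (2 ^ j) (2 / 2 ^ k) q then L.k4 φ₀ q else 0 :=
      fun j k q => by
        split_ifs
        · exact k40 q
        · exact le_rfl
    calc L.I (L.k4 φ₀) ≤ L.I (fun q => ∑ j ∈ Finset.range N, ∑ k ∈ Finset.range (N + 2),
          if L.Cell (2 ^ j) (2 / 2 ^ k) q then L.k4 φ₀ q else 0) := by
          refine h.I_mono fun q hq _ => ?_
          obtain ⟨j, hj, k, hk, hc⟩ := h.cover hN hq
          refine le_trans ?_ (Finset.single_le_sum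
            (fun j _ => Finset.sum_nonneg fun k _ => n0 j k q) hj)
          refine le_trans ?_ (Finset.single_le_sum (fun k _ => n0 j k q) hk)
          rw [if_pos hc]
      _ ≤ ∑ j ∈ Finset.range N, ∑ k ∈ Finset.range (N + 2),
          L.I fun q => if L.Cell (2 ^ j) (2 / 2 ^ k) q then L.k4 φ₀ q else 0 :=
          (h.I_sum _ fun j => Finset.measurable_sum _ fun k _ => mk j k).trans
            (Finset.sum_le_sum fun j _ => h.I_sum _ (mk j))
      _ ≤ _ := by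
          refine sumE CR _ _ hCR.le rB0 fun j hj k hk => ?_
          obtain ⟨a, b, c⟩ := hM j (Finset.mem_range.1 hj) k (Finset.mem_range.1 hk)
          exact HR L h φ₀ _ _ _ _ hφ hφ1 (one_le_pow₀ one_le_two) (by positivity) a b c
  have mT : MeasurableSet {q : TP | rr q ≤ L.T} := measurableSet_le measurable_rr measurable_const
  have e : L.kt φ₀ η = fun q => (L.k1 φ₀ q + if rr q ≤ L.T then L.k3 q else 0) +
      (L.k2 η q + ((if rr q ≤ L.T then 0 else L.k3 q) + L.k4 φ₀ q)) := by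
    funext q
    unfold LD.kt
    split_ifs <;> ring
  rw [e]
  refine (h.I_add ((h.meas_k1 φ₀).add (Measurable.ite mT h.meas_k3 measurable_const))).trans ?_
  refine (add_le_add b1 ((h.I_add (h.meas_k2 η)).trans (add_le_add (H2 L h η hη)
    ((h.I_add (Measurable.ite mT measurable_const h.meas_k3)).trans
      (add_le_add (H3 L h) b4))))).trans ?_
  set Y := η * (L.T * L.Q ^ (5 / 3 : ℝ) * Lg L.Q ^ (2 / 3 : ℝ) +
    L.T ^ (3 / 4 : ℝ) * L.Q ^ (3 / 2 : ℝ) * Lg L.Q) with hY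
  have Y0 : 0 ≤ Y := by positivity
  have et : totB L.T L.Q φ₀ η N M₀ M₁ = √L.T * L.Q + Y + (√L.T / φ₀ * SJ + SR) := by
    simp only [totB, hSJ, hSR, hY, Finset.sum_add_distrib, Finset.mul_sum]
  rw [← ENNReal.ofReal_add (by positivity) (by positivity),
    ← ENNReal.ofReal_add (by positivity) (by positivity),
    ← ENNReal.ofReal_add (by positivity) (by positivity), et]
  refine ENNReal.ofReal_le_ofReal ?_
  have p1 : 0 ≤ √L.T * L.Q := by positivity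
  have p2 : 0 ≤ √L.T / φ₀ * SJ := by positivity
  have p3 : 0 < C1 * CJ := by positivity
  generalize √L.T * L.Q = u at *
  have e2 : C1 * (√L.T / φ₀) * (CJ * SJ) = C1 * CJ * (√L.T / φ₀ * SJ) := by ring
  rw [e2]
  generalize √L.T / φ₀ * SJ = v at *
  generalize C1 * CJ = C0 at *
  nlinarith [mul_nonneg p3.le p1, mul_nonneg p3.le Y0, mul_nonneg p3.le SR0,
    mul_nonneg hC2.le p1, mul_nonneg hC2.le p2, mul_nonneg hC2.le SR0,
    mul_nonneg hC3.le Y0, mul_nonneg hC3.le p2, mul_nonneg hC3.le SR0,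
    mul_nonneg hCR.le p1, mul_nonneg hCR.le p2, mul_nonneg hCR.le Y0]

end Crest.Agent.R106
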