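import Crest.Agent.R106.LDB2
import Crest.Agent.R106.PolV
import Crest.Agent.R106.PolY

/-!
# Row 106: the square integral of a cell

Let `a(s, y) = ∫ fc 1_Cell/(p φ) dv` (so `J = ∬ a²/r²`), `D`, `ψ` depend only on `(s, y)`, `L = Lg Q`.
(i) `a ≤ C p₀² θ₀`: split `φ ≤ θ₀` (`volB` with `a = n`) and `φ > θ₀` (`volA` with `a = w`, `θ < 2θ₀`).
(ii) `a² ≤ (∫ fc 1_Cell)(A ∫ 1_Cell/(p²φ²))` and `∫ 1_Cell/φ² ≤ C p₀³ L θ₀²/(D + θ₀²)`: if `ψ ≤ 4θ₀` use `volC`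
(`log (2p₀) ≤ log 2 + log Q`), else `φ ≥ ψ/2` in the cell and `volA`.
For `ρ ≥ Q^{-10}`: on `r D ≤ ρ` use (i), `volYB`, `time_le`: `≤ C T p₀⁴ θ₀² L ρ`.  On `r D > ρ` use (ii):
`a²/r² ≤ C p₀ L θ₀² (∫ fc 1_Cell) D/(ρ u)` with `u = r(D + θ₀²) ∈ (ρ, U]`, `U = max ρ (6 Tm)`; `layer1`,
`log (U/ρ) ≤ C L`.  So `J ≤ C[T p₀⁴θ₀²L ρ + p₀ L θ₀² M₀/ρ² + p₀ L² M₁/ρ]`; conclude with `opt3'` and
`x + y + z ≤ (√x + √y + √z)²`.

-/

set_option autoImplicit false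

noncomputable section

namespace Crest.Agent.R106

open MeasureTheory Set Metric Real Filter Topology
open scoped ContDiff ENNReal RealInnerProductSpace Classical
open Crest.AnalysisR.VecCalc3 Crest.AnalysisR.PDE.RVM

/-- the inner integral of `J` -/
def estj_a (L : LD) (p₀ θ₀ : ℝ) (p : ST) : ℝ≥0∞ :=
  ∫⁻ v, ENNReal.ofReal (L.fc (p.1, p.2, v) *
    if L.Cell p₀ θ₀ (p.1, p.2, v) then 1 / (pp v * ph (p.1, p.2, v) * ‖p.2‖) else 0)

theorem estj_meas_ang (a : R3) : Measurable fun v : R3 => ang a (relVel v) :=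
  (continuous_ang.comp (continuous_const.prodMk contDiff_relVel.continuous)).measurable

theorem estj_meas_pp : Measurable pp := contDiff_pp.continuous.measurable

theorem estj_meas_sec (p : ST) : Measurable fun v : R3 => ((p.1, p.2, v) : TP) :=
  measurable_const.prodMk (measurable_const.prodMk measurable_id)

theorem estj_i : ∃ C, 0 < C ∧ ∀ (L : LD) (A En Tm : ℝ), L.OK A En Tm → ∀ p₀ θ₀ : ℝ, 1 ≤ p₀ →
    0 < θ₀ → ∀ p : ST, estj_a L p₀ θ₀ p ≤ ENNReal.ofReal (C * A * p₀ ^ 2 * θ₀ * ‖p.2‖⁻¹) := by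
  obtain ⟨CA, hCA, hA⟩ := volA
  obtain ⟨CB, hCB, hB⟩ := volB
  refine ⟨8 * CB + 32 * CA, by positivity, fun L A En Tm h p₀ θ₀ hp hθ p => ?_⟩
  have hA0 := h.A_nonneg
  have hp0 : 0 < p₀ := by linarith
  obtain ⟨c, hc⟩ : ∃ c : ℝ, c = A * p₀⁻¹ * ‖p.2‖⁻¹ := ⟨_, rfl⟩
  have hc0 : 0 ≤ c := by rw [hc]; positivity
  have hm1 : Measurable fun v : R3 => ENNReal.ofReal
      (if pp v ≤ 2 * p₀ ∧ ang (nn p.2) (relVel v) ≤ θ₀ then 1 / ang (nn p.2) (relVel v) else 0) := by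
    refine ENNReal.measurable_ofReal.comp (Measurable.ite ?_ ?_ measurable_const)
    · exact (measurableSet_le estj_meas_pp measurable_const).inter
        (measurableSet_le (estj_meas_ang _) measurable_const)
    · exact measurable_const.div (estj_meas_ang _)
  have key : ∀ v : R3, ENNReal.ofReal (L.fc (p.1, p.2, v) *
      if L.Cell p₀ θ₀ (p.1, p.2, v) then 1 / (pp v * ph (p.1, p.2, v) * ‖p.2‖) else 0) ≤
      ENNReal.ofReal c * (ENNReal.ofReal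
        (if pp v ≤ 2 * p₀ ∧ ang (nn p.2) (relVel v) ≤ θ₀ then 1 / ang (nn p.2) (relVel v) else 0) +
        ENNReal.ofReal θ₀⁻¹ * ENNReal.ofReal
          (if pp v ≤ 2 * p₀ ∧ ang (L.w p.1) (relVel v) ≤ 2 * θ₀ then 1 else 0)) := by
    intro v
    by_cases hcell : L.Cell p₀ θ₀ (p.1, p.2, v)
    · rw [if_pos hcell]
      obtain ⟨h1, h2, -, h4⟩ := hcell
      have h1' : p₀ ≤ pp v := h1
      have h2' : pp v ≤ 2 * p₀ := le_of_lt h2
      have h4' : ang (L.w p.1) (relVel v) ≤ 2 * θ₀ := le_of_lt h4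
      have hφ : 0 < ang (nn p.2) (relVel v) := ph_pos (p.1, p.2, v)
      have hb : L.fc (p.1, p.2, v) * (1 / (pp v * ph (p.1, p.2, v) * ‖p.2‖)) ≤
          c * (ang (nn p.2) (relVel v))⁻¹ := by
        have e : (1 / (pp v * ph (p.1, p.2, v) * ‖p.2‖)) =
            (pp v)⁻¹ * ‖p.2‖⁻¹ * (ang (nn p.2) (relVel v))⁻¹ := by
          show 1 / (pp v * ang (nn p.2) (relVel v) * ‖p.2‖) = _
          rw [one_div, mul_inv, mul_inv]; ring
        rw [e, hc]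
        have : (pp v)⁻¹ ≤ p₀⁻¹ := inv_anti₀ hp0 h1'
        have hf := h.fA (p.1, p.2, v)
        have hf0 := h.f0 (p.1, p.2, v)
        have hpp := pp_pos v
        calc L.fc (p.1, p.2, v) * ((pp v)⁻¹ * ‖p.2‖⁻¹ * (ang (nn p.2) (relVel v))⁻¹)
            ≤ A * (p₀⁻¹ * ‖p.2‖⁻¹ * (ang (nn p.2) (relVel v))⁻¹) := by gcongr
          _ = _ := by ring
      refine (ENNReal.ofReal_le_ofReal hb).trans ?_
      rw [ENNReal.ofReal_mul hc0]
      refine mul_le_mul_right ?_ _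
      by_cases hle : ang (nn p.2) (relVel v) ≤ θ₀
      · rw [if_pos ⟨h2', hle⟩, one_div]
        exact le_self_add
      · rw [if_pos (show pp v ≤ 2 * p₀ ∧ ang (L.w p.1) (relVel v) ≤ 2 * θ₀ from ⟨h2', h4'⟩),
          ENNReal.ofReal_one, mul_one]
        refine le_add_left (ENNReal.ofReal_le_ofReal (inv_anti₀ hθ (le_of_lt (not_le.1 hle))))
    · rw [if_neg hcell, mul_zero, ENNReal.ofReal_zero]
      exact zero_le
  have e1 := hB (nn p.2) (2 * p₀) θ₀ (norm_nn_le _) (by linarith) hθ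
  have e2 := hA (L.w p.1) (2 * p₀) (2 * θ₀) (h.norm_w_lt _).le (by linarith) (by linarith)
  refine (lintegral_mono key).trans ?_
  rw [lintegral_const_mul' _ _ ENNReal.ofReal_ne_top, lintegral_add_left hm1,
    lintegral_const_mul' _ _ ENNReal.ofReal_ne_top]
  refine (mul_le_mul_right (add_le_add e1 (mul_le_mul_right e2 _)) _).trans ?_
  rw [← ENNReal.ofReal_mul (by positivity), ← ENNReal.ofReal_add (by positivity) (by positivity),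
    ← ENNReal.ofReal_mul hc0]
  refine ENNReal.ofReal_le_ofReal (le_of_eq ?_)
  rw [hc]
  field_simp
  ring

theorem estj_ii : ∃ C, 0 < C ∧ ∀ (L : LD) (A En Tm : ℝ), L.OK A En Tm → ∀ p₀ θ₀ : ℝ, 1 ≤ p₀ →
    p₀ ≤ 2 * L.Q → 0 < θ₀ → ∀ p : ST,
    ∫⁻ v, ENNReal.ofReal (if L.Cell p₀ θ₀ (p.1, p.2, v) then 1 / ph (p.1, p.2, v) ^ 2 else 0) ≤
      ENNReal.ofReal (C * p₀ ^ 3 * Lg L.Q * θ₀ ^ 2 / (gap (nn p.2) (L.w p.1) + θ₀ ^ 2)) := by
  obtain ⟨CA, hCA, hA⟩ := volA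
  obtain ⟨CC, hCC, hC⟩ := volC
  refine ⟨216 * CC + 72 * CA, by positivity, fun L A En Tm h p₀ θ₀ hp hpQ hθ p => ?_⟩
  have hp0 : 0 < p₀ := by linarith
  have hQ := h.hQ
  have hL := one_le_Lg (show 1 ≤ L.Q by linarith)
  obtain ⟨D, hD⟩ : ∃ D : ℝ, D = gap (nn p.2) (L.w p.1) := ⟨_, rfl⟩
  obtain ⟨ψ, hψ⟩ : ∃ ψ : ℝ, ψ = ang (nn p.2) (L.w p.1) := ⟨_, rfl⟩
  have hψ0 : 0 < ψ := by rw [hψ]; exact h.ps_pos (p.1, p.2, 0)
  have hsq : ψ ^ 2 = 2 * D := by rw [hψ, hD]; exact h.ps_sq (p.1, p.2, 0)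
  have hD0 : 0 < D := by nlinarith
  rw [← hD]
  have hden : 0 < D + θ₀ ^ 2 := by positivity
  by_cases hcase : ψ ≤ 4 * θ₀
  · have e1 := hC (nn p.2) (2 * p₀) (norm_nn_le _) (by linarith)
    refine le_trans (lintegral_mono fun v => ?_) (e1.trans (ENNReal.ofReal_le_ofReal ?_))
    · refine ENNReal.ofReal_le_ofReal ?_
      by_cases hcell : L.Cell p₀ θ₀ (p.1, p.2, v)
      · rw [if_pos hcell, if_pos (show pp v ≤ 2 * p₀ from le_of_lt hcell.2.1)]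
        exact le_rfl
      · rw [if_neg hcell]
        split_ifs
        · positivity
        · exact le_rfl
    · have hlog : 1 + Real.log (2 * p₀) ≤ 3 * Lg L.Q := by
        have h1 : Real.log (2 * p₀) ≤ Real.log (2 * 2 * L.Q) :=
          Real.log_le_log (by positivity) (by linarith)
        rw [Real.log_mul (x := 2 * 2) (by norm_num) (by linarith),
          Real.log_mul (x := 2) (y := 2) (by norm_num) (by norm_num)] at h1
        have h2 : Real.log 2 ≤ 1 := by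
          have := Real.log_le_sub_one_of_pos (show (0 : ℝ) < 2 by norm_num); linarith
        have h3 : 0 ≤ Real.log L.Q := Real.log_nonneg (by linarith)
        unfold Lg; linarith
      have hD9 : D + θ₀ ^ 2 ≤ 9 * θ₀ ^ 2 := by nlinarith
      rw [le_div_iff₀ hden]
      have hlg0 : 0 ≤ 1 + Real.log (2 * p₀) := by
        have := Real.log_nonneg (show 1 ≤ 2 * p₀ by linarith); linarith
      calc CC * (2 * p₀) ^ 3 * (1 + Real.log (2 * p₀)) * (D + θ₀ ^ 2)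
          ≤ CC * (2 * p₀) ^ 3 * (3 * Lg L.Q) * (9 * θ₀ ^ 2) := by gcongr
        _ = (216 * CC) * p₀ ^ 3 * Lg L.Q * θ₀ ^ 2 := by ring
        _ ≤ _ := by gcongr; linarith
  · push Not at hcase
    have e2 := hA (L.w p.1) (2 * p₀) (2 * θ₀) (h.norm_w_lt _).le (by linarith) (by linarith)
    have key : ∀ v : R3, ENNReal.ofReal
        (if L.Cell p₀ θ₀ (p.1, p.2, v) then 1 / ph (p.1, p.2, v) ^ 2 else 0) ≤
        ENNReal.ofReal (2 / D) * ENNReal.ofReal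
          (if pp v ≤ 2 * p₀ ∧ ang (L.w p.1) (relVel v) ≤ 2 * θ₀ then 1 else 0) := by
      intro v
      by_cases hcell : L.Cell p₀ θ₀ (p.1, p.2, v)
      · rw [if_pos hcell, if_pos (show pp v ≤ 2 * p₀ ∧ ang (L.w p.1) (relVel v) ≤ 2 * θ₀ from
          ⟨le_of_lt hcell.2.1, le_of_lt hcell.2.2.2⟩), ENNReal.ofReal_one, mul_one]
        refine ENNReal.ofReal_le_ofReal ?_
        have ht := (h.tri (p.1, p.2, v)).2.1
        have hps : L.ps (p.1, p.2, v) = ψ := hψ.symm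
        have hth := hcell.2.2.2
        have hφ : ψ / 2 ≤ ph (p.1, p.2, v) := by linarith
        have hφ2 : (ψ / 2) ^ 2 ≤ ph (p.1, p.2, v) ^ 2 := by gcongr
        have hφ0 := ph_pos (p.1, p.2, v)
        rw [div_le_div_iff₀ (by positivity) hD0]
        nlinarith
      · rw [if_neg hcell, ENNReal.ofReal_zero]
        exact zero_le
    refine (lintegral_mono key).trans ?_
    rw [lintegral_const_mul' _ _ ENNReal.ofReal_ne_top]
    refine (mul_le_mul_right e2 _).trans ?_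
    rw [← ENNReal.ofReal_mul (by positivity)]
    refine ENNReal.ofReal_le_ofReal ?_
    have hD8 : 8 * θ₀ ^ 2 ≤ D := by nlinarith
    rw [le_div_iff₀ hden]
    calc 2 / D * (CA * (2 * p₀) ^ 3 * (2 * θ₀) ^ 2) * (D + θ₀ ^ 2)
        ≤ 2 / D * (CA * (2 * p₀) ^ 3 * (2 * θ₀) ^ 2) * (9 / 8 * D) := by gcongr; linarith
      _ = (72 * CA) * p₀ ^ 3 * 1 * θ₀ ^ 2 := by field_simp; ring
      _ ≤ _ := by gcongr; linarith

theorem estj_iii {L : LD} {A En Tm : ℝ} (h : L.OK A En Tm) {p₀ : ℝ} (θ₀ : ℝ) (hp : 1 ≤ p₀)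
    (p : ST) : estj_a L p₀ θ₀ p ^ 2 ≤
      (∫⁻ v, ENNReal.ofReal (L.fc (p.1, p.2, v) * if L.Cell p₀ θ₀ (p.1, p.2, v) then 1 else 0)) *
      (ENNReal.ofReal (A * (p₀⁻¹ * ‖p.2‖⁻¹) ^ 2) *
      ∫⁻ v, ENNReal.ofReal (if L.Cell p₀ θ₀ (p.1, p.2, v) then 1 / ph (p.1, p.2, v) ^ 2 else 0)) := by
  have hA0 := h.A_nonneg
  have hp0 : 0 < p₀ := by linarith
  have hmc : MeasurableSet {v : R3 | L.Cell p₀ θ₀ (p.1, p.2, v)} :=
    (h.meas_cell p₀ θ₀).preimage (estj_meas_sec p)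
  obtain ⟨f, hf⟩ : ∃ f : R3 → ℝ≥0∞, f = fun v => ENNReal.ofReal
    (√(L.fc (p.1, p.2, v)) * if L.Cell p₀ θ₀ (p.1, p.2, v) then 1 else 0) := ⟨_, rfl⟩
  obtain ⟨g, hg⟩ : ∃ g : R3 → ℝ≥0∞, g = fun v => ENNReal.ofReal
    (√A * (p₀⁻¹ * ‖p.2‖⁻¹) * if L.Cell p₀ θ₀ (p.1, p.2, v) then 1 / ph (p.1, p.2, v) else 0) :=
    ⟨_, rfl⟩
  have hfm : Measurable f := by
    rw [hf]
    exact ENNReal.measurable_ofReal.comp (((h.mf.comp (estj_meas_sec p)).sqrt).mul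
      (Measurable.ite hmc measurable_const measurable_const))
  have hgm : Measurable g := by
    rw [hg]
    exact ENNReal.measurable_ofReal.comp (measurable_const.mul
      (Measurable.ite hmc (measurable_const.div (measurable_ph.comp (estj_meas_sec p)))
        measurable_const))
  have h1 : estj_a L p₀ θ₀ p ≤ ∫⁻ v, f v * g v := by
    refine lintegral_mono fun v => ?_
    rw [hf, hg]
    by_cases hcell : L.Cell p₀ θ₀ (p.1, p.2, v)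
    · simp only [if_pos hcell]
      rw [← ENNReal.ofReal_mul (by positivity)]
      refine ENNReal.ofReal_le_ofReal ?_
      have hφ := ph_pos (p.1, p.2, v)
      have hpp := pp_pos v
      have h1' : p₀ ≤ pp v := hcell.1
      have hi : (pp v)⁻¹ ≤ p₀⁻¹ := inv_anti₀ hp0 h1'
      have hf0 := h.f0 (p.1, p.2, v)
      have hs : √(L.fc (p.1, p.2, v)) ≤ √A := Real.sqrt_le_sqrt (h.fA _)
      calc L.fc (p.1, p.2, v) * (1 / (pp v * ph (p.1, p.2, v) * ‖p.2‖))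
          = √(L.fc (p.1, p.2, v)) * (√(L.fc (p.1, p.2, v)) * ((pp v)⁻¹ * ‖p.2‖⁻¹) *
              (ph (p.1, p.2, v))⁻¹) := by
            rw [one_div, mul_inv, mul_inv]
            nth_rewrite 1 [← Real.mul_self_sqrt hf0]
            ring
        _ ≤ √(L.fc (p.1, p.2, v)) * (√A * (p₀⁻¹ * ‖p.2‖⁻¹) * (ph (p.1, p.2, v))⁻¹) := by gcongr
        _ = _ := by rw [one_div, mul_one]
    · simp only [if_neg hcell, mul_zero, ENNReal.ofReal_zero]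
      exact zero_le
  have h2 := lintegral_cs volume hfm.aemeasurable hgm.aemeasurable
  have e1 : ∫⁻ v, f v ^ 2 =
      ∫⁻ v, ENNReal.ofReal (L.fc (p.1, p.2, v) * if L.Cell p₀ θ₀ (p.1, p.2, v) then 1 else 0) := by
    refine lintegral_congr fun v => ?_
    rw [hf]
    by_cases hcell : L.Cell p₀ θ₀ (p.1, p.2, v)
    · simp only [if_pos hcell, mul_one]
      rw [← ENNReal.ofReal_pow (Real.sqrt_nonneg _), Real.sq_sqrt (h.f0 _)]
    · simp [if_neg hcell]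
  have e2 : ∫⁻ v, g v ^ 2 = ENNReal.ofReal (A * (p₀⁻¹ * ‖p.2‖⁻¹) ^ 2) *
      ∫⁻ v, ENNReal.ofReal (if L.Cell p₀ θ₀ (p.1, p.2, v) then 1 / ph (p.1, p.2, v) ^ 2 else 0) := by
    rw [← lintegral_const_mul' _ _ ENNReal.ofReal_ne_top]
    refine lintegral_congr fun v => ?_
    rw [hg]
    by_cases hcell : L.Cell p₀ θ₀ (p.1, p.2, v)
    · simp only [if_pos hcell]
      have hφ := ph_pos (p.1, p.2, v)
      rw [← ENNReal.ofReal_pow (by positivity), ← ENNReal.ofReal_mul (by positivity)]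
      congr 1
      rw [mul_pow, mul_pow, Real.sq_sqrt hA0, div_pow, one_pow]
    · simp [if_neg hcell]
  rw [← e1, ← e2]
  calc estj_a L p₀ θ₀ p ^ 2
      ≤ ((∫⁻ v, f v ^ 2) ^ (1 / 2 : ℝ) * (∫⁻ v, g v ^ 2) ^ (1 / 2 : ℝ)) ^ 2 := by
        gcongr; exact h1.trans h2
    _ = _ := by
        rw [mul_pow, ← ENNReal.rpow_natCast, ← ENNReal.rpow_natCast (_ ^ (1 / 2 : ℝ)),
          ← ENNReal.rpow_mul, ← ENNReal.rpow_mul]
        norm_num

/-- the three-term bound -/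
theorem estj_main (A En Tm : ℝ) : ∃ K, 0 < K ∧ ∀ L : LD, L.OK A En Tm → ∀ p₀ θ₀ M₀ M₁ : ℝ,
    1 ≤ p₀ → p₀ ≤ 2 * L.Q → 0 < θ₀ → θ₀ ≤ 2 → 0 ≤ M₀ → 0 ≤ M₁ → L.Meet p₀ θ₀ M₀ M₁ →
    ∀ ρ : ℝ, 1 / L.Q ^ 10 ≤ ρ → L.J p₀ θ₀ ≤ ENNReal.ofReal
      (K * (L.T * p₀ ^ 4 * θ₀ ^ 2 * Lg L.Q) * ρ + K * (p₀ * Lg L.Q * θ₀ ^ 2 * M₀) / ρ ^ 2 +
        K * (p₀ * Lg L.Q ^ 2 * M₁) / ρ) := by
  obtain ⟨C₁, hC₁, h₁⟩ := estj_i
  obtain ⟨C₂, hC₂, h₂⟩ := estj_ii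
  obtain ⟨CY, hCY, hY⟩ := volYB
  obtain ⟨C₃, hC₃⟩ : ∃ C₃ : ℝ, C₃ = 11 + Real.log (max 1 (6 * Tm)) := ⟨_, rfl⟩
  have hlm : 0 ≤ Real.log (max 1 (6 * Tm)) := Real.log_nonneg (le_max_left _ _)
  have hC₃1 : 1 ≤ C₃ := by rw [hC₃]; linarith
  refine ⟨1 + 2 * CY * (C₁ * A) ^ 2 + |A| * C₂ * C₃, by positivity,
    fun L h p₀ θ₀ M₀ M₁ hp hpQ hθ hθ2 hM₀ hM₁ hm ρ hρ => ?_⟩
  have hA0 := h.A_nonneg
  rw [abs_of_nonneg hA0]
  have hp0 : 0 < p₀ := by linarith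
  have hQ := h.hQ
  have hQ0 : 0 < L.Q := by linarith
  have hL := one_le_Lg (show 1 ≤ L.Q by linarith)
  have hT := h.Tpos
  have hρ0 : 0 < ρ := lt_of_lt_of_le (by positivity) hρ
  obtain ⟨U, hU⟩ : ∃ U : ℝ, U = max ρ (6 * Tm) := ⟨_, rfl⟩
  have hρU : ρ ≤ U := hU ▸ le_max_left _ _
  obtain ⟨F, hF⟩ : ∃ F : ST → ℝ≥0∞, F = fun p => ENNReal.ofReal ((C₁ * A * p₀ ^ 2 * θ₀) ^ 2) *
      ENNReal.ofReal (if ‖p.2‖ * ang (nn p.2) (L.w p.1) ^ 2 ≤ 2 * ρ then 1 / ‖p.2‖ ^ 2 else 0) :=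
    ⟨_, rfl⟩
  obtain ⟨k, hk⟩ : ∃ k : TP → ℝ, k = fun q => if L.Cell p₀ θ₀ q ∧ ρ < rr q * (L.DD q + θ₀ ^ 2) ∧
      rr q * (L.DD q + θ₀ ^ 2) ≤ U then L.DD q / (rr q * (L.DD q + θ₀ ^ 2)) else 0 := ⟨_, rfl⟩
  obtain ⟨κ, hκ⟩ : ∃ κ : ℝ, κ = A * C₂ * p₀ * Lg L.Q * θ₀ ^ 2 / ρ := ⟨_, rfl⟩
  have hκ0 : 0 ≤ κ := by rw [hκ]; positivity
  have hFm : Measurable F := by
    rw [hF]
    have hang : Measurable fun p : ST => ang (nn p.2) (L.w p.1) :=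
      continuous_ang.measurable.comp
        ((measurable_nn.comp measurable_snd).prodMk (h.mw.comp measurable_fst))
    refine measurable_const.mul (ENNReal.measurable_ofReal.comp (Measurable.ite ?_ ?_
      measurable_const))
    · exact measurableSet_le (measurable_snd.norm.mul (hang.pow_const 2)) measurable_const
    · exact measurable_const.div (measurable_snd.norm.pow_const 2)
  have hum : Measurable fun q : TP => rr q * (L.DD q + θ₀ ^ 2) :=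
    measurable_rr.mul (h.meas_DD.add measurable_const)
  have hkm : Measurable k := by
    rw [hk]
    refine Measurable.ite ?_ (h.meas_DD.div hum) measurable_const
    exact (h.meas_cell p₀ θ₀).inter ((measurableSet_lt measurable_const hum).inter
      (measurableSet_le hum measurable_const))
  have key : ∀ p : ST, estj_a L p₀ θ₀ p ^ 2 ≤ L.dom.indicator F p +
      ENNReal.ofReal κ * ∫⁻ v, ENNReal.ofReal (L.fc (p.1, p.2, v) * k (p.1, p.2, v)) := by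
    intro p
    by_cases hdom : p ∈ L.dom
    · rw [indicator_of_mem hdom]
      obtain ⟨D, hD⟩ : ∃ D : ℝ, D = gap (nn p.2) (L.w p.1) := ⟨_, rfl⟩
      have hsq : ang (nn p.2) (L.w p.1) ^ 2 = 2 * D := by rw [hD]; exact h.ps_sq (p.1, p.2, 0)
      by_cases hcase : ‖p.2‖ * D ≤ ρ
      · refine le_add_right ?_
        rw [hF]
        simp only
        rw [if_pos (by rw [hsq]; linarith), ← ENNReal.ofReal_mul (by positivity)]
        calc estj_a L p₀ θ₀ p ^ 2 ≤ ENNReal.ofReal (C₁ * A * p₀ ^ 2 * θ₀ * ‖p.2‖⁻¹) ^ 2 := by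
              gcongr; exact h₁ L A En Tm h p₀ θ₀ hp hθ p
          _ = _ := by
              rw [← ENNReal.ofReal_pow (by positivity), mul_pow, one_div, inv_pow]
      · push Not at hcase
        refine le_add_left ?_
        have hD2 : D ≤ 2 := by rw [hD]; exact gap_le_two (norm_nn_le _) (h.norm_w_lt _).le
        have hD0 : 0 ≤ D := by rw [hD]; exact gap_nonneg (norm_nn_le _) (h.norm_w_lt _).le
        have hr0 : 0 < ‖p.2‖ := by
          rcases (norm_nonneg p.2).eq_or_lt with h0 | h0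
          · rw [← h0, zero_mul] at hcase; linarith
          · exact h0
        have hrT : ‖p.2‖ ≤ Tm := (hdom.2.trans_le (hdom.1.2.trans h.sm)).le
        have hu1 : ρ < ‖p.2‖ * (D + θ₀ ^ 2) := by nlinarith [sq_nonneg θ₀]
        have hu2 : ‖p.2‖ * (D + θ₀ ^ 2) ≤ U := by
          refine le_trans ?_ (hU ▸ le_max_right _ _)
          have : D + θ₀ ^ 2 ≤ 6 := by nlinarith
          nlinarith
        have hden : 0 < D + θ₀ ^ 2 := by positivity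
        have e1 : ∫⁻ v, ENNReal.ofReal (L.fc (p.1, p.2, v) * k (p.1, p.2, v)) =
            ENNReal.ofReal (D / (‖p.2‖ * (D + θ₀ ^ 2))) * ∫⁻ v, ENNReal.ofReal
              (L.fc (p.1, p.2, v) * if L.Cell p₀ θ₀ (p.1, p.2, v) then 1 else 0) := by
          rw [← lintegral_const_mul' _ _ ENNReal.ofReal_ne_top]
          refine lintegral_congr fun v => ?_
          rw [← ENNReal.ofReal_mul (by positivity), hk]
          have hDD : L.DD (p.1, p.2, v) = D := hD.symm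
          have hrr : rr (p.1, p.2, v) = ‖p.2‖ := rfl
          simp only [hDD, hrr]
          by_cases hcell : L.Cell p₀ θ₀ (p.1, p.2, v)
          · rw [if_pos ⟨hcell, hu1, hu2⟩, if_pos hcell]
            congr 1; ring
          · rw [if_neg (fun hh => hcell hh.1), if_neg hcell]
            simp
        have e2 := h₂ L A En Tm h p₀ θ₀ hp hpQ hθ p
        rw [← hD] at e2
        refine (estj_iii h θ₀ hp p).trans ?_
        rw [e1, ← mul_assoc (ENNReal.ofReal κ), mul_comm]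
        refine mul_le_mul_left ?_ _
        refine (mul_le_mul_right e2 _).trans ?_
        rw [← ENNReal.ofReal_mul (by positivity), ← ENNReal.ofReal_mul hκ0]
        refine ENNReal.ofReal_le_ofReal ?_
        have hinv : ‖p.2‖⁻¹ ≤ D / ρ := by
          rw [inv_eq_one_div, div_le_div_iff₀ hr0 hρ0]; linarith
        calc A * (p₀⁻¹ * ‖p.2‖⁻¹) ^ 2 * (C₂ * p₀ ^ 3 * Lg L.Q * θ₀ ^ 2 / (D + θ₀ ^ 2))
            = A * C₂ * p₀ * Lg L.Q * θ₀ ^ 2 / (‖p.2‖ * (D + θ₀ ^ 2)) * ‖p.2‖⁻¹ := by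
              field_simp
          _ ≤ A * C₂ * p₀ * Lg L.Q * θ₀ ^ 2 / (‖p.2‖ * (D + θ₀ ^ 2)) * (D / ρ) := by gcongr
          _ = _ := by rw [hκ]; field_simp
    · have : estj_a L p₀ θ₀ p = 0 := by
        unfold estj_a
        refine (lintegral_congr fun v => ?_).trans lintegral_zero
        have h0 : L.fc (p.1, p.2, v) = 0 := by
          by_contra hne
          exact hdom (h.supp _ hne).1
        rw [h0, zero_mul, ENNReal.ofReal_zero]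
      rw [this, zero_pow two_ne_zero]
      exact zero_le
  have hJ : L.J p₀ θ₀ ≤ (∫⁻ p in L.dom, F p) + ENNReal.ofReal κ * L.I k := by
    refine (lintegral_mono key).trans (le_of_eq ?_)
    rw [lintegral_add_left (hFm.indicator L.measurableSet_dom),
      lintegral_indicator L.measurableSet_dom, lintegral_const_mul' _ _ ENNReal.ofReal_ne_top]
    congr 2
    exact (lintegral_TP (F := fun q => ENNReal.ofReal (L.fc q * k q))
      (ENNReal.measurable_ofReal.comp (h.mf.mul hkm))).symm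
  have hI : ∫⁻ p in L.dom, F p ≤ ENNReal.ofReal L.T *
      ENNReal.ofReal ((C₁ * A * p₀ ^ 2 * θ₀) ^ 2 * (CY * (2 * ρ) * Lg L.Q)) := by
    refine h.time_le hFm fun s _ => ?_
    refine (setLIntegral_le_lintegral _ _).trans ?_
    rw [hF]
    simp only
    rw [lintegral_const_mul' _ _ ENNReal.ofReal_ne_top, ENNReal.ofReal_mul (by positivity)]
    exact mul_le_mul_right (hY (L.w s) L.Q (2 * ρ) (by linarith) (h.hw s) (by positivity)) _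
  have hII := h.layer1 hθ hM₀ hM₁ hm hρ0 hρU
  rw [← hk] at hII
  have hlogU : 1 + Real.log (U / ρ) ≤ C₃ * Lg L.Q := by
    have hQ10 : 1 ≤ L.Q ^ 10 := one_le_pow₀ (by linarith)
    have hm1 : (1 : ℝ) ≤ max 1 (6 * Tm) := le_max_left _ _
    have hρ' : 1 ≤ ρ * L.Q ^ 10 := by rwa [div_le_iff₀ (by positivity)] at hρ
    have h1 : U / ρ ≤ max 1 (6 * Tm) * L.Q ^ 10 := by
      rw [div_le_iff₀ hρ0, hU]
      refine max_le ?_ ?_
      · have : 1 ≤ max 1 (6 * Tm) * L.Q ^ 10 := one_le_mul_of_one_le_of_one_le hm1 hQ10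
        nlinarith
      · have h6 : 6 * Tm ≤ max 1 (6 * Tm) := le_max_right _ _
        nlinarith
    have h2 := Real.log_le_log (div_pos (hρ0.trans_le hρU) hρ0) h1
    rw [Real.log_mul (by positivity) (by positivity), Real.log_pow] at h2
    have h3 : 0 ≤ Real.log L.Q := Real.log_nonneg (by linarith)
    rw [hC₃]; unfold Lg
    push_cast at h2
    nlinarith
  have hlog0 : 0 ≤ 1 + Real.log (U / ρ) := by
    have := Real.log_nonneg (show 1 ≤ U / ρ by rwa [le_div_iff₀ hρ0, one_mul]); linarith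
  refine hJ.trans ((add_le_add hI (mul_le_mul_right hII _)).trans ?_)
  rw [← ENNReal.ofReal_mul hT.le, ← ENNReal.ofReal_mul hκ0,
    ← ENNReal.ofReal_add (by positivity) (by positivity)]
  refine ENNReal.ofReal_le_ofReal ?_
  have hAC : 0 ≤ A * C₂ := by positivity
  have hb : A * C₂ ≤ A * C₂ * C₃ := le_mul_of_one_le_right hAC hC₃1
  have hc : 0 ≤ 2 * CY * (C₁ * A) ^ 2 := by positivity
  have t1 : L.T * ((C₁ * A * p₀ ^ 2 * θ₀) ^ 2 * (CY * (2 * ρ) * Lg L.Q)) ≤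
      (1 + 2 * CY * (C₁ * A) ^ 2 + A * C₂ * C₃) * (L.T * p₀ ^ 4 * θ₀ ^ 2 * Lg L.Q) * ρ := by
    calc _ = (2 * CY * (C₁ * A) ^ 2) * (L.T * p₀ ^ 4 * θ₀ ^ 2 * Lg L.Q) * ρ := by ring
      _ ≤ _ := by gcongr; linarith
  have t2 : κ * (M₀ / ρ) ≤
      (1 + 2 * CY * (C₁ * A) ^ 2 + A * C₂ * C₃) * (p₀ * Lg L.Q * θ₀ ^ 2 * M₀) / ρ ^ 2 := by
    calc _ = (A * C₂) * (p₀ * Lg L.Q * θ₀ ^ 2 * M₀) / ρ ^ 2 := by rw [hκ]; field_simp
      _ ≤ _ := by gcongr; linarith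
  have t3 : κ * (M₁ / θ₀ ^ 2 * (1 + Real.log (U / ρ))) ≤
      (1 + 2 * CY * (C₁ * A) ^ 2 + A * C₂ * C₃) * (p₀ * Lg L.Q ^ 2 * M₁) / ρ := by
    calc _ ≤ κ * (M₁ / θ₀ ^ 2 * (C₃ * Lg L.Q)) := by gcongr
      _ = (A * C₂ * C₃) * (p₀ * Lg L.Q ^ 2 * M₁) / ρ := by rw [hκ]; field_simp
      _ ≤ _ := by gcongr; linarith
  rw [mul_add κ]
  linarith

theorem est_J (A En Tm : ℝ) : ∃ C, 0 < C ∧ ∀ L : LD, L.OK A En Tm → ∀ p₀ θ₀ M₀ M₁ : ℝ, 1 ≤ p₀ →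
    p₀ ≤ 2 * L.Q → 0 < θ₀ → θ₀ ≤ 2 → 0 ≤ M₀ → 0 ≤ M₁ → L.Meet p₀ θ₀ M₀ M₁ →
    L.J p₀ θ₀ ^ (1 / 2 : ℝ) ≤ ENNReal.ofReal (C * jB L.T L.Q p₀ θ₀ M₀ M₁) := by
  obtain ⟨K, hK, hmain⟩ := estj_main A En Tm
  refine ⟨√(3 * K), by positivity, fun L h p₀ θ₀ M₀ M₁ hp hpQ hθ hθ2 hM₀ hM₁ hm => ?_⟩
  have hp0 : 0 < p₀ := by linarith
  have hQ := h.hQ
  have hQ0 : 0 < L.Q := by linarith
  have hL := one_le_Lg (show 1 ≤ L.Q by linarith)
  have hT := h.Tpos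
  have h1 := opt3' (by positivity) (by positivity) (by positivity) (by positivity)
    (hmain L h p₀ θ₀ M₀ M₁ hp hpQ hθ hθ2 hM₀ hM₁ hm)
  obtain ⟨X, hX⟩ : ∃ X : ℝ, X = L.T * p₀ ^ 5 * θ₀ ^ 2 * Lg L.Q ^ 3 * M₁ := ⟨_, rfl⟩
  obtain ⟨Y, hY⟩ : ∃ Y : ℝ, Y = L.T ^ 2 * p₀ ^ 9 * θ₀ ^ 6 * Lg L.Q ^ 3 * M₀ := ⟨_, rfl⟩
  obtain ⟨Z, hZ⟩ : ∃ Z : ℝ, Z = L.T * p₀ ^ 4 * θ₀ ^ 2 * Lg L.Q / L.Q ^ 10 := ⟨_, rfl⟩
  have hX0 : 0 ≤ X := by rw [hX]; positivity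
  have hY0 : 0 ≤ Y := by rw [hY]; positivity
  have hZ0 : 0 ≤ Z := by rw [hZ]; positivity
  have e1 : √(K * (L.T * p₀ ^ 4 * θ₀ ^ 2 * Lg L.Q) * (K * (p₀ * Lg L.Q ^ 2 * M₁))) =
      K * (X ^ (1 / 4 : ℝ)) ^ 2 := by
    rw [show K * (L.T * p₀ ^ 4 * θ₀ ^ 2 * Lg L.Q) * (K * (p₀ * Lg L.Q ^ 2 * M₁)) = K ^ 2 * X by
      rw [hX]; ring, Real.sqrt_mul (by positivity), Real.sqrt_sq hK.le, Real.sqrt_eq_rpow,
      ← Real.rpow_natCast, ← Real.rpow_mul hX0]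
    norm_num
  have e2 : ((K * (L.T * p₀ ^ 4 * θ₀ ^ 2 * Lg L.Q)) ^ 2 * (K * (p₀ * Lg L.Q * θ₀ ^ 2 * M₀))) ^
      (1 / 3 : ℝ) = K * (Y ^ (1 / 6 : ℝ)) ^ 2 := by
    rw [show (K * (L.T * p₀ ^ 4 * θ₀ ^ 2 * Lg L.Q)) ^ 2 * (K * (p₀ * Lg L.Q * θ₀ ^ 2 * M₀)) =
      K ^ 3 * Y by rw [hY]; ring, Real.mul_rpow (by positivity) hY0,
      ← Real.rpow_natCast K, ← Real.rpow_mul hK.le, ← Real.rpow_natCast (Y ^ (1 / 6 : ℝ)),
      ← Real.rpow_mul hY0]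
    norm_num
  have e3 : K * (L.T * p₀ ^ 4 * θ₀ ^ 2 * Lg L.Q) * (1 / L.Q ^ 10) = K * (√Z) ^ 2 := by
    rw [Real.sq_sqrt hZ0, hZ]; ring
  rw [e1, e2, e3] at h1
  have hj : jB L.T L.Q p₀ θ₀ M₀ M₁ = X ^ (1 / 4 : ℝ) + Y ^ (1 / 6 : ℝ) + √Z := by
    rw [hX, hY, hZ]; rfl
  rw [hj]
  obtain ⟨x, hx⟩ : ∃ x : ℝ, x = X ^ (1 / 4 : ℝ) := ⟨_, rfl⟩
  obtain ⟨y, hy⟩ : ∃ y : ℝ, y = Y ^ (1 / 6 : ℝ) := ⟨_, rfl⟩
  obtain ⟨z, hz⟩ : ∃ z : ℝ, z = √Z := ⟨_, rfl⟩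
  have hx0 : 0 ≤ x := by rw [hx]; positivity
  have hy0 : 0 ≤ y := by rw [hy]; positivity
  have hz0 : 0 ≤ z := by rw [hz]; positivity
  rw [← hx, ← hy, ← hz] at h1 ⊢
  have h2 : L.J p₀ θ₀ ≤ ENNReal.ofReal (√(3 * K) * (x + y + z)) ^ 2 := by
    refine h1.trans ?_
    rw [← ENNReal.ofReal_pow (by positivity)]
    refine ENNReal.ofReal_le_ofReal ?_
    rw [mul_pow, Real.sq_sqrt (by positivity)]
    have : x ^ 2 + y ^ 2 + z ^ 2 ≤ (x + y + z) ^ 2 := by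
      nlinarith [mul_nonneg hx0 hy0, mul_nonneg hx0 hz0, mul_nonneg hy0 hz0]
    nlinarith
  calc L.J p₀ θ₀ ^ (1 / 2 : ℝ) ≤ (ENNReal.ofReal (√(3 * K) * (x + y + z)) ^ 2) ^ (1 / 2 : ℝ) :=
        ENNReal.rpow_le_rpow h2 (by norm_num)
    _ = _ := by
        rw [← ENNReal.rpow_natCast, ← ENNReal.rpow_mul]
        norm_num

end Crest.Agent.R106
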