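import Crest.Agent.R106.LDB2
import Crest.Agent.R106.PolV
import Crest.Agent.R106.PolY

/-!
# Row 106: the corrector

Fix `s`, `l > 0`.  Where `1 ≤ l p φ ψ r`, `φ/(ψ r) ≤ l p φ²` and `flx` gives `l En`.  On the rest bound `fc ≤ A`,
`p ≤ Q`, use polar coordinates in `y = r n` and integrate in `r` first:
`∫_0^{1/(l p φ ψ)} φ/(ψ r) r² dr = 1/(2 l² p² φ ψ³)`; then `volG` with `δ = 2φ₀ψ` and `sph_inv_sq`:
`C A Q φ₀ L/l²`.  Take `l = (Q φ₀ L)^{1/3}`.

-/

set_option autoImplicit false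

noncomputable section

namespace Crest.Agent.R106

open MeasureTheory Set Metric Real Filter Topology
open scoped ContDiff ENNReal RealInnerProductSpace Classical
open Crest.AnalysisR.VecCalc3 Crest.AnalysisR.PDE.RVM

/-- the radial integral -/
theorem EstV_rad (P : Prop) [Decidable P] {l p φ ψ : ℝ} (hl : 0 < l) (hp : 0 < p) (hφ : 0 < φ)
    (hψ : 0 < ψ) :
    ∫⁻ r in Ioi (0 : ℝ), ENNReal.ofReal (r ^ 2) *
        ENNReal.ofReal (if P ∧ l * p * φ * ψ * r < 1 then φ / (ψ * r) else 0) ≤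
      ENNReal.ofReal (1 / (l ^ 2 * ψ ^ 3) * if P then 1 / (p ^ 2 * φ) else 0) := by
  by_cases hP : P
  · have hR : 0 < 1 / (l * p * φ * ψ) := by positivity
    calc _ ≤ ∫⁻ r in Ioi (0 : ℝ), (Iic (1 / (l * p * φ * ψ))).indicator
          (fun _ => ENNReal.ofReal (1 / (l * p * ψ ^ 2))) r := by
          refine setLIntegral_mono' measurableSet_Ioi fun r hr => ?_
          have hr : 0 < r := hr
          split_ifs with h
          · have h1 : r ≤ 1 / (l * p * φ * ψ) := by
              rw [le_div_iff₀ (by positivity)]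
              linarith [h.2]
            rw [indicator_of_mem (show r ∈ Iic (1 / (l * p * φ * ψ)) from h1),
              ← ENNReal.ofReal_mul (by positivity)]
            refine ENNReal.ofReal_le_ofReal ?_
            calc r ^ 2 * (φ / (ψ * r)) = r * (φ / ψ) := by field_simp
              _ ≤ 1 / (l * p * φ * ψ) * (φ / ψ) := by gcongr
              _ = _ := by field_simp
          · simp
      _ = _ := by
          rw [lintegral_indicator_const measurableSet_Iic, Measure.restrict_apply measurableSet_Iic,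
            Iic_inter_Ioi, Real.volume_Ioc, sub_zero, ← ENNReal.ofReal_mul (by positivity), if_pos hP]
          congr 1
          field_simp
  · simp [hP]

/-- the near region -/
theorem EstV_near : ∃ C, 0 < C ∧ ∀ (w : R3) (Q φ₀ l : ℝ), 1 ≤ Q → ‖w‖ ≤ 1 - 1 / (2 * Q ^ 2) → 0 < φ₀ →
    0 < l → ∫⁻ q : Ph, ENNReal.ofReal
      (if (pp q.2 ≤ Q ∧ ang (nn q.1) (relVel q.2) ≤ 2 * φ₀ * ang (nn q.1) w) ∧
        l * pp q.2 * ang (nn q.1) (relVel q.2) * ang (nn q.1) w * ‖q.1‖ < 1 then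
        ang (nn q.1) (relVel q.2) / (ang (nn q.1) w * ‖q.1‖) else 0) ≤
      ENNReal.ofReal (C * (Q * φ₀ * Lg Q) / l ^ 2) := by
  obtain ⟨C₁, hC₁, H₁⟩ := volG
  obtain ⟨C₂, hC₂, H₂⟩ := sph_inv_sq
  refine ⟨2 * C₁ * C₂, by positivity, fun w Q φ₀ l hQ hw hφ hl => ?_⟩
  have hw1 : ‖w‖ < 1 := by
    have : 0 < 1 / (2 * Q ^ 2) := by positivity
    linarith
  have : IsFiniteMeasure σ2 :=
    ⟨by rw [Crest.Agent.R068.sphereMeasure_univ]; exact ENNReal.ofReal_lt_top⟩
  set H : Ph → ℝ≥0∞ := fun q => ENNReal.ofReal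
      (if (pp q.2 ≤ Q ∧ ang (nn q.1) (relVel q.2) ≤ 2 * φ₀ * ang (nn q.1) w) ∧
        l * pp q.2 * ang (nn q.1) (relVel q.2) * ang (nn q.1) w * ‖q.1‖ < 1 then
        ang (nn q.1) (relVel q.2) / (ang (nn q.1) w * ‖q.1‖) else 0) with hH
  have hm : Measurable H := by
    refine (Measurable.ite ?_ (by fun_prop) measurable_const).ennreal_ofReal
    have m1 : MeasurableSet {q : Ph | pp q.2 ≤ Q} := measurableSet_le (by fun_prop) (by fun_prop)
    have m2 : MeasurableSet {q : Ph | ang (nn q.1) (relVel q.2) ≤ 2 * φ₀ * ang (nn q.1) w} :=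
      measurableSet_le (by fun_prop) (by fun_prop)
    have m3 : MeasurableSet
        {q : Ph | l * pp q.2 * ang (nn q.1) (relVel q.2) * ang (nn q.1) w * ‖q.1‖ < 1} :=
      measurableSet_lt (by fun_prop) (by fun_prop)
    exact (m1.inter m2).inter m3
  set G : R3 → R3 → ℝ≥0∞ := fun v n => ENNReal.ofReal (1 / (l ^ 2 * ang n w ^ 3) *
      if pp v ≤ Q ∧ ang n (relVel v) ≤ 2 * φ₀ * ang n w then 1 / (pp v ^ 2 * ang n (relVel v)) else 0)
    with hG
  have hGm : Measurable (Function.uncurry G) := by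
    refine (Measurable.mul (by fun_prop) (Measurable.ite ?_ (by fun_prop) measurable_const)).ennreal_ofReal
    have m1 : MeasurableSet {q : Ph | pp q.1 ≤ Q} := measurableSet_le (by fun_prop) (by fun_prop)
    have m2 : MeasurableSet {q : Ph | ang q.2 (relVel q.1) ≤ 2 * φ₀ * ang q.2 w} :=
      measurableSet_le (by fun_prop) (by fun_prop)
    exact m1.inter m2
  calc ∫⁻ q, H q = ∫⁻ v, ∫⁻ y, H (y, v) := by
        rw [Measure.volume_eq_prod, lintegral_prod_symm' _ hm]
    _ ≤ ∫⁻ v, ∫⁻ n, G v n ∂σ2 := by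
        refine lintegral_mono fun v => ?_
        rw [Crest.Agent.R068.lintegral_polar (φ := fun y => H (y, v)) (hm.comp (by fun_prop))]
        refine lintegral_mono_ae ?_
        filter_upwards [ae_sphere] with n hn
        refine le_trans (le_of_eq ?_) (EstV_rad (pp v ≤ Q ∧ ang n (relVel v) ≤ 2 * φ₀ * ang n w) hl
          (pp_pos v) (ang_pos hn.le (norm_relVel_lt v)) (ang_pos hn.le hw1))
        refine setLIntegral_congr_fun measurableSet_Ioi fun r hr => ?_
        have hr : 0 < r := hr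
        simp only [hH, nn_smul hr, nn_of_norm hn, norm_smul, hn, mul_one, Real.norm_of_nonneg hr.le]
    _ = ∫⁻ n, (∫⁻ v, G v n) ∂σ2 := lintegral_lintegral_swap hGm.aemeasurable
    _ ≤ ∫⁻ n, ENNReal.ofReal (2 * C₁ * Q * φ₀ / l ^ 2) * ENNReal.ofReal (1 / ang n w ^ 2) ∂σ2 := by
        refine lintegral_mono_ae ?_
        filter_upwards [ae_sphere] with n hn
        have hψ := ang_pos hn.le hw1
        have h0 : 0 ≤ 1 / (l ^ 2 * ang n w ^ 3) := by positivity
        simp only [hG, ENNReal.ofReal_mul h0]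
        rw [lintegral_const_mul' _ _ ENNReal.ofReal_ne_top]
        refine (mul_le_mul_right (H₁ n Q (2 * φ₀ * ang n w) hn.le hQ (by positivity)) _).trans (le_of_eq ?_)
        rw [← ENNReal.ofReal_mul h0, ← ENNReal.ofReal_mul (by positivity)]
        congr 1
        field_simp
    _ ≤ _ := by
        rw [lintegral_const_mul' _ _ ENNReal.ofReal_ne_top]
        refine (mul_le_mul_right (H₂ w Q hQ hw) _).trans (le_of_eq ?_)
        rw [← ENNReal.ofReal_mul (by positivity), Lg]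
        congr 1
        ring

theorem est_V (A En Tm : ℝ) (hE : 0 ≤ En) : ∃ C, 0 < C ∧ ∀ L : LD, L.OK A En Tm → ∀ φ₀ s : ℝ, 0 < φ₀ →
    L.Is (L.k5 φ₀) s ≤ ENNReal.ofReal (C * (L.Q * φ₀ * Lg L.Q) ^ (1 / 3 : ℝ)) := by
  obtain ⟨C, hC, H⟩ := EstV_near
  refine ⟨En + |A| * C + 1, by positivity, fun L h φ₀ s hφ => ?_⟩
  have hQ : 1 ≤ L.Q := by linarith [h.hQ]
  have hLg : 0 < Lg L.Q := by
    have := Real.log_nonneg hQ
    unfold Lg
    linarith
  have hx : 0 < L.Q * φ₀ * Lg L.Q := by positivity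
  have hl : 0 < (L.Q * φ₀ * Lg L.Q) ^ (1 / 3 : ℝ) := Real.rpow_pos_of_pos hx _
  have hl3 : ((L.Q * φ₀ * Lg L.Q) ^ (1 / 3 : ℝ)) ^ 3 = L.Q * φ₀ * Lg L.Q := by
    rw [← Real.rpow_natCast, ← Real.rpow_mul hx.le]
    norm_num
  generalize (L.Q * φ₀ * Lg L.Q) ^ (1 / 3 : ℝ) = l at hl hl3
  have H1 := H (L.w s) L.Q φ₀ l hQ (h.hw s) hφ hl
  have H2 := h.flx s
  have hw1 : ‖L.w s‖ < 1 := by
    have h1 := h.hw s
    have : 0 < 1 / (2 * L.Q ^ 2) := by positivity
    linarith
  have hm : Measurable fun q : Ph => ENNReal.ofReal l *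
      ENNReal.ofReal (L.fc (s, q) * (pv (s, q) * ph (s, q) ^ 2)) := by
    have := h.mf
    unfold pv ph
    fun_prop
  calc _ ≤ ∫⁻ q : Ph, (ENNReal.ofReal l * ENNReal.ofReal (L.fc (s, q) * (pv (s, q) * ph (s, q) ^ 2)) +
        ENNReal.ofReal |A| * ENNReal.ofReal
          (if (pp q.2 ≤ L.Q ∧ ang (nn q.1) (relVel q.2) ≤ 2 * φ₀ * ang (nn q.1) (L.w s)) ∧
            l * pp q.2 * ang (nn q.1) (relVel q.2) * ang (nn q.1) (L.w s) * ‖q.1‖ < 1 then
            ang (nn q.1) (relVel q.2) / (ang (nn q.1) (L.w s) * ‖q.1‖) else 0)) := by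
        refine lintegral_mono fun q => ?_
        simp only [LD.k5, LD.ps, ph, pv, rr]
        have hf0 := h.f0 (s, q)
        have hφ0 := ang_pos (norm_nn_le q.1) (norm_relVel_lt q.2)
        have hψ0 := ang_pos (norm_nn_le q.1) hw1
        have hp0 := pp_pos q.2
        by_cases hf : L.fc (s, q) = 0
        · simp [hf]
        by_cases h1 : ang (nn q.1) (relVel q.2) ≤ 2 * φ₀ * ang (nn q.1) (L.w s)
        swap
        · simp [h1]
        rw [if_pos h1]
        by_cases h2 : l * pp q.2 * ang (nn q.1) (relVel q.2) * ang (nn q.1) (L.w s) * ‖q.1‖ < 1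
        · refine le_add_left ?_
          rw [if_pos ⟨⟨(h.supp _ hf).2, h1⟩, h2⟩, ← ENNReal.ofReal_mul (abs_nonneg A)]
          refine ENNReal.ofReal_le_ofReal (mul_le_mul_of_nonneg_right ((h.fA _).trans (le_abs_self A)) ?_)
          positivity
        · refine le_add_right ?_
          rw [← ENNReal.ofReal_mul hl.le, mul_left_comm]
          refine ENNReal.ofReal_le_ofReal (mul_le_mul_of_nonneg_left ?_ hf0)
          refine div_le_of_le_mul₀ (by positivity) (by positivity) ?_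
          nlinarith [mul_le_mul_of_nonneg_left (not_lt.1 h2) hφ0.le]
    _ ≤ ENNReal.ofReal l * ENNReal.ofReal En +
        ENNReal.ofReal |A| * ENNReal.ofReal (C * (L.Q * φ₀ * Lg L.Q) / l ^ 2) := by
        rw [lintegral_add_left hm, lintegral_const_mul' _ _ ENNReal.ofReal_ne_top,
          lintegral_const_mul' _ _ ENNReal.ofReal_ne_top]
        exact add_le_add (mul_le_mul_right H2 _) (mul_le_mul_right H1 _)
    _ ≤ _ := by
        rw [← ENNReal.ofReal_mul hl.le, ← ENNReal.ofReal_mul (abs_nonneg A), ← hl3,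
          ← ENNReal.ofReal_add (by positivity) (by positivity)]
        refine ENNReal.ofReal_le_ofReal ?_
        have : C * l ^ 3 / l ^ 2 = C * l := by field_simp
        rw [this]
        nlinarith

end Crest.Agent.R106
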