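import Crest.Agent.R106.En2

/-!
# Row 106: the fields are continuous in `L²`

`MemLp` from `Adm.energy`.  Continuity: `∫ ‖E s - E t‖² ≤ ∫_{‖x‖ < R} … + 2·2 ∫_{‖x‖ ≥ R} (eD s + eD t)`; the tail is
at most `8 ∫_{‖x‖ ≥ R - T - 2} eD 0 → 0` (`cons_tail`, `Adm.energy_fin`), the ball part tends to `0` by uniform
continuity on the compact set `Icc 0 T ×ˢ closedBall 0 R`.

-/

set_option autoImplicit false

noncomputable section

namespace Crest.Agent.R106

open MeasureTheory Set Metric Real Filter Topology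
open scoped ContDiff ENNReal RealInnerProductSpace Classical
open Crest.AnalysisR.VecCalc3 Crest.AnalysisR.PDE.RVM

variable {κ : Ph → Ph} {T : ℝ} {f₀ : Ph → ℝ} {K₀ : R3 → Ph} {Kd K : ST → Ph} {f : TP → ℝ}
  {Z : ℝ → Ph → Ph}

theorem l2_aux {u : ST → R3} {e : ST → ℝ} {S : ST → R3} (hc : Cons T e S)
    (hfin : ∫⁻ x, ENNReal.ofReal (e (0, x)) < ⊤) (hu : ContinuousOn u (slab R3 T))
    (hue : ∀ p ∈ slab R3 T, ‖u p‖ ^ 2 ≤ 2 * e p) {C : ℝ}
    (hl : ∀ x, ∀ t ∈ Icc 0 T, ∀ t' ∈ Icc 0 T, ‖u (t, x) - u (t', x)‖ ≤ C * |t - t'|)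
    {t : ℝ} (ht : t ∈ Icc 0 T) :
    MemLp (fun x => u (t, x)) 2 ∧
      Tendsto (fun s => eLpNorm ((fun x => u (s, x)) - fun x => u (t, x)) 2 volume)
        (𝓝[Icc 0 T] t) (𝓝 0) := by
  have hsl : ∀ s ∈ Icc 0 T, ∀ x : R3, ((s, x) : ST) ∈ slab R3 T := fun s hs x => ⟨hs, mem_univ _⟩
  have hme : ∀ s ∈ Icc 0 T, Measurable fun x : R3 => ENNReal.ofReal (e (s, x)) := by
    intro s hs
    have : Continuous fun x : R3 => e (s, x) :=
      hc.ce.comp_continuous (continuous_const.prodMk continuous_id) (hsl s hs)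
    exact this.measurable.ennreal_ofReal
  have hsq : ∀ w : R3, ‖w‖ₑ ^ (2 : ℝ≥0∞).toReal = ENNReal.ofReal (‖w‖ ^ 2) := by
    intro w
    rw [ENNReal.toReal_ofNat, ENNReal.rpow_two, ENNReal.ofReal_pow (norm_nonneg _), ofReal_norm]
  constructor
  · have hcu : Continuous fun x : R3 => u (t, x) :=
      hu.comp_continuous (continuous_const.prodMk continuous_id) (hsl t ht)
    refine ⟨hcu.aestronglyMeasurable, ?_⟩
    rw [eLpNorm_lt_top_iff_lintegral_rpow_enorm_lt_top (by norm_num) (by norm_num)]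
    simp only [hsq]
    have h1 := cons_tail hc ht 0
    have h2 : {x : R3 | (0 : ℝ) ≤ ‖x‖} = univ := eq_univ_of_forall fun x => norm_nonneg x
    rw [h2, Measure.restrict_univ] at h1
    have h3 : ∫⁻ x, ENNReal.ofReal (e (t, x)) < ⊤ :=
      lt_of_le_of_lt (h1.trans (setLIntegral_le_lintegral _ _)) hfin
    calc ∫⁻ x, ENNReal.ofReal (‖u (t, x)‖ ^ 2) ≤ ∫⁻ x, 2 * ENNReal.ofReal (e (t, x)) := by
          refine lintegral_mono fun x => ?_
          refine (ENNReal.ofReal_le_ofReal (hue _ (hsl t ht x))).trans ?_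
          rw [ENNReal.ofReal_mul (by norm_num), ENNReal.ofReal_ofNat]
      _ = 2 * ∫⁻ x, ENNReal.ofReal (e (t, x)) := lintegral_const_mul _ (hme t ht)
      _ < ⊤ := ENNReal.mul_lt_top (by norm_num) h3
  · have main : Tendsto (fun s => ∫⁻ x, ENNReal.ofReal (‖u (s, x) - u (t, x)‖ ^ 2)) (𝓝[Icc 0 T] t)
        (𝓝 0) := by
      -- the tails of the initial energy
      have tail : Tendsto (fun n : ℕ => ∫⁻ x in {x : R3 | (n : ℝ) ≤ ‖x‖}, ENNReal.ofReal (e (0, x)))
          atTop (𝓝 0) := by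
        have hms : ∀ n : ℕ, MeasurableSet {x : R3 | (n : ℝ) ≤ ‖x‖} := fun n =>
          measurableSet_le measurable_const measurable_norm
        have h1 := tendsto_measure_iInter_atTop
          (μ := volume.withDensity fun x : R3 => ENNReal.ofReal (e (0, x)))
          (s := fun n : ℕ => {x : R3 | (n : ℝ) ≤ ‖x‖}) (fun n => (hms n).nullMeasurableSet)
          (fun a b hab x (hx : (b : ℝ) ≤ ‖x‖) => le_trans (Nat.cast_le.2 hab) hx)
          ⟨0, by
            rw [withDensity_apply _ (hms 0)]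
            exact (lt_of_le_of_lt (setLIntegral_le_lintegral _ _) hfin).ne⟩
        have h2 : ⋂ n : ℕ, {x : R3 | (n : ℝ) ≤ ‖x‖} = ∅ := by
          refine eq_empty_of_forall_notMem fun x hx => ?_
          obtain ⟨n, hn⟩ := exists_nat_gt ‖x‖
          exact absurd (mem_iInter.1 hx n) (not_le.2 hn)
        rw [h2, measure_empty] at h1
        refine h1.congr fun n => ?_
        exact withDensity_apply _ (hms n)
      have tail8 : Tendsto (fun n : ℕ => 8 * ∫⁻ x in {x : R3 | (n : ℝ) ≤ ‖x‖},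
          ENNReal.ofReal (e (0, x))) atTop (𝓝 0) := by
        simpa using ENNReal.Tendsto.const_mul (a := 8) tail (Or.inr (by norm_num))
      rw [ENNReal.tendsto_nhds_zero]
      intro ε hε
      have hε2 : 0 < ε / 2 := ENNReal.half_pos hε.ne'
      obtain ⟨n, hn⟩ := (ENNReal.tendsto_nhds_zero.1 tail8 _ hε2).exists
      set R : ℝ := n + T + 2 with hR
      have near : Tendsto (fun s => ENNReal.ofReal ((C * |s - t|) ^ 2) * volume (ball (0 : R3) R))
          (𝓝[Icc 0 T] t) (𝓝 0) := by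
        have h1 : Tendsto (fun s => ENNReal.ofReal ((C * |s - t|) ^ 2)) (𝓝[Icc 0 T] t) (𝓝 0) := by
          have h2 : Continuous fun s : ℝ => ENNReal.ofReal ((C * |s - t|) ^ 2) :=
            ENNReal.continuous_ofReal.comp (by fun_prop)
          have h3 := (h2.tendsto t).mono_left (nhdsWithin_le_nhds (s := Icc 0 T))
          simpa using h3
        simpa using ENNReal.Tendsto.mul_const (b := volume (ball (0 : R3) R)) h1
          (Or.inr measure_ball_lt_top.ne)
      filter_upwards [ENNReal.tendsto_nhds_zero.1 near _ hε2, self_mem_nhdsWithin] with s hs1 hs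
      have hcompl : (ball (0 : R3) R)ᶜ = {x : R3 | R ≤ ‖x‖} := by
        ext x
        simp
      have htl : ∀ τ ∈ Icc 0 T, ∫⁻ x in {x : R3 | R ≤ ‖x‖}, ENNReal.ofReal (e (τ, x)) ≤
          ∫⁻ x in {x : R3 | (n : ℝ) ≤ ‖x‖}, ENNReal.ofReal (e (0, x)) := by
        intro τ hτ
        refine (cons_tail hc hτ R).trans (lintegral_mono_set fun x (hx : R - τ - 2 ≤ ‖x‖) => ?_)
        have := hτ.2
        show (n : ℝ) ≤ ‖x‖
        linarith
      rw [← lintegral_add_compl _ (measurableSet_ball (x := (0 : R3)) (ε := R)), ← ENNReal.add_halves ε,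
        hcompl]
      refine add_le_add (le_trans ?_ hs1) (le_trans ?_ hn)
      · rw [← setLIntegral_const]
        refine lintegral_mono fun x => ENNReal.ofReal_le_ofReal ?_
        exact pow_le_pow_left₀ (norm_nonneg _) (hl x s hs t ht) 2
      · calc ∫⁻ x in {x : R3 | R ≤ ‖x‖}, ENNReal.ofReal (‖u (s, x) - u (t, x)‖ ^ 2)
            ≤ ∫⁻ x in {x : R3 | R ≤ ‖x‖},
              (4 * ENNReal.ofReal (e (s, x)) + 4 * ENNReal.ofReal (e (t, x))) := by
              refine lintegral_mono fun x => ?_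
              have a1 := hue _ (hsl s hs x)
              have a2 := hue _ (hsl t ht x)
              have a3 := norm_sub_le (u (s, x)) (u (t, x))
              have a4 : ‖u (s, x) - u (t, x)‖ ^ 2 ≤ (‖u (s, x)‖ + ‖u (t, x)‖) ^ 2 :=
                pow_le_pow_left₀ (norm_nonneg _) a3 2
              have a5 : ‖u (s, x) - u (t, x)‖ ^ 2 ≤ 4 * e (s, x) + 4 * e (t, x) := by
                nlinarith [sq_nonneg (‖u (s, x)‖ - ‖u (t, x)‖)]
              refine (ENNReal.ofReal_le_ofReal a5).trans (ENNReal.ofReal_add_le.trans ?_)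
              rw [ENNReal.ofReal_mul (by norm_num), ENNReal.ofReal_mul (by norm_num),
                ENNReal.ofReal_ofNat]
          _ = 4 * (∫⁻ x in {x : R3 | R ≤ ‖x‖}, ENNReal.ofReal (e (s, x))) +
              4 * ∫⁻ x in {x : R3 | R ≤ ‖x‖}, ENNReal.ofReal (e (t, x)) := by
              rw [lintegral_add_left ((hme s hs).const_mul _), lintegral_const_mul _ (hme s hs),
                lintegral_const_mul _ (hme t ht)]
          _ ≤ 4 * (∫⁻ x in {x : R3 | (n : ℝ) ≤ ‖x‖}, ENNReal.ofReal (e (0, x))) +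
              4 * ∫⁻ x in {x : R3 | (n : ℝ) ≤ ‖x‖}, ENNReal.ofReal (e (0, x)) :=
              add_le_add (mul_le_mul_right (htl s hs) _) (mul_le_mul_right (htl t ht) _)
          _ = 8 * ∫⁻ x in {x : R3 | (n : ℝ) ≤ ‖x‖}, ENNReal.ofReal (e (0, x)) := by
              rw [← add_mul]
              norm_num
    have h2 : Tendsto (fun y : ℝ≥0∞ => y ^ (1 / (2 : ℝ≥0∞).toReal)) (𝓝 0) (𝓝 0) := by
      have := (ENNReal.continuous_rpow_const (y := 1 / (2 : ℝ≥0∞).toReal)).tendsto 0
      rwa [ENNReal.zero_rpow_of_pos (by norm_num)] at this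
    refine (h2.comp main).congr fun s => ?_
    rw [eLpNorm_eq_lintegral_rpow_enorm_toReal (by norm_num) (by norm_num)]
    simp only [Function.comp, Pi.sub_apply, hsq]

theorem TSol.l2 (ha : Adm f₀ K₀) (h : TSol id T f₀ K₀ Kd f K Z) {t : ℝ} (ht : t ∈ Icc 0 T) :
    MemLp (fun x => (K (t, x)).1) 2 ∧ MemLp (fun x => (K (t, x)).2) 2 ∧
      Tendsto (fun s => eLpNorm ((fun x => (K (s, x)).1) - fun x => (K (t, x)).1) 2 volume)
        (𝓝[Icc 0 T] t) (𝓝 0) ∧
      Tendsto (fun s => eLpNorm ((fun x => (K (s, x)).2) - fun x => (K (t, x)).2) 2 volume)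
        (𝓝[Icc 0 T] t) (𝓝 0) := by
  have hc := h.cons_energy
  have hfin : ∫⁻ x, ENNReal.ofReal (eD f K (0, x)) < ⊤ := by
    have := ha.energy_fin
    simpa only [eD, vint, h.initf, h.initK] using this
  obtain ⟨C, -, hC⟩ := h.lip
  have hv : ∀ p ∈ slab R3 T, 0 ≤ vint (fun r => f r * pp r.2.2) p := fun p hp =>
    integral_nonneg fun v => mul_nonneg (h.nonneg _ ⟨hp.1, mem_univ _⟩) (pp_pos _).le
  have h1 := l2_aux (u := fun p => (K p).1) hc hfin h.hK.continuousOn.fst (fun p hp => by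
    have := hv p hp
    have := sq_nonneg ‖(K p).2‖
    simp only [eD]
    linarith) (C := C) (fun x s hs s' hs' => (norm_fst_le (K (s, x) - K (s', x))).trans
      (hC x s hs s' hs')) ht
  have h2 := l2_aux (u := fun p => (K p).2) hc hfin h.hK.continuousOn.snd (fun p hp => by
    have := hv p hp
    have := sq_nonneg ‖(K p).1‖
    simp only [eD]
    linarith) (C := C) (fun x s hs s' hs' => (norm_snd_le (K (s, x) - K (s', x))).trans
      (hC x s hs s' hs')) ht
  exact ⟨h1.1, h2.1, h1.2, h2.2⟩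

end Crest.Agent.R106
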