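import Crest.Agent.R106.En2

/-!
# Row 106: uniqueness

Fix `0 < T' < T`.  `g = f - f'`, `δ = K - K'`, `e = ∫ g² dv + (‖δE‖² + ‖δB‖²)/2`, `S = ∫ g² v̂ dv + δE × δB`.
`fderiv g (1, vf K') = -fderiv f (0, 0, force δ v)`, so
`∂_t ∫g² + div ∫ g² v̂ = -2∫ g fderiv f (0, 0, force δ v)` (`integral_force` for `φ = g²`), of size
`≤ C ‖δ‖ ∫|g| ≤ C' e` (`fderiv_bdd`, supports, `|g| ≤ (s + g²/s)/2` or Cauchy–Schwarz on the ball); `poynting` for `δ`
with `j = cur g`.  Hence `exp(-C t) (e, S)` satisfies `Cons T'`; `cons_tail` with `R = 0` and `e(0) = 0` gives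
`e(t) = 0` a.e., hence everywhere by continuity, and then `g = 0`.

-/

set_option autoImplicit false

noncomputable section

namespace Crest.Agent.R106

open MeasureTheory Set Metric Real Filter Topology
open scoped ContDiff ENNReal RealInnerProductSpace Classical
open Crest.AnalysisR.VecCalc3 Crest.AnalysisR.PDE.RVM

theorem unq_VS {U : Set ℝ} (hU : IsOpen U) {G : TP → ℝ} {R : ℝ} (hs : VS U R G) (μ : TP → TP) :
    VS U R fun r => fderiv ℝ G r (μ r) := by
  intro r hr hne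
  by_contra h
  have h1 : G =ᶠ[𝓝 r] fun _ => 0 := by
    filter_upwards [(hU.preimage continuous_fst).mem_nhds hr,
      (isOpen_lt continuous_const (by fun_prop : Continuous fun r : TP => ‖r.2.2‖)).mem_nhds
        (not_le.1 h)] with s h1 h2
    by_contra h3
    exact not_le.2 h2 (hs s h1 h3)
  exact hne (by simp [h1.fderiv_eq])

/-- the momentum integral of the transport operator -/
theorem unq_vint {U : Set ℝ} (hU : IsOpen U) {G : TP → ℝ} (hG : ContDiffOn ℝ 1 G (U ×ˢ univ)) {R : ℝ}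
    (hs : VS U R G) (K : ST → Ph) {p : ST} (hp : p.1 ∈ U) :
    pd (1, 0) (vint G) p + dx (cur G) p = ∫ v, fderiv ℝ G (p.1, p.2, v) (1, vf K (p.1, p.2, v)) := by
  have hO : IsOpen (U ×ˢ (univ : Set Ph)) := hU.prod isOpen_univ
  have hA : ∀ v : R3, ContDiffAt ℝ 1 G (p.1, p.2, v) := fun v =>
    hG.contDiffAt (hO.mem_nhds ⟨hp, mem_univ _⟩)
  have hd := fun v => (hA v).differentiableAt one_ne_zero
  have hint : ∀ {μ : TP → TP}, Continuous μ →
      Integrable fun v => fderiv ℝ G (p.1, p.2, v) (μ (p.1, p.2, v)) := fun hμ =>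
    pint_integrable ((hG.continuousOn_fderiv_of_isOpen hO le_rfl).clm_apply hμ.continuousOn)
      (unq_VS hU hs _) hp p.2
  have a1 := hint (μ := fun _ => (1, 0, 0)) continuous_const
  have a2 := fun i => hint (μ := fun r => relVel r.2.2 i • ((0 : ℝ), ee i, (0 : R3)))
    ((pint_relVel i).continuous.smul continuous_const)
  have a4 := hint (μ := fun r => (0, 0, force (K p) r.2.2)) (continuous_const.prodMk
    (continuous_const.prodMk ((Cross_contDiff_force _).continuous.comp continuous_snd.snd)))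
  have hφ : ContDiff ℝ 1 fun v : R3 => G (p.1, p.2, v) := contDiff_iff_contDiffAt.2 fun v =>
    (hA v).comp (f := fun v : R3 => ((p.1, p.2, v) : TP)) v (by fun_prop)
  have hc : HasCompactSupport fun v : R3 => G (p.1, p.2, v) :=
    HasCompactSupport.intro (isCompact_closedBall (0 : R3) R) fun v hv => by
      by_contra h
      exact hv (mem_closedBall_zero_iff.2 (hs (p.1, p.2, v) hp h))
  have a3 := integral_force (K p) hφ hc
  simp only [pint_slice (hd _)] at a3
  have e1 := (vint_contDiffOn hU hG hs).2 p ⟨hp, mem_univ _⟩ 1 0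
  have e2 : ∀ i, pd (0, ee i) (cur G i) p =
      ∫ v, fderiv ℝ G (p.1, p.2, v) (relVel v i • ((0 : ℝ), ee i, (0 : R3))) := fun i => by
    refine ((vint_contDiffOn hU (hG.mul ((pint_relVel i).of_le (by simp)).contDiffOn)
      fun r hr h => hs r hr (left_ne_zero_of_mul h)).2 p ⟨hp, mem_univ _⟩ 0 (ee i)).trans
      (integral_congr_ae (Eventually.of_forall fun v => ?_))
    have h1 : HasFDerivAt (fun r : TP => relVel r.2.2 i) _ (p.1, p.2, v) :=
      ((pint_relVel' i).differentiable (by simp) v).hasFDerivAt.comp ((p.1, p.2, v) : TP)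
        (f := fun r : TP => r.2.2) (hasFDerivAt_snd.comp _ hasFDerivAt_snd)
    simp only [map_smul]
    simp [fderiv_fun_mul (hd v) h1.differentiableAt, h1.fderiv]
  simp only [dx, e2]
  rw [pd, e1, ← integral_finsetSum _ fun i _ => a2 i,
    ← integral_add a1 (integrable_finsetSum _ fun i _ => a2 i)]
  refine (add_eq_left.2 a3).symm.trans ((integral_add
    (a1.add (integrable_finsetSum _ fun i _ => a2 i)) a4).symm.trans
    (integral_congr_ae (Eventually.of_forall fun v => ?_)))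
  simp only [Pi.add_apply, ← map_sum, ← map_add]
  congr 1
  refine Prod.ext ?_ (Prod.ext ?_ ?_)
  · simp [Prod.fst_sum]
  · simp [Prod.fst_sum, Prod.snd_sum, sum_ee, vf]
  · simp [Prod.snd_sum, vf]

/-- removing a linear growth term -/
theorem unq_cons {T C : ℝ} {e : ST → ℝ} {S : ST → R3} (ce : ContinuousOn e (slab R3 T))
    (cS : ContinuousOn S (slab R3 T)) (de : ContDiffOn ℝ 1 e (oslab R3 T))
    (dS : ContDiffOn ℝ 1 S (oslab R3 T)) (dom : ∀ p ∈ slab R3 T, ‖S p‖ ≤ e p)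
    (law : ∀ p ∈ oslab R3 T, pd (1, 0) e p + dx (fun i q => S q i) p ≤ C * e p) :
    Cons T (fun p => exp (-C * p.1) * e p) fun p => exp (-C * p.1) • S p := by
  have hw : ContDiff ℝ 1 fun p : ST => exp (-C * p.1) := by fun_prop
  refine ⟨hw.continuous.continuousOn.mul ce, hw.continuous.continuousOn.smul cS,
    hw.contDiffOn.mul de, hw.contDiffOn.smul dS, fun p hp => ?_, fun p hp => ?_⟩
  · rw [norm_smul, Real.norm_of_nonneg (exp_pos _).le]
    exact mul_le_mul_of_nonneg_left (dom p hp) (exp_pos _).le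
  have hn := (isOpen_oslab R3 T).mem_nhds hp
  have h1 : HasFDerivAt (fun p : ST => exp (-C * p.1)) _ p := (hasFDerivAt_fst.const_mul (-C)).exp
  have h2 : ∀ (g : ST → ℝ) (μ : ST), DifferentiableAt ℝ g p →
      pd μ (fun p : ST => exp (-C * p.1) * g p) p = exp (-C * p.1) * (pd μ g p - C * μ.1 * g p) :=
    fun g μ hg => by
      simp only [pd, fderiv_fun_mul h1.differentiableAt hg, h1.fderiv]
      simp
      ring
  have h3 : ∀ i, DifferentiableAt ℝ (fun q => S q i) p := fun i =>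
    (EuclideanSpace.proj i : R3 →L[ℝ] ℝ).differentiableAt.comp p
      ((dS.contDiffAt hn).differentiableAt one_ne_zero)
  have h4 := law p hp
  simp only [dx, PiLp.smul_apply, smul_eq_mul, h2 _ _ (h3 _), mul_zero, zero_mul, sub_zero,
    ← Finset.mul_sum] at h4 ⊢
  rw [h2 _ _ ((de.contDiffAt hn).differentiableAt one_ne_zero), ← mul_add]
  exact mul_nonpos_of_nonneg_of_nonpos (exp_pos _).le (by simp only [mul_one]; linarith)

theorem unq_zero {T : ℝ} {e : ST → ℝ} {S : ST → R3} (h : Cons T e S) (h0 : ∀ x, e (0, x) = 0)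
    {p : ST} (hp : p ∈ slab R3 T) : e p ≤ 0 := by
  have h1 := cons_tail h hp.1 0
  simp only [h0, ENNReal.ofReal_zero, lintegral_zero, norm_nonneg, ofPred_true, Measure.restrict_univ,
    nonpos_iff_eq_zero] at h1
  have h2 : Continuous fun x => ENNReal.ofReal (e (p.1, x)) := ENNReal.continuous_ofReal.comp
    (h.ce.comp_continuous (by fun_prop) fun x => ⟨hp.1, mem_univ _⟩)
  have h3 := (h2.ae_eq_iff_eq volume continuous_zero).1 ((lintegral_eq_zero_iff h2.measurable).1 h1)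
  exact ENNReal.ofReal_eq_zero.1 (congrFun h3 p.2)

theorem unq_young {φ : R3 → ℝ} {R : ℝ} (h1 : Integrable φ) (h2 : Integrable fun v => φ v ^ 2)
    (hs : ∀ v, φ v ≠ 0 → ‖v‖ ≤ R) (s : ℝ) : s * ∫ v, |φ v| ≤ (∫ v, φ v ^ 2) + vB R * s ^ 2 := by
  have h3 : Integrable ((closedBall (0 : R3) R).indicator fun _ => s ^ 2) :=
    (integrableOn_const (isCompact_closedBall _ _).measure_lt_top.ne).integrable_indicator
      measurableSet_closedBall
  have h4 := integral_indicator_const (μ := volume) (s ^ 2) (measurableSet_closedBall (x := (0 : R3)) (ε := R))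
  rw [← integral_const_mul, vB, ← smul_eq_mul, ← measureReal_def, ← h4, ← integral_add h2 h3]
  refine integral_mono (h1.abs.const_mul _) (h2.add h3) fun v => ?_
  by_cases hv : φ v = 0
  · simpa [hv] using indicator_nonneg (fun _ _ => sq_nonneg s) v
  · simp only [indicator_of_mem (mem_closedBall_zero_iff.2 (hs v hv))]
    nlinarith [sq_nonneg (s - |φ v|), sq_abs (φ v), sq_nonneg s, sq_nonneg (φ v)]

theorem unq_pd {a b : ST → ℝ} {p : ST} (ha : DifferentiableAt ℝ a p) (hb : DifferentiableAt ℝ b p)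
    (μ : ST) : pd μ (fun q => a q - b q) p = pd μ a p - pd μ b p := by
  simp [pd, fderiv_fun_sub ha hb]

theorem unq_pd' {a b : ST → ℝ} {p : ST} (ha : DifferentiableAt ℝ a p) (hb : DifferentiableAt ℝ b p)
    (μ : ST) : pd μ (fun q => a q + b q) p = pd μ a p + pd μ b p := by
  simp [pd, fderiv_fun_add ha hb]

theorem unq_poy {f f' : TP → ℝ} {K K' : ST → Ph} {p : ST} (hK : DifferentiableAt ℝ K p)
    (hK' : DifferentiableAt ℝ K' p) (h : Maxwell K f p) (h' : Maxwell K' f' p) :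
    pd (1, 0) (fun r => (‖(K r - K' r).1‖ ^ 2 + ‖(K r - K' r).2‖ ^ 2) / 2) p +
      dx (fun i r => cross3 (K r - K' r).1 (K r - K' r).2 i) p =
      -∑ i, (K p - K' p).1 i * (cur f i p - cur f' i p) := by
  have hE : ∀ {K : ST → Ph}, DifferentiableAt ℝ K p → ∀ i, DifferentiableAt ℝ (cE K i) p :=
    fun h i => (EuclideanSpace.proj i : R3 →L[ℝ] ℝ).differentiableAt.comp p h.fst
  have hB : ∀ {K : ST → Ph}, DifferentiableAt ℝ K p → ∀ i, DifferentiableAt ℝ (cB K i) p :=
    fun h i => (EuclideanSpace.proj i : R3 →L[ℝ] ℝ).differentiableAt.comp p h.snd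
  have e1 : ∀ i μ, pd μ (cE (fun r => K r - K' r) i) p = pd μ (cE K i) p - pd μ (cE K' i) p :=
    fun i => unq_pd (hE hK i) (hE hK' i)
  have e2 : ∀ i μ, pd μ (cB (fun r => K r - K' r) i) p = pd μ (cB K i) p - pd μ (cB K' i) p :=
    fun i => unq_pd (hB hK i) (hB hK' i)
  refine poynting (K := fun r => K r - K' r) (hK.sub hK') (fun i => ?_) fun i => ?_
  · have := h.1 i
    have := h'.1 i
    simp only [cu, e1, e2] at *
    linarith
  · have := h.2.1 i
    have := h'.2.1 i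
    simp only [cu, e1, e2] at *
    linarith

theorem unq_main {T R : ℝ} {f f' : TP → ℝ} {K K' : ST → Ph} (hf : ContDiffOn ℝ 1 f (slab Ph T))
    (hf' : ContDiffOn ℝ 1 f' (slab Ph T)) (hK : ContDiffOn ℝ 1 K (slab R3 T))
    (hK' : ContDiffOn ℝ 1 K' (slab R3 T)) (hs : ∀ p ∈ slab Ph T, f p ≠ 0 → ‖p.2‖ ≤ R)
    (vg : VS (Icc 0 T) R fun r => f r - f' r) (vf : VS (Icc 0 T) R f) (vf' : VS (Icc 0 T) R f')
    (vl : ∀ p ∈ oslab Ph T, Vlasov K f p) (vl' : ∀ p ∈ oslab Ph T, Vlasov K' f' p)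
    (mx : ∀ p ∈ oslab R3 T, Maxwell K f p) (mx' : ∀ p ∈ oslab R3 T, Maxwell K' f' p) :
    ∃ C S, Cons T (fun p => exp (-C * p.1) * (vint (fun r => (f r - f' r) ^ 2) p +
      (‖(K p - K' p).1‖ ^ 2 + ‖(K p - K' p).2‖ ^ 2) / 2)) S := by
  have so : ∀ X : Type, oslab X T ⊆ slab X T := fun X => prod_mono Ioo_subset_Icc_self Subset.rfl
  obtain ⟨C₀, hC₀⟩ := fderiv_bdd hf R
  have hC : ∀ r ∈ oslab Ph T, ‖fderiv ℝ f r‖ ≤ |C₀| := fun r hr => by
    by_cases h : ‖r.2‖ ≤ R
    · exact (hC₀ r hr h).trans (le_abs_self _)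
    have h1 : f =ᶠ[𝓝 r] fun _ => 0 := by
      filter_upwards [slab_mem_nhds hr, (isOpen_lt continuous_const
        (by fun_prop : Continuous fun r : TP => ‖r.2‖)).mem_nhds (not_le.1 h)] with s h1 h2
      by_contra h3
      exact not_le.2 h2 (hs s h1 h3)
    simp [h1.fderiv_eq]
  have hG : ContDiffOn ℝ 1 (fun r => (f r - f' r) ^ 2) (slab Ph T) := (hf.sub hf').pow 2
  have vG : VS (Icc 0 T) R fun r => (f r - f' r) ^ 2 := fun r hr h => vg r hr fun h0 => h (by simp [h0])
  have vG' : VS (Ioo 0 T) R fun r => (f r - f' r) ^ 2 := fun r hr => vG r (Ioo_subset_Icc_self hr)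
  have hv : ∀ i, ContDiffOn ℝ 1 (fun r : TP => relVel r.2.2 i) (slab Ph T) := fun i =>
    ((pint_relVel i).of_le (by simp)).contDiffOn
  have vm : ∀ {U : Set ℝ} {g : TP → ℝ}, VS U R g → ∀ i, VS U R fun r => g r * relVel r.2.2 i :=
    fun h i r hr h0 => h r hr (left_ne_zero_of_mul h0)
  have hδ := hK.sub hK'
  have hN : ContDiffOn ℝ 1 (fun p => (‖(K p - K' p).1‖ ^ 2 + ‖(K p - K' p).2‖ ^ 2) / 2) (slab R3 T) :=
    ((hδ.fst.norm_sq ℝ).add (hδ.snd.norm_sq ℝ)).div_const 2
  have hX : ContDiffOn ℝ 1 (fun p => cross3 (K p - K' p).1 (K p - K' p).2) (slab R3 T) :=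
    (contDiff_cross3.of_le (by simp)).comp_contDiffOn hδ
  have d1 := (vint_contDiffOn isOpen_Ioo (hG.mono (so _)) vG').1
  have d2 := fun i => (vint_contDiffOn isOpen_Ioo ((hG.mul (hv i)).mono (so _)) (vm vG' i)).1
  refine ⟨(4 * |C₀| + 3) * (1 + 2 * vB R), _, unq_cons
    (S := fun p => (vec fun i => cur (fun r => (f r - f' r) ^ 2) i p) +
      cross3 (K p - K' p).1 (K p - K' p).2)
    ((vint_continuousOn hG.continuousOn vG).add hN.continuousOn)
    (((PiLp.continuous_toLp 2 _).comp_continuousOn (continuousOn_pi.2 fun i =>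
      vint_continuousOn (hG.mul (hv i)).continuousOn (vm vG i))).add hX.continuousOn)
    (d1.add (hN.mono (so _))) ((contDiffOn_vec d2).add (hX.mono (so _))) (fun p hp => ?_)
    fun p hp => ?_⟩
  · refine (norm_add_le _ _).trans (add_le_add ?_ ((norm_cross3_le _ _).trans
      (by nlinarith [sq_nonneg (‖(K p - K' p).1‖ - ‖(K p - K' p).2‖)])))
    have i1 : Integrable fun v => (f (p.1, p.2, v) - f' (p.1, p.2, v)) ^ 2 • relVel v :=
      pint_integrable (g := fun r => (f r - f' r) ^ 2 • relVel r.2.2) (hG.continuousOn.smul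
        (contDiff_relVel.continuous.comp continuous_snd.snd).continuousOn)
        (fun r hr h => vG r hr (left_ne_zero_of_smul h)) hp.1 p.2
    have e : (vec fun i => cur (fun r => (f r - f' r) ^ 2) i p) =
        ∫ v, (f (p.1, p.2, v) - f' (p.1, p.2, v)) ^ 2 • relVel v := by
      ext i
      exact (EuclideanSpace.proj i : R3 →L[ℝ] ℝ).integral_comp_comm i1
    rw [e]
    refine norm_integral_le_of_norm_le (pint_integrable hG.continuousOn vG hp.1 p.2)
      (Eventually.of_forall fun v => ?_)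
    rw [norm_smul, Real.norm_of_nonneg (sq_nonneg _)]
    exact mul_le_of_le_one_right (sq_nonneg _) (norm_relVel_lt v).le
  have hn := (isOpen_oslab R3 T).mem_nhds hp
  have hn' := slab_mem_nhds hp
  have hp' := (so _ hp).1
  have dA : ∀ {Y : Type} [NormedAddCommGroup Y] [NormedSpace ℝ Y] {s : Set ST} {a : ST → Y},
      ContDiffOn ℝ 1 a s → s ∈ 𝓝 p → DifferentiableAt ℝ a p := fun h h' =>
    (h.contDiffAt h').differentiableAt one_ne_zero
  have e1 := unq_vint isOpen_Ioo (hG.mono (so _)) vG' K' hp.1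
  have e2 := unq_poy (dA hK hn') (dA hK' hn') (mx p hp) (mx' p hp)
  have e3 : dx (fun i q => ((vec fun i => cur (fun r => (f r - f' r) ^ 2) i q) +
      cross3 (K q - K' q).1 (K q - K' q).2) i) p = dx (cur fun r => (f r - f' r) ^ 2) p +
      dx (fun i r => cross3 (K r - K' r).1 (K r - K' r).2 i) p := by
    rw [dx, dx, dx, ← Finset.sum_add_distrib]
    exact Finset.sum_congr rfl fun i _ => unq_pd' (dA (d2 i) hn)
      ((EuclideanSpace.proj i : R3 →L[ℝ] ℝ).differentiableAt.comp p (dA hX hn')) _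
  rw [unq_pd' (dA d1 hn) (dA hN hn'), e3, add_add_add_comm, e1, e2]
  have i1 := pint_integrable (hf.sub hf').continuousOn vg hp' p.2
  have h1 := unq_young i1 (pint_integrable hG.continuousOn vG hp' p.2)
    (fun v => vg (p.1, p.2, v) hp') ‖K p - K' p‖
  obtain ⟨J, hJ⟩ : ∃ J, J = ∫ v, |f (p.1, p.2, v) - f' (p.1, p.2, v)| := ⟨_, rfl⟩
  have h2 : ‖∫ v, fderiv ℝ (fun r => (f r - f' r) ^ 2) (p.1, p.2, v) (1, R106.vf K' (p.1, p.2, v))‖ ≤
      4 * |C₀| * ‖K p - K' p‖ * J := by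
    rw [hJ, ← integral_const_mul]
    refine norm_integral_le_of_norm_le (i1.abs.const_mul _) (Eventually.of_forall fun v => ?_)
    have hr : ((p.1, p.2, v) : TP) ∈ oslab Ph T := ⟨hp.1, mem_univ _⟩
    have a1 := ((hf.contDiffAt (slab_mem_nhds hr)).differentiableAt one_ne_zero).hasFDerivAt
    have a2 := ((hf'.contDiffAt (slab_mem_nhds hr)).differentiableAt one_ne_zero).hasFDerivAt
    have a3 : HasFDerivAt (fun r => (f r - f' r) ^ 2) _ _ := (a1.sub a2).pow 2
    have b1 : fderiv ℝ f (p.1, p.2, v) (1, R106.vf K (p.1, p.2, v)) = 0 := vl _ hr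
    have b2 : fderiv ℝ f' (p.1, p.2, v) (1, R106.vf K' (p.1, p.2, v)) = 0 := vl' _ hr
    have b3 : ((1, R106.vf K' (p.1, p.2, v)) : TP) =
        (1, R106.vf K (p.1, p.2, v)) - (0, 0, force (K p - K' p) v) := by
      simp [R106.vf, ← force_sub]
    have b4 : ‖fderiv ℝ f (p.1, p.2, v) (1, R106.vf K' (p.1, p.2, v))‖ ≤ |C₀| * (2 * ‖K p - K' p‖) := by
      rw [b3, map_sub, b1, zero_sub, norm_neg]
      refine (ContinuousLinearMap.le_opNorm _ _).trans (mul_le_mul (hC _ hr) ?_ (norm_nonneg _)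
        (abs_nonneg _))
      simpa using norm_force_le (K p - K' p) v
    rw [a3.fderiv]
    simp only [smul_apply, sub_apply, Pi.sub_apply, b2, sub_zero, norm_smul,
      Nat.add_one_sub_one, pow_one, nsmul_eq_mul, norm_mul, Nat.cast_ofNat, Real.norm_ofNat]
    rw [Real.norm_eq_abs]
    nlinarith [mul_le_mul_of_nonneg_left b4 (abs_nonneg (f (p.1, p.2, v) - f' (p.1, p.2, v)))]
  have h3 : ∀ i, |(K p - K' p).1 i * (cur f i p - cur f' i p)| ≤ ‖K p - K' p‖ * J := fun i => by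
    rw [abs_mul]
    refine mul_le_mul ((abs_apply_le _ i).trans (norm_fst_le _)) ?_ (abs_nonneg _) (norm_nonneg _)
    rw [cur, cur, vint, vint, ← integral_sub
      (pint_integrable (hf.mul (hv i)).continuousOn (vm vf i) hp' p.2)
      (pint_integrable (hf'.mul (hv i)).continuousOn (vm vf' i) hp' p.2), hJ, ← Real.norm_eq_abs]
    refine norm_integral_le_of_norm_le i1.abs (Eventually.of_forall fun v => ?_)
    rw [← sub_mul, Real.norm_eq_abs, abs_mul]
    exact mul_le_of_le_one_right (abs_nonneg _) ((abs_apply_le _ i).trans (norm_relVel_lt _).le)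
  have h4 : ‖K p - K' p‖ ^ 2 ≤ ‖(K p - K' p).1‖ ^ 2 + ‖(K p - K' p).2‖ ^ 2 := by
    rw [Prod.norm_def]
    rcases max_choice ‖(K p - K' p).1‖ ‖(K p - K' p).2‖ with h | h <;> rw [h] <;>
      linarith [sq_nonneg ‖(K p - K' p).1‖, sq_nonneg ‖(K p - K' p).2‖]
  have h5 : 0 ≤ vint (fun r => (f r - f' r) ^ 2) p := integral_nonneg fun v => sq_nonneg _
  have h6 := vB_nonneg R
  have h7 : ‖K p - K' p‖ * J ≤ (1 + 2 * vB R) * (vint (fun r => (f r - f' r) ^ 2) p +
      (‖(K p - K' p).1‖ ^ 2 + ‖(K p - K' p).2‖ ^ 2) / 2) := by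
    rw [hJ]
    refine h1.trans ?_
    change vint (fun r => (f r - f' r) ^ 2) p + _ ≤ _
    nlinarith [mul_le_mul_of_nonneg_left h4 h6, mul_nonneg h6 h5, sq_nonneg ‖K p - K' p‖]
  have h8 := mul_le_mul_of_nonneg_left h7 (show 0 ≤ 4 * |C₀| + 3 by positivity)
  rw [Fin.sum_univ_three]
  linarith [(abs_le.1 (h3 0)).1, (abs_le.1 (h3 1)).1, (abs_le.1 (h3 2)).1, (abs_le.1 h2).2]

theorem csol_unique {T : ℝ} {f₀ : Ph → ℝ} {K₀ : R3 → Ph} {f f' : TP → ℝ} {K K' : ST → Ph}
    (h : CSol T f₀ K₀ f K) (h' : CSol T f₀ K₀ f' K') :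
    (∀ p : TP, p.1 ∈ Ico 0 T → f p = f' p) ∧ ∀ p : ST, p.1 ∈ Ico 0 T → K p = K' p := by
  have key : ∀ p : ST, p.1 ∈ Ico 0 T → (∀ v, f (p.1, p.2, v) = f' (p.1, p.2, v)) ∧ K p = K' p := by
    intro p hp
    obtain ⟨T', h1, h2⟩ := exists_between hp.2
    have sl : ∀ X : Type, slab X T' ⊆ Ico 0 T ×ˢ univ := fun X =>
      prod_mono (Icc_subset_Ico_right h2) Subset.rfl
    have so : ∀ X : Type, oslab X T' ⊆ oslab X T := fun X =>
      prod_mono (Ioo_subset_Ioo_right h2.le) Subset.rfl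
    obtain ⟨R, hR⟩ := h.supp T' (hp.1.trans h1.le) h2
    obtain ⟨R', hR'⟩ := h'.supp T' (hp.1.trans h1.le) h2
    have vf : VS (Icc 0 T') (max R R') f := fun r hr h0 =>
      (norm_snd_le _).trans ((hR r ⟨hr, mem_univ _⟩ h0).trans (le_max_left _ _))
    have vf' : VS (Icc 0 T') (max R R') f' := fun r hr h0 =>
      (norm_snd_le _).trans ((hR' r ⟨hr, mem_univ _⟩ h0).trans (le_max_right _ _))
    have vg : VS (Icc 0 T') (max R R') fun r => f r - f' r := fun r hr h0 => by
      by_cases h3 : f r = 0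
      · exact vf' r hr fun h4 => h0 (by simp [h3, h4])
      · exact vf r hr h3
    obtain ⟨C, S, hC⟩ := unq_main (h.hf.mono (sl _)) (h'.hf.mono (sl _)) (h.hK.mono (sl _))
      (h'.hK.mono (sl _)) (fun r hr h0 => (hR r hr h0).trans (le_max_left _ _)) vg vf vf'
      (fun r hr => h.vl r (so _ hr)) (fun r hr => h'.vl r (so _ hr)) (fun r hr => h.mxw r (so _ hr))
      fun r hr => h'.mxw r (so _ hr)
    have hp' : p.1 ∈ Icc 0 T' := ⟨hp.1, h1.le⟩
    have h3 := nonpos_of_mul_nonpos_right (unq_zero hC (fun x => by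
      simp [vint, h.initf, h'.initf, h.initK, h'.initK]) (p := p) ⟨hp', mem_univ _⟩) (exp_pos _)
    have h5 : 0 ≤ vint (fun r => (f r - f' r) ^ 2) p := integral_nonneg fun v => sq_nonneg _
    have h6 := sq_nonneg ‖(K p - K' p).1‖
    have h7 := sq_nonneg ‖(K p - K' p).2‖
    have hG := (((h.hf.sub h'.hf).pow 2).mono (sl _)).continuousOn
    refine ⟨fun v => ?_, sub_eq_zero.1 (Prod.ext (norm_eq_zero.1 (pow_eq_zero_iff two_ne_zero |>.1 (by linarith)))
      (norm_eq_zero.1 (pow_eq_zero_iff two_ne_zero |>.1 (by linarith))))⟩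
    have h8 := (integral_eq_zero_iff_of_nonneg (fun v => sq_nonneg _) (pint_integrable hG
      (fun r hr h0 => vg r hr fun h4 => h0 (by simp [h4])) hp' p.2)).1
      (show vint (fun r => (f r - f' r) ^ 2) p = 0 by linarith)
    have h9 : Continuous fun v => (f (p.1, p.2, v) - f' (p.1, p.2, v)) ^ 2 :=
      hG.comp_continuous (f := fun v : R3 => ((p.1, p.2, v) : TP)) (by fun_prop)
        fun v => ⟨hp', mem_univ _⟩
    exact sub_eq_zero.1 ((pow_eq_zero_iff two_ne_zero).1 (congrFun ((h9.ae_eq_iff_eq volume continuous_zero).1 h8) v))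
  exact ⟨fun p hp => (key (p.1, p.2.1) hp).1 p.2.2, fun p hp => (key p hp).2⟩

end Crest.Agent.R106
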