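import Crest.Agent.R106.Cont
import Crest.Agent.R106.L2
import Crest.Agent.R106.Unq
import Crest.Agent.R106.Bridge

/-!
# Row 106: gluing the solutions on `[0, N + 1]`
-/

set_option autoImplicit false

noncomputable section

namespace Crest.Agent.R106

open MeasureTheory Set Metric Real Filter Topology
open scoped ContDiff ENNReal RealInnerProductSpace Classical
open Crest.AnalysisR.VecCalc3 Crest.AnalysisR.PDE.RVM

theorem glue_smooth {X Y : Type} [NormedAddCommGroup X] [NormedSpace ℝ X] [NormedAddCommGroup Y]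
    [NormedSpace ℝ Y] {u : ℕ → ℝ × X → Y} {U : ℝ × X → Y}
    (hu : ∀ N : ℕ, ContDiffOn ℝ ∞ (u N) (slab X ((N : ℝ) + 1)))
    (hU : ∀ (N : ℕ) (p : ℝ × X), p.1 ∈ Ico 0 ((N : ℝ) + 1) → U p = u N p) :
    ContDiffOn ℝ ∞ U (Ici 0 ×ˢ univ) := by
  intro p hp
  obtain ⟨N, hN⟩ := exists_nat_gt p.1
  have hp0 : 0 ≤ p.1 := hp.1
  have hmem : (Ico 0 ((N : ℝ) + 1) ×ˢ (univ : Set X)) ∈ 𝓝[Ici 0 ×ˢ univ] p := by
    have ho : IsOpen (Iio ((N : ℝ) + 1) ×ˢ (univ : Set X)) := isOpen_Iio.prod isOpen_univ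
    refine mem_nhdsWithin.2 ⟨_, ho, ⟨by simp only [mem_Iio]; linarith, trivial⟩, ?_⟩
    rintro r ⟨⟨h1, -⟩, h2, -⟩
    exact ⟨⟨h2, h1⟩, trivial⟩
  have h1 : ContDiffWithinAt ℝ ∞ (u N) (Ico 0 ((N : ℝ) + 1) ×ˢ (univ : Set X)) p :=
    (hu N p ⟨⟨hp0, by linarith⟩, trivial⟩).mono (prod_mono Ico_subset_Icc_self le_rfl)
  have h2 : ContDiffWithinAt ℝ ∞ U (Ico 0 ((N : ℝ) + 1) ×ˢ (univ : Set X)) p :=
    h1.congr (fun r hr => hU N r hr.1) (hU N p ⟨hp0, by linarith⟩)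
  exact h2.mono_of_mem_nhdsWithin hmem

theorem final (f₀ : R3 → R3 → ℝ) (E₀ B₀ : R3 → R3) (h : IsAdmissibleDatum f₀ E₀ B₀) :
    ∃ f : ℝ → R3 → R3 → ℝ, ∃ E B : ℝ → R3 → R3,
      (∀ T : ℝ, 0 < T → IsClassicalSolutionOn T f₀ E₀ B₀ f E B) ∧
      ContDiffOn ℝ ∞ (fun p : ℝ × R3 × R3 => f p.1 p.2.1 p.2.2) (Set.Ici 0 ×ˢ Set.univ) ∧
      ContDiffOn ℝ ∞ (fun p : ℝ × R3 => E p.1 p.2) (Set.Ici 0 ×ˢ Set.univ) ∧
      ContDiffOn ℝ ∞ (fun p : ℝ × R3 => B p.1 p.2) (Set.Ici 0 ×ˢ Set.univ) ∧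
      ∀ T : ℝ, 0 < T → ∀ (f' : ℝ → R3 → R3 → ℝ) (E' B' : ℝ → R3 → R3),
        IsClassicalSolutionOn T f₀ E₀ B₀ f' E' B' →
        ∀ t ∈ Set.Ico 0 T, f' t = f t ∧ E' t = E t ∧ B' t = B t := by
  have ha := adm_of h
  have hpos : ∀ N : ℕ, (0 : ℝ) < (N : ℝ) + 1 := fun N => by positivity
  choose fs Ks Zs hs using fun N : ℕ => exists_true ha (hpos N)
  -- compatibility
  have hcomp : ∀ N M : ℕ, N ≤ M →
      (∀ p : TP, p.1 ∈ Ico 0 ((N : ℝ) + 1) → fs N p = fs M p) ∧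
        ∀ p : ST, p.1 ∈ Ico 0 ((N : ℝ) + 1) → Ks N p = Ks M p := by
    intro N M hNM
    have : (N : ℝ) + 1 ≤ (M : ℝ) + 1 := by exact_mod_cast Nat.succ_le_succ hNM
    exact csol_unique ((hs N).csol le_rfl) ((hs M).csol this)
  set F : TP → ℝ := fun p => fs ⌈p.1⌉₊ p with hFdef
  set K : ST → Ph := fun p => Ks ⌈p.1⌉₊ p with hKdef
  have hceil : ∀ t : ℝ, 0 ≤ t → t ∈ Ico 0 ((⌈t⌉₊ : ℝ) + 1) := fun t ht =>
    ⟨ht, lt_of_le_of_lt (Nat.le_ceil t) (lt_add_one _)⟩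
  have hF : ∀ (N : ℕ) (p : TP), p.1 ∈ Ico 0 ((N : ℝ) + 1) → F p = fs N p := by
    intro N p hp
    rcases le_total N ⌈p.1⌉₊ with hle | hle
    · exact ((hcomp _ _ hle).1 p hp).symm
    · exact (hcomp _ _ hle).1 p (hceil _ hp.1)
  have hK : ∀ (N : ℕ) (p : ST), p.1 ∈ Ico 0 ((N : ℝ) + 1) → K p = Ks N p := by
    intro N p hp
    rcases le_total N ⌈p.1⌉₊ with hle | hle
    · exact ((hcomp _ _ hle).2 p hp).symm
    · exact (hcomp _ _ hle).2 p (hceil _ hp.1)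
  have hC : ∀ T : ℝ, 0 < T → CSol T (fun z => f₀ z.1 z.2) (fun x => (E₀ x, B₀ x)) F K := by
    intro T hT
    obtain ⟨N, hN⟩ := exists_nat_gt T
    have hle : T ≤ (N : ℝ) + 1 := by linarith
    exact ((hs N).csol hle).congr hT
      (fun p hp => hF N p ⟨hp.1, lt_of_lt_of_le hp.2 hle⟩)
      (fun p hp => hK N p ⟨hp.1, lt_of_lt_of_le hp.2 hle⟩)
  have hsK : ContDiffOn ℝ ∞ K (Ici 0 ×ˢ univ) := glue_smooth (fun N => (hs N).hK) hK
  refine ⟨fun t x v => F (t, x, v), fun t x => (K (t, x)).1, fun t x => (K (t, x)).2, ?_,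
    glue_smooth (fun N => (hs N).hf) hF, hsK.fst, hsK.snd, ?_⟩
  · intro T hT
    refine classical_of (hC T hT) ?_
    intro t ht
    obtain ⟨N, hN⟩ := exists_nat_gt T
    have hle : T ≤ (N : ℝ) + 1 := by linarith
    have hsub : Ico 0 T ⊆ Ico 0 ((N : ℝ) + 1) := Ico_subset_Ico_right hle
    have hsub' : Ico 0 T ⊆ Icc 0 ((N : ℝ) + 1) := hsub.trans Ico_subset_Icc_self
    obtain ⟨h1, h2, h3, h4⟩ := (hs N).l2 ha (hsub' ht)
    have e1 : ∀ s ∈ Ico 0 T, (fun x => (K (s, x)).1) = fun x => (Ks N (s, x)).1 := fun s hs' =>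
      funext fun x => by rw [hK N (s, x) (hsub hs')]
    have e2 : ∀ s ∈ Ico 0 T, (fun x => (K (s, x)).2) = fun x => (Ks N (s, x)).2 := fun s hs' =>
      funext fun x => by rw [hK N (s, x) (hsub hs')]
    refine ⟨by rw [e1 t ht]; exact h1, by rw [e2 t ht]; exact h2, ?_, ?_⟩
    · refine (h3.mono_left (nhdsWithin_mono _ hsub')).congr' ?_
      filter_upwards [self_mem_nhdsWithin] with s hs'
      rw [e1 s hs', e1 t ht]
    · refine (h4.mono_left (nhdsWithin_mono _ hsub')).congr' ?_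
      filter_upwards [self_mem_nhdsWithin] with s hs'
      rw [e2 s hs', e2 t ht]
  · intro T hT f' E' B' h' t ht
    obtain ⟨u1, u2⟩ := csol_unique (csol_of h') (hC T hT)
    refine ⟨?_, ?_, ?_⟩
    · funext x v
      exact u1 (t, x, v) ht
    · funext x
      exact congrArg Prod.fst (u2 (t, x) ht)
    · funext x
      exact congrArg Prod.snd (u2 (t, x) ht)

end Crest.Agent.R106
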