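import Crest.Agent.R106.En0

/-!
# Row 106: the flux through backward light cones

For `p = (t, x)`, `ε > 0` take `W (τ, x') = h((t - τ - ⟨x - x'⟩_ε)/ε)`, `⟨y⟩_ε = √(ε² + |y|²)`,
`h = Real.smoothTransition`.  `W (t, ·) = 0`, `0 ≤ W ≤ 1`, `-fderiv W (e, S) = h'(…)/ε (e - S·y/⟨y⟩_ε) ≥ 0`,
so `cons_weight` gives `∫ dy F_ε(y) ≤ ∫ e(0)` with `F_ε(y) = ∫_0^t h'(…)/ε (e - S·y/⟨y⟩_ε)(τ, x - y) dτ`.  For
`0 < |y| < t`, `F_ε(y) → (e - n·S)(cone2 p y)` by continuity (approximate identity concentrated at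
`τ = t - |y| ∈ (0, t)`); Fatou (`lintegral_liminf_le'`) along `ε = 1/(n+1)`.

-/

set_option autoImplicit false

noncomputable section

namespace Crest.Agent.R106

open MeasureTheory Set Metric Real Filter Topology
open scoped ContDiff ENNReal RealInnerProductSpace Classical
open Crest.AnalysisR.VecCalc3 Crest.AnalysisR.PDE.RVM

/-- the smoothed indicator of the backward cone -/
def fluxW (p : ST) (ε : ℝ) (q : ST) : ℝ :=
  Real.smoothTransition ((p.1 - q.1 - √(ε ^ 2 + ‖p.2 - q.2‖ ^ 2)) / ε)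

theorem flux_contDiff (p : ST) {ε : ℝ} (hε : 0 < ε) : ContDiff ℝ 1 (fluxW p ε) := by
  refine Real.smoothTransition.contDiff.comp (ContDiff.div_const ?_ ε)
  refine (contDiff_const.sub contDiff_fst).sub (ContDiff.sqrt ?_ fun q => by positivity)
  exact contDiff_const.add ((contDiff_const.sub contDiff_snd).norm_sq ℝ)

theorem flux_fderiv (p : ST) {ε : ℝ} (hε : 0 < ε) (q : ST) (a : ℝ) (u : R3) :
    -fderiv ℝ (fluxW p ε) q (a, u) =
      deriv Real.smoothTransition ((p.1 - q.1 - √(ε ^ 2 + ‖p.2 - q.2‖ ^ 2)) / ε) / ε *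
        (a - ⟪(√(ε ^ 2 + ‖p.2 - q.2‖ ^ 2))⁻¹ • (p.2 - q.2), u⟫) := by
  have h1 : HasFDerivAt (fun q : ST => p.2 - q.2) (-ContinuousLinearMap.snd ℝ ℝ R3) q :=
    hasFDerivAt_snd.const_sub p.2
  have h2 := (h1.norm_sq.const_add (ε ^ 2)).sqrt (by positivity)
  have h3 : HasFDerivAt (fun q : ST => p.1 - q.1) (-ContinuousLinearMap.fst ℝ ℝ R3) q :=
    hasFDerivAt_fst.const_sub p.1
  have h4 := (h3.fun_sub h2).mul_const ε⁻¹
  have h5 := ((Real.smoothTransition.contDiff (n := 1)).differentiable one_ne_zero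
    ((p.1 - q.1 - √(ε ^ 2 + ‖p.2 - q.2‖ ^ 2)) / ε)).hasDerivAt.comp_hasFDerivAt_of_eq q h4
    (div_eq_mul_inv _ _)
  have h6 : fluxW p ε = Real.smoothTransition ∘ fun q : ST =>
      (p.1 - q.1 - √(ε ^ 2 + ‖p.2 - q.2‖ ^ 2)) * ε⁻¹ := by
    funext q
    simp only [fluxW, Function.comp, div_eq_mul_inv]
  have h7 : 0 < √(ε ^ 2 + ‖p.2 - q.2‖ ^ 2) := by positivity
  rw [h6, HasFDerivAt.fderiv h5, real_inner_smul_left]
  simp only [ContinuousLinearMap.smul_apply, ContinuousLinearMap.sub_apply,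
    ContinuousLinearMap.neg_apply, ContinuousLinearMap.coe_fst', ContinuousLinearMap.comp_apply,
    ContinuousLinearMap.coe_snd', innerSL_apply_apply, inner_neg_right, smul_eq_mul, nsmul_eq_mul]
  push_cast
  field_simp
  ring

theorem flux_norm_le (ε : ℝ) (y : R3) : ‖y‖ ≤ √(ε ^ 2 + ‖y‖ ^ 2) :=
  Real.le_sqrt_of_sq_le (by nlinarith [sq_nonneg ε])

theorem flux_nonneg {T : ℝ} {e : ST → ℝ} {S : ST → R3} (h : Cons T e S) (p : ST) {ε : ℝ}
    (hε : 0 < ε) {q : ST} (hq : q ∈ slab R3 T) : 0 ≤ -fderiv ℝ (fluxW p ε) q (e q, S q) := by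
  rw [flux_fderiv p hε]
  refine mul_nonneg (div_nonneg Real.smoothTransition.monotone.deriv_nonneg hε.le) (sub_nonneg.2 ?_)
  refine (real_inner_le_norm _ _).trans (le_trans ?_ (h.dom q hq))
  refine mul_le_of_le_one_left (norm_nonneg _) ?_
  have h7 : 0 < √(ε ^ 2 + ‖p.2 - q.2‖ ^ 2) := by positivity
  rw [norm_smul, norm_inv, Real.norm_of_nonneg h7.le, inv_mul_le_iff₀ h7, mul_one]
  exact flux_norm_le _ _

theorem flux_bound {T : ℝ} {e : ST → ℝ} {S : ST → R3} (h : Cons T e S) {p : ST}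
    (hp : p ∈ slab R3 T) {ε : ℝ} (hε : 0 < ε) :
    AEMeasurable (fun y => ∫⁻ τ in Ioo 0 p.1, ENNReal.ofReal
      (-fderiv ℝ (fluxW p ε) (τ, p.2 - y) (e (τ, p.2 - y), S (τ, p.2 - y)))) volume ∧
    ∫⁻ y, ∫⁻ τ in Ioo 0 p.1, ENNReal.ofReal
      (-fderiv ℝ (fluxW p ε) (τ, p.2 - y) (e (τ, p.2 - y), S (τ, p.2 - y))) ≤
      ∫⁻ x, ENNReal.ofReal (e (0, x)) := by
  obtain ⟨hI, hle⟩ := cons_weight h (flux_contDiff p hε) (fun q => Real.smoothTransition.nonneg _)
    (R := ‖p.2‖ + p.1) (fun q hq hR => by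
      refine Real.smoothTransition.zero_of_nonpos (div_nonpos_of_nonpos_of_nonneg ?_ hε.le)
      have h1 := flux_norm_le ε (p.2 - q.2)
      have h2 := norm_sub_norm_le q.2 p.2
      rw [norm_sub_rev] at h2
      linarith [hq.1.1]) hp.1
  have hz : ∀ x, fluxW p ε (p.1, x) = 0 := fun x =>
    Real.smoothTransition.zero_of_nonpos (div_nonpos_of_nonpos_of_nonneg
      (by simp only [sub_self, zero_sub, Left.neg_nonpos_iff, Real.sqrt_nonneg]) hε.le)
  simp only [hz, mul_zero, integral_zero] at hle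
  have hm : AEMeasurable (fun q : ST => ENNReal.ofReal (-fderiv ℝ (fluxW p ε) q (e q, S q)))
      ((volume.restrict (Ioo 0 p.1)).prod volume) := by
    have := hI.neg.aemeasurable.ennreal_ofReal
    rwa [Measure.volume_eq_prod, ← Measure.prod_restrict, Measure.restrict_univ] at this
  refine ⟨hm.lintegral_prod_left'.comp_quasiMeasurePreserving
    (Measure.measurePreserving_sub_left volume p.2).quasiMeasurePreserving, ?_⟩
  rw [lintegral_sub_left_eq_self (fun x => ∫⁻ τ in Ioo 0 p.1, ENNReal.ofReal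
      (-fderiv ℝ (fluxW p ε) (τ, x) (e (τ, x), S (τ, x)))) p.2, ← lintegral_prod_symm _ hm,
    ← Measure.restrict_univ (μ := (volume : Measure R3)), Measure.prod_restrict,
    ← Measure.volume_eq_prod, Measure.restrict_univ,
    ← ofReal_integral_eq_lintegral_ofReal
      (f := fun q => -fderiv ℝ (fluxW p ε) q (e q, S q)) hI.neg
      ((ae_restrict_iff' (measurableSet_Ioo.prod MeasurableSet.univ)).2 (Eventually.of_forall
        fun q hq => flux_nonneg h p hε ⟨⟨hq.1.1.le, hq.1.2.le.trans hp.1.2⟩, trivial⟩)),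
    integral_neg]
  refine (ENNReal.ofReal_le_ofReal (show _ ≤ ∫ x, e (0, x) * fluxW p ε (0, x) by linarith)).trans ?_
  have he : ∀ x, 0 ≤ e (0, x) := fun x =>
    (norm_nonneg _).trans (h.dom (0, x) ⟨⟨le_rfl, hp.1.1.trans hp.1.2⟩, trivial⟩)
  by_cases hi : Integrable fun x => e (0, x) * fluxW p ε (0, x)
  · rw [ofReal_integral_eq_lintegral_ofReal hi (Eventually.of_forall fun x =>
      mul_nonneg (he x) (Real.smoothTransition.nonneg _))]
    exact lintegral_mono fun x => ENNReal.ofReal_le_ofReal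
      (mul_le_of_le_one_right (he x) (Real.smoothTransition.le_one _))
  · rw [integral_undef hi, ENNReal.ofReal_zero]
    exact bot_le

theorem flux_mass (b c : ℝ) {ε : ℝ} (hε : 0 < ε) (hc : 0 ≤ c) :
    ∫⁻ τ in Ioo (b - ε) b, ENNReal.ofReal (deriv Real.smoothTransition ((b - τ) / ε) / ε * c) =
      ENNReal.ofReal c := by
  have hc' : Continuous fun τ => deriv Real.smoothTransition ((b - τ) / ε) / ε * c := by
    have := (Real.smoothTransition.contDiff (n := 1)).continuous_deriv le_rfl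
    fun_prop
  rw [← ofReal_integral_eq_lintegral_ofReal
    ((hc'.integrableOn_Icc (a := b - ε) (b := b)).mono_set Ioo_subset_Icc_self)
    (Eventually.of_forall fun τ =>
      mul_nonneg (div_nonneg Real.smoothTransition.monotone.deriv_nonneg hε.le) hc),
    ← integral_Ioc_eq_integral_Ioo, ← intervalIntegral.integral_of_le (by linarith),
    intervalIntegral.integral_eq_sub_of_hasDerivAt
      (f := fun τ => -Real.smoothTransition ((b - τ) / ε) * c) (fun τ _ => ?_)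
      (hc'.intervalIntegrable _ _)]
  · simp [hε.ne']
  · have h1 : HasDerivAt (fun τ => (b - τ) / ε) (-1 / ε) τ :=
      ((hasDerivAt_id τ).const_sub b).div_const ε
    have h2 := ((((Real.smoothTransition.contDiff (n := 1)).differentiable one_ne_zero
      ((b - τ) / ε)).hasDerivAt.comp τ h1).neg).mul_const c
    refine h2.congr_deriv ?_
    ring

theorem flux_lower {T : ℝ} {e : ST → ℝ} {S : ST → R3} (h : Cons T e S) {p : ST}
    (hp : p ∈ slab R3 T) {y : R3} (hy : y ≠ 0) (hy' : ‖y‖ < p.1) {c : ℝ} (hc : 0 ≤ c)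
    (hlt : c < e (cone2 p y) - ⟪nn y, S (cone2 p y)⟫) : ∀ᶠ ε in 𝓝[>] (0 : ℝ),
      ENNReal.ofReal c ≤ ∫⁻ τ in Ioo 0 p.1, ENNReal.ofReal
        (-fderiv ℝ (fluxW p ε) (τ, p.2 - y) (e (τ, p.2 - y), S (τ, p.2 - y))) := by
  have hy0 := norm_pos_iff.2 hy
  have hs : slab R3 T ∈ 𝓝 (cone2 p y) :=
    prod_mem_nhds (Icc_mem_nhds (by linarith) (by linarith [hp.1.2])) univ_mem
  have hm : ContinuousAt (fun z : ℝ × ℝ => ((z.2, p.2 - y) : ST)) (0, p.1 - ‖y‖) := by fun_prop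
  have h1 : ContinuousAt (fun z : ℝ × ℝ => e (z.2, p.2 - y)) (0, p.1 - ‖y‖) :=
    ContinuousAt.comp (f := fun z : ℝ × ℝ => ((z.2, p.2 - y) : ST)) (h.ce.continuousAt hs) hm
  have h2 : ContinuousAt (fun z : ℝ × ℝ => S (z.2, p.2 - y)) (0, p.1 - ‖y‖) :=
    ContinuousAt.comp (f := fun z : ℝ × ℝ => ((z.2, p.2 - y) : ST)) (h.cS.continuousAt hs) hm
  have h3 : ContinuousAt (fun z : ℝ × ℝ => (√(z.1 ^ 2 + ‖y‖ ^ 2))⁻¹) (0, p.1 - ‖y‖) :=
    ContinuousAt.inv₀ (by fun_prop) (by positivity)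
  have h4 := (h1.sub ((h3.smul continuousAt_const (g := fun _ => y)).inner (𝕜 := ℝ) h2)).eventually
    (lt_mem_nhds (a := c) (by
      simpa [Real.sqrt_sq hy0.le, cone2, nn] using hlt))
  obtain ⟨δ, hδ, h5⟩ := Metric.eventually_nhds_iff.1 h4
  have hτ : 0 < p.1 - ‖y‖ := by linarith
  filter_upwards [Ioo_mem_nhdsGT (show (0 : ℝ) < min (δ / 2) ((p.1 - ‖y‖) / 2) by positivity)]
    with ε hε
  obtain ⟨hε0, hε1⟩ := hε
  obtain ⟨hε1, hε2⟩ := lt_min_iff.1 hε1
  have r1 := flux_norm_le ε y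
  have r2 : √(ε ^ 2 + ‖y‖ ^ 2) ≤ ε + ‖y‖ :=
    Real.sqrt_le_iff.2 ⟨by positivity, by nlinarith⟩
  rw [← flux_mass (p.1 - √(ε ^ 2 + ‖y‖ ^ 2)) c hε0 hc]
  refine le_trans (setLIntegral_mono' measurableSet_Ioo fun τ hτ' => ?_)
    (lintegral_mono_set (Ioo_subset_Ioo (by linarith) (by linarith)))
  rw [flux_fderiv p hε0]
  simp only [sub_sub_cancel]
  rw [sub_right_comm]
  refine ENNReal.ofReal_le_ofReal (mul_le_mul_of_nonneg_left (le_of_lt ?_)
    (div_nonneg Real.smoothTransition.monotone.deriv_nonneg hε0.le))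
  refine h5 (y := (ε, τ)) ?_
  rw [Prod.dist_eq, max_lt_iff, Real.dist_eq, Real.dist_eq, abs_lt, abs_lt]
  exact ⟨⟨by linarith, by linarith⟩, by linarith [hτ'.1], by linarith [hτ'.2]⟩

theorem cons_flux {T : ℝ} {e : ST → ℝ} {S : ST → R3} (h : Cons T e S) {p : ST}
    (hp : p ∈ slab R3 T) :
    ∫⁻ y in ball (0 : R3) p.1, ENNReal.ofReal (e (cone2 p y) - ⟪nn y, S (cone2 p y)⟫) ≤
      ∫⁻ x, ENNReal.ofReal (e (0, x)) := by
  have hε : ∀ n : ℕ, (0 : ℝ) < 1 / ((n : ℝ) + 1) := fun n => by positivity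
  have hlim : Tendsto (fun n : ℕ => 1 / ((n : ℝ) + 1)) atTop (𝓝[>] 0) :=
    tendsto_nhdsWithin_iff.2 ⟨tendsto_one_div_add_atTop_nhds_zero_nat,
      Eventually.of_forall hε⟩
  refine le_trans (lintegral_mono_ae ?_) ((setLIntegral_le_lintegral _ _).trans
    ((lintegral_liminf_le' (u := atTop) fun n => (flux_bound h hp (hε n)).1).trans
      (liminf_le_of_frequently_le' (Frequently.of_forall fun n => (flux_bound h hp (hε n)).2))))
  have h0 : ∀ᵐ y : R3, y ≠ 0 := compl_mem_ae_iff.2 (measure_singleton 0)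
  filter_upwards [ae_restrict_mem measurableSet_ball, ae_restrict_of_ae h0] with y hy hy0
  refine le_of_forall_lt_imp_le_of_dense fun a ha => le_liminf_of_le (by isBoundedDefault) ?_
  have h1 := hlim.eventually (flux_lower h hp hy0 (mem_ball_zero_iff.1 hy) ENNReal.toReal_nonneg
    (ENNReal.toReal_lt_of_lt_ofReal ha))
  rwa [ENNReal.ofReal_toReal ha.ne_top] at h1

end Crest.Agent.R106
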