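import Crest.Agent.R106.Cyl

/-!
# Row 106: the two integrations by parts on the cone

`gs_y`: Fubini (`v` outside); for fixed `v` apply `sibp` to `U y = 1[|y| < t] β(y, v) g(cone p (y, v))`, which is
`C¹` off `0` because `g` vanishes for `τ ≤ ε`; `∂_u (g ∘ cone) = -fderiv g (n·u, u, 0)`.
`gs_v`: Fubini (`y` outside, `0 < |y| < t`); use `Trans.eq` and integrate
`v ↦ c(y, v) • H(cone)` by parts (`integral_dv`-like: `∑ ∂_{v_i}(c H_i) = fderiv c (0, H) + c dv H`).

-/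

set_option autoImplicit false

noncomputable section

namespace Crest.Agent.R106

open MeasureTheory Set Metric Real Filter Topology
open scoped ContDiff ENNReal RealInnerProductSpace Classical
open Crest.AnalysisR.VecCalc3 Crest.AnalysisR.PDE.RVM

variable {T P : ℝ} {p : ST}

theorem gs0_restrict (t : ℝ) : (volume : Measure Ph).restrict (cyl t) =
    ((volume : Measure R3).restrict (ball 0 t)).prod (volume : Measure R3) := by
  rw [cyl, Measure.volume_eq_prod, ← Measure.prod_restrict, Measure.restrict_univ]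

theorem gs0_cone (p : ST) (v : R3) {y : R3} (hy : y ≠ 0) :
    ContDiffAt ℝ 1 (fun y => cone p (y, v)) y := by
  unfold cone
  exact (contDiffAt_const.sub (contDiffAt_norm ℝ hy)).prodMk
    ((contDiffAt_const.sub contDiffAt_id).prodMk contDiffAt_const)

theorem gs0_fderiv {g : TP → ℝ} {β : Ph → ℝ} {y v : R3} (hy : y ≠ 0)
    (hg : DifferentiableAt ℝ g (cone p (y, v))) (hβ : DifferentiableAt ℝ β (y, v)) (e : R3) :
    fderiv ℝ (fun y => β (y, v) * g (cone p (y, v))) y e =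
      fderiv ℝ β (y, v) (e, 0) * g (cone p (y, v)) -
        β (y, v) * fderiv ℝ g (cone p (y, v)) (⟪nn y, e⟫, e, 0) := by
  have h1 : HasFDerivAt (fun y : R3 => cone p (y, v))
      ((-innerSL ℝ (nn y)).prod ((-ContinuousLinearMap.id ℝ R3).prod 0)) y :=
    ((hasFDerivAt_norm hy).const_sub p.1).prodMk
      (((hasFDerivAt_id y).const_sub p.2).prodMk (hasFDerivAt_const v y))
  have h2 := hg.hasFDerivAt.comp y h1
  have h3 := HasFDerivAt.comp (g := β) (f := fun e : R3 => (e, v)) y hβ.hasFDerivAt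
    (hasFDerivAt_prodMk_left (𝕜 := ℝ) y v)
  have h4 := (h3.mul h2).fderiv
  have h5 : ((-⟪nn y, e⟫, -e, 0) : TP) = -(⟪nn y, e⟫, e, 0) := by simp
  refine (congrArg (fun L : R3 →L[ℝ] ℝ => L e) h4).trans ?_
  simp only [add_apply, smul_apply,
    ContinuousLinearMap.comp_apply, ContinuousLinearMap.prod_apply, neg_apply,
    innerSL_apply_apply, ContinuousLinearMap.id_apply, zero_apply,
    ContinuousLinearMap.inl_apply, Function.comp_apply, smul_eq_mul, h5, map_neg]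
  ring

theorem gs0_slice {ε : ℝ} {g : TP → ℝ} (hg : ContDiffOn ℝ 1 g (slab Ph T))
    (hε : 0 < ε) (h0 : ∀ r : TP, r.1 ∈ Icc 0 T → r.1 ≤ ε → g r = 0) {β : Ph → ℝ} (hβ : KerB β)
    (hp : p ∈ slab R3 T) (v e : R3) :
    ∫ y in ball (0 : R3) p.1, (fderiv ℝ β (y, v) (e, 0) * g (cone p (y, v)) -
      β (y, v) * fderiv ℝ g (cone p (y, v)) (⟪nn y, e⟫, e, 0)) = 0 := by
  set U : R3 → ℝ := (ball (0 : R3) p.1).indicator fun y => β (y, v) * g (cone p (y, v)) with hU
  have hcyl : ∀ y ∈ ball (0 : R3) p.1, (y, v) ∈ cyl p.1 := fun y hy => ⟨hy, mem_univ _⟩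
  have hout : ∀ y : R3, y ∉ ball (0 : R3) p.1 → U =ᶠ[𝓝 y] fun _ => 0 := by
    intro y hy
    rw [mem_ball_zero_iff, not_lt] at hy
    have hopen : IsOpen {z : R3 | p.1 - ε < ‖z‖} := isOpen_lt continuous_const continuous_norm
    filter_upwards [hopen.mem_nhds (show p.1 - ε < ‖y‖ by linarith)] with z hz
    by_cases hz' : z ∈ ball (0 : R3) p.1
    · rw [hU, indicator_of_mem hz', h0 _ (cone_mem hp (hcyl z hz')).1, mul_zero]
      show p.1 - ‖z‖ ≤ ε
      have : p.1 - ε < ‖z‖ := hz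
      linarith
    · rw [hU, indicator_of_notMem hz']
  have hin : ∀ y ∈ ball (0 : R3) p.1, U =ᶠ[𝓝 y] fun y => β (y, v) * g (cone p (y, v)) := by
    intro y hy
    filter_upwards [isOpen_ball.mem_nhds hy] with z hz
    rw [hU, indicator_of_mem hz]
  have hgA : ∀ y ∈ ball (0 : R3) p.1, y ≠ 0 → ContDiffAt ℝ 1 g (cone p (y, v)) := fun y hy hy0 =>
    hg.contDiffAt (slab_mem_nhds (cone_mem_open hp (hcyl y hy) hy0))
  have hβA : ∀ y : R3, y ≠ 0 → ContDiffAt ℝ 1 β (y, v) := fun y hy0 =>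
    hβ.1.contDiffAt (isOpen_off.mem_nhds ⟨hy0, mem_univ _⟩)
  have hder : ∀ y ∈ ball (0 : R3) p.1, y ≠ 0 → ∀ e : R3, fderiv ℝ U y e =
      fderiv ℝ β (y, v) (e, 0) * g (cone p (y, v)) -
        β (y, v) * fderiv ℝ g (cone p (y, v)) (⟪nn y, e⟫, e, 0) := by
    intro y hy hy0 e
    rw [(hin y hy).fderiv_eq]
    exact gs0_fderiv hy0 ((hgA y hy hy0).differentiableAt one_ne_zero)
      ((hβA y hy0).differentiableAt one_ne_zero) e
  have hC1 : ContDiffOn ℝ 1 U {0}ᶜ := by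
    intro y hy0
    refine ContDiffAt.contDiffWithinAt ?_
    by_cases hy : y ∈ ball (0 : R3) p.1
    · refine ContDiffAt.congr_of_eventuallyEq ?_ (hin y hy)
      exact ((hβA y hy0).comp y (contDiffAt_id.prodMk contDiffAt_const)).mul
        ((hgA y hy hy0).comp y (gs0_cone p v hy0))
    · exact contDiffAt_const.congr_of_eventuallyEq (hout y hy)
  have ht0 : 0 ≤ p.1 := hp.1.1
  set R : ℝ := ‖p.2‖ + p.1 + ‖v‖ with hR
  have hn1 := norm_nonneg p.2
  have hn2 := norm_nonneg v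
  obtain ⟨Cb, hCb⟩ := hβ.2 R
  obtain ⟨G1, hG1⟩ := fderiv_bdd hg R
  obtain ⟨G0, hG0⟩ := (isCompact_Icc.prod (isCompact_closedBall (0 : Ph) R)).exists_bound_of_continuousOn
    (hg.continuousOn.mono (prod_mono Subset.rfl (subset_univ _)))
  have hRn : ∀ y ∈ ball (0 : R3) p.1, ‖(cone p (y, v)).2‖ ≤ R := by
    intro y hy
    rw [mem_ball_zero_iff] at hy
    refine norm_prod_le_iff.2 ⟨?_, ?_⟩
    · exact (norm_sub_le p.2 y).trans (by linarith)
    · show ‖v‖ ≤ R
      linarith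
  have hb0 : ∀ y ∈ ball (0 : R3) p.1, |g (cone p (y, v))| ≤ |G0| := fun y hy =>
    (hG0 _ ⟨(cone_mem hp (hcyl y hy)).1, mem_closedBall_zero_iff.2 (hRn y hy)⟩).trans (le_abs_self _)
  have hbb : ∀ y ∈ ball (0 : R3) p.1, y ≠ 0 → ∀ e : R3, |β (y, v)| ≤ |Cb| / ‖y‖ ∧
      |fderiv ℝ β (y, v) (e, 0)| ≤ |Cb| * ‖e‖ / ‖y‖ ^ 2 := by
    intro y hy hy0 e
    rw [mem_ball_zero_iff] at hy
    obtain ⟨a1, a2, -⟩ := hCb y v e hy0 (by linarith) (by linarith)
    have := le_abs_self Cb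
    exact ⟨a1.trans (by gcongr), a2.trans (by gcongr)⟩
  set C : ℝ := |Cb| * |G0| + |Cb| * |G1| * p.1 with hC
  have hC0 : 0 ≤ |Cb| * |G1| * p.1 := by positivity
  have hCp : 0 ≤ C := by positivity
  have key := sibp hC1 (R := p.1) (C := C) (fun y hy => by
    rw [hU, indicator_of_notMem (by rw [mem_ball_zero_iff]; linarith)]) (fun y hy0 => by
    by_cases hy : y ∈ ball (0 : R3) p.1
    · rw [hU, indicator_of_mem hy, abs_mul]
      calc _ ≤ |Cb| / ‖y‖ * |G0| :=
            mul_le_mul (hbb y hy hy0 0).1 (hb0 y hy) (abs_nonneg _) (by positivity)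
        _ = |Cb| * |G0| / ‖y‖ := by ring
        _ ≤ C / ‖y‖ := by gcongr; linarith
    · rw [hU, indicator_of_notMem hy, abs_zero]
      positivity) (fun y hy0 => by
    by_cases hy : y ∈ ball (0 : R3) p.1
    · refine ContinuousLinearMap.opNorm_le_bound _ (by positivity) (fun e => ?_)
      rw [hder y hy hy0 e, Real.norm_eq_abs]
      have hy1 : 0 < ‖y‖ := norm_pos_iff.2 hy0
      have hy2 : ‖y‖ < p.1 := mem_ball_zero_iff.1 hy
      have b1 : |fderiv ℝ β (y, v) (e, 0) * g (cone p (y, v))| ≤ |Cb| * ‖e‖ / ‖y‖ ^ 2 * |G0| := by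
        rw [abs_mul]
        exact mul_le_mul (hbb y hy hy0 e).2 (hb0 y hy) (abs_nonneg _) (by positivity)
      have b2 : ‖((⟪nn y, e⟫, e, 0) : TP)‖ ≤ ‖e‖ := by
        refine norm_prod_le_iff.2 ⟨?_, norm_prod_le_iff.2 ⟨le_rfl, by simp⟩⟩
        refine (norm_inner_le_norm (𝕜 := ℝ) _ _).trans ?_
        rw [norm_nn hy0, one_mul]
      have b3 : |fderiv ℝ g (cone p (y, v)) (⟪nn y, e⟫, e, 0)| ≤ |G1| * ‖e‖ := by
        refine ((fderiv ℝ g (cone p (y, v))).le_opNorm (⟪nn y, e⟫, e, 0)).trans ?_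
        exact mul_le_mul ((hG1 _ (cone_mem_open hp (hcyl y hy) hy0) (hRn y hy)).trans
          (le_abs_self _)) b2 (norm_nonneg _) (abs_nonneg _)
      have b4 : |β (y, v) * fderiv ℝ g (cone p (y, v)) (⟪nn y, e⟫, e, 0)| ≤
          |Cb| * |G1| * p.1 / ‖y‖ ^ 2 * ‖e‖ := by
        rw [abs_mul]
        calc _ ≤ |Cb| / ‖y‖ * (|G1| * ‖e‖) :=
              mul_le_mul (hbb y hy hy0 0).1 b3 (abs_nonneg _) (by positivity)
          _ = |Cb| * |G1| * ‖y‖ / ‖y‖ ^ 2 * ‖e‖ := by field_simp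
          _ ≤ _ := by gcongr
      calc _ ≤ _ := abs_sub _ _
        _ ≤ |Cb| * ‖e‖ / ‖y‖ ^ 2 * |G0| + |Cb| * |G1| * p.1 / ‖y‖ ^ 2 * ‖e‖ := add_le_add b1 b4
        _ = _ := by rw [hC]; ring
    · rw [(hout y hy).fderiv_eq, fderiv_fun_const, Pi.zero_apply, norm_zero]
      positivity) e
  rw [← key.2, ← integral_indicator measurableSet_ball]
  refine integral_congr_ae ?_
  filter_upwards [sibp_ae_ne] with y hy0
  by_cases hy : y ∈ ball (0 : R3) p.1
  · rw [indicator_of_mem hy, hder y hy hy0 e]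
  · rw [indicator_of_notMem hy, (hout y hy).fderiv_eq, fderiv_fun_const, Pi.zero_apply,
      zero_apply]

theorem gs_y {ε : ℝ} {g : TP → ℝ} (hg : ContDiffOn ℝ 1 g (slab Ph T)) (vg : VS (Icc 0 T) P g)
    (hε : 0 < ε) (h0 : ∀ r : TP, r.1 ∈ Icc 0 T → r.1 ≤ ε → g r = 0) {β : Ph → ℝ} (hβ : KerB β)
    {u : R3 → R3} (hu : Continuous u) (hp : p ∈ slab R3 T) :
    ∫ q in cyl p.1, β q * fderiv ℝ g (cone p q) (⟪nn q.1, u q.2⟫, u q.2, 0) =
      ∫ q in cyl p.1, fderiv ℝ β q (u q.2, 0) * g (cone p q) := by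
  have i1 : IntegrableOn (fun q : Ph =>
      β q * fderiv ℝ g (cone p q) (⟪nn q.1, u q.2⟫, u q.2, 0)) (cyl p.1) := by
    refine hβ.int_ret hg vg (μ := fun q => (⟪nn q.1, u q.2⟫, u q.2, 0)) ?_ (fun R => ?_) hp
    · exact ((measurable_nn.comp measurable_fst).inner (hu.measurable.comp measurable_snd)).prodMk
        ((hu.measurable.comp measurable_snd).prodMk measurable_const)
    · obtain ⟨C, hC⟩ := (isCompact_closedBall (0 : R3) R).exists_bound_of_continuousOn
        hu.continuousOn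
      refine ⟨C, fun q hq => ?_⟩
      have h1 := hC q.2 (mem_closedBall_zero_iff.2 ((norm_snd_le q).trans hq))
      refine norm_prod_le_iff.2 ⟨?_, norm_prod_le_iff.2 ⟨h1, ?_⟩⟩
      · refine (norm_inner_le_norm (𝕜 := ℝ) _ _).trans ?_
        calc ‖nn q.1‖ * ‖u q.2‖ ≤ 1 * C :=
              mul_le_mul (norm_nn_le _) h1 (norm_nonneg _) zero_le_one
          _ = C := one_mul C
      · rw [norm_zero]
        exact (norm_nonneg _).trans h1
  have i2 := hβ.int_dy hu hg.continuousOn vg hp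
  have i3 := i2.sub i1
  rw [eq_comm, ← sub_eq_zero, ← integral_sub i2 i1]
  rw [IntegrableOn, gs0_restrict] at i3
  rw [gs0_restrict]
  refine (integral_prod_symm _ i3).trans ?_
  refine (integral_congr_ae (Eventually.of_forall fun v => ?_)).trans (integral_zero _ _)
  exact gs0_slice hg hε h0 hβ hp v (u v)

theorem gs0_dv {c : Ph → ℝ} {H : TP → R3} {y : R3} {r : TP} (hc : DifferentiableAt ℝ c (y, r.2.2))
    (hH : DifferentiableAt ℝ H r) :
    dv (fun r' : TP => c (y, r'.2.2) • H r') r =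
      fderiv ℝ c (y, r.2.2) (0, H r) + c (y, r.2.2) * dv H r := by
  have h1 : HasFDerivAt (fun r' : TP => ((y, r'.2.2) : Ph))
      ((0 : TP →L[ℝ] R3).prod ((ContinuousLinearMap.snd ℝ R3 R3).comp
        (ContinuousLinearMap.snd ℝ ℝ Ph))) r :=
    (hasFDerivAt_const y r).prodMk (hasFDerivAt_snd.comp r hasFDerivAt_snd)
  have h2 := ((hc.hasFDerivAt.comp r h1).smul hH.hasFDerivAt).fderiv
  have h3 : ((0 : R3), H r) = ∑ i, H r i • (((0 : R3), ee i) : Ph) := by
    refine Prod.ext ?_ ?_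
    · simp [Prod.fst_sum]
    · ext j
      simp [Prod.snd_sum, ee, Pi.single_apply]
  have h4 : fderiv ℝ (fun r' : TP => c (y, r'.2.2) • H r') r = _ := h2
  rw [dv, h4, h3, map_sum, dv, Finset.mul_sum, ← Finset.sum_add_distrib]
  refine Finset.sum_congr rfl (fun i _ => ?_)
  rw [map_smul]
  simp
  ring

theorem gs_v {g s : TP → ℝ} {H : TP → R3} (h : Trans T P g H s) {c : Ph → ℝ} (hc : KerB c)
    (hp : p ∈ slab R3 T) :
    ∫ q in cyl p.1, c q * fderiv ℝ g (cone p q) (1, relVel q.2, 0) =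
      ∫ q in cyl p.1, (fderiv ℝ c q (0, H (cone p q)) + c q * s (cone p q)) := by
  have i1 : IntegrableOn (fun q : Ph =>
      c q * fderiv ℝ g (cone p q) (1, relVel q.2, 0)) (cyl p.1) := by
    refine hc.int_ret h.hg h.vg (μ := fun q => (1, relVel q.2, 0)) ?_ (fun R => ⟨1, fun q _ => ?_⟩) hp
    · exact measurable_const.prodMk
        ((contDiff_relVel.continuous.measurable.comp measurable_snd).prodMk measurable_const)
    · exact norm_prod_le_iff.2 ⟨by simp, norm_prod_le_iff.2 ⟨(norm_relVel_lt _).le, by simp⟩⟩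
  have i2 : IntegrableOn (fun q : Ph =>
      fderiv ℝ c q (0, H (cone p q)) + c q * s (cone p q)) (cyl p.1) :=
    (hc.int_dv h.hH.continuousOn h.vH hp).add (hc.int_mul h.hs h.vs hp)
  have i3 := i2.sub i1
  rw [eq_comm, ← sub_eq_zero, ← integral_sub i2 i1]
  rw [IntegrableOn, gs0_restrict] at i3
  rw [gs0_restrict]
  refine (integral_prod _ i3).trans ?_
  refine (integral_congr_ae ?_).trans (integral_zero _ _)
  filter_upwards [ae_restrict_mem measurableSet_ball, ae_restrict_of_ae sibp_ae_ne] with y hy hy0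
  have ho : ∀ v : R3, cone p (y, v) ∈ oslab Ph T := fun v =>
    cone_mem_open hp (q := (y, v)) ⟨hy, mem_univ _⟩ hy0
  have hHA : ∀ v : R3, ContDiffAt ℝ 1 H (cone p (y, v)) := fun v =>
    h.hH.contDiffAt (slab_mem_nhds (ho v))
  have hcA : ∀ v : R3, ContDiffAt ℝ 1 c (y, v) := fun v =>
    hc.1.contDiffAt (isOpen_off.mem_nhds ⟨hy0, mem_univ _⟩)
  have key := integral_dv (H := fun r' : TP => c (y, r'.2.2) • H r') (t := p.1 - ‖y‖)
    (x := p.2 - y) (R := P) (fun v => ((hcA v).comp (p.1 - ‖y‖, p.2 - y, v)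
      (contDiffAt_const.prodMk contDiffAt_snd.snd)).smul (hHA v)) (fun v hv =>
      h.vH (cone p (y, v)) (Ioo_subset_Icc_self (ho v).1) (fun h' => hv (by
        show c (y, v) • H (cone p (y, v)) = 0
        rw [h', smul_zero])))
  rw [← key]
  refine integral_congr_ae (Eventually.of_forall fun v => ?_)
  have e1 := gs0_dv (c := c) (H := H) (y := y) (r := cone p (y, v))
    ((hcA v).differentiableAt one_ne_zero) ((hHA v).differentiableAt one_ne_zero)
  have e2 := h.eq _ (ho v)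
  refine Eq.trans ?_ e1.symm
  show fderiv ℝ c (y, v) (0, H (cone p (y, v))) + c (y, v) * s (cone p (y, v)) -
      c (y, v) * fderiv ℝ g (cone p (y, v)) (1, relVel v, 0) =
    fderiv ℝ c (y, v) (0, H (cone p (y, v))) + c (y, v) * dv H (cone p (y, v))
  rw [← e2]
  show _ + c (y, v) * (fderiv ℝ g (cone p (y, v)) (1, relVel v, 0) + _) - _ = _
  ring

end Crest.Agent.R106
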