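import Crest.Agent.R106.GS0

/-!
# Row 106: the Glassey–Strauss splitting

Pointwise (`y ≠ 0`, linearity of `fderiv g`):
`a · Dg(τ, u, 0) = a · Dg(n·u, u, 0) + gsC · Dg(1, v̂, 0) - gsC · Dg(n·v̂, v̂, 0)`.
`gs_zero`: `gs_y` twice, `gs_v` (`KerB.gsC`).  `gs_one`: apply `gs_zero` to `γ_ε g` (`exists_cut`,
`Trans.cut`): `∫ γ a Dg μ - ∫ γ (…) = ∫ (gsC - τ a) γ' g`; the right side is at most
`4π C₀ vB P sup_{τ ≤ 2ε} |g|` (`cyl_bound`, the sup over the compact set of cone points), the left side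
converges by dominated convergence, and `sup_{τ ≤ 2ε} |g| ≤ A₀ + o(1)` by uniform continuity.

-/

set_option autoImplicit false

noncomputable section

namespace Crest.Agent.R106

open MeasureTheory Set Metric Real Filter Topology
open scoped ContDiff ENNReal RealInnerProductSpace Classical
open Crest.AnalysisR.VecCalc3 Crest.AnalysisR.PDE.RVM

variable {T P : ℝ} {p : ST} {g s : TP → ℝ} {H : TP → R3} {a : Ph → ℝ}

theorem gs1_int (hg : ContDiffOn ℝ 1 g (slab Ph T)) (vg : VS (Icc 0 T) P g) {β : Ph → ℝ}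
    (hβ : KerB β) {u : R3 → R3} (hu : Continuous u) (hp : p ∈ slab R3 T) :
    IntegrableOn (fun q : Ph =>
      β q * fderiv ℝ g (cone p q) (⟪nn q.1, u q.2⟫, u q.2, 0)) (cyl p.1) := by
  refine hβ.int_ret hg vg (μ := fun q => (⟪nn q.1, u q.2⟫, u q.2, 0)) ?_ (fun R => ?_) hp
  · exact ((measurable_nn.comp measurable_fst).inner (hu.measurable.comp measurable_snd)).prodMk
      ((hu.measurable.comp measurable_snd).prodMk measurable_const)
  · obtain ⟨C, hC⟩ := (isCompact_closedBall (0 : R3) R).exists_bound_of_continuousOn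
      hu.continuousOn
    refine ⟨C, fun q hq => ?_⟩
    have h1 := hC q.2 (mem_closedBall_zero_iff.2 ((norm_snd_le q).trans hq))
    refine norm_prod_le_iff.2 ⟨?_, norm_prod_le_iff.2 ⟨h1, ?_⟩⟩
    · refine (norm_inner_le_norm (𝕜 := ℝ) _ _).trans ?_
      calc ‖nn q.1‖ * ‖u q.2‖ ≤ 1 * C :=
            mul_le_mul (norm_nn_le _) h1 (norm_nonneg _) zero_le_one
        _ = C := one_mul C
    · rw [norm_zero]
      exact (norm_nonneg _).trans h1

theorem gs_zero (h : Trans T P g H s) {ε : ℝ} (hε : 0 < ε)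
    (h0 : ∀ r : TP, r.1 ∈ Icc 0 T → r.1 ≤ ε → g r = 0) (ha : KerB a) (τ : ℝ) (u : R3)
    (hp : p ∈ slab R3 T) :
    Ret a (τ, u, 0) g p = ∫ q in cyl p.1, (gsT a τ u q * g (cone p q) +
      fderiv ℝ (gsC a τ u) q (0, H (cone p q)) + gsC a τ u q * s (cone p q)) := by
  have hc := ha.gsC τ u
  have hr := contDiff_relVel.continuous
  have i1 := gs1_int h.hg h.vg ha (u := fun _ => u) continuous_const hp
  have i2 : IntegrableOn (fun q : Ph =>
      gsC a τ u q * fderiv ℝ g (cone p q) (1, relVel q.2, 0)) (cyl p.1) := by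
    refine hc.int_ret h.hg h.vg (μ := fun q => (1, relVel q.2, 0)) ?_ (fun R => ⟨1, fun q _ => ?_⟩) hp
    · exact measurable_const.prodMk ((hr.measurable.comp measurable_snd).prodMk measurable_const)
    · exact norm_prod_le_iff.2 ⟨by simp, norm_prod_le_iff.2 ⟨(norm_relVel_lt _).le, by simp⟩⟩
  have i3 := gs1_int h.hg h.vg hc hr hp
  have j1 := ha.int_dy (u := fun _ => u) continuous_const h.hg.continuousOn h.vg hp
  have j2 := Integrable.fun_add (hc.int_dv h.hH.continuousOn h.vH hp) (hc.int_mul h.hs h.vs hp)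
  have j3 := hc.int_dy hr h.hg.continuousOn h.vg hp
  have e1 : Ret a (τ, u, 0) g p = ∫ q in cyl p.1,
      (a q * fderiv ℝ g (cone p q) (⟪nn q.1, u⟫, u, 0) +
        gsC a τ u q * fderiv ℝ g (cone p q) (1, relVel q.2, 0) -
        gsC a τ u q * fderiv ℝ g (cone p q) (⟪nn q.1, relVel q.2⟫, relVel q.2, 0)) := by
    refine integral_congr_ae (Eventually.of_forall fun q => ?_)
    have a1 : ((τ, u, 0) : TP) = (⟪nn q.1, u⟫, u, 0) + (τ - ⟪nn q.1, u⟫) • ((1 : ℝ), 0, 0) := by simp
    have a2 : ((1, relVel q.2, 0) : TP) = (⟪nn q.1, relVel q.2⟫, relVel q.2, 0) +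
        gap (nn q.1) (relVel q.2) • ((1 : ℝ), 0, 0) := by simp [gap]
    have a3 := (gap_pos (norm_nn_le q.1) (norm_relVel_lt q.2)).ne'
    simp only
    rw [a1, a2, map_add, map_add, map_smul, map_smul, smul_eq_mul, smul_eq_mul, gsC]
    field_simp
    ring
  rw [e1, integral_sub (Integrable.fun_add i1 i2) i3, integral_add i1 i2,
    gs_y h.hg h.vg hε h0 ha (u := fun _ => u) continuous_const hp, gs_y h.hg h.vg hε h0 hc hr hp,
    gs_v h hc hp, ← integral_add j1 j2, ← integral_sub (Integrable.fun_add j1 j2) j3]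
  refine integral_congr_ae (Eventually.of_forall fun q => ?_)
  simp only [gsT]
  ring

theorem gs_one (h : Trans T P g H s) (ha : KerB a) (τ : ℝ) (u : R3) (hp : p ∈ slab R3 T)
    {C₀ A₀ : ℝ} (hC0 : 0 ≤ C₀) (hC : ∀ y v : R3, y ≠ 0 → ‖y‖ ≤ p.1 → ‖v‖ ≤ P →
      |gsC a τ u (y, v) - τ * a (y, v)| * ‖y‖ ^ 2 ≤ C₀) (hA : ∀ z, |g (0, z)| ≤ A₀) :
    |Ret a (τ, u, 0) g p - ∫ q in cyl p.1, (gsT a τ u q * g (cone p q) +
      fderiv ℝ (gsC a τ u) q (0, H (cone p q)) + gsC a τ u q * s (cone p q))| ≤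
      4 * π * C₀ * A₀ * vB P := by
  have hc := ha.gsC τ u
  have hA0 : 0 ≤ A₀ := (abs_nonneg _).trans (hA 0)
  have hV := vB_nonneg P
  obtain ⟨Θ, hΘ⟩ : ∃ Θ : Ph → ℝ, Θ = fun q => a q * fderiv ℝ g (cone p q) (τ, u, 0) := ⟨_, rfl⟩
  obtain ⟨Ψ, hΨ⟩ : ∃ Ψ : Ph → ℝ, Ψ = fun q => gsT a τ u q * g (cone p q) +
      fderiv ℝ (gsC a τ u) q (0, H (cone p q)) + gsC a τ u q * s (cone p q) := ⟨_, rfl⟩
  have iΘ : IntegrableOn Θ (cyl p.1) := hΘ ▸
    ha.int_ret h.hg h.vg (μ := fun _ => (τ, u, 0)) measurable_const (fun _ => ⟨_, fun _ _ => le_rfl⟩) hp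
  have iΨ : IntegrableOn Ψ (cyl p.1) := by
    have j1 := ha.int_dy (u := fun _ => u) continuous_const h.hg.continuousOn h.vg hp
    have j3 := hc.int_dy contDiff_relVel.continuous h.hg.continuousOn h.vg hp
    refine Integrable.congr (((j1.sub j3).add (hc.int_dv h.hH.continuousOn h.vH hp)).add
      (hc.int_mul h.hs h.vs hp)) (Eventually.of_forall fun q => ?_)
    simp only [hΨ, gsT, Pi.add_apply, Pi.sub_apply]
    ring
  -- the identity for one cut-off
  have step : ∀ {ε : ℝ}, 0 < ε → ∀ {γ : ℝ → ℝ}, ContDiff ℝ ∞ γ → (∀ t, t ≤ ε → γ t = 0) →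
      (∀ t, 0 ≤ γ t ∧ γ t ≤ 1) → ∫ q in cyl p.1, γ (cone p q).1 * (Θ q - Ψ q) =
        ∫ q in cyl p.1, (gsC a τ u q - τ * a q) * (deriv γ (cone p q).1 * g (cone p q)) := by
    intro ε hε γ hγ hγ0 hγ1
    have k0 := gs_zero (h.cut hγ) hε (fun r _ hr => by simp only [hγ0 _ hr, zero_mul]) ha τ u hp
    have mw : AEStronglyMeasurable (fun q => γ (cone p q).1) (volume.restrict (cyl p.1)) :=
      (hγ.continuous.comp (cyl_cont p).fst).aestronglyMeasurable
    have bw : ∀ᵐ q ∂(volume.restrict (cyl p.1)), ‖γ (cone p q).1‖ ≤ 1 :=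
      Eventually.of_forall fun q => by
        rw [Real.norm_of_nonneg (hγ1 _).1]; exact (hγ1 _).2
    have cG : ContinuousOn (fun r : TP => deriv γ r.1 * g r) (slab Ph T) :=
      ((hγ.continuous_deriv (by simp)).comp continuous_fst).continuousOn.mul h.hg.continuousOn
    have vG : VS (Icc 0 T) P fun r : TP => deriv γ r.1 * g r :=
      fun r hr h0 => h.vg r hr (right_ne_zero_of_mul h0)
    have i1 := Integrable.bdd_mul iΘ mw bw
    have i2 := Integrable.bdd_mul iΨ mw bw
    have i3 := Integrable.const_mul (ha.int_mul cG vG hp) τ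
    have i4 := hc.int_mul cG vG hp
    have e1 : Ret a (τ, u, 0) (fun r => γ r.1 * g r) p = ∫ q in cyl p.1, (γ (cone p q).1 * Θ q +
        τ * (a q * (deriv γ (cone p q).1 * g (cone p q)))) := by
      refine integral_congr_ae ?_
      filter_upwards [ae_restrict_mem (measurableSet_cyl _), ae_restrict_of_ae ae_ne_zero] with q hq hy
      have d1 : HasFDerivAt (fun r : TP => γ r.1)
          (deriv γ (cone p q).1 • ContinuousLinearMap.fst ℝ ℝ Ph) (cone p q) :=
        (hγ.differentiable (by simp) _).hasDerivAt.comp_hasFDerivAt _ hasFDerivAt_fst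
      have d2 : DifferentiableAt ℝ g (cone p q) :=
        (h.hg.contDiffAt (slab_mem_nhds (cone_mem_open hp hq hy))).differentiableAt one_ne_zero
      rw [fderiv_fun_mul d1.differentiableAt d2, d1.fderiv]
      simp only [hΘ, add_apply, smul_apply, ContinuousLinearMap.coe_fst', smul_eq_mul]
      ring
    have e2 : ∫ q in cyl p.1, (gsT a τ u q * (γ (cone p q).1 * g (cone p q)) +
        fderiv ℝ (gsC a τ u) q (0, γ (cone p q).1 • H (cone p q)) +
        gsC a τ u q * (γ (cone p q).1 * s (cone p q) + deriv γ (cone p q).1 * g (cone p q))) =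
        ∫ q in cyl p.1, (γ (cone p q).1 * Ψ q +
          gsC a τ u q * (deriv γ (cone p q).1 * g (cone p q))) := by
      refine integral_congr_ae (Eventually.of_forall fun q => ?_)
      have a1 : ((0, γ (cone p q).1 • H (cone p q)) : Ph) = γ (cone p q).1 • (0, H (cone p q)) := by
        simp
      simp only [hΨ]
      rw [a1, map_smul, smul_eq_mul]
      ring
    rw [e1, e2, integral_add i1 i3, integral_add i2 i4] at k0
    simp only [mul_sub, sub_mul, mul_assoc τ]
    rw [integral_sub i1 i2, integral_sub i4 i3]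
    linarith
  have key : ∀ η > 0, |∫ q in cyl p.1, (Θ q - Ψ q)| ≤ 4 * π * vB P * (C₀ * (A₀ + η)) := by
    intro η hη
    obtain ⟨δ, hδ, hδ'⟩ := Metric.uniformContinuousOn_iff.1
      ((isCompact_Icc.prod (isCompact_closedBall (0 : Ph)
        (‖p.2‖ + p.1 + |P|))).uniformContinuousOn_of_continuous
        (h.hg.continuousOn.mono (prod_mono Subset.rfl (subset_univ _)))) η hη
    have hε : ∀ n : ℕ, 0 < δ / 2 * (1 / ((n : ℝ) + 1)) := fun n => by positivity
    choose γ g1 g2 g3 g4 g5 g6 g7 using fun n => exists_cut (hε n)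
    have lim : Tendsto (fun n => ∫ q in cyl p.1, γ n (cone p q).1 * (Θ q - Ψ q)) atTop
        (𝓝 (∫ q in cyl p.1, (Θ q - Ψ q))) := by
      refine tendsto_integral_of_dominated_convergence (fun q => ‖Θ q - Ψ q‖)
        (fun n => ((g1 n).continuous.comp (cyl_cont p).fst).aestronglyMeasurable.mul
          (iΘ.sub iΨ).aestronglyMeasurable) (iΘ.sub iΨ).norm
        (fun n => Eventually.of_forall fun q => ?_) ?_
      · rw [norm_mul, Real.norm_of_nonneg (g4 n _).1]
        exact mul_le_of_le_one_left (norm_nonneg _) (g4 n _).2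
      · filter_upwards [ae_restrict_mem (measurableSet_cyl _), ae_restrict_of_ae ae_ne_zero]
          with q hq hy
        have a1 : Tendsto (fun n : ℕ => 2 * (δ / 2 * (1 / ((n : ℝ) + 1)))) atTop (𝓝 0) := by
          simpa using (tendsto_one_div_add_atTop_nhds_zero_nat.const_mul (δ / 2)).const_mul 2
        refine tendsto_const_nhds.congr' ?_
        filter_upwards [a1.eventually (ge_mem_nhds (cone_mem_open hp hq hy).1.1)] with n hn
        rw [g3 n _ hn, one_mul]
    refine le_of_tendsto' lim.abs fun n => ?_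
    rw [step (hε n) (g1 n) (g2 n) (g4 n)]
    have cφ : Continuous fun r => C₀ * (A₀ + η) * deriv (γ n) (p.1 - r) :=
      continuous_const.mul (((g1 n).continuous_deriv (by simp)).comp (by fun_prop))
    refine (cyl_bound (P := P) (φ := fun r => C₀ * (A₀ + η) * deriv (γ n) (p.1 - r))
      (cφ.integrableOn_Icc.mono_set Ioo_subset_Icc_self) (fun q hq hy hv => ?_)
      (fun r _ => mul_nonneg (by positivity) (g5 n _))
      (fun q hq _ hv => by rw [cyl_zero h.vg hp hq hv, mul_zero, mul_zero])).trans ?_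
    · have h0 := norm_pos_iff.2 hy
      rcases le_or_gt (2 * (δ / 2 * (1 / ((n : ℝ) + 1)))) (cone p q).1 with ht | ht
      · have := g6 n _ ht
        rw [this, zero_mul, mul_zero, abs_zero]
        exact div_nonneg (mul_nonneg (by positivity) (g5 n _)) (by positivity)
      · have m1 := (cone_mem hp hq).1
        have m2 := mem_closedBall_zero_iff.2 (cyl_norm hq hv)
        have a1 : 1 / ((n : ℝ) + 1) ≤ 1 := by
          rw [div_le_one (by positivity)]; linarith [Nat.cast_nonneg (α := ℝ) n]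
        have a2 := hδ' (cone p q) ⟨m1, m2⟩ (0, (cone p q).2) ⟨⟨le_rfl, m1.1.trans m1.2⟩, m2⟩ (by
          rw [Prod.dist_eq, dist_self, Real.dist_eq, sub_zero, abs_of_nonneg m1.1]
          exact max_lt (by nlinarith) hδ)
        have a3 : |g (cone p q)| ≤ A₀ + η := by
          rw [Real.dist_eq] at a2
          have := abs_add_le (g (cone p q) - g (0, (cone p q).2)) (g (0, (cone p q).2))
          rw [sub_add_cancel] at this
          linarith [hA (cone p q).2]
        have a4 := hC q.1 q.2 hy (mem_ball_zero_iff.1 hq.1).le hv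
        have a5 : 0 ≤ deriv (γ n) (p.1 - ‖q.1‖) := g5 n _
        rw [le_div_iff₀ (by positivity), abs_mul, abs_mul, abs_of_nonneg (g5 n _)]
        calc _ = |gsC a τ u q - τ * a q| * ‖q.1‖ ^ 2 * |g (cone p q)| *
              deriv (γ n) (p.1 - ‖q.1‖) := by
              rw [show (cone p q).1 = p.1 - ‖q.1‖ from rfl]; ring
          _ ≤ _ := by gcongr
    · rw [integral_const_mul]
      refine mul_le_mul_of_nonneg_left (mul_le_of_le_one_right (by positivity) (g7 n _))
        (by positivity)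
  have e : Ret a (τ, u, 0) g p = ∫ q in cyl p.1, Θ q := by rw [hΘ]; rfl
  rw [e, ← hΨ, ← integral_sub iΘ iΨ]
  refine le_of_forall_pos_le_add fun ε hε => ?_
  have hM : 0 ≤ 4 * π * vB P * C₀ := by positivity
  refine (key (ε / (4 * π * vB P * C₀ + 1)) (by positivity)).trans ?_
  have : 4 * π * vB P * C₀ * (ε / (4 * π * vB P * C₀ + 1)) ≤ ε := by
    rw [← mul_div_assoc, div_le_iff₀ (by positivity)]
    nlinarith
  nlinarith

end Crest.Agent.R106
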