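import Crest.Agent.R106.CDefs

/-!
# Row 106: from small increments to controlled variation

`greedy`: by uniform continuity pick `δ` with `‖V s - V s'‖ < η₀` for `|s - s'| ≤ δ`; induct on `n` with
`b - a ≤ n δ`.  If `‖V s - V a‖ ≤ η₀` on `[a, b]` we are done; otherwise let `a'` be the first time with
`‖V a' - V a‖ = η₀`; then `a' ≥ a + δ` and `η₀ ≤ 2(Λ a' - Λ a)`.
`var_of_inc`: `Λ s = (∫⁻ φ over Icc s₀ s₁ ∩ Iic s).toReal`.

-/

set_option autoImplicit false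

noncomputable section

namespace Crest.Agent.R106

open MeasureTheory Set Metric Real Filter Topology
open scoped ContDiff ENNReal RealInnerProductSpace Classical
open Crest.AnalysisR.VecCalc3 Crest.AnalysisR.PDE.RVM

theorem greedy {V : ℝ → R3} {s₀ s₁ η₀ : ℝ} (hV : ContinuousOn V (Icc s₀ s₁)) (hη : 0 < η₀)
    {Λ : ℝ → ℝ} (hΛ : Monotone Λ)
    (h : ∀ a b, s₀ ≤ a → a ≤ b → b ≤ s₁ → (∀ s ∈ Icc a b, ‖V s - V a‖ ≤ η₀) →
      ‖V b - V a‖ ≤ η₀ / 2 + (Λ b - Λ a)) {a b : ℝ} (ha : s₀ ≤ a) (hab : a ≤ b) (hb : b ≤ s₁) :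
    ‖V b - V a‖ ≤ η₀ + 2 * (Λ b - Λ a) := by
  have hcont : ∀ c, ContinuousOn (fun s => ‖V s - V c‖) (Icc s₀ s₁) := fun c =>
    (hV.sub continuousOn_const).norm
  -- the last time `c` with `‖V c - V a‖ ≤ 2 (Λ c - Λ a)`
  obtain ⟨S, hS⟩ : ∃ S : Set ℝ, S = {c | c ∈ Icc a b ∧ ‖V c - V a‖ ≤ 2 * (Λ c - Λ a)} := ⟨_, rfl⟩
  have haS : a ∈ S := by rw [hS]; exact ⟨left_mem_Icc.2 hab, by simp⟩
  have hSsub : S ⊆ Icc a b := by rw [hS]; exact fun c hc => hc.1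
  have hbdd : BddAbove S := bddAbove_Icc.mono hSsub
  have hc : sSup S ∈ Icc a b := ⟨le_csSup hbdd haS, csSup_le ⟨a, haS⟩ fun c hc => (hSsub hc).2⟩
  have hcS : ‖V (sSup S) - V a‖ ≤ 2 * (Λ (sSup S) - Λ a) := by
    have h1 : IsClosed (Icc s₀ s₁ ∩ (fun s => ‖V s - V a‖) ⁻¹' Iic (2 * (Λ (sSup S) - Λ a))) :=
      (hcont a).preimage_isClosed_of_isClosed isClosed_Icc isClosed_Iic
    have h2 : S ⊆ Icc s₀ s₁ ∩ (fun s => ‖V s - V a‖) ⁻¹' Iic (2 * (Λ (sSup S) - Λ a)) := by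
      intro c hc'
      have h3 := hΛ (le_csSup hbdd hc')
      have h4 := hSsub hc'
      rw [hS] at hc'
      refine ⟨⟨ha.trans h4.1, h4.2.trans hb⟩, ?_⟩
      show ‖V c - V a‖ ≤ _
      linarith [hc'.2]
    exact (h1.closure_subset_iff.2 h2 (csSup_mem_closure ⟨a, haS⟩ hbdd)).2
  have hup : ∀ c ∈ S, c ≤ sSup S := fun c hc' => le_csSup hbdd hc'
  generalize sSup S = c at hc hcS hup
  have htri : ∀ d, ‖V d - V a‖ ≤ ‖V d - V c‖ + ‖V c - V a‖ := fun d => norm_sub_le_norm_sub_add_norm_sub _ _ _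
  by_cases hall : ‖V b - V c‖ ≤ η₀
  · have := hΛ hc.2
    linarith [htri b]
  · exfalso
    have hsub : Icc c b ⊆ Icc s₀ s₁ := Icc_subset_Icc (ha.trans hc.1) hb
    have hA : IsCompact (Icc c b ∩ (fun s => ‖V s - V c‖) ⁻¹' Ici η₀) :=
      isCompact_Icc.of_isClosed_subset
        (((hcont c).mono hsub).preimage_isClosed_of_isClosed isClosed_Icc isClosed_Ici)
        inter_subset_left
    obtain ⟨d, ⟨hd, hd'⟩, hmin⟩ := hA.exists_isLeast ⟨b, right_mem_Icc.2 hc.2, (not_le.1 hall).le⟩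
    have hd'' : η₀ ≤ ‖V d - V c‖ := hd'
    have hdeq : ‖V d - V c‖ = η₀ := by
      obtain ⟨s, hs, hs'⟩ := intermediate_value_Icc hd.1
        ((hcont c).mono ((Icc_subset_Icc le_rfl hd.2).trans hsub))
        (show η₀ ∈ Icc ‖V c - V c‖ ‖V d - V c‖ from ⟨by simpa using hη.le, hd''⟩)
      have : d ≤ s := hmin ⟨⟨hs.1, hs.2.trans hd.2⟩, hs'.ge⟩
      rw [le_antisymm this hs.2]
      exact hs'
    have h5 := h c d (ha.trans hc.1) hd.1 (hd.2.trans hb) fun s hs => by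
      by_contra hcon
      have : d ≤ s := hmin ⟨⟨hs.1, hs.2.trans hd.2⟩, (not_le.1 hcon).le⟩
      rw [← le_antisymm this hs.2] at hcon
      exact hcon hdeq.le
    have hdS : d ∈ S := by
      rw [hS]
      exact ⟨⟨hc.1.trans hd.1, hd.2⟩, by linarith [htri d]⟩
    rw [le_antisymm (hup d hdS) hd.1, sub_self, norm_zero] at hdeq
    exact hη.ne hdeq

theorem var_of_inc {V : ℝ → R3} {s₀ s₁ η₀ W : ℝ} (hV : ContinuousOn V (Icc s₀ s₁)) (hη : 0 < η₀)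
    (hs : s₀ ≤ s₁) (hW : 0 ≤ W) {φ : ℝ → ℝ≥0∞} (hφ : ∫⁻ s in Icc s₀ s₁, φ s ≤ ENNReal.ofReal W)
    (h : ∀ a b, s₀ ≤ a → a ≤ b → b ≤ s₁ → (∀ s ∈ Icc a b, ‖V s - V a‖ ≤ η₀) →
      ENNReal.ofReal ‖V b - V a‖ ≤ ENNReal.ofReal (η₀ / 2) + ∫⁻ s in Icc a b, φ s) :
    Var V s₀ s₁ η₀ (2 * W) := by
  obtain ⟨L, hL⟩ : ∃ L : ℝ → ℝ≥0∞, ∀ s, L s = ∫⁻ r in Icc s₀ s₁ ∩ Iic s, φ r := ⟨_, fun _ => rfl⟩
  have hLW : ∀ s, L s ≤ ENNReal.ofReal W := fun s => by
    rw [hL]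
    exact (lintegral_mono_set inter_subset_left).trans hφ
  have hLt : ∀ s, L s ≠ ⊤ := fun s => ne_top_of_le_ne_top ENNReal.ofReal_ne_top (hLW s)
  have hmono : Monotone fun s => (L s).toReal := fun s s' hss => by
    refine ENNReal.toReal_mono (hLt s') ?_
    rw [hL, hL]
    exact lintegral_mono_set (inter_subset_inter_right _ (Iic_subset_Iic.2 hss))
  have hadd : ∀ a b, s₀ ≤ a → a ≤ b → b ≤ s₁ → L b = L a + ∫⁻ r in Icc a b, φ r := by
    intro a b ha hab hb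
    rw [hL, hL, ← setLIntegral_congr (Ioc_ae_eq_Icc (a := a) (b := b)),
      ← lintegral_union measurableSet_Ioc]
    · congr 2
      ext r
      simp only [mem_inter_iff, mem_Icc, mem_Iic, mem_union, mem_Ioc]
      constructor
      · rintro ⟨⟨h1, h2⟩, h3⟩
        rcases le_or_gt r a with h4 | h4
        · exact Or.inl ⟨⟨h1, h2⟩, h4⟩
        · exact Or.inr ⟨h4, h3⟩
      · rintro (⟨⟨h1, h2⟩, h3⟩ | ⟨h1, h2⟩)
        · exact ⟨⟨h1, h2⟩, h3.trans hab⟩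
        · exact ⟨⟨ha.trans h1.le, h2.trans hb⟩, h2⟩
    · exact Set.disjoint_left.2 fun r hr hr' => absurd hr.2 (not_le.2 hr'.1)
  refine ⟨fun s => 2 * (L s).toReal, fun s s' hss => by linarith [hmono hss], ?_,
    fun s s' h1 h2 h3 => ?_⟩
  · have h1 : (L s₁).toReal ≤ W := ENNReal.toReal_le_of_le_ofReal hW (hLW s₁)
    have h2 : 0 ≤ (L s₀).toReal := ENNReal.toReal_nonneg
    show 2 * (L s₁).toReal - 2 * (L s₀).toReal ≤ 2 * W
    linarith
  · have := greedy hV hη hmono (fun a b ha hab hb hV' => by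
      have e1 := hadd a b ha hab hb
      have e2 : ∫⁻ r in Icc a b, φ r ≠ ⊤ :=
        ne_top_of_le_ne_top (hLt b) (by rw [e1]; exact le_add_self)
      have e3 := ENNReal.toReal_mono (ENNReal.add_ne_top.2 ⟨ENNReal.ofReal_ne_top, e2⟩)
        (h a b ha hab hb hV')
      rw [ENNReal.toReal_ofReal (norm_nonneg _), ENNReal.toReal_add ENNReal.ofReal_ne_top e2,
        ENNReal.toReal_ofReal (half_pos hη).le] at e3
      have e4 : (L b).toReal = (L a).toReal + (∫⁻ r in Icc a b, φ r).toReal := by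
        rw [e1, ENNReal.toReal_add (hLt a) e2]
      show _ ≤ η₀ / 2 + ((L b).toReal - (L a).toReal)
      linarith) h1 h2 h3
    show _ ≤ η₀ + (2 * (L s').toReal - 2 * (L s).toReal)
    linarith

theorem Var.mono {V : ℝ → R3} {a b H W a' b' H' W' : ℝ} (h : Var V a b H W) (ha : a ≤ a')
    (hab : a' ≤ b') (hb : b' ≤ b) (hH : H ≤ H') (hW : W ≤ W') : Var V a' b' H' W' := by
  obtain ⟨Λ, hΛ, h1, h2⟩ := h
  refine ⟨Λ, hΛ, by linarith [hΛ ha, hΛ hb], fun s s' hs hss hs' => ?_⟩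
  linarith [h2 s s' (ha.trans hs) hss (hs'.trans hb)]

theorem Var.dist_le {V : ℝ → R3} {a b H W : ℝ} (h : Var V a b H W) {s s' : ℝ} (hs : s ∈ Icc a b)
    (hs' : s' ∈ Icc a b) : ‖V s' - V s‖ ≤ H + W := by
  obtain ⟨Λ, hΛ, h1, h2⟩ := h
  rcases le_total s s' with hss | hss
  · linarith [h2 s s' hs.1 hss hs'.2, hΛ hs.1, hΛ hs'.2]
  · rw [norm_sub_rev]
    linarith [h2 s' s hs'.1 hss hs.2, hΛ hs'.1, hΛ hs.2]

/-- extension by a Lipschitz piece: `Λ' s = Λ (min s b) + M * max (s - b) 0` -/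
theorem Var.extend {V : ℝ → R3} {a b b' H W M : ℝ} (h : Var V a b H W) (hab : a ≤ b) (hb : b ≤ b')
    (hM : 0 ≤ M) (hL : ∀ s ∈ Icc b b', ∀ s' ∈ Icc b b', ‖V s - V s'‖ ≤ M * |s - s'|) :
    Var V a b' H (W + M * (b' - b)) := by
  obtain ⟨Λ, hΛ, h1, h2⟩ := h
  have hH : 0 ≤ H := by simpa using h2 a a le_rfl le_rfl hab
  have hL' : ∀ s s', b ≤ s → s ≤ s' → s' ≤ b' → ‖V s' - V s‖ ≤ M * (s' - s) := fun s s' e1 e2 e3 => by
    have := hL s' ⟨e1.trans e2, e3⟩ s ⟨e1, e2.trans e3⟩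
    rwa [abs_of_nonneg (sub_nonneg.2 e2)] at this
  refine ⟨fun s => Λ (min s b) + M * max (s - b) 0, fun s s' hss => ?_, ?_, fun s s' hs hss hs' => ?_⟩
  · exact add_le_add (hΛ (min_le_min_right _ hss))
      (mul_le_mul_of_nonneg_left (max_le_max_right _ (sub_le_sub_right hss _)) hM)
  · simp only [min_eq_right hb, min_eq_left hab, max_eq_left (sub_nonneg.2 hb),
      max_eq_right (sub_nonpos.2 hab)]
    linarith
  · rcases le_total s' b with e1 | e1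
    · simp only [min_eq_left e1, min_eq_left (hss.trans e1), max_eq_right (sub_nonpos.2 e1),
        max_eq_right (sub_nonpos.2 (hss.trans e1))]
      linarith [h2 s s' hs hss e1]
    · rcases le_total s b with e2 | e2
      · simp only [min_eq_right e1, min_eq_left e2, max_eq_left (sub_nonneg.2 e1),
          max_eq_right (sub_nonpos.2 e2)]
        linarith [h2 s b hs e2 le_rfl, hL' b s' le_rfl e1 hs',
          norm_sub_le_norm_sub_add_norm_sub (V s') (V b) (V s)]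
      · simp only [min_eq_right e1, min_eq_right e2, max_eq_left (sub_nonneg.2 e1),
          max_eq_left (sub_nonneg.2 e2)]
        linarith [hL' s s' e2 hss hs']

theorem var_of_lip {V : ℝ → R3} {a b H M : ℝ} (hH : 0 ≤ H) (hM : 0 ≤ M)
    (hL : ∀ s ∈ Icc a b, ∀ s' ∈ Icc a b, ‖V s - V s'‖ ≤ M * |s - s'|) :
    Var V a b H (M * (b - a)) := by
  refine ⟨fun s => M * s, fun s s' hss => mul_le_mul_of_nonneg_left hss hM, by
    simp only [mul_sub, le_refl], fun s s' hs hss hs' => ?_⟩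
  have := hL s' ⟨hs.trans hss, hs'⟩ s ⟨hs, hss.trans hs'⟩
  rw [abs_of_nonneg (sub_nonneg.2 hss)] at this
  show _ ≤ H + (M * s' - M * s)
  linarith

end Crest.Agent.R106
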