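import Crest.Agent.R106.K1F

/-!
# Row 106: the bound for `dvb`

`F1 = N/(p²d²) - χ X - χ' Y N̄/(D̄ d)`; use `p φ ≥ 1` (`inv_pp_le_ang`), `φ, ψ ≤ 2`, lemmas of `KerC`.
* `tt ≥ 2`: only `N/(p²d²) ≲ (φ + ψ)/(p φ²)` and `of_le_tt`.
* `tt ≤ 2`: write `X = X₁ + N̄ D/(D̄ d² p²)` with
  `X₁ = (Θ̄ w_e - κ v̂_e)/D̄ - N̄ κ/D̄² - N̄ (Θ D̄ - D Θ̄)/(D̄² d)`, `|X₁| ≲ 1` (`θ̄ ≤ φ + ψ̄ ≲ ψ̄`, `κ ≲ η² ≲ ψ̄²`,
  `freeze`).  If `tt ≤ 1` (`χ = 1`, `χ' = 0`): `N - N̄ D/D̄ = n_e (Θ D̄ - D Θ̄)/D̄`, so the rest is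
  `≲ η/(p² φ³) ≤ η/(p φ²)`.  If `1 ≤ tt ≤ 2`: both `N/(p²d²)` and `N̄ D/(D̄ d² p²)` are `≲ (φ + ψ)/(p φ²)`;
  with `tt D̄ = d/φ₀² + 200 η²`,
  `Y D̄ = dΘ/φ₀² - D/(p²φ₀²) + 200η²(d + D(Θ̄ - D̄)/D̄) - tt d κ + (D/D̄) Θ̄ d/φ₀²`, `|Θ̄ - D̄| ≲ φ ψ̄`,
  `|N̄/(D̄ d)| ≲ 1/(φ ψ̄)`; the terms give `φ/(φ₀²ψ) ≲ 1/φ₀`, `1/(p²φ₀²φψ) ≲ 1/(φ₀ p φ)` (as `φ₀ψ ≳ φ ≥ 1/p`),
  `η²/ψ² ≲ 1`.

-/

set_option autoImplicit false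

noncomputable section

namespace Crest.Agent.R106

open MeasureTheory Set Metric Real Filter Topology
open scoped ContDiff ENNReal RealInnerProductSpace Classical
open Crest.AnalysisR.VecCalc3 Crest.AnalysisR.PDE.RVM

theorem k1_div {a b c : ℝ} (hb : 0 < b) (h : |a| ≤ c * b) : |a / b| ≤ c := by
  rwa [abs_div, abs_of_pos hb, div_le_iff₀ hb]

theorem k1_mul {a b c d : ℝ} (h1 : |a| ≤ c) (h2 : |b| ≤ d) : |a * b| ≤ c * d := by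
  rw [abs_mul]
  exact mul_le_mul h1 h2 (abs_nonneg _) ((abs_nonneg _).trans h1)

theorem k1_T0 {φ ψ p φ₀ η N : ℝ} (hφ : 0 < φ) (hp : 0 < p) (hpφ : 1 ≤ p * φ) (h0 : 0 < φ₀)
    (h1 : φ₀ ≤ 1 / 10) (hψ0 : 0 ≤ ψ) (hψ : ψ ≤ 2 * φ / φ₀ + 31 * η)
    (hN : |N| ≤ 2 * φ * (φ + 2 * ψ)) :
    |N / (p ^ 2 * (φ ^ 2 / 2) ^ 2)| ≤ 40 * (1 / (φ₀ * p * φ)) + 496 * (η / (p * φ ^ 2)) := by
  have hA : 0 < 1 / (φ₀ * p * φ) := by positivity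
  have h2 : |N / (p ^ 2 * (φ ^ 2 / 2) ^ 2)| ≤ 8 * (φ + 2 * ψ) / (p * φ ^ 2) := by
    refine k1_div (by positivity) (hN.trans ?_)
    calc 2 * φ * (φ + 2 * ψ) ≤ 2 * φ * (φ + 2 * ψ) * (p * φ) :=
          le_mul_of_one_le_right (by positivity) hpφ
      _ = _ := by field_simp; ring
  calc _ ≤ 8 * (φ + 2 * (2 * φ / φ₀ + 31 * η)) / (p * φ ^ 2) := h2.trans (by gcongr)
    _ = (8 * φ₀ + 32) * (1 / (φ₀ * p * φ)) + 496 * (η / (p * φ ^ 2)) := by field_simp; ring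
    _ ≤ _ := by nlinarith

theorem k1_R {φ ψ p η ne Fz : ℝ} (hφ : 0 < φ) (hp : 0 < p) (hpφ : 1 ≤ p * φ) (hψ : 0 < ψ)
    (hη : 0 ≤ η) (hne : |ne| ≤ 1) (hF : |Fz| ≤ 4 * η * φ * ψ ^ 2) :
    |ne * Fz / (ψ ^ 2 / 2 * (p ^ 2 * (φ ^ 2 / 2) ^ 2))| ≤ 32 * (η / (p * φ ^ 2)) := by
  refine k1_div (by positivity) ((k1_mul hne hF).trans ?_)
  calc 1 * (4 * η * φ * ψ ^ 2) ≤ 1 * (4 * η * φ * ψ ^ 2) * (p * φ) :=
        le_mul_of_one_le_right (by positivity) hpφ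
    _ = _ := by field_simp; ring

theorem k1_X {φ ψ η Θ κ we ve N Fz : ℝ} (hφ : 0 < φ) (hψ : 0 < ψ) (h4 : 4 * φ ≤ ψ)
    (hη0 : 0 ≤ η) (hη : 14 * η ≤ ψ) (hΘ : |Θ| ≤ ψ ^ 2) (hκ : |κ| ≤ ψ ^ 2 / 2) (hwe : |we| ≤ 1)
    (hve : |ve| ≤ 1) (hN : |N| ≤ 5 * φ * ψ) (hF : |Fz| ≤ 4 * η * φ * ψ ^ 2) :
    |(Θ * we - κ * ve) / (ψ ^ 2 / 2) - N * κ / (ψ ^ 2 / 2) ^ 2 -
      N * Fz / ((ψ ^ 2 / 2) ^ 2 * (φ ^ 2 / 2))| ≤ 18 := by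
  have h1 : |(Θ * we - κ * ve) / (ψ ^ 2 / 2)| ≤ 3 := by
    refine k1_div (by positivity) ((abs_sub _ _).trans ?_)
    linarith [k1_mul hΘ hwe, k1_mul hκ hve]
  have h2 : |N * κ / (ψ ^ 2 / 2) ^ 2| ≤ 3 := by
    refine k1_div (by positivity) ((k1_mul hN hκ).trans ?_)
    calc 5 * φ * ψ * (ψ ^ 2 / 2) = 5 / 8 * (4 * φ) * ψ ^ 3 := by ring
      _ ≤ 6 / 8 * ψ * ψ ^ 3 := by gcongr; norm_num
      _ = _ := by ring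
  have h3 : |N * Fz / ((ψ ^ 2 / 2) ^ 2 * (φ ^ 2 / 2))| ≤ 12 := by
    refine k1_div (by positivity) ((k1_mul hN hF).trans ?_)
    calc 5 * φ * ψ * (4 * η * φ * ψ ^ 2) = 10 / 7 * (14 * η) * (φ ^ 2 * ψ ^ 3) := by ring
      _ ≤ 3 / 2 * ψ * (φ ^ 2 * ψ ^ 3) := mul_le_mul_of_nonneg_right (by linarith) (by positivity)
      _ = _ := by ring
  refine (abs_sub _ _).trans ?_
  linarith [abs_sub ((Θ * we - κ * ve) / (ψ ^ 2 / 2)) (N * κ / (ψ ^ 2 / 2) ^ 2)]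

theorem k1_Z {φ ψ p φ₀ η t D Θ Θb κ N : ℝ} (hφ : 0 < φ) (hp : 0 < p) (hpφ : 1 ≤ p * φ)
    (h0 : 0 < φ₀) (h1 : φ₀ ≤ 1 / 10) (hψ : 0 < ψ) (h4 : 4 * φ ≤ ψ) (hb : φ ≤ 9 / 4 * φ₀ * ψ)
    (hη0 : 0 ≤ η) (hη : 14 * η ≤ ψ) (hD : |D| ≤ ψ ^ 2) (hΘ : |Θ| ≤ ψ ^ 2) (hΘb : |Θb| ≤ ψ ^ 2)
    (hΘD : |Θb - ψ ^ 2 / 2| ≤ 2 * φ * ψ) (hκ : |κ| ≤ ψ ^ 2 / 2) (hN : |N| ≤ 5 * φ * ψ)
    (ht : t = (φ ^ 2 / 2 / φ₀ ^ 2 + 200 * η ^ 2) / (ψ ^ 2 / 2)) (ht2 : |t| ≤ 2) :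
    |(((φ ^ 2 / 2 * Θ - D / p ^ 2) / φ₀ ^ 2 + 200 * η ^ 2 * (φ ^ 2 / 2 - D)) / (ψ ^ 2 / 2) -
      t * (φ ^ 2 / 2 * κ - D * Θb) / (ψ ^ 2 / 2)) * (N / (ψ ^ 2 / 2 * (φ ^ 2 / 2)))| ≤
      575 * (1 / φ₀) + 90 * (1 / (φ₀ * p * φ)) := by
  have hI : 1 ≤ 1 / φ₀ := by rw [le_div_iff₀ h0]; linarith
  have hd : |φ ^ 2 / 2| ≤ φ ^ 2 / 2 := (abs_of_pos (by positivity)).le
  have hD2 : |D / (ψ ^ 2 / 2)| ≤ 2 := k1_div (by positivity) (by linarith)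
  have hM : |N / (ψ ^ 2 / 2 * (φ ^ 2 / 2)) / (ψ ^ 2 / 2)| ≤ 40 / (φ * ψ ^ 3) := by
    refine k1_div (by positivity) (k1_div (by positivity) (hN.trans (le_of_eq ?_)))
    field_simp
    ring
  have hW : 0 < φ * ψ ^ 3 / 40 := by positivity
  have hab : φ ^ 2 * ψ ^ 2 / φ₀ ^ 2 ≤ 90 * (1 / φ₀) * (φ * ψ ^ 3 / 40) := by
    calc φ ^ 2 * ψ ^ 2 / φ₀ ^ 2 = φ * (φ * ψ ^ 2 / φ₀ ^ 2) := by ring
      _ ≤ (9 / 4 * φ₀ * ψ) * (φ * ψ ^ 2 / φ₀ ^ 2) := by gcongr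
      _ = _ := by field_simp; ring
  have ha : |φ ^ 2 / 2 * Θ / φ₀ ^ 2| ≤ 45 * (1 / φ₀) * (φ * ψ ^ 3 / 40) := by
    have : |φ ^ 2 / 2 * Θ / φ₀ ^ 2| ≤ φ ^ 2 * ψ ^ 2 / φ₀ ^ 2 / 2 :=
      k1_div (by positivity) ((k1_mul hd hΘ).trans (le_of_eq (by field_simp)))
    linarith
  have he : |D / (ψ ^ 2 / 2) * Θb * (φ ^ 2 / 2) / φ₀ ^ 2| ≤ 90 * (1 / φ₀) * (φ * ψ ^ 3 / 40) := by
    refine le_trans (k1_div (by positivity) ?_) hab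
    exact (k1_mul (k1_mul hD2 hΘb) hd).trans (le_of_eq (by field_simp))
  have hb' : |D / p ^ 2 / φ₀ ^ 2| ≤ 90 * (1 / (φ₀ * p * φ)) * (φ * ψ ^ 3 / 40) := by
    refine k1_div (by positivity) (k1_div (by positivity) (hD.trans ?_))
    calc ψ ^ 2 ≤ ψ ^ 2 * (p * φ) := le_mul_of_one_le_right (by positivity) hpφ
      _ ≤ ψ ^ 2 * (p * (9 / 4 * φ₀ * ψ)) := by gcongr
      _ = _ := by field_simp; ring
  have hc : |200 * η ^ 2 * (φ ^ 2 / 2 + D / (ψ ^ 2 / 2) * (Θb - ψ ^ 2 / 2))| ≤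
      400 * (φ * ψ ^ 3 / 40) := by
    have h5 : |200 * η ^ 2| ≤ 2 * ψ ^ 2 := by
      rw [abs_of_nonneg (by positivity)]
      linarith [pow_le_pow_left₀ (by positivity) hη 2, sq_nonneg η]
    have h6 : |φ ^ 2 / 2 + D / (ψ ^ 2 / 2) * (Θb - ψ ^ 2 / 2)| ≤ 5 * φ * ψ := by
      refine (abs_add_le _ _).trans ?_
      have := k1_mul hD2 hΘD
      linarith [mul_le_mul_of_nonneg_left h4 hφ.le, mul_pos hφ hψ]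
    exact (k1_mul h5 h6).trans (le_of_eq (by ring))
  have hd' : |t * (φ ^ 2 / 2) * κ| ≤ 40 * (φ * ψ ^ 3 / 40) := by
    refine (k1_mul (k1_mul ht2 hd) hκ).trans ?_
    calc 2 * (φ ^ 2 / 2) * (ψ ^ 2 / 2) = 1 / 8 * (4 * φ) * (φ * ψ ^ 2) := by ring
      _ ≤ 1 * ψ * (φ * ψ ^ 2) := by gcongr; norm_num
      _ = _ := by ring
  have e : (((φ ^ 2 / 2 * Θ - D / p ^ 2) / φ₀ ^ 2 + 200 * η ^ 2 * (φ ^ 2 / 2 - D)) / (ψ ^ 2 / 2) -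
      t * (φ ^ 2 / 2 * κ - D * Θb) / (ψ ^ 2 / 2)) * (N / (ψ ^ 2 / 2 * (φ ^ 2 / 2))) =
      (φ ^ 2 / 2 * Θ / φ₀ ^ 2 - D / p ^ 2 / φ₀ ^ 2 +
        200 * η ^ 2 * (φ ^ 2 / 2 + D / (ψ ^ 2 / 2) * (Θb - ψ ^ 2 / 2)) - t * (φ ^ 2 / 2) * κ +
        D / (ψ ^ 2 / 2) * Θb * (φ ^ 2 / 2) / φ₀ ^ 2) *
      (N / (ψ ^ 2 / 2 * (φ ^ 2 / 2)) / (ψ ^ 2 / 2)) := by
    rw [ht]
    field_simp
    ring
  rw [e]
  refine (k1_mul (c := (575 * (1 / φ₀) + 90 * (1 / (φ₀ * p * φ))) * (φ * ψ ^ 3 / 40)) ?_ hM).trans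
    (le_of_eq (by field_simp))
  rw [abs_le] at ha he hb' hc hd' ⊢
  have := mul_le_mul_of_nonneg_right hI hW.le
  generalize φ * ψ ^ 3 / 40 = W at *
  generalize 1 / φ₀ = I at *
  generalize 1 / (φ₀ * p * φ) = A at *
  constructor <;> linarith [ha.1, ha.2, he.1, he.2, hb'.1, hb'.2, hc.1, hc.2, hd'.1, hd'.2]

theorem k1_inner {a e : R3} (ha : ‖a‖ ≤ 1) (he : ‖e‖ ≤ 1) : |⟪a, e⟫| ≤ 1 :=
  (abs_real_inner_le_norm a e).trans (mul_le_one₀ ha (norm_nonneg _) he)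

theorem k1_gap {a b : R3} (ha : ‖a‖ ≤ 1) (hb : ‖b‖ ≤ 1) : gap a b = ang a b ^ 2 / 2 := by
  rw [ang_sq ha hb]
  ring

theorem F1_bound : ∃ C, 0 ≤ C ∧ ∀ P : KP, P.OK → ∀ q : Ph, q.1 ≠ 0 →
    |P.F1 q| ≤ C * (1 / (P.φ₀ * pp q.2 * ang (nn q.1) (relVel q.2)) +
      P.η / (pp q.2 * ang (nn q.1) (relVel q.2) ^ 2) +
      if ang (nn q.1) (relVel q.2) ≤ 2 * P.φ₀ * ang (nn q.1) P.w then 1 / P.φ₀ else 0) := by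
  obtain ⟨Cχ, hC0, hC⟩ := deriv_chi_bdd
  refine ⟨600 + 600 * Cχ, by positivity, fun P h q hq => ?_⟩
  have hn := norm_nn_le q.1
  have hv := norm_relVel_lt q.2
  have hη0 := h.η_nonneg
  have h0 := h.φpos
  have h1 := h.φle
  have hp := pp_pos q.2
  have hφ := ang_pos hn hv
  have hψ := ang_pos hn h.hw
  have hψb := ang_pos hn h.hwb
  have hpφ : 1 ≤ pp q.2 * ang (nn q.1) (relVel q.2) := by
    have := inv_pp_le_ang hn q.2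
    rwa [div_le_iff₀' hp] at this
  have hN := abs_NN_le h.he h.hw.le hq
  have hNb := abs_NN_le h.he h.hwb.le hq
  have ed := k1_gap hn hv.le
  have eD := k1_gap hn h.hw.le
  have eDb := k1_gap hn h.hwb.le
  have eΘ := k1_gap h.hw.le hv.le
  have eΘb := k1_gap h.hwb.le hv.le
  have hθ := ang_triangle h.hw.le hn hv.le
  have hθb := ang_triangle h.hwb.le hn hv.le
  have hθb' := ang_triangle hn hv.le h.hwb.le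
  rw [ang_comm _ (nn q.1)] at hθ hθb
  rw [ang_comm (relVel q.2)] at hθb'
  have hθ0 := ang_nonneg P.w (relVel q.2)
  have hθb0 := ang_nonneg P.wb (relVel q.2)
  have hT0 : 1 ≤ P.tt q → _ := fun ht => k1_T0 hφ hp hpφ h0 h1 hψ.le (h.of_le_tt hq ht) hN
  have hbeam := fun ht => h.of_tt_le hq ht
  have hF := fun ht => h.freeze hq ht
  have hκ := h.gap_w_wb
  have hne := k1_inner hn h.he
  have hwe := k1_inner h.hw.le h.he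
  have hve := k1_inner hv.le h.he
  have et : P.tt q = (gap (nn q.1) (relVel q.2) / P.φ₀ ^ 2 + 200 * P.η ^ 2) / gap (nn q.1) P.wb := rfl
  have eN : NN P.e P.w q = gap P.w (relVel q.2) * ⟪nn q.1, P.e⟫ -
    gap (nn q.1) P.w * ⟪relVel q.2, P.e⟫ := rfl
  have eNb : NN P.e P.wb q = gap P.wb (relVel q.2) * ⟪nn q.1, P.e⟫ -
    gap (nn q.1) P.wb * ⟪relVel q.2, P.e⟫ := rfl
  simp only [KP.F1]
  rw [ed, eDb] at *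
  generalize ang (nn q.1) (relVel q.2) = φ at *
  generalize ang (nn q.1) P.w = ψ at *
  generalize ang (nn q.1) P.wb = ψb at *
  generalize ang P.w (relVel q.2) = θ at *
  generalize ang P.wb (relVel q.2) = θb at *
  generalize gap (nn q.1) P.w = D at *
  generalize gap P.w (relVel q.2) = Θ at *
  generalize gap P.wb (relVel q.2) = Θb at *
  generalize gap P.w P.wb = κ at *
  generalize NN P.e P.w q = N at *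
  generalize NN P.e P.wb q = Nb at *
  generalize P.tt q = t at *
  generalize pp q.2 = p at *
  generalize ⟪nn q.1, P.e⟫ = ne at *
  generalize ⟪P.w, P.e⟫ = we at *
  generalize ⟪relVel q.2, P.e⟫ = ve at *
  generalize P.φ₀ = φ₀ at *
  generalize P.η = η at *
  have hA : 0 < 1 / (φ₀ * p * φ) := by positivity
  have hB : 0 ≤ η / (p * φ ^ 2) := by positivity
  have hI : 1 ≤ 1 / φ₀ := by rw [le_div_iff₀ h0]; linarith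
  rcases le_total 2 t with ht | ht
  · rw [chi_zero ht, deriv_chi_zero (Or.inr ht), zero_mul, zero_mul, sub_zero, sub_zero]
    refine (hT0 (by linarith)).trans ?_
    have h2 : 0 ≤ if φ ≤ 2 * φ₀ * ψ then 1 / φ₀ else 0 := by split_ifs <;> positivity
    have := mul_nonneg hC0 (add_nonneg (add_nonneg hA.le hB) h2)
    linarith
  obtain ⟨b1, b2, b3, b4⟩ := hbeam ht
  replace hF := hF ht
  rw [if_pos b1]
  have h5 : 5 * φ ≤ ψ := by linarith [mul_le_mul_of_nonneg_right h1 hψ.le]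
  have h4 : 4 * φ ≤ ψb := by linarith
  have hb : φ ≤ 9 / 4 * φ₀ * ψb := by linarith [mul_le_mul_of_nonneg_left b4 h0.le]
  have hD : |D| ≤ ψb ^ 2 := by
    rw [eD, abs_of_pos (by positivity)]
    linarith [pow_le_pow_left₀ hψ.le b4 2, sq_nonneg ψb]
  have hΘ : |Θ| ≤ ψb ^ 2 := by
    rw [eΘ, abs_of_nonneg (by positivity)]
    have : θ ≤ 27 / 20 * ψb := by linarith
    linarith [pow_le_pow_left₀ hθ0 this 2, sq_nonneg ψb]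
  have hθb1 : θb ≤ 5 / 4 * ψb := by linarith
  have hΘb : |Θb| ≤ ψb ^ 2 := by
    rw [eΘb, abs_of_nonneg (by positivity)]
    linarith [pow_le_pow_left₀ hθb0 hθb1 2, sq_nonneg ψb]
  have hΘD : |Θb - ψb ^ 2 / 2| ≤ 2 * φ * ψb := by
    rw [eΘb, show θb ^ 2 / 2 - ψb ^ 2 / 2 = (θb - ψb) * ((θb + ψb) / 2) by ring]
    refine (k1_mul (c := φ) (d := 2 * ψb) (abs_le.2 ⟨by linarith, by linarith⟩)
      (abs_le.2 ⟨by linarith, by linarith⟩)).trans (le_of_eq (by ring))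
  have hκ' : |κ| ≤ ψb ^ 2 / 2 := by
    rw [abs_of_nonneg hκ.1]
    linarith [hκ.2, pow_le_pow_left₀ (by positivity) b2 2, sq_nonneg η]
  have hNb' : |Nb| ≤ 5 * φ * ψb := hNb.trans (by linarith [mul_le_mul_of_nonneg_left h4 hφ.le, mul_pos hφ hψb])
  have ht0 : 0 ≤ t := by rw [et]; positivity
  have hX := k1_X hφ hψb h4 hη0 b2 hΘb hκ' hwe hve hNb' hF
  have hR := k1_R hφ hp hpφ hψb hη0 hne hF
  have hZ := k1_Z hφ hp hpφ h0 h1 hψb h4 hb hη0 b2 hD hΘ hΘb hΘD hκ' hNb' et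
    (by rwa [abs_of_nonneg ht0])
  have hχ : |chi t| ≤ 1 := by
    rw [abs_of_nonneg (chi_nonneg t)]
    exact chi_le_one t
  have hT : |(1 - chi t) * (N / (p ^ 2 * (φ ^ 2 / 2) ^ 2))| ≤
      40 * (1 / (φ₀ * p * φ)) + 496 * (η / (p * φ ^ 2)) := by
    rcases le_total t 1 with ht1 | ht1
    · rw [chi_one ht1, sub_self, zero_mul, abs_zero]
      positivity
    · have : |1 - chi t| ≤ 1 := abs_le.2 ⟨by linarith [chi_le_one t], by linarith [chi_nonneg t]⟩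
      simpa only [one_mul] using k1_mul this (hT0 ht1)
  have e : (Θb * we - κ * ve) / (ψb ^ 2 / 2) -
      Nb * (φ ^ 2 / 2 * κ - D * Θb) / ((ψb ^ 2 / 2) ^ 2 * (φ ^ 2 / 2)) -
      Nb * (φ ^ 2 / 2 * Θ - D / p ^ 2) / (ψb ^ 2 / 2 * (φ ^ 2 / 2) ^ 2) =
      ((Θb * we - κ * ve) / (ψb ^ 2 / 2) - Nb * κ / (ψb ^ 2 / 2) ^ 2 -
        Nb * (Θ * (ψb ^ 2 / 2) - D * Θb) / ((ψb ^ 2 / 2) ^ 2 * (φ ^ 2 / 2))) +
      N / (p ^ 2 * (φ ^ 2 / 2) ^ 2) -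
      ne * (Θ * (ψb ^ 2 / 2) - D * Θb) / (ψb ^ 2 / 2 * (p ^ 2 * (φ ^ 2 / 2) ^ 2)) := by
    rw [eN, eNb]
    field_simp
    ring
  rw [e]
  have hX' := k1_mul hχ hX
  have hR' := k1_mul hχ hR
  have hZ' := k1_mul (hC t) hZ
  have h6 := mul_nonneg hC0 hA.le
  have h7 := mul_nonneg hC0 hB
  have h8 := mul_nonneg hC0 (zero_le_one.trans hI)
  rw [abs_le] at hX' hR' hZ' hT ⊢
  constructor <;> linarith

end Crest.Agent.R106
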