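import Crest.Agent.R106.K1F

/-!
# Row 106: the bound for the `v`-derivative of `cc`

`δ = dvel v u`: `‖δ‖ ≤ ‖u‖/p`; for `‖a‖ ≤ 1`, `a·δ p = (a - v̂)·u + (v̂·u) gap a v̂`, so
`|a·δ| ≤ 2 ang a v̂ ‖u‖/p`.  Put `Z(w) = δN/d - N δd/d²` (the variation of `NN/d = n_e Θ/d - D v̂_e/d`).
Claim `|Z(w)| ≲ ψ‖u‖/(pφ²)`: if `φ ≤ ψ` use `|δN| ≤ (2θ + ψ)‖u‖/p`, `|N| ≲ φψ`, `|δd| ≤ 2φ‖u‖/p`; if `ψ ≤ φ`
use `δΘ/d - Θ δd/d² = δ(Θ - d)/d - (Θ - d) δd/d²`, `δ(Θ - d) = (n - w)·δ`, `|Θ - d| ≤ ψ(θ + φ)/2`.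
The `χ'` term is `≲ ‖u‖/(p φ₀² ψ̄) ≲ ψ‖u‖/(pφ²)` since `φ ≤ 2φ₀ψ` when `tt ≤ 2`.  Second bound: if `tt ≥ 1`
use the first and `of_le_tt`; if `tt ≤ 1`, `F2 = n_e (δS/d - S δd/d²)/D̄` with `S = Θ D̄ - D Θ̄` (`freeze`) and
`δS = -δ·(w - w̄) D̄ - δ·w̄ (D̄ - D)`, `|D̄ - D| ≲ η ψ̄`.

-/

set_option autoImplicit false

noncomputable section

namespace Crest.Agent.R106

open MeasureTheory Set Metric Real Filter Topology
open scoped ContDiff ENNReal RealInnerProductSpace Classical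
open Crest.AnalysisR.VecCalc3 Crest.AnalysisR.PDE.RVM

theorem k2_norm_dvel (v u : R3) : ‖KP.dvel v u‖ ≤ ‖u‖ / pp v := by
  have h := norm_fderiv_relVel_le v u
  rwa [fderiv_relVel] at h

theorem k2_inner_le {a b : R3} {A B : ℝ} (ha : ‖a‖ ≤ A) (hb : ‖b‖ ≤ B) : |⟪a, b⟫| ≤ A * B :=
  (abs_real_inner_le_norm a b).trans
    (mul_le_mul ha hb (norm_nonneg _) ((norm_nonneg _).trans ha))

theorem k2_inner_dvel {a : R3} (ha : ‖a‖ ≤ 1) (v u : R3) :
    |⟪a, KP.dvel v u⟫| ≤ 2 * ang a (relVel v) * (‖u‖ / pp v) := by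
  have hp := pp_pos v
  have hV := (norm_relVel_lt v).le
  have e : ⟪a, KP.dvel v u⟫ =
      (⟪a - relVel v, u⟫ + ⟪relVel v, u⟫ * gap a (relVel v)) / pp v := by
    rw [KP.dvel, inner_smul_right, inner_sub_right, inner_smul_right, inner_sub_left, gap]
    field_simp
    ring
  have h1 : |⟪a - relVel v, u⟫| ≤ ang a (relVel v) * ‖u‖ :=
    k2_inner_le (norm_sub_le_ang ha hV) le_rfl
  have h2 : |⟪relVel v, u⟫| ≤ 1 * ‖u‖ := k2_inner_le hV le_rfl
  have h3 := ang_sq ha hV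
  have h4 := ang_le_two ha hV
  have h5 := ang_nonneg a (relVel v)
  have h6 := gap_nonneg ha hV
  have h7 : gap a (relVel v) ≤ ang a (relVel v) := by nlinarith
  have h8 : |⟪relVel v, u⟫ * gap a (relVel v)| ≤ ‖u‖ * ang a (relVel v) := by
    rw [abs_mul, abs_of_nonneg h6]
    exact mul_le_mul (by linarith) h7 h6 (norm_nonneg _)
  rw [e, abs_div, abs_of_pos hp, ← mul_div_assoc]
  refine div_le_div_of_nonneg_right ((abs_add_le _ _).trans ?_) hp.le
  linarith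

theorem k2_abs_mul {x y a b : ℝ} (hx : |x| ≤ a) (hy : |y| ≤ b) : |x * y| ≤ a * b := by
  rw [abs_mul]
  exact mul_le_mul hx hy (abs_nonneg _) ((abs_nonneg _).trans hx)

/-- `|x/d + y/d²|` with `d = φ²/2` -/
theorem k2_div {x y a b φ d : ℝ} (hφ : 0 < φ) (hd : φ ^ 2 = 2 * d) (hx : |x| ≤ a)
    (hy : |y| ≤ b * φ ^ 2) : |x / d + y / d ^ 2| ≤ (2 * a + 4 * b) / φ ^ 2 := by
  have hd0 : 0 < d := by nlinarith
  have e : x / d + y / d ^ 2 = (2 * x + 4 * (y / φ ^ 2)) / φ ^ 2 := by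
    rw [hd]; field_simp; ring
  have h1 : |y / φ ^ 2| ≤ b := by
    rw [abs_div, abs_of_pos (by positivity : 0 < φ ^ 2), div_le_iff₀ (by positivity)]
    exact hy
  rw [e, abs_div, abs_of_pos (by positivity : 0 < φ ^ 2)]
  refine div_le_div_of_nonneg_right ?_ (by positivity)
  rw [abs_le] at hx h1 ⊢
  constructor <;> linarith [hx.1, hx.2, h1.1, h1.2]

/-- the variation of `NN / d` -/
def k2Z (e w : R3) (q : Ph) (u : R3) : ℝ :=
  (-⟪w, KP.dvel q.2 u⟫ * ⟪nn q.1, e⟫ - gap (nn q.1) w * ⟪KP.dvel q.2 u, e⟫) /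
      gap (nn q.1) (relVel q.2) -
    NN e w q * -⟪nn q.1, KP.dvel q.2 u⟫ / gap (nn q.1) (relVel q.2) ^ 2

theorem k2Z_bound {e w : R3} (he : ‖e‖ ≤ 1) (hw : ‖w‖ ≤ 1) {q : Ph} (hq : q.1 ≠ 0) (u : R3) :
    |k2Z e w q u| ≤
      58 * (ang (nn q.1) w * (‖u‖ / pp q.2)) / ang (nn q.1) (relVel q.2) ^ 2 := by
  have hn := norm_nn_le q.1
  have hV := (norm_relVel_lt q.2).le
  have hN := abs_NN_le he hw hq
  have hφ := ang_pos hn (norm_relVel_lt q.2)
  have hd := ang_sq hn hV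
  have hD := ang_sq hn hw
  have hΘ := ang_sq hw hV
  have hψ := ang_nonneg (nn q.1) w
  have hψ2 := ang_le_two hn hw
  have hθ := ang_nonneg w (relVel q.2)
  have hD0 := gap_nonneg hn hw
  have t1 : ang w (relVel q.2) ≤ ang (nn q.1) w + ang (nn q.1) (relVel q.2) := by
    have := ang_triangle hw hn hV
    rwa [ang_comm w (nn q.1)] at this
  have t2 : ang (nn q.1) (relVel q.2) ≤ ang (nn q.1) w + ang w (relVel q.2) :=
    ang_triangle hn hw hV
  have hδ := k2_norm_dvel q.2 u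
  have hwδ := k2_inner_dvel hw q.2 u
  have hnδ := k2_inner_dvel hn q.2 u
  have hne : |⟪nn q.1, e⟫| ≤ 1 * 1 := k2_inner_le hn he
  have hVe : |⟪relVel q.2, e⟫| ≤ 1 * 1 := k2_inner_le hV he
  have hδe : |⟪KP.dvel q.2 u, e⟫| ≤ ‖u‖ / pp q.2 * 1 := k2_inner_le hδ he
  have hnw : |⟪nn q.1, KP.dvel q.2 u⟫ - ⟪w, KP.dvel q.2 u⟫| ≤ ang (nn q.1) w * (‖u‖ / pp q.2) := by
    rw [← inner_sub_left]
    exact k2_inner_le (norm_sub_le_ang hn hw) hδ
  have hU : 0 ≤ ‖u‖ / pp q.2 := div_nonneg (norm_nonneg _) (pp_pos _).le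
  unfold k2Z
  unfold NN at hN ⊢
  generalize ‖u‖ / pp q.2 = U at *
  generalize ang (nn q.1) (relVel q.2) = φ at *
  generalize ang (nn q.1) w = ψ at *
  generalize ang w (relVel q.2) = θ at *
  generalize gap (nn q.1) (relVel q.2) = d at *
  generalize gap (nn q.1) w = D at *
  generalize gap w (relVel q.2) = Θ at *
  generalize ⟪nn q.1, KP.dvel q.2 u⟫ = nδ at *
  generalize ⟪w, KP.dvel q.2 u⟫ = wδ at *
  generalize ⟪KP.dvel q.2 u, e⟫ = δe at *
  generalize ⟪nn q.1, e⟫ = ne at *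
  generalize ⟪relVel q.2, e⟫ = Ve at *
  have hd0 : 0 < d := by nlinarith
  have hDψ : D ≤ ψ := by nlinarith
  have hDa : |D| ≤ ψ := by rwa [abs_of_nonneg hD0]
  have hψU : 0 ≤ ψ * U := mul_nonneg hψ hU
  rcases le_total φ ψ with h | h
  · have e1 : (-wδ * ne - D * δe) / d - (Θ * ne - D * Ve) * -nδ / d ^ 2 =
        (-(wδ * ne) - D * δe) / d + ((Θ * ne - D * Ve) * nδ) / d ^ 2 := by ring
    have a1 := k2_abs_mul hwδ hne
    have a2 := k2_abs_mul hDa hδe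
    have a3 : θ * U ≤ 2 * (ψ * U) := by nlinarith
    have a4 : |-(wδ * ne) - D * δe| ≤ 5 * (ψ * U) := by
      rw [abs_le] at a1 a2 ⊢
      constructor <;> linarith [a1.1, a1.2, a2.1, a2.2]
    have a5 : |Θ * ne - D * Ve| ≤ 6 * φ * ψ := hN.trans (by nlinarith)
    have a6 : |(Θ * ne - D * Ve) * nδ| ≤ 12 * (ψ * U) * φ ^ 2 :=
      (k2_abs_mul a5 hnδ).trans (le_of_eq (by ring))
    rw [e1]
    exact (k2_div hφ hd a4 a6).trans (le_of_eq (by ring))
  · have e1 : (-wδ * ne - D * δe) / d - (Θ * ne - D * Ve) * -nδ / d ^ 2 =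
        ((nδ - wδ) * ne - D * δe) / d + (((Θ - d) * ne - D * Ve) * nδ) / d ^ 2 := by
      field_simp; ring
    have a1 := k2_abs_mul hnw hne
    have a2 := k2_abs_mul hDa hδe
    have a4 : |(nδ - wδ) * ne - D * δe| ≤ 2 * (ψ * U) := by
      rw [abs_le] at a1 a2 ⊢
      constructor <;> linarith [a1.1, a1.2, a2.1, a2.2]
    have b1 : |Θ - d| ≤ 2 * φ * ψ := by
      have e2 : Θ - d = (θ - φ) * ((θ + φ) / 2) := by linarith
      have b2 : |θ - φ| ≤ ψ := by rw [abs_le]; constructor <;> linarith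
      have b3 : |(θ + φ) / 2| ≤ 2 * φ := by rw [abs_le]; constructor <;> linarith
      rw [e2]
      exact (k2_abs_mul b2 b3).trans (le_of_eq (by ring))
    have b4 : |D| ≤ φ * ψ := by rw [abs_of_nonneg hD0]; nlinarith
    have b5 := k2_abs_mul b1 hne
    have b6 := k2_abs_mul b4 hVe
    have a5 : |(Θ - d) * ne - D * Ve| ≤ 3 * φ * ψ := by
      rw [abs_le] at b5 b6 ⊢
      constructor <;> linarith [b5.1, b5.2, b6.1, b6.2]
    have a6 : |((Θ - d) * ne - D * Ve) * nδ| ≤ 6 * (ψ * U) * φ ^ 2 :=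
      (k2_abs_mul a5 hnδ).trans (le_of_eq (by ring))
    rw [e1]
    refine (k2_div hφ hd a4 a6).trans (div_le_div_of_nonneg_right ?_ (by positivity))
    linarith

theorem k2_F2_eq (P : KP) (q : Ph) (u : R3) : P.F2 q u = k2Z P.e P.w q u -
    gap (nn q.1) P.w / gap (nn q.1) P.wb * (chi (P.tt q) * k2Z P.e P.wb q u +
      deriv chi (P.tt q) * (-⟪nn q.1, KP.dvel q.2 u⟫ / (P.φ₀ ^ 2 * gap (nn q.1) P.wb)) *
        (NN P.e P.wb q / gap (nn q.1) (relVel q.2))) := rfl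

theorem k2_first {C : ℝ} (hC0 : 0 ≤ C) (hC : ∀ t, |deriv chi t| ≤ C) {P : KP} (h : P.OK) {q : Ph}
    (hq : q.1 ≠ 0) (u : R3) : |P.F2 q u| ≤
      (200 + 432 * C) * (ang (nn q.1) P.w * (‖u‖ / pp q.2)) / ang (nn q.1) (relVel q.2) ^ 2 := by
  have hn := norm_nn_le q.1
  have hV := (norm_relVel_lt q.2).le
  have hφ := ang_pos hn (norm_relVel_lt q.2)
  have hψ := ang_pos hn h.hw
  have hψb := ang_pos hn h.hwb
  have hU : 0 ≤ ‖u‖ / pp q.2 := div_nonneg (norm_nonneg _) (pp_pos _).le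
  have z1 := k2Z_bound h.he h.hw.le hq u
  have hpos : 0 ≤ ang (nn q.1) P.w * (‖u‖ / pp q.2) := mul_nonneg hψ.le hU
  rw [k2_F2_eq]
  rcases le_total 2 (P.tt q) with ht | ht
  · rw [chi_zero ht, deriv_chi_zero (Or.inr ht)]
    simp only [zero_mul, add_zero, mul_zero, sub_zero]
    refine z1.trans (div_le_div_of_nonneg_right ?_ (by positivity))
    nlinarith
  · obtain ⟨o1, -, o3, o4⟩ := h.of_tt_le hq ht
    have z2 := k2Z_bound h.he h.hwb.le hq u
    have hN := abs_NN_le h.he h.hwb.le hq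
    have hd := ang_sq hn hV
    have hD := ang_sq hn h.hw.le
    have hDb := ang_sq hn h.hwb.le
    have hnδ := k2_inner_dvel hn q.2 u
    have c1 : |chi (P.tt q)| ≤ 1 := by
      rw [abs_of_nonneg (chi_nonneg _)]; exact chi_le_one _
    have c2 := hC (P.tt q)
    have f0 := h.φpos
    have f1 := h.φle
    generalize chi (P.tt q) = χ at *
    generalize deriv chi (P.tt q) = χ' at *
    generalize k2Z P.e P.w q u = Z at *
    generalize k2Z P.e P.wb q u = Zb at *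
    generalize NN P.e P.wb q = Nb at *
    generalize ‖u‖ / pp q.2 = U at *
    generalize ang (nn q.1) (relVel q.2) = φ at *
    generalize ang (nn q.1) P.w = ψ at *
    generalize ang (nn q.1) P.wb = ψb at *
    generalize gap (nn q.1) (relVel q.2) = d at *
    generalize gap (nn q.1) P.w = D at *
    generalize gap (nn q.1) P.wb = Db at *
    generalize ⟪nn q.1, KP.dvel q.2 u⟫ = nδ at *
    generalize P.φ₀ = φ₀ at *
    have hd0 : 0 < d := by nlinarith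
    have hD0 : 0 < D := by nlinarith
    have hDb0 : 0 < Db := by nlinarith
    have r1 : |D / Db| ≤ 2 := by
      rw [abs_of_pos (by positivity), div_le_iff₀ hDb0]; nlinarith
    have r2 : |χ * Zb| ≤ 66 * (ψ * U) / φ ^ 2 := by
      refine (k2_abs_mul c1 z2).trans ?_
      rw [one_mul]
      refine div_le_div_of_nonneg_right ?_ (by positivity)
      nlinarith
    have r3 : φ ≤ ψb := by nlinarith
    have r4 : |-nδ / (φ₀ ^ 2 * Db)| ≤ 16 * ψ ^ 2 * U / (φ * ψb ^ 2) := by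
      rw [abs_div, abs_neg, abs_of_pos (by positivity : 0 < φ₀ ^ 2 * Db),
        div_le_div_iff₀ (by positivity) (by positivity)]
      have s1 : φ ^ 2 ≤ (2 * φ₀ * ψ) ^ 2 := pow_le_pow_left₀ hφ.le o1 2
      calc |nδ| * (φ * ψb ^ 2) ≤ 2 * φ * U * (φ * ψb ^ 2) :=
            mul_le_mul_of_nonneg_right hnδ (by positivity)
        _ = 2 * U * ψb ^ 2 * φ ^ 2 := by ring
        _ ≤ 2 * U * ψb ^ 2 * (2 * φ₀ * ψ) ^ 2 := mul_le_mul_of_nonneg_left s1 (by positivity)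
        _ = 16 * ψ ^ 2 * U * (φ₀ ^ 2 * Db) := by rw [hDb]; ring
    have r5 : |Nb / d| ≤ 12 * ψb / φ := by
      rw [abs_div, abs_of_pos hd0, div_le_div_iff₀ hd0 hφ]
      have s1 : |Nb| ≤ 6 * φ * ψb := hN.trans (by nlinarith)
      calc |Nb| * φ ≤ 6 * φ * ψb * φ := mul_le_mul_of_nonneg_right s1 hφ.le
        _ = 6 * ψb * φ ^ 2 := by ring
        _ = 12 * ψb * d := by rw [hd]; ring
    have r6 : |χ' * (-nδ / (φ₀ ^ 2 * Db)) * (Nb / d)| ≤ 216 * C * (ψ * U) / φ ^ 2 := by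
      refine (k2_abs_mul (k2_abs_mul c2 r4) r5).trans ?_
      have e1 : C * (16 * ψ ^ 2 * U / (φ * ψb ^ 2)) * (12 * ψb / φ) =
          192 * (ψ / ψb) * C * (ψ * U) / φ ^ 2 := by field_simp; ring
      have s1 : ψ / ψb ≤ 9 / 8 := by rw [div_le_iff₀ hψb]; exact o4
      rw [e1]
      refine div_le_div_of_nonneg_right ?_ (by positivity)
      refine mul_le_mul_of_nonneg_right (mul_le_mul_of_nonneg_right (by linarith) hC0) hpos
    have r7 := k2_abs_mul r1 ((abs_add_le _ _).trans (add_le_add r2 r6))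
    refine (abs_sub _ _).trans ((add_le_add z1 r7).trans ?_)
    have e2 : 58 * (ψ * U) / φ ^ 2 + 2 * (66 * (ψ * U) / φ ^ 2 + 216 * C * (ψ * U) / φ ^ 2) =
        (190 + 432 * C) * (ψ * U) / φ ^ 2 := by ring
    rw [e2]
    refine div_le_div_of_nonneg_right ?_ (by positivity)
    nlinarith

theorem k2_core {P : KP} (h : P.OK) {q : Ph} (hq : q.1 ≠ 0) (ht : P.tt q ≤ 1) (u : R3) :
    |P.F2 q u| ≤ 98 * (P.η * (‖u‖ / pp q.2)) / ang (nn q.1) (relVel q.2) ^ 2 := by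
  have hn := norm_nn_le q.1
  have hV := (norm_relVel_lt q.2).le
  have hφ := ang_pos hn (norm_relVel_lt q.2)
  have hψ := ang_pos hn h.hw
  have hψb := ang_pos hn h.hwb
  have hU : 0 ≤ ‖u‖ / pp q.2 := div_nonneg (norm_nonneg _) (pp_pos _).le
  have ht2 : P.tt q ≤ 2 := by linarith
  obtain ⟨o1, -, o3, o4⟩ := h.of_tt_le hq ht2
  have fr := h.freeze hq ht2
  have hd := ang_sq hn hV
  have hD := ang_sq hn h.hw.le
  have hDb := ang_sq hn h.hwb.le
  have hδ := k2_norm_dvel q.2 u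
  have hnδ := k2_inner_dvel hn q.2 u
  have hbδ := k2_inner_dvel h.hwb.le q.2 u
  have hne : |⟪nn q.1, P.e⟫| ≤ 1 * 1 := k2_inner_le hn h.he
  have hww : |⟪P.w, KP.dvel q.2 u⟫ - ⟪P.wb, KP.dvel q.2 u⟫| ≤ P.η * (‖u‖ / pp q.2) := by
    rw [← inner_sub_left]
    exact k2_inner_le h.near hδ
  have t1 : ang P.wb (relVel q.2) ≤ ang (nn q.1) P.wb + ang (nn q.1) (relVel q.2) := by
    have := ang_triangle h.hwb.le hn hV
    rwa [ang_comm P.wb (nn q.1)] at this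
  have hs := ang_sub_le hn h.hw.le h.hwb.le h.near h.lw h.lwb
  have hη := h.η_nonneg
  have f0 := h.φpos
  have f1 := h.φle
  rw [k2_F2_eq, chi_one ht, deriv_chi_zero (Or.inl ht)]
  unfold k2Z NN
  generalize ‖u‖ / pp q.2 = U at *
  generalize ang (nn q.1) (relVel q.2) = φ at *
  generalize ang (nn q.1) P.w = ψ at *
  generalize ang (nn q.1) P.wb = ψb at *
  generalize ang P.wb (relVel q.2) = θb at *
  generalize gap (nn q.1) (relVel q.2) = d at *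
  generalize gap (nn q.1) P.w = D at *
  generalize gap (nn q.1) P.wb = Db at *
  generalize gap P.w (relVel q.2) = Θ at *
  generalize gap P.wb (relVel q.2) = Θb at *
  generalize ⟪nn q.1, KP.dvel q.2 u⟫ = nδ at *
  generalize ⟪P.w, KP.dvel q.2 u⟫ = wδ at *
  generalize ⟪P.wb, KP.dvel q.2 u⟫ = bδ at *
  generalize ⟪KP.dvel q.2 u, P.e⟫ = δe at *
  generalize ⟪nn q.1, P.e⟫ = ne at *
  generalize ⟪relVel q.2, P.e⟫ = Ve at *
  generalize P.φ₀ = φ₀ at *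
  generalize P.η = η at *
  have hd0 : 0 < d := by nlinarith
  have hDb0 : 0 < Db := by nlinarith
  have r3 : φ ≤ ψb := by nlinarith
  have e1 : (-wδ * ne - D * δe) / d - (Θ * ne - D * Ve) * -nδ / d ^ 2 -
      D / Db * (1 * ((-bδ * ne - Db * δe) / d - (Θb * ne - Db * Ve) * -nδ / d ^ 2) +
        0 * (-nδ / (φ₀ ^ 2 * Db)) * ((Θb * ne - Db * Ve) / d)) =
      ((-(wδ - bδ) + bδ * ((D - Db) / Db)) * ne) / d +
        ((Θ * Db - D * Θb) / Db * nδ * ne) / d ^ 2 := by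
    field_simp; ring
  have a1 : |(D - Db) / Db| ≤ 4 * η / ψb := by
    rw [abs_div, abs_of_pos hDb0, div_le_div_iff₀ hDb0 hψb]
    have e2 : D - Db = (ψ - ψb) * ((ψ + ψb) / 2) := by linarith
    have b3 : |(ψ + ψb) / 2| ≤ 4 / 3 * ψb := by rw [abs_le]; constructor <;> linarith
    have b4 := k2_abs_mul hs b3
    rw [← e2] at b4
    calc |D - Db| * ψb ≤ 3 / 2 * η * (4 / 3 * ψb) * ψb := mul_le_mul_of_nonneg_right b4 hψb.le
      _ = 2 * η * ψb ^ 2 := by ring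
      _ = 4 * η * Db := by rw [hDb]; ring
  have a2 : |bδ| ≤ 4 * ψb * U := hbδ.trans (mul_le_mul_of_nonneg_right (by linarith) hU)
  have a3 : |bδ * ((D - Db) / Db)| ≤ 16 * (η * U) :=
    (k2_abs_mul a2 a1).trans (le_of_eq (by field_simp; ring))
  have a4 : |-(wδ - bδ) + bδ * ((D - Db) / Db)| ≤ 17 * (η * U) := by
    rw [abs_le] at hww a3 ⊢
    constructor <;> linarith [hww.1, hww.2, a3.1, a3.2]
  have a5 : |(Θ * Db - D * Θb) / Db| ≤ 8 * η * φ := by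
    rw [abs_div, abs_of_pos hDb0, div_le_iff₀ hDb0]
    exact fr.trans (le_of_eq (by rw [hDb]; ring))
  have a6 : |(-(wδ - bδ) + bδ * ((D - Db) / Db)) * ne| ≤ 17 * (η * U) :=
    (k2_abs_mul a4 hne).trans (le_of_eq (by ring))
  have a7 : |(Θ * Db - D * Θb) / Db * nδ * ne| ≤ 16 * (η * U) * φ ^ 2 :=
    (k2_abs_mul (k2_abs_mul a5 hnδ) hne).trans (le_of_eq (by ring))
  rw [e1]
  exact (k2_div hφ hd a6 a7).trans (le_of_eq (by ring))

theorem F2_bound : ∃ C, 0 ≤ C ∧ ∀ P : KP, P.OK → ∀ (q : Ph) (u : R3), q.1 ≠ 0 →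
    |P.F2 q u| ≤ C * ‖u‖ * (ang (nn q.1) P.w / (pp q.2 * ang (nn q.1) (relVel q.2) ^ 2)) ∧
    |P.F2 q u| ≤ C * ‖u‖ * (1 / (P.φ₀ * pp q.2 * ang (nn q.1) (relVel q.2)) +
      P.η / (pp q.2 * ang (nn q.1) (relVel q.2) ^ 2)) := by
  obtain ⟨C, hC0, hC⟩ := deriv_chi_bdd
  refine ⟨31 * (200 + 432 * C), by positivity, fun P h q u hq => ?_⟩
  have hn := norm_nn_le q.1
  have hφ := ang_pos hn (norm_relVel_lt q.2)
  have hψ := ang_pos hn h.hw
  have hp := pp_pos q.2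
  have hu := norm_nonneg u
  have hη := h.η_nonneg
  have f0 := h.φpos
  have h1 := k2_first hC0 hC h hq u
  have h2 := fun ht => k2_core h hq ht u
  have h3 := h.of_le_tt hq
  generalize |P.F2 q u| = F at *
  generalize ang (nn q.1) (relVel q.2) = φ at *
  generalize ang (nn q.1) P.w = ψ at *
  generalize pp q.2 = p at *
  generalize ‖u‖ = U at *
  generalize P.φ₀ = φ₀ at *
  generalize P.η = η at *
  have hK : 200 ≤ 200 + 432 * C := by linarith
  generalize 200 + 432 * C = K at *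
  have e1 : K * (ψ * (U / p)) / φ ^ 2 = K * U * (ψ / (p * φ ^ 2)) := by field_simp
  rw [e1] at h1
  have hK0 : 0 ≤ K := by linarith
  have p1 : 0 ≤ K * U * (ψ / (p * φ ^ 2)) := by positivity
  have p2 : 0 ≤ 1 / (φ₀ * p * φ) := by positivity
  have p3 : 0 ≤ η / (p * φ ^ 2) := by positivity
  refine ⟨by linarith, ?_⟩
  rcases le_total (P.tt q) 1 with ht | ht
  · have e2 : 98 * (η * (U / p)) / φ ^ 2 = 98 * U * (η / (p * φ ^ 2)) := by field_simp
    refine (h2 ht).trans ?_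
    rw [e2]
    exact mul_le_mul (mul_le_mul_of_nonneg_right (by linarith) hu) (by linarith) p3 (by positivity)
  · have s1 : ψ / (p * φ ^ 2) ≤ 31 * (1 / (φ₀ * p * φ) + η / (p * φ ^ 2)) := by
      have e3 : (2 * φ / φ₀ + 31 * η) / (p * φ ^ 2) = 2 * (1 / (φ₀ * p * φ)) + 31 * (η / (p * φ ^ 2)) := by
        field_simp
      have := div_le_div_of_nonneg_right (h3 ht) (by positivity : 0 ≤ p * φ ^ 2)
      rw [e3] at this
      linarith
    calc F ≤ K * U * (ψ / (p * φ ^ 2)) := h1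
      _ ≤ K * U * (31 * (1 / (φ₀ * p * φ) + η / (p * φ ^ 2))) :=
          mul_le_mul_of_nonneg_left s1 (by positivity)
      _ = _ := by ring

end Crest.Agent.R106
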