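import Crest.Agent.R106.Inc0
import Crest.Agent.R106.Cut
import Crest.Agent.R106.K1
import Crest.Agent.R106.K2

/-!
# Row 106: the corrected force on one cone

`rep_force`, `cutoff`, `lw_split` for `Trans.cut (TSol.trans …)`, `cc_bound`.  For the main part,
`ofReal |∫ k| ≤ ∫⁻ ofReal |k|` and pointwise on `cyl s` (`y ≠ 0`): `|dvb| r² ≤ …` (`dvb_eq`, `F1_bound`),
`force = good + cross3 (v̂ - n) B`, `‖v̂ - n‖ ≤ φ`, so `|fderiv cc (0, force)| r ≤ C ‖good‖ (1/(φ₀pφ) + η/(pφ²)) +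
C ‖B‖ ψ/(pφ)` (`dcc_eq`, both parts of `F2_bound`); with `G = ‖good‖ + 1/r` this is `≤ C kt`.
The corrector: `kap_bound`.

-/

set_option autoImplicit false

noncomputable section

namespace Crest.Agent.R106

open MeasureTheory Set Metric Real Filter Topology
open scoped ContDiff ENNReal RealInnerProductSpace Classical
open Crest.AnalysisR.VecCalc3 Crest.AnalysisR.PDE.RVM

theorem inc2_int {k m : Ph → ℝ} {t C : ℝ} (hC : 0 ≤ C)
    (h : ∀ q ∈ cyl t, q.1 ≠ 0 → |k q| ≤ C * m q) :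
    ENNReal.ofReal |∫ q in cyl t, k q| ≤ ENNReal.ofReal C * ∫⁻ q, ENNReal.ofReal (m q) := by
  rw [← lintegral_const_mul' _ _ ENNReal.ofReal_ne_top, ← Real.norm_eq_abs, ofReal_norm]
  refine (enorm_integral_le_lintegral_enorm _).trans
    (le_trans (lintegral_mono_ae ?_) (setLIntegral_le_lintegral (cyl t) _))
  filter_upwards [ae_restrict_mem (measurableSet_cyl t), ae_restrict_of_ae ae_ne_zero] with q hq hy
  rw [← ofReal_norm, ← ENNReal.ofReal_mul hC]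
  exact ENNReal.ofReal_le_ofReal (h q hq hy)

theorem inc2_add {a b : Ph → ℝ} {S : Set Ph} (hb : IntegrableOn b S) :
    |∫ q in S, (a q + b q)| ≤ |∫ q in S, a q| + |∫ q in S, b q| := by
  by_cases ha : IntegrableOn a S
  · rw [integral_add ha hb]
    exact abs_add_le _ _
  · rw [integral_undef fun h => ha ((Integrable.sub h hb).congr (ae_of_all _ fun q => add_sub_cancel_right _ _))]
    rw [abs_zero]
    positivity

theorem inc2_ker : ∃ C, 0 ≤ C ∧ ∀ P : KP, P.OK → ∀ q : Ph, q.1 ≠ 0 → ∀ E : Ph,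
    |P.dvb q + fderiv ℝ P.cc q (0, force E q.2)| ≤ C *
      ((‖E.1 + cross3 (nn q.1) E.2‖ + ‖q.1‖⁻¹) / (P.φ₀ * pp q.2 * ang (nn q.1) (relVel q.2) * ‖q.1‖) +
        P.η * (‖E.1 + cross3 (nn q.1) E.2‖ + ‖q.1‖⁻¹) /
          (pp q.2 * ang (nn q.1) (relVel q.2) ^ 2 * ‖q.1‖) +
        ‖E.2‖ * ang (nn q.1) P.w / (pp q.2 * ang (nn q.1) (relVel q.2) * ‖q.1‖) +
        if ang (nn q.1) (relVel q.2) ≤ 2 * P.φ₀ * ang (nn q.1) P.w then
          1 / (P.φ₀ * ‖q.1‖ ^ 2) else 0) := by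
  obtain ⟨C₁, h₁, H₁⟩ := F1_bound
  obtain ⟨C₂, h₂, H₂⟩ := F2_bound
  refine ⟨C₁ + C₂, by positivity, fun P hP q hq E => ?_⟩
  have hr : 0 < ‖q.1‖ := norm_pos_iff.2 hq
  have hφ : 0 < ang (nn q.1) (relVel q.2) := ang_pos (norm_nn_le _) (norm_relVel_lt _)
  have hψ : 0 ≤ ang (nn q.1) P.w := ang_nonneg _ _
  have hp := pp_pos q.2
  have h0 := hP.φpos
  have hη := hP.η_nonneg
  have e1 : ((0 : R3), force E q.2) = ((0 : R3), E.1 + cross3 (nn q.1) E.2) +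
      ((0 : R3), cross3 (relVel q.2 - nn q.1) E.2) := by
    rw [Prod.mk_add_mk, add_zero, cross3_sub_left, force]
    congr 1
    abel
  have a1 := H₁ P hP q hq
  have a2 := (H₂ P hP q (E.1 + cross3 (nn q.1) E.2) hq).2
  have a3 := (H₂ P hP q (cross3 (relVel q.2 - nn q.1) E.2) hq).1
  have a4 : ‖cross3 (relVel q.2 - nn q.1) E.2‖ ≤ ang (nn q.1) (relVel q.2) * ‖E.2‖ := by
    refine (norm_cross3_le _ _).trans (mul_le_mul_of_nonneg_right ?_ (norm_nonneg _))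
    rw [norm_sub_rev]
    exact norm_sub_le_ang (norm_nn_le _) (norm_relVel_lt _).le
  replace a3 := a3.trans (mul_le_mul_of_nonneg_right (mul_le_mul_of_nonneg_left a4 h₂)
    (by positivity))
  rw [← hP.dvb_eq hq, abs_mul, abs_of_pos (by positivity : 0 < ‖q.1‖ ^ 2),
    ← le_div_iff₀ (by positivity)] at a1
  rw [← hP.dcc_eq hq, abs_mul, abs_of_pos hr, ← le_div_iff₀ hr] at a2 a3
  rw [e1, map_add]
  refine (abs_add_le _ _).trans ((add_le_add a1 ((abs_add_le _ _).trans (add_le_add a2 a3))).trans ?_)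
  have hg := norm_nonneg (E.1 + cross3 (nn q.1) E.2)
  have hB := norm_nonneg E.2
  generalize ‖E.1 + cross3 (nn q.1) E.2‖ = g at *
  generalize ‖E.2‖ = B at *
  generalize ang (nn q.1) (relVel q.2) = φ at *
  generalize ang (nn q.1) P.w = ψ at *
  generalize pp q.2 = p at *
  generalize ‖q.1‖ = r at *
  have b : ∀ i : ℝ, 0 ≤ i → C₁ * (1 / (P.φ₀ * p * φ) + P.η / (p * φ ^ 2) + i) / r ^ 2 +
      (C₂ * g * (1 / (P.φ₀ * p * φ) + P.η / (p * φ ^ 2)) / r +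
        C₂ * (φ * B) * (ψ / (p * φ ^ 2)) / r) ≤
      (C₁ + C₂) * ((g + r⁻¹) / (P.φ₀ * p * φ * r) + P.η * (g + r⁻¹) / (p * φ ^ 2 * r) +
        B * ψ / (p * φ * r) + i / r ^ 2) := fun i hi => by
    rw [← sub_nonneg]
    have : (C₁ + C₂) * ((g + r⁻¹) / (P.φ₀ * p * φ * r) + P.η * (g + r⁻¹) / (p * φ ^ 2 * r) +
        B * ψ / (p * φ * r) + i / r ^ 2) -
        (C₁ * (1 / (P.φ₀ * p * φ) + P.η / (p * φ ^ 2) + i) / r ^ 2 +
      (C₂ * g * (1 / (P.φ₀ * p * φ) + P.η / (p * φ ^ 2)) / r +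
        C₂ * (φ * B) * (ψ / (p * φ ^ 2)) / r)) =
        C₁ * (g * (1 / (P.φ₀ * p * φ) + P.η / (p * φ ^ 2)) / r + B * ψ / (p * φ * r)) +
        C₂ * ((1 / (P.φ₀ * p * φ) + P.η / (p * φ ^ 2) + i) / r ^ 2) := by
      field_simp
      ring
    rw [this]
    positivity
  split_ifs
  · refine (b _ (by positivity)).trans (le_of_eq ?_)
    rw [div_div]
  · refine (b _ le_rfl).trans (le_of_eq ?_)
    rw [zero_div]

theorem inc_point (A P₀ En Cd Tm : ℝ) : ∃ C, 0 ≤ C ∧ ∀ (T : ℝ) (f₀ : Ph → ℝ) (K₀ : R3 → Ph)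
    (Kd : ST → Ph) (f : TP → ℝ) (K : ST → Ph) (Z : ℝ → Ph → Ph),
    CSet A P₀ En Cd Tm T f₀ K₀ Kd f K Z → ∃ (γ : ℝ → ℝ) (ε : ℝ), 0 < ε ∧ ContDiff ℝ ∞ γ ∧
      (∀ τ, τ ≤ ε → γ τ = 0) ∧ ∀ (c : ℝ → Ph) (s₀ s₁ T' Q s : ℝ) (Pk : KP), Pk.OK →
        s ∈ Icc s₀ s₁ → s ∈ Icc 0 T → Pk.w = relVel (c s).2 →
        ENNReal.ofReal |⟪force (K (s, (c s).1)) (c s).2, Pk.e⟫ -
            Ret Pk.kap (1, Pk.w, 0) (fun r => γ r.1 * f r) (s, (c s).1) / (4 * π)| ≤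
          ENNReal.ofReal C + ENNReal.ofReal C *
            (ldOf f K c s₀ s₁ T' Q).Is ((ldOf f K c s₀ s₁ T' Q).kt Pk.φ₀ Pk.η) s ∧
        ENNReal.ofReal |Pot Pk.kap (fun r => γ r.1 * f r) (s, (c s).1)| ≤
          ENNReal.ofReal C * (ldOf f K c s₀ s₁ T' Q).Is ((ldOf f K c s₀ s₁ T' Q).k5 Pk.φ₀) s := by
  obtain ⟨C₀, h₀, H₀⟩ := cutoff A P₀ En Cd Tm
  obtain ⟨C₁, h₁, H₁⟩ := inc2_ker
  obtain ⟨C₂, h₂, H₂⟩ := cc_bound
  obtain ⟨C₃, h₃, H₃⟩ := kap_bound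
  refine ⟨2 * |Cd| + C₀ + (C₂ + 1) * C₀ + C₁ + C₃, by positivity, fun T f₀ K₀ Kd f K Z h => ?_⟩
  obtain ⟨γ, ε, hε, hγ, γ0, γ1, H⟩ := H₀ T f₀ K₀ Kd f K Z h
  refine ⟨γ, ε, hε, hγ, γ0, fun c s₀ s₁ T' Q s Pk hk hs hsT hw => ?_⟩
  have hp : (s, (c s).1) ∈ slab R3 T := ⟨hsT, mem_univ _⟩
  obtain ⟨P, hP⟩ := h.sol.vs
  have hT := (h.sol.trans hP).cut hγ
  have hc : 0 ≤ 2 * |Cd| + C₀ + (C₂ + 1) * C₀ := by positivity
  have hF : ∀ q ∈ cyl s, 0 ≤ f (cone (s, (c s).1) q) := fun q hq => h.sol.nonneg _ (cone_mem hp hq)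
  have hd : ∀ q ∈ cyl s, s ∈ Icc s₀ s₁ ∧ ‖q.1‖ < s := fun q hq => ⟨hs, mem_ball_zero_iff.1 hq.1⟩
  have hm : ∀ {x y C C' a F : ℝ}, |x| ≤ C * y → 0 ≤ C → C ≤ C' → 0 ≤ y → 0 ≤ a ∧ a ≤ 1 → 0 ≤ F →
      |x * (a * F)| ≤ C' * (F * y) := fun {x y C C' a F} b1 b2 b3 b4 b5 b6 => by
    rw [abs_mul, abs_of_nonneg (mul_nonneg b5.1 b6)]
    calc |x| * (a * F) ≤ C' * y * (1 * F) := by
          have := b5.1
          have := b5.2
          have := b2.trans b3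
          gcongr
          exact b1.trans (mul_le_mul_of_nonneg_right b3 b4)
      _ = _ := by ring
  constructor
  · have e1 := rep_force (h.sol.hf.of_le (by simp)) hP hp (h.sol.rep _ hp) Pk.e Pk.w
    have e2 := lw_split hT hε (fun r _ hr => by simp only [γ0 _ hr, zero_mul]) hk hp
    have b1 : |⟪(Kd (s, (c s).1)).1 + cross3 Pk.w (Kd (s, (c s).1)).2, Pk.e⟫| ≤ 2 * |Cd| := by
      refine (abs_real_inner_le_norm _ _).trans ((mul_le_of_le_one_right (norm_nonneg _) hk.he).trans ?_)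
      rw [hw]
      refine (norm_force_le _ _).trans ?_
      linarith [h.hd _ hp, le_abs_self Cd]
    have b2 := (H _ hp).1 Pk.e Pk.w hk.he hk.hw.le
    have b3 := (H _ hp).2 (fun q => Pk.cc q / (C₂ + 1)) fun q hq => by
      rw [abs_div, abs_of_pos (by positivity : 0 < C₂ + 1), div_mul_eq_mul_div,
        div_le_iff₀ (by positivity)]
      nlinarith [H₂ Pk hk q hq, pp_pos q.2]
    simp only [div_mul_eq_mul_div] at b3
    rw [integral_div, abs_div, abs_of_pos (by positivity : 0 < C₂ + 1),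
      div_le_iff₀ (by positivity)] at b3
    have b4 := inc2_add (a := fun q => Pk.dvb q * (γ (cone (s, (c s).1) q).1 * f (cone (s, (c s).1) q)) +
      fderiv ℝ Pk.cc q (0, γ (cone (s, (c s).1) q).1 • gF f K (cone (s, (c s).1) q)))
      (hk.ker_cc.kerB.int_mul hT.hs hT.vs hp)
    rw [← e2] at b4
    simp only [mul_zero, zero_add] at b4
    have b5 := inc2_int (t := s) (C := 2 * |Cd| + C₀ + (C₂ + 1) * C₀ + C₁ + C₃)
      (k := fun q => Pk.dvb q * (γ (cone (s, (c s).1) q).1 * f (cone (s, (c s).1) q)) +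
        fderiv ℝ Pk.cc q (0, γ (cone (s, (c s).1) q).1 • gF f K (cone (s, (c s).1) q)))
      (m := fun q => (ldOf f K c s₀ s₁ T' Q).fc (s, q) *
        (ldOf f K c s₀ s₁ T' Q).kt Pk.φ₀ Pk.η (s, q)) (by positivity) fun q hq hy => by
      have a1 := H₁ Pk hk q hy (K (cone2 (s, (c s).1) q.1))
      have e3 : ((0 : R3), γ (cone (s, (c s).1) q).1 • gF f K (cone (s, (c s).1) q)) =
          (γ (cone (s, (c s).1) q).1 * f (cone (s, (c s).1) q)) •
            ((0 : R3), force (K (cone2 (s, (c s).1) q.1)) q.2) := by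
        rw [Prod.smul_mk, smul_zero, mul_smul]
        rfl
      have hφ := ang_nonneg (nn q.1) (relVel q.2)
      have hψ := ang_nonneg (nn q.1) Pk.w
      have := pp_pos q.2
      have := hk.φpos
      have := hk.η_nonneg
      simp only [e3, map_smul, smul_eq_mul]
      rw [mul_comm (_ * f _) (fderiv ℝ Pk.cc q _), ← add_mul]
      simp only [LD.kt, LD.k1, LD.k2, LD.k3, LD.k4, LD.ps, ldOf, ph, pv, rr, if_pos (hd q hq),
        if_pos hs, ← hw]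
      refine hm a1 h₁ (by linarith) ?_ (γ1 _) (hF q hq)
      split_ifs <;> positivity
    refine le_trans ?_ (add_le_add le_rfl b5)
    rw [← ENNReal.ofReal_add (by positivity) (abs_nonneg _)]
    refine ENNReal.ofReal_le_ofReal ?_
    rw [force, ← hw, e1, add_sub_assoc, ← sub_div]
    refine (abs_add_le _ _).trans ?_
    rw [abs_div, abs_of_pos (by positivity : 0 < 4 * π)]
    have b6 := div_le_self (abs_nonneg (LW Pk.e Pk.w f (s, (c s).1) -
      Ret Pk.kap (1, Pk.w, 0) (fun r => γ r.1 * f r) (s, (c s).1)))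
      (show 1 ≤ 4 * π by linarith [Real.pi_gt_three])
    have b7 := abs_sub_le (LW Pk.e Pk.w f (s, (c s).1))
      (LW Pk.e Pk.w (fun r => γ r.1 * f r) (s, (c s).1))
      (Ret Pk.kap (1, Pk.w, 0) (fun r => γ r.1 * f r) (s, (c s).1))
    linarith
  · refine inc2_int (by positivity) fun q hq hy => ?_
    have hr : 0 < ‖q.1‖ := norm_pos_iff.2 hy
    have a1 := H₃ Pk hk q hy
    rw [← le_div_iff₀ hr, mul_div_assoc] at a1
    have hφ := ang_nonneg (nn q.1) (relVel q.2)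
    have hψ := ang_nonneg (nn q.1) Pk.w
    simp only [LD.k5, LD.ps, ldOf, ph, rr, if_pos (hd q hq), if_pos hs, ← hw]
    refine hm (a1.trans (le_of_eq ?_)) h₃ (by linarith) ?_ (γ1 _) (hF q hq)
    · split_ifs
      · rw [div_div]
      · rw [zero_div]
    · split_ifs <;> positivity

end Crest.Agent.R106
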