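import Crest.Agent.R106.Inc1
import Crest.Agent.R106.Inc2

/-!
# Row 106: the increment of the momentum

`V s = (Z s z).2`, `e = nn (V b - V a)`, `Pk s = ⟨e, relVel (V s), relVel (V a), φ₀, 4η₀/Γ⟩` is `OK`
(`relVel_lip`, `norm_relVel_sq`), and `(Pk s).kap` does not depend on `s` (`rfl`).  FTC for `⟪V ·, e⟫`
(`TSol.hasV`; the derivative is continuous on `[a, b]`), `corr_ftc`:
`‖V b - V a‖ = ∫_a^b (⟪F, e⟫ - Ret/(4π)) + (Pot b - Pot a)/(4π)`; `inc_point`,
`ofReal |∫ h| ≤ ∫⁻ ofReal |h|`, `setLIntegral_mono'`.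

-/

set_option autoImplicit false

noncomputable section

namespace Crest.Agent.R106

open MeasureTheory Set Metric Real Filter Topology
open scoped ContDiff ENNReal RealInnerProductSpace Classical
open Crest.AnalysisR.VecCalc3 Crest.AnalysisR.PDE.RVM

theorem inc (A P₀ En Cd Tm : ℝ) : ∃ C, 0 < C ∧ ∀ (T : ℝ) (f₀ : Ph → ℝ) (K₀ : R3 → Ph)
    (Kd : ST → Ph) (f : TP → ℝ) (K : ST → Ph) (Z : ℝ → Ph → Ph),
    CSet A P₀ En Cd Tm T f₀ K₀ Kd f K Z → ∀ (z : Ph) (s₀ s₁ T' Q Γ η₀ φ₀ M a b : ℝ), 0 ≤ s₀ →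
      s₀ ≤ a → a ≤ b → b ≤ s₁ → s₁ ≤ T → 0 < Γ → 1 ≤ η₀ → 0 < φ₀ → φ₀ ≤ 1 / 10 → 0 ≤ M →
      (∀ s ∈ Icc a b, ‖(Z s z).2 - (Z a z).2‖ ≤ η₀) → (∀ s ∈ Icc a b, Γ / 2 ≤ pp (Z s z).2) →
      (∀ s, (ldOf f K (fun s => Z s z) s₀ s₁ T' Q).Is
        ((ldOf f K (fun s => Z s z) s₀ s₁ T' Q).k5 φ₀) s ≤ ENNReal.ofReal M) →
      ENNReal.ofReal ‖(Z b z).2 - (Z a z).2‖ ≤ ENNReal.ofReal (C * M) +
        ∫⁻ s in Icc a b, (ENNReal.ofReal C + ENNReal.ofReal C *
          (ldOf f K (fun s => Z s z) s₀ s₁ T' Q).Is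
            ((ldOf f K (fun s => Z s z) s₀ s₁ T' Q).kt φ₀ (4 * η₀ / Γ)) s) := by
  obtain ⟨C, hC, H⟩ := inc_point A P₀ En Cd Tm
  refine ⟨C + 1, by linarith, ?_⟩
  intro T f₀ K₀ Kd f K Z hS z s₀ s₁ T' Q Γ η₀ φ₀ M a b h0 h0a hab hb1 h1T hΓ hη hφ hφ' hM hV hp h5
  obtain ⟨γ, ε, hε, hγ, hγ0, H1⟩ := H T f₀ K₀ Kd f K Z hS
  set L := ldOf f K (fun s => Z s z) s₀ s₁ T' Q with hL
  have ha : 0 ≤ a := h0.trans h0a
  have hb : b ≤ T := hb1.trans h1T
  have haa : a ∈ Icc a b := ⟨le_rfl, hab⟩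
  have hbb : b ∈ Icc a b := ⟨hab, le_rfl⟩
  set e := nn ((Z b z).2 - (Z a z).2) with he
  set Pk : ℝ → KP := fun s => ⟨e, relVel (Z s z).2, relVel (Z a z).2, φ₀, 4 * η₀ / Γ⟩ with hPk
  have hl : ∀ s ∈ Icc a b, 1 - ‖relVel (Z s z).2‖ ^ 2 ≤ (4 * η₀ / Γ) ^ 2 := by
    intro s hs
    rw [norm_relVel_sq, sub_sub_cancel, one_div, ← inv_pow]
    refine pow_le_pow_left₀ (inv_nonneg.2 (pp_pos _).le) ?_ 2
    refine (inv_anti₀ (by positivity) (hp s hs)).trans ?_
    rw [inv_div]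
    exact div_le_div_of_nonneg_right (by linarith) hΓ.le
  have hOK : ∀ s ∈ Icc a b, (Pk s).OK := fun s hs =>
    { he := norm_nn_le _
      hw := norm_relVel_lt _
      hwb := norm_relVel_lt _
      near := by
        refine (relVel_lip _ _).trans ?_
        calc 2 * ‖(Z s z).2 - (Z a z).2‖ / pp (Z s z).2 ≤ 2 * η₀ / (Γ / 2) := by
              gcongr
              · exact hV s hs
              · exact hp s hs
          _ = 4 * η₀ / Γ := by field_simp; ring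
      lw := hl s hs
      lwb := hl a haa
      φpos := hφ
      φle := hφ' }
  have H2 := fun s (hs : s ∈ Icc a b) => H1 (fun s => Z s z) s₀ s₁ T' Q s (Pk s) (hOK s hs)
    ⟨h0a.trans hs.1, hs.2.trans hb1⟩ ⟨ha.trans hs.1, hs.2.trans hb⟩ rfl
  set g : TP → ℝ := fun r => γ r.1 * f r with hg
  set c : Ph → ℝ := (Pk a).kap with hc
  have hck : ∀ s, (Pk s).kap = c := fun s => rfl
  obtain ⟨P, hP⟩ := hS.sol.vs
  have cZ : ContinuousOn (fun s => Z s z) (Icc a b) := (hS.sol.contZ z).mono (Icc_subset_Icc ha hb)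
  have cw : ContinuousOn (fun s => relVel (Z s z).2) (Icc a b) :=
    contDiff_relVel.continuous.comp_continuousOn cZ.snd
  obtain ⟨hI, hF⟩ := corr_ftc (T := T) (P := P) (g := g)
    (((hγ.comp contDiff_fst).contDiffOn.mul hS.sol.hf).of_le (by exact_mod_cast le_top))
    (fun p hp hg => hP p hp (right_ne_zero_of_mul hg)) hε
    (fun r _ hr => by simp only [hg, hγ0 _ hr, zero_mul]) (hOK a haa).ker_kap.kerB ha hab hb
    (hS.sol.hasX z ha hb) cw
  set F : ℝ → ℝ := fun s => ⟪force (K (s, (Z s z).1)) (Z s z).2, e⟫ with hFd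
  have cF : ContinuousOn F (Icc a b) := by
    have h1 : ContinuousOn (fun s => K (s, (Z s z).1)) (Icc a b) :=
      hS.sol.hK.continuousOn.comp (continuousOn_id.prodMk cZ.fst)
        fun s hs => ⟨⟨ha.trans hs.1, hs.2.trans hb⟩, trivial⟩
    have h2 : ContinuousOn (fun s => force (K (s, (Z s z).1)) (Z s z).2) (Icc a b) :=
      contDiff_force.continuous.comp_continuousOn (h1.prodMk cZ.snd)
    exact h2.inner continuousOn_const
  have iF : IntervalIntegrable F volume a b := cF.intervalIntegrable_of_Icc hab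
  have hd : ∀ s ∈ Icc a b, HasDerivWithinAt (fun s => ⟪(Z s z).2, e⟫) (F s) (Icc a b) s := by
    intro s hs
    have := (hS.sol.hasV z ha hb s hs).inner ℝ (hasDerivWithinAt_const s (Icc a b) e)
    simpa only [inner_zero_right, zero_add] using this
  have hftc : ∫ s in a..b, F s = ‖(Z b z).2 - (Z a z).2‖ := by
    rw [intervalIntegral.integral_eq_sub_of_hasDerivAt_of_le hab
      (fun s hs => (hd s hs).continuousWithinAt)
      (fun s hs => (hd s (Ioo_subset_Icc_self hs)).hasDerivAt (Icc_mem_nhds hs.1 hs.2)) iF,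
      ← inner_sub_left, he, nn, real_inner_smul_right, real_inner_self_eq_norm_sq]
    by_cases h : ‖(Z b z).2 - (Z a z).2‖ = 0
    · simp [h]
    · field_simp
  set R : ℝ → ℝ := fun s => Ret c (1, relVel (Z s z).2, 0) g (s, (Z s z).1) with hR
  have hpot : ∀ s ∈ Icc a b, |Pot c g (s, (Z s z).1)| ≤ C * M := by
    intro s hs
    have h1 := (H2 s hs).2.trans (mul_le_mul_right (h5 s) _)
    rw [← ENNReal.ofReal_mul hC] at h1
    exact (ENNReal.ofReal_le_ofReal_iff (by positivity)).1 h1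
  have hpi : (1 : ℝ) ≤ 4 * π / 2 := by linarith [Real.pi_gt_three]
  have hsplit : ‖(Z b z).2 - (Z a z).2‖ ≤ (C + 1) * M + ‖∫ s in a..b, (F s - R s / (4 * π))‖ := by
    rw [intervalIntegral.integral_sub iF (hI.div_const _), intervalIntegral.integral_div, hF, hftc]
    have h1 := abs_le.1 (hpot a haa)
    have h2 := abs_le.1 (hpot b hbb)
    have h3 : (Pot c g (b, (Z b z).1) - Pot c g (a, (Z a z).1)) / (4 * π) ≤ C * M := by
      rw [div_le_iff₀ (by positivity)]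
      nlinarith [mul_nonneg hC hM]
    have h4 := le_abs_self (‖(Z b z).2 - (Z a z).2‖ -
      (Pot c g (b, (Z b z).1) - Pot c g (a, (Z a z).1)) / (4 * π))
    rw [Real.norm_eq_abs]
    linarith
  refine (ENNReal.ofReal_le_ofReal hsplit).trans (ENNReal.ofReal_add_le.trans ?_)
  refine add_le_add_right ?_ _
  rw [intervalIntegral.integral_of_le hab, ofReal_norm_eq_enorm]
  refine (enorm_integral_le_lintegral_enorm _).trans ?_
  refine (lintegral_mono_set Ioc_subset_Icc_self).trans ?_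
  refine setLIntegral_mono' measurableSet_Icc fun s hs => ?_
  rw [← ofReal_norm_eq_enorm, Real.norm_eq_abs]
  have hC1 : ENNReal.ofReal C ≤ ENNReal.ofReal (C + 1) := ENNReal.ofReal_le_ofReal (by linarith)
  exact (H2 s hs).1.trans (add_le_add hC1 (mul_le_mul_left hC1 _))

end Crest.Agent.R106
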