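import Crest.Agent.R106.Ker
import Crest.Agent.R106.CDefs

/-!
# Row 106: the kernels of part C are homogeneous; elementary bounds

Notation of `CDefs`: `φ = ang n v̂`, `ψ = ang n w`, `θ = ang w v̂`, bars for `wb`.  All of
`d = φ²/2`, `D = ψ²/2`, `D̄` are positive.  `NN = Θ (n - v̂)·e + (Θ - D) v̂·e`, `‖n - v̂‖ ≤ φ`,
`|Θ - D| = |θ - ψ|(θ + ψ)/2 ≤ φ (θ + ψ)/2`, `θ ≤ φ + ψ`, `θ ≤ 2`.  On the support of `χ` (`tt ≤ 2`):
`φ² ≤ 2 φ₀² ψ̄²`, `200 η² ≤ ψ̄²`, `|ψ - ψ̄| ≤ 3η/2` (`ang_sub_le`), hence `0.89 ψ̄ ≤ ψ ≤ 1.11 ψ̄`.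

-/

set_option autoImplicit false

noncomputable section

namespace Crest.Agent.R106

open MeasureTheory Set Metric Real Filter Topology
open scoped ContDiff ENNReal RealInnerProductSpace Classical
open Crest.AnalysisR.VecCalc3 Crest.AnalysisR.PDE.RVM

theorem contDiff_chi : ContDiff ℝ ∞ chi :=
  (Real.smoothTransition.contDiff (n := ⊤)).comp (f := fun s : ℝ => 2 - s) (by fun_prop)

theorem chi_nonneg (t : ℝ) : 0 ≤ chi t :=
  Real.smoothTransition.nonneg _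

theorem chi_le_one (t : ℝ) : chi t ≤ 1 :=
  Real.smoothTransition.le_one _

theorem chi_one {t : ℝ} (h : t ≤ 1) : chi t = 1 :=
  Real.smoothTransition.one_of_one_le (by linarith)

theorem chi_zero {t : ℝ} (h : 2 ≤ t) : chi t = 0 :=
  Real.smoothTransition.zero_of_nonpos (by linarith)

theorem deriv_chi_zero {t : ℝ} (h : t ≤ 1 ∨ 2 ≤ t) : deriv chi t = 0 := by
  rcases h with h | h
  · apply IsLocalMax.deriv_eq_zero
    refine Eventually.of_forall fun x => ?_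
    rw [chi_one h]
    exact chi_le_one x
  · apply IsLocalMin.deriv_eq_zero
    refine Eventually.of_forall fun x => ?_
    rw [chi_zero h]
    exact chi_nonneg x

theorem deriv_chi_bdd : ∃ C, 0 ≤ C ∧ ∀ t, |deriv chi t| ≤ C := by
  have hc : Continuous (deriv chi) := contDiff_chi.continuous_deriv (by simp)
  obtain ⟨C, hC⟩ := (isCompact_Icc (a := (1 : ℝ)) (b := 2)).exists_bound_of_continuousOn
    hc.continuousOn
  have h0 : 0 ≤ C := (norm_nonneg _).trans (hC 1 ⟨le_rfl, one_le_two⟩)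
  refine ⟨C, h0, fun s => ?_⟩
  by_cases hs : s ≤ 1 ∨ 2 ≤ s
  · rw [deriv_chi_zero hs, abs_zero]
    exact h0
  · rw [not_or, not_le, not_le] at hs
    exact hC s ⟨hs.1.le, hs.2.le⟩

theorem kc_gap_sub {n w u : R3} (hn : ‖n‖ ≤ 1) (hw : ‖w‖ ≤ 1) (hu : ‖u‖ ≤ 1) :
    |gap w u - gap n w| ≤ ang n u * (ang n u / 2 + ang n w) := by
  have a1 := ang_sq hw hu
  have a2 := ang_sq hn hw
  have a3 := ang_triangle hw hn hu
  have a4 := ang_triangle hn hu hw
  rw [ang_comm w n] at a3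
  rw [ang_comm u w] at a4
  have a5 := ang_nonneg w u
  have a6 := ang_nonneg n w
  have e : gap w u - gap n w = (ang w u - ang n w) * ((ang w u + ang n w) / 2) := by linarith
  rw [e, abs_mul]
  refine mul_le_mul (abs_le.2 ⟨by linarith, by linarith⟩) ?_ (abs_nonneg _) (ang_nonneg _ _)
  rw [abs_of_nonneg (by positivity)]
  linarith

theorem kc_ker_gap (w : R3) : Ker 0 fun q => gap w (relVel q.2) :=
  ker_v (φ := fun v => gap w (relVel v))
    (contDiff_gap.comp (f := fun v => (w, relVel v)) (contDiff_const.prodMk contDiff_relVel))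

theorem kc_ker_inner (e : R3) : Ker 0 fun q => ⟪relVel q.2, e⟫ :=
  ker_v (φ := fun v => ⟪relVel v, e⟫) (contDiff_relVel.inner ℝ contDiff_const)

theorem kc_ker_NN (e w : R3) : Ker 0 (NN e w) :=
  ((kc_ker_gap w).mul (ker_nn (u := fun _ => e) contDiff_const)).sub
    ((ker_gap (u := fun _ => w) contDiff_const).mul (kc_ker_inner e))

theorem abs_NN_le {e w : R3} (he : ‖e‖ ≤ 1) (hw : ‖w‖ ≤ 1) {q : Ph} (hq : q.1 ≠ 0) :
    |NN e w q| ≤ 2 * ang (nn q.1) (relVel q.2) * (ang (nn q.1) (relVel q.2) + 2 * ang (nn q.1) w) := by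
  have hn := norm_nn_le q.1
  have hu := (norm_relVel_lt q.2).le
  have e1 : NN e w q = gap w (relVel q.2) * ⟪nn q.1 - relVel q.2, e⟫ +
      (gap w (relVel q.2) - gap (nn q.1) w) * ⟪relVel q.2, e⟫ := by
    rw [NN, inner_sub_left]
    ring
  have a1 : |⟪nn q.1 - relVel q.2, e⟫| ≤ ang (nn q.1) (relVel q.2) :=
    (abs_real_inner_le_norm _ _).trans
      ((mul_le_of_le_one_right (norm_nonneg _) he).trans (norm_sub_le_ang hn hu))
  have a2 : |⟪relVel q.2, e⟫| ≤ 1 :=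
    (abs_real_inner_le_norm _ _).trans (mul_le_one₀ hu (norm_nonneg _) he)
  have a3 := kc_gap_sub hn hw hu
  have a4 := ang_sq hw hu
  have a5 := ang_le_two hw hu
  have a6 := ang_triangle hw hn hu
  rw [ang_comm w (nn q.1)] at a6
  have a7 := ang_nonneg w (relVel q.2)
  have a8 := ang_nonneg (nn q.1) (relVel q.2)
  have a9 := ang_nonneg (nn q.1) w
  have b0 := gap_nonneg hw hu
  have b1 : gap w (relVel q.2) ≤ ang (nn q.1) w + ang (nn q.1) (relVel q.2) := by nlinarith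
  rw [e1]
  refine (abs_add_le _ _).trans ?_
  rw [abs_mul, abs_mul, abs_of_nonneg b0]
  have b2 := mul_le_mul b1 a1 (abs_nonneg _) (by positivity)
  have b3 := (mul_le_of_le_one_right (abs_nonneg _) a2).trans a3
  nlinarith [mul_nonneg a8 a9, mul_nonneg a8 a8]

theorem kc_NN_div {e w : R3} (he : ‖e‖ ≤ 1) (hw : ‖w‖ ≤ 1) {q : Ph} (hq : q.1 ≠ 0) :
    |NN e w q / gap (nn q.1) (relVel q.2)| ≤ 20 * pp q.2 := by
  have hn := norm_nn_le q.1
  have hd := gap_pos hn (norm_relVel_lt q.2)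
  have a1 := abs_NN_le he hw hq
  have a2 := ang_sq hn (norm_relVel_lt q.2).le
  have a3 := ang_le_two hn hw
  have a4 := inv_pp_le_ang hn q.2
  have a5 := one_le_pp q.2
  have a6 := ang_nonneg (nn q.1) (relVel q.2)
  rw [div_le_iff₀ (pp_pos _)] at a4
  rw [abs_div, abs_of_pos hd, div_le_iff₀ hd]
  have a7 : ang (nn q.1) (relVel q.2) ≤ ang (nn q.1) (relVel q.2) * pp q.2 :=
    le_mul_of_one_le_right a6 a5
  have a8 : ang (nn q.1) (relVel q.2) + 2 * ang (nn q.1) w ≤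
      5 * (ang (nn q.1) (relVel q.2) * pp q.2) := by linarith
  have a9 := mul_le_mul_of_nonneg_left a8 (mul_nonneg zero_le_two a6)
  have b : gap (nn q.1) (relVel q.2) = ang (nn q.1) (relVel q.2) ^ 2 / 2 := by linarith
  rw [b]
  linarith

namespace KP

variable {P : KP}

theorem OK.η_nonneg (h : P.OK) : 0 ≤ P.η :=
  (norm_nonneg _).trans h.near

theorem OK.ker_tt (h : P.OK) : Ker 0 P.tt :=
  (((ker_gap contDiff_relVel).div (ker_const (P.φ₀ ^ 2)) fun _ _ => (pow_pos h.φpos 2).ne').add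
    (ker_const (200 * P.η ^ 2))).div (ker_gap (u := fun _ => P.wb) contDiff_const)
    fun q _ => (gap_pos (norm_nn_le _) h.hwb).ne'

theorem OK.ker_mu (h : P.OK) : Ker 1 P.mu := by
  have h1 : Ker 0 fun q : Ph => chi (P.tt q) * NN P.e P.wb q /
      (gap (nn q.1) P.wb * gap (nn q.1) (relVel q.2)) :=
    ((h.ker_tt.comp contDiff_chi).mul (kc_ker_NN _ _)).div
      ((ker_gap (u := fun _ => P.wb) contDiff_const).mul (ker_gap contDiff_relVel)) fun q _ =>
      (mul_pos (gap_pos (norm_nn_le _) h.hwb) (gap_pos (norm_nn_le _) (norm_relVel_lt _))).ne'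
  refine (h1.mul ker_k0).congr fun q _ => ?_
  rw [mu, k0, ← div_div, div_eq_mul_inv]

theorem OK.ker_kap (h : P.OK) : Ker 1 P.kap :=
  (ker_gap contDiff_relVel).mul h.ker_mu

theorem OK.ker_cc (h : P.OK) : Ker 1 P.cc := by
  have h1 : Ker 0 fun q : Ph => NN P.e P.w q / gap (nn q.1) (relVel q.2) :=
    (kc_ker_NN _ _).div (ker_gap contDiff_relVel) fun q _ =>
      (gap_pos (norm_nn_le _) (norm_relVel_lt _)).ne'
  refine ((h1.mul ker_k0).sub
    ((ker_gap (u := fun _ => P.w) contDiff_const).mul h.ker_mu)).congr fun q _ => ?_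
  rw [cc, k0, ← div_div, div_eq_mul_inv]

theorem OK.ker_b1 (h : P.OK) : Ker 1 P.b1 :=
  ((kc_ker_gap P.w).mul ker_k0).neg

theorem OK.ker_b2 (h : P.OK) : Ker 1 P.b2 :=
  (((kc_ker_inner P.e).mul ker_k0).add h.ker_kap).neg

/-- inside the beam -/
theorem OK.of_tt_le (h : P.OK) {q : Ph} (hq : q.1 ≠ 0) (ht : P.tt q ≤ 2) :
    ang (nn q.1) (relVel q.2) ≤ 2 * P.φ₀ * ang (nn q.1) P.w ∧
      14 * P.η ≤ ang (nn q.1) P.wb ∧ ang (nn q.1) P.wb ≤ 9 / 8 * ang (nn q.1) P.w ∧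
      ang (nn q.1) P.w ≤ 9 / 8 * ang (nn q.1) P.wb := by
  have hn := norm_nn_le q.1
  have hu := (norm_relVel_lt q.2).le
  have hη := h.η_nonneg
  have hφ := h.φpos
  have a0 := gap_pos hn h.hwb
  have a1 := ang_sq hn h.hwb.le
  have a2 := ang_sq hn hu
  have a3 := abs_le.1 (ang_sub_le hn h.hw.le h.hwb.le h.near h.lw h.lwb)
  have a4 := ang_nonneg (nn q.1) P.wb
  have a5 := ang_nonneg (nn q.1) P.w
  have a6 : 0 ≤ gap (nn q.1) (relVel q.2) / P.φ₀ ^ 2 := div_nonneg (gap_nonneg hn hu) (sq_nonneg _)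
  rw [tt, div_le_iff₀ a0] at ht
  have b1 : 14 * P.η ≤ ang (nn q.1) P.wb :=
    (pow_le_pow_iff_left₀ (by positivity) a4 two_ne_zero).1 (by nlinarith [sq_nonneg P.η])
  have b2 : ang (nn q.1) P.wb ≤ 9 / 8 * ang (nn q.1) P.w := by linarith [a3.1]
  refine ⟨?_, b1, b2, by linarith [a3.2]⟩
  have b3 : gap (nn q.1) (relVel q.2) ≤ ang (nn q.1) P.wb ^ 2 * P.φ₀ ^ 2 :=
    (div_le_iff₀ (pow_pos hφ 2)).1 (by nlinarith [sq_nonneg P.η])
  have b4 : ang (nn q.1) P.wb ^ 2 ≤ (9 / 8 * ang (nn q.1) P.w) ^ 2 := pow_le_pow_left₀ a4 b2 2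
  have b5 := mul_le_mul_of_nonneg_right b4 (sq_nonneg P.φ₀)
  refine (pow_le_pow_iff_left₀ (ang_nonneg _ _) (by positivity) two_ne_zero).1 ?_
  nlinarith [mul_nonneg (sq_nonneg (ang (nn q.1) P.w)) (sq_nonneg P.φ₀)]

/-- outside the core of the beam -/
theorem OK.of_le_tt (h : P.OK) {q : Ph} (hq : q.1 ≠ 0) (ht : 1 ≤ P.tt q) :
    ang (nn q.1) P.w ≤ 2 * ang (nn q.1) (relVel q.2) / P.φ₀ + 31 * P.η := by
  have hn := norm_nn_le q.1
  have hu := (norm_relVel_lt q.2).le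
  have hη := h.η_nonneg
  have hφ := h.φpos
  have a0 := gap_pos hn h.hwb
  have a1 := ang_sq hn h.hwb.le
  have a2 := ang_sq hn hu
  have a3 := abs_le.1 (ang_sub_le hn h.hw.le h.hwb.le h.near h.lw h.lwb)
  have a4 := ang_nonneg (nn q.1) P.wb
  have a6 : 0 ≤ ang (nn q.1) (relVel q.2) / P.φ₀ := div_nonneg (ang_nonneg _ _) hφ.le
  have a7 : (ang (nn q.1) (relVel q.2) / P.φ₀) ^ 2 = 2 * (gap (nn q.1) (relVel q.2) / P.φ₀ ^ 2) := by
    rw [div_pow, a2, mul_div_assoc]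
  rw [tt, le_div_iff₀ a0] at ht
  have b1 : ang (nn q.1) P.wb ≤ ang (nn q.1) (relVel q.2) / P.φ₀ + 20 * P.η :=
    (pow_le_pow_iff_left₀ a4 (by positivity) two_ne_zero).1 (by nlinarith [mul_nonneg a6 hη])
  rw [mul_div_assoc]
  linarith [a3.2]

/-- `Θ D̄ - D Θ̄ = (n - v̂)·(w - w̄) D̄ + (Θ̄ - D̄)(D̄ - D)` is small inside the beam -/
theorem OK.freeze (h : P.OK) {q : Ph} (hq : q.1 ≠ 0) (ht : P.tt q ≤ 2) :
    |gap P.w (relVel q.2) * gap (nn q.1) P.wb - gap (nn q.1) P.w * gap P.wb (relVel q.2)| ≤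
      4 * P.η * ang (nn q.1) (relVel q.2) * ang (nn q.1) P.wb ^ 2 := by
  have hn := norm_nn_le q.1
  have hu := (norm_relVel_lt q.2).le
  have hη := h.η_nonneg
  obtain ⟨c1, -, -, c4⟩ := h.of_tt_le hq ht
  have a1 := ang_sq hn h.hwb.le
  have a2 := ang_sq hn h.hw.le
  have a3 := ang_sub_le hn h.hw.le h.hwb.le h.near h.lw h.lwb
  have a4 := ang_nonneg (nn q.1) P.wb
  have a5 := ang_nonneg (nn q.1) P.w
  have a6 := ang_nonneg (nn q.1) (relVel q.2)
  have e1 : gap P.w (relVel q.2) * gap (nn q.1) P.wb - gap (nn q.1) P.w * gap P.wb (relVel q.2) =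
      ⟪nn q.1 - relVel q.2, P.w - P.wb⟫ * gap (nn q.1) P.wb +
        (gap P.wb (relVel q.2) - gap (nn q.1) P.wb) * (gap (nn q.1) P.wb - gap (nn q.1) P.w) := by
    simp only [gap, inner_sub_left, inner_sub_right, real_inner_comm (relVel q.2) P.w,
      real_inner_comm (relVel q.2) P.wb]
    ring
  have b1 : |⟪nn q.1 - relVel q.2, P.w - P.wb⟫| ≤ ang (nn q.1) (relVel q.2) * P.η :=
    (abs_real_inner_le_norm _ _).trans (mul_le_mul (norm_sub_le_ang hn hu) h.near (norm_nonneg _) a6)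
  have b2 : ang (nn q.1) (relVel q.2) ≤ ang (nn q.1) P.wb := by
    have := mul_le_mul_of_nonneg_right h.φle a5
    linarith
  have b3 : |gap P.wb (relVel q.2) - gap (nn q.1) P.wb| ≤
      ang (nn q.1) (relVel q.2) * (3 / 2 * ang (nn q.1) P.wb) :=
    (kc_gap_sub hn h.hwb.le hu).trans (mul_le_mul_of_nonneg_left (by linarith) a6)
  have b4 : |gap (nn q.1) P.wb - gap (nn q.1) P.w| ≤ 3 / 2 * P.η * (9 / 8 * ang (nn q.1) P.wb) := by
    have e2 : gap (nn q.1) P.wb - gap (nn q.1) P.w = -(ang (nn q.1) P.w - ang (nn q.1) P.wb) *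
        ((ang (nn q.1) P.w + ang (nn q.1) P.wb) / 2) := by linarith
    rw [e2, abs_mul, abs_neg]
    refine mul_le_mul a3 ?_ (abs_nonneg _) (by positivity)
    rw [abs_of_nonneg (by positivity)]
    linarith
  rw [e1]
  refine (abs_add_le _ _).trans ?_
  rw [abs_mul, abs_mul, abs_of_nonneg (gap_nonneg hn h.hwb.le)]
  have b5 := mul_le_mul_of_nonneg_right b1 (gap_nonneg hn h.hwb.le)
  have b6 := mul_le_mul b3 b4 (abs_nonneg _) (by positivity)
  have b7 : gap (nn q.1) P.wb = ang (nn q.1) P.wb ^ 2 / 2 := by linarith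
  have b8 : 0 ≤ P.η * ang (nn q.1) (relVel q.2) * ang (nn q.1) P.wb ^ 2 := by positivity
  have b9 : ang (nn q.1) (relVel q.2) * P.η * gap (nn q.1) P.wb =
      P.η * ang (nn q.1) (relVel q.2) * ang (nn q.1) P.wb ^ 2 / 2 := by
    rw [b7]
    ring
  linarith

theorem OK.gap_w_wb (h : P.OK) : 0 ≤ gap P.w P.wb ∧ gap P.w P.wb ≤ 3 / 2 * P.η ^ 2 := by
  have a1 := ang_sq h.hw.le h.hwb.le
  have a2 := ang_sq' h.hw.le h.hwb.le
  have a3 := pow_le_pow_left₀ (norm_nonneg _) h.near 2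
  exact ⟨gap_nonneg h.hw.le h.hwb.le, by linarith [h.lw, h.lwb]⟩

end KP

/-- (K3) -/
theorem kap_bound : ∃ C, 0 ≤ C ∧ ∀ P : KP, P.OK → ∀ q : Ph, q.1 ≠ 0 →
    |P.kap q| * ‖q.1‖ ≤ C * if ang (nn q.1) (relVel q.2) ≤ 2 * P.φ₀ * ang (nn q.1) P.w then
      ang (nn q.1) (relVel q.2) / ang (nn q.1) P.w else 0 := by
  refine ⟨14, by norm_num, fun P h q hq => ?_⟩
  have hn := norm_nn_le q.1
  have hr : 0 < ‖q.1‖ := norm_pos_iff.2 hq
  have hd := gap_pos hn (norm_relVel_lt q.2)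
  have hD := gap_pos hn h.hwb
  have e1 : |P.kap q| * ‖q.1‖ = chi (P.tt q) * |NN P.e P.wb q| / gap (nn q.1) P.wb := by
    rw [KP.kap, KP.mu, abs_mul, abs_div, abs_mul, abs_of_pos hd, abs_of_nonneg (chi_nonneg _),
      abs_of_pos (mul_pos (mul_pos hD hd) hr)]
    field_simp
  rw [e1]
  have a6 := ang_nonneg (nn q.1) (relVel q.2)
  have a5 := ang_pos hn h.hw
  rcases le_total 2 (P.tt q) with ht | ht
  · rw [chi_zero ht, zero_mul, zero_div]
    split_ifs <;> positivity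
  · obtain ⟨c1, -, -, c4⟩ := h.of_tt_le hq ht
    rw [if_pos c1, ← mul_div_assoc, div_le_div_iff₀ hD a5]
    have a1 := ang_sq hn h.hwb.le
    have a4 := ang_nonneg (nn q.1) P.wb
    have b2 : ang (nn q.1) (relVel q.2) ≤ ang (nn q.1) P.wb := by
      have := mul_le_mul_of_nonneg_right h.φle a5.le
      linarith
    have b3 : chi (P.tt q) * |NN P.e P.wb q| ≤
        2 * ang (nn q.1) (relVel q.2) * (3 * ang (nn q.1) P.wb) :=
      (mul_le_of_le_one_left (abs_nonneg _) (chi_le_one _)).trans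
        ((abs_NN_le h.he h.hwb.le hq).trans (mul_le_mul_of_nonneg_left (by linarith) (by positivity)))
    have b4 := mul_le_mul b3 c4 a5.le (by positivity)
    have b7 : gap (nn q.1) P.wb = ang (nn q.1) P.wb ^ 2 / 2 := by linarith
    rw [b7]
    nlinarith [mul_nonneg a6 (sq_nonneg (ang (nn q.1) P.wb))]

/-- (K4) -/
theorem cc_bound : ∃ C, 0 ≤ C ∧ ∀ P : KP, P.OK → ∀ q : Ph, q.1 ≠ 0 →
    |P.cc q| * ‖q.1‖ ≤ C * pp q.2 := by
  refine ⟨60, by norm_num, fun P h q hq => ?_⟩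
  have hn := norm_nn_le q.1
  have hr : 0 < ‖q.1‖ := norm_pos_iff.2 hq
  have hd := gap_pos hn (norm_relVel_lt q.2)
  have hD := gap_pos hn h.hwb
  have hD' := gap_pos hn h.hw
  have e1 : P.cc q * ‖q.1‖ = NN P.e P.w q / gap (nn q.1) (relVel q.2) -
      chi (P.tt q) * (gap (nn q.1) P.w / gap (nn q.1) P.wb) *
        (NN P.e P.wb q / gap (nn q.1) (relVel q.2)) := by
    rw [KP.cc, KP.mu]
    field_simp
  have e2 : |P.cc q| * ‖q.1‖ = |P.cc q * ‖q.1‖| := by rw [abs_mul, abs_of_pos hr]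
  have a1 := kc_NN_div h.he h.hw.le hq
  have a2 := kc_NN_div h.he h.hwb.le hq
  have a3 : |chi (P.tt q) * (gap (nn q.1) P.w / gap (nn q.1) P.wb)| ≤ 2 := by
    rw [abs_of_nonneg (mul_nonneg (chi_nonneg _) (div_pos hD' hD).le)]
    rcases le_total 2 (P.tt q) with ht | ht
    · rw [chi_zero ht, zero_mul]
      norm_num
    · obtain ⟨-, -, -, c4⟩ := h.of_tt_le hq ht
      refine (mul_le_of_le_one_left (div_pos hD' hD).le (chi_le_one _)).trans ?_
      rw [div_le_iff₀ hD]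
      have b1 := ang_sq hn h.hwb.le
      have b2 := ang_sq hn h.hw.le
      have b3 := pow_le_pow_left₀ (ang_nonneg _ _) c4 2
      nlinarith
  rw [e2, e1]
  refine (abs_sub _ _).trans ?_
  rw [abs_mul]
  have := mul_le_mul a3 a2 (abs_nonneg _) zero_le_two
  linarith

end Crest.Agent.R106
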