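import Crest.Agent.R106.GS0
import Crest.Agent.R106.KerC

/-!
# Row 106: the force along a direction

`rep_force`: expand `⟪·, e⟫` in coordinates, `w × (∇f × v̂) = ∇f (w·v̂) - v̂ (w·∇f)`; linearity of the integral
(`KerB.int_ret` for `k0`, `kv i`) and of `fderiv f` in the direction (`sum_ee`).
`lw_split`: pointwise for `y ≠ 0`, with `T_u = Dg(n·u, u, 0)`, `S = Dg(1, v̂, 0)`, `d = gap n v̂ > 0`,
`Dg(0, e, 0) = T_e - n_e g_t`, `Dg(1, w, 0) = T_w + D g_t`, `d g_t = S - T_{v̂}`, the integrand of the left side is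
`cc S + b1 T_e + b2 T_w - cc T_{v̂}`; then `gs_y` three times and `gs_v` (`Ker.kerB` of `OK.ker_…`).

-/

set_option autoImplicit false

noncomputable section

namespace Crest.Agent.R106

open MeasureTheory Set Metric Real Filter Topology
open scoped ContDiff ENNReal RealInnerProductSpace Classical
open Crest.AnalysisR.VecCalc3 Crest.AnalysisR.PDE.RVM

theorem inc0_const {T P : ℝ} {g : TP → ℝ} {p : ST} {a : Ph → ℝ} (ha : KerB a)
    (hg : ContDiffOn ℝ 1 g (slab Ph T)) (vg : VS (Icc 0 T) P g) (hp : p ∈ slab R3 T) (μ : TP) :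
    IntegrableOn (fun q => a q * fderiv ℝ g (cone p q) μ) (cyl p.1) :=
  ha.int_ret hg vg (μ := fun _ => μ) measurable_const (fun _ => ⟨‖μ‖, fun _ _ => le_rfl⟩) hp

theorem inc0_tan {T P : ℝ} {g : TP → ℝ} {p : ST} {β : Ph → ℝ} (hβ : KerB β)
    (hg : ContDiffOn ℝ 1 g (slab Ph T)) (vg : VS (Icc 0 T) P g) (hp : p ∈ slab R3 T)
    {u : R3 → R3} (hu : Continuous u) : IntegrableOn (fun q : Ph =>
      β q * fderiv ℝ g (cone p q) (⟪nn q.1, u q.2⟫, u q.2, 0)) (cyl p.1) := by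
  refine hβ.int_ret hg vg (μ := fun q => (⟪nn q.1, u q.2⟫, u q.2, 0)) ?_ (fun R => ?_) hp
  · exact ((measurable_nn.comp measurable_fst).inner (hu.measurable.comp measurable_snd)).prodMk
      ((hu.measurable.comp measurable_snd).prodMk measurable_const)
  · obtain ⟨C, hC⟩ := (isCompact_closedBall (0 : R3) R).exists_bound_of_continuousOn
      hu.continuousOn
    refine ⟨C, fun q hq => ?_⟩
    have h1 := hC q.2 (mem_closedBall_zero_iff.2 ((norm_snd_le q).trans hq))
    refine norm_prod_le_iff.2 ⟨?_, norm_prod_le_iff.2 ⟨h1, ?_⟩⟩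
    · refine (norm_inner_le_norm (𝕜 := ℝ) _ _).trans ?_
      calc ‖nn q.1‖ * ‖u q.2‖ ≤ 1 * C :=
            mul_le_mul (norm_nn_le _) h1 (norm_nonneg _) zero_le_one
        _ = C := one_mul C
    · rw [norm_zero]
      exact (norm_nonneg _).trans h1

theorem inc0_split (L : TP →L[ℝ] ℝ) (τ : ℝ) (u : R3) :
    L (τ, u, 0) = τ * L (1, 0, 0) + L (0, u, 0) := by
  rw [← smul_eq_mul, ← map_smul, ← map_add]
  congr 1
  simp

theorem inc0_coord (L : TP →L[ℝ] ℝ) (u : R3) :
    L (0, u, 0) = u 0 * L (0, ee 0, 0) + u 1 * L (0, ee 1, 0) + u 2 * L (0, ee 2, 0) := by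
  simp only [← smul_eq_mul, ← map_smul, ← map_add]
  congr 1
  have := sum_ee u
  rw [Fin.sum_univ_three] at this
  simp [this]

theorem inc0_LW {T P : ℝ} {f : TP → ℝ} {p : ST}
    (hf : ContDiffOn ℝ 1 f (slab Ph T)) (vf : VS (Icc 0 T) P f) (hp : p ∈ slab R3 T) (e w : R3) :
    LW e w f p = ∑ i, (-e i * (Ret k0 (0, ee i, 0) f p + Ret (kv i) (1, 0, 0) f p) +
      ∑ j, w j * e i * (Ret (kv j) (0, ee i, 0) f p - Ret (kv i) (0, ee j, 0) f p)) := by
  have ia := fun μ => inc0_const ker_k0.kerB hf vf hp μ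
  have ib := fun i μ => inc0_const (ker_kv i).kerB hf vf hp μ
  have i1 : ∀ i, IntegrableOn (fun q => -e i * (k0 q * fderiv ℝ f (cone p q) (0, ee i, 0) +
      kv i q * fderiv ℝ f (cone p q) (1, 0, 0))) (cyl p.1) := fun i =>
    ((ia _).add (ib i _)).const_mul _
  have i2 : ∀ i j, IntegrableOn (fun q => w j * e i * (kv j q * fderiv ℝ f (cone p q) (0, ee i, 0) -
      kv i q * fderiv ℝ f (cone p q) (0, ee j, 0))) (cyl p.1) := fun i j =>
    ((ib j _).sub (ib i _)).const_mul _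
  have i3 : ∀ i, IntegrableOn (fun q => ∑ j, w j * e i * (kv j q * fderiv ℝ f (cone p q) (0, ee i, 0) -
      kv i q * fderiv ℝ f (cone p q) (0, ee j, 0))) (cyl p.1) := fun i =>
    integrable_finsetSum _ fun j _ => i2 i j
  calc LW e w f p = ∫ q in cyl p.1, ∑ i, (-e i * (k0 q * fderiv ℝ f (cone p q) (0, ee i, 0) +
        kv i q * fderiv ℝ f (cone p q) (1, 0, 0)) +
        ∑ j, w j * e i * (kv j q * fderiv ℝ f (cone p q) (0, ee i, 0) -
          kv i q * fderiv ℝ f (cone p q) (0, ee j, 0))) := by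
        refine integral_congr_ae (Eventually.of_forall fun q => ?_)
        simp only [Fin.sum_univ_three, k0, kv, gap, Cross_inner]
        rw [inc0_split _ 1 w, inc0_coord _ w, inc0_coord _ e]
        ring
    _ = _ := by
        rw [integral_finsetSum _ fun i _ => Integrable.fun_add (i1 i) (i3 i)]
        refine Finset.sum_congr rfl fun i _ => ?_
        rw [integral_add (i1 i) (i3 i), integral_const_mul, integral_add (ia _) (ib i _),
          integral_finsetSum _ fun j _ => i2 i j]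
        congr 1
        refine Finset.sum_congr rfl fun j _ => ?_
        rw [integral_const_mul, integral_sub (ib j _) (ib i _)]
        rfl

theorem rep_force {T P : ℝ} {Kd K : ST → Ph} {f : TP → ℝ} {p : ST}
    (hf : ContDiffOn ℝ 1 f (slab Ph T)) (vf : VS (Icc 0 T) P f) (hp : p ∈ slab R3 T)
    (h : RepAt Kd K f p) (e w : R3) :
    ⟪(K p).1 + cross3 w (K p).2, e⟫ = ⟪(Kd p).1 + cross3 w (Kd p).2, e⟫ + LW e w f p / (4 * π) := by
  have a0 := h.2 0
  have a1 := h.2 1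
  have a2 := h.2 2
  rw [show (0 + 2 : Fin 3) = 2 from rfl, show (0 + 1 : Fin 3) = 1 from rfl] at a0
  rw [show (1 + 2 : Fin 3) = 0 from rfl, show (1 + 1 : Fin 3) = 2 from rfl] at a1
  rw [show (2 + 2 : Fin 3) = 1 from rfl, show (2 + 1 : Fin 3) = 0 from rfl] at a2
  rw [inc0_LW hf vf hp]
  simp only [Cross_inner, PiLp.add_apply, Cross_c0, Cross_c1, Cross_c2, Fin.sum_univ_three, h.1,
    a0, a1, a2]
  ring

theorem lw_split {T P ε : ℝ} {g s : TP → ℝ} {H : TP → R3} (h : Trans T P g H s) (hε : 0 < ε)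
    (h0 : ∀ r : TP, r.1 ∈ Icc 0 T → r.1 ≤ ε → g r = 0) {Pk : KP} (hk : Pk.OK) {p : ST}
    (hp : p ∈ slab R3 T) :
    LW Pk.e Pk.w g p - Ret Pk.kap (1, Pk.w, 0) g p =
      ∫ q in cyl p.1, (Pk.dvb q * g (cone p q) + fderiv ℝ Pk.cc q (0, H (cone p q)) +
        Pk.cc q * s (cone p q)) := by
  have kc := hk.ker_cc.kerB
  have k1 := hk.ker_b1.kerB
  have k2 := hk.ker_b2.kerB
  have cv : Continuous relVel := contDiff_relVel.continuous
  have iS : IntegrableOn (fun q : Ph =>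
      Pk.cc q * fderiv ℝ g (cone p q) (1, relVel q.2, 0)) (cyl p.1) := by
    refine kc.int_ret h.hg h.vg (μ := fun q => (1, relVel q.2, 0)) ?_ (fun R => ⟨1, fun q _ => ?_⟩) hp
    · exact measurable_const.prodMk ((cv.measurable.comp measurable_snd).prodMk measurable_const)
    · exact norm_prod_le_iff.2 ⟨by simp, norm_prod_le_iff.2 ⟨(norm_relVel_lt _).le, by simp⟩⟩
  have ie := inc0_tan k1 h.hg h.vg hp (u := fun _ => Pk.e) continuous_const
  have iw := inc0_tan k2 h.hg h.vg hp (u := fun _ => Pk.w) continuous_const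
  have iv := inc0_tan kc h.hg h.vg hp cv
  have ik := inc0_const hk.ker_kap.kerB h.hg h.vg hp (1, Pk.w, 0)
  have je := k1.int_dy (u := fun _ => Pk.e) continuous_const h.hg.continuousOn h.vg hp
  have jw := k2.int_dy (u := fun _ => Pk.w) continuous_const h.hg.continuousOn h.vg hp
  have jv := kc.int_dy cv h.hg.continuousOn h.vg hp
  have jS : IntegrableOn (fun q : Ph =>
      fderiv ℝ Pk.cc q (0, H (cone p q)) + Pk.cc q * s (cone p q)) (cyl p.1) :=
    (kc.int_dv h.hH.continuousOn h.vH hp).add (kc.int_mul h.hs h.vs hp)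
  have e1 : LW Pk.e Pk.w g p = ∫ q in cyl p.1,
      (Pk.b1 q * fderiv ℝ g (cone p q) (⟪nn q.1, Pk.e⟫, Pk.e, 0) +
        Pk.b2 q * fderiv ℝ g (cone p q) (⟪nn q.1, Pk.w⟫, Pk.w, 0) -
        Pk.cc q * fderiv ℝ g (cone p q) (⟪nn q.1, relVel q.2⟫, relVel q.2, 0) +
        Pk.cc q * fderiv ℝ g (cone p q) (1, relVel q.2, 0) +
        Pk.kap q * fderiv ℝ g (cone p q) (1, Pk.w, 0)) := by
    refine integral_congr_ae ?_
    filter_upwards [ae_restrict_of_ae ae_ne_zero] with q hq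
    have hd := (gap_pos (norm_nn_le q.1) (norm_relVel_lt q.2)).ne'
    have hr : ‖q.1‖ ≠ 0 := norm_ne_zero_iff.2 hq
    have key : Pk.cc q * gap (nn q.1) (relVel q.2) =
        -Pk.b1 q * ⟪nn q.1, Pk.e⟫ + Pk.b2 q * gap (nn q.1) Pk.w := by
      simp only [KP.cc, KP.b1, KP.b2, KP.kap, NN]
      field_simp
      ring
    rw [inc0_split _ 1 Pk.w, inc0_split _ 1 (relVel q.2), inc0_split _ ⟪nn q.1, Pk.e⟫,
      inc0_split _ ⟪nn q.1, Pk.w⟫, inc0_split _ ⟪nn q.1, relVel q.2⟫]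
    have f1 : Pk.b1 q = -(gap Pk.w (relVel q.2) * ‖q.1‖⁻¹) := rfl
    have f2 : Pk.b2 q = -(⟪relVel q.2, Pk.e⟫ * ‖q.1‖⁻¹ + Pk.kap q) := rfl
    simp only [gap] at key f1 ⊢
    linear_combination (-fderiv ℝ g (cone p q) (1, 0, 0)) * key -
      fderiv ℝ g (cone p q) (0, Pk.e, 0) * f1 -
      (fderiv ℝ g (cone p q) (1, 0, 0) + fderiv ℝ g (cone p q) (0, Pk.w, 0)) * f2
  have e2 : ∫ q in cyl p.1, (Pk.dvb q * g (cone p q) + fderiv ℝ Pk.cc q (0, H (cone p q)) +
        Pk.cc q * s (cone p q)) = ∫ q in cyl p.1,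
      (fderiv ℝ Pk.b1 q (Pk.e, 0) * g (cone p q) + fderiv ℝ Pk.b2 q (Pk.w, 0) * g (cone p q) -
        fderiv ℝ Pk.cc q (relVel q.2, 0) * g (cone p q) +
        (fderiv ℝ Pk.cc q (0, H (cone p q)) + Pk.cc q * s (cone p q))) := by
    refine integral_congr_ae (Eventually.of_forall fun q => ?_)
    simp only [KP.dvb]
    ring
  have n1 := Integrable.fun_add ie iw
  have n2 := Integrable.sub' n1 iv
  have n3 := Integrable.fun_add n2 iS
  have m1 := Integrable.fun_add je jw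
  have m2 := Integrable.sub' m1 jv
  rw [e1, e2, integral_add n3 ik, integral_add n2 iS, integral_sub n1 iv, integral_add ie iw,
    integral_add m2 jS, integral_sub m1 jv, integral_add je jw,
    gs_y h.hg h.vg hε h0 k1 (u := fun _ => Pk.e) continuous_const hp,
    gs_y h.hg h.vg hε h0 k2 (u := fun _ => Pk.w) continuous_const hp,
    gs_y h.hg h.vg hε h0 kc cv hp, gs_v h kc hp, Ret]
  ring

end Crest.Agent.R106
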