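import Crest.Agent.R106.Cyl
import Crest.Agent.R106.CDefs

/-!
# Row 106: the corrector along the test characteristic

For fixed `q = (y, v)`, `y ≠ 0`, the function `G s = if ‖y‖ < s then g (s - ‖y‖, X s - y, v) else 0` is continuous on
`[a, b]` and has, for `s ∈ (a, b)`, the derivative `if ‖y‖ < s then fderiv g (cone (s, X s) q) (1, w s, 0) else 0`
(`g = 0` for `τ ≤ ε`), which is bounded; FTC (`intervalIntegral.integral_eq_sub_of_hasDerivAt_of_le`), then Fubini
on `[a, b] × Ph` (domination by `C/‖y‖` on `‖y‖ < b`, `‖v‖ ≤ P`; measurability: replace `X`, `w` by their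
compositions with `projIcc`, `measurable_fderiv`).

-/

set_option autoImplicit false

noncomputable section

namespace Crest.Agent.R106

open MeasureTheory Set Metric Real Filter Topology
open scoped ContDiff ENNReal RealInnerProductSpace Classical
open Crest.AnalysisR.VecCalc3 Crest.AnalysisR.PDE.RVM

/-- extension by zero to negative times -/
def inc1Ext (g : TP → ℝ) (r : TP) : ℝ := if 0 < r.1 then g r else 0

theorem inc1_pos {g : TP → ℝ} {r : TP} (hr : 0 < r.1) : inc1Ext g =ᶠ[𝓝 r] g := by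
  filter_upwards [(isOpen_lt continuous_const continuous_fst).mem_nhds hr] with z hz
  exact if_pos hz

theorem inc1_small {T ε : ℝ} {g : TP → ℝ} (h0 : ∀ r : TP, r.1 ∈ Icc 0 T → r.1 ≤ ε → g r = 0)
    {r : TP} (hr : r.1 < ε) : inc1Ext g =ᶠ[𝓝[Iic T ×ˢ univ] r] fun _ => 0 := by
  filter_upwards [self_mem_nhdsWithin,
    mem_nhdsWithin_of_mem_nhds ((isOpen_lt continuous_fst continuous_const).mem_nhds hr)]
    with z hz hz'
  unfold inc1Ext
  split_ifs with h
  · exact h0 z ⟨h.le, hz.1⟩ (le_of_lt hz')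
  · rfl

theorem inc1_far {T P : ℝ} {g : TP → ℝ} (vg : VS (Icc 0 T) P g) {r : TP} (hr : P < ‖r.2.2‖) :
    inc1Ext g =ᶠ[𝓝[Iic T ×ˢ univ] r] fun _ => 0 := by
  filter_upwards [self_mem_nhdsWithin, mem_nhdsWithin_of_mem_nhds ((isOpen_lt continuous_const
    (continuous_snd.snd.norm : Continuous fun r : TP => ‖r.2.2‖)).mem_nhds hr)] with z hz hz'
  unfold inc1Ext
  split_ifs with h
  · by_contra h1
    exact absurd (vg z ⟨h.le, hz.1⟩ h1) (not_le.2 hz')
  · rfl

theorem inc1_contDiffOn {T ε : ℝ} {g : TP → ℝ} (hg : ContDiffOn ℝ 1 g (slab Ph T)) (hε : 0 < ε)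
    (h0 : ∀ r : TP, r.1 ∈ Icc 0 T → r.1 ≤ ε → g r = 0) :
    ContDiffOn ℝ 1 (inc1Ext g) (Iic T ×ˢ univ) := by
  intro r hr
  rcases lt_or_ge 0 r.1 with h | h
  · have h1 : slab Ph T ∈ 𝓝[Iic T ×ˢ univ] r := by
      filter_upwards [self_mem_nhdsWithin,
        mem_nhdsWithin_of_mem_nhds ((isOpen_lt continuous_const continuous_fst).mem_nhds h)]
        with z hz hz'
      exact ⟨⟨le_of_lt hz', hz.1⟩, mem_univ _⟩
    exact ((hg r ⟨⟨h.le, hr.1⟩, mem_univ _⟩).mono_of_mem_nhdsWithin h1).congr_of_eventuallyEq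
      ((inc1_pos h).filter_mono nhdsWithin_le_nhds) (if_pos h)
  · exact contDiffWithinAt_const.congr_of_eventuallyEq (inc1_small h0 (h.trans_lt hε))
      (if_neg (not_lt.2 h))

theorem inc1_fd_zero {T : ℝ} {g : TP → ℝ} {r : TP} (hr : r ∈ Iic T ×ˢ (univ : Set Ph))
    (h : inc1Ext g =ᶠ[𝓝[Iic T ×ˢ univ] r] fun _ => 0) :
    fderivWithin ℝ (inc1Ext g) (Iic T ×ˢ univ) r = 0 := by
  rw [h.fderivWithin_eq (h.eq_of_nhdsWithin hr), fderivWithin_fun_const, Pi.zero_apply]

/-- enlarge the domain of a cone integral -/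
theorem inc1_enlarge {s b : ℝ} (hsb : s ≤ b) {k k' : Ph → ℝ}
    (h1 : ∀ q ∈ cyl s, q.1 ≠ 0 → k q = k' q) (h2 : ∀ q, q ∉ cyl s → k' q = 0) :
    ∫ q in cyl s, k q = ∫ q in cyl b, k' q := by
  have e1 : ∫ q in cyl s, k q = ∫ q in cyl s, k' q := by
    refine integral_congr_ae ?_
    filter_upwards [ae_restrict_mem (measurableSet_cyl s), ae_restrict_of_ae ae_ne_zero] with q hq hy
    exact h1 q hq hy
  rw [e1, setIntegral_eq_integral_of_forall_compl_eq_zero h2,
    setIntegral_eq_integral_of_forall_compl_eq_zero]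
  exact fun q hq => h2 q fun h => hq (prod_mono (ball_subset_ball hsb) Subset.rfl h)

theorem corr_ftc {T P ε : ℝ} {g : TP → ℝ} (hg : ContDiffOn ℝ 1 g (slab Ph T))
    (vg : VS (Icc 0 T) P g) (hε : 0 < ε) (h0 : ∀ r : TP, r.1 ∈ Icc 0 T → r.1 ≤ ε → g r = 0)
    {c : Ph → ℝ} (hc : KerB c) {X w : ℝ → R3} {a b : ℝ} (ha : 0 ≤ a) (hab : a ≤ b) (hb : b ≤ T)
    (hX : ∀ s ∈ Icc a b, HasDerivWithinAt X (w s) (Icc a b) s) (hw : ContinuousOn w (Icc a b)) :
    IntervalIntegrable (fun s => Ret c (1, w s, 0) g (s, X s)) volume a b ∧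
      ∫ s in a..b, Ret c (1, w s, 0) g (s, X s) = Pot c g (b, X b) - Pot c g (a, X a) := by
  have hS : UniqueDiffOn ℝ (Iic T ×ˢ (univ : Set Ph)) := (uniqueDiffOn_Iic T).prod uniqueDiffOn_univ
  have hG := inc1_contDiffOn hg hε h0
  set D : TP → TP →L[ℝ] ℝ := fderivWithin ℝ (inc1Ext g) (Iic T ×ˢ univ) with hD
  have hDc : ContinuousOn D (Iic T ×ˢ univ) := hG.continuousOn_fderivWithin hS le_rfl
  have hXc : ContinuousOn X (Icc a b) := fun s hs => (hX s hs).continuousWithinAt
  have hmem : ∀ s ∈ Icc a b, ∀ q : Ph, cone (s, X s) q ∈ Iic T ×ˢ (univ : Set Ph) := fun s hs q =>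
    ⟨show s - ‖q.1‖ ≤ T by linarith [norm_nonneg q.1, hs.2], mem_univ _⟩
  have hslab : ∀ s ∈ Icc a b, ((s, X s) : ST) ∈ slab R3 T := fun s hs =>
    ⟨⟨ha.trans hs.1, hs.2.trans hb⟩, mem_univ _⟩
  have hout : ∀ s : ℝ, ∀ q : Ph, q ∉ cyl s → (cone (s, X s) q).1 ≤ 0 := fun s q hq => by
    have : ¬ ‖q.1‖ < s := fun h => hq ⟨mem_ball_zero_iff.2 h, mem_univ _⟩
    exact show s - ‖q.1‖ ≤ 0 by linarith [not_lt.1 this]
  -- the integrand
  set E : ℝ × Ph → ℝ := fun z => D (cone (z.1, X z.1) z.2) (1, w z.1, 0) with hE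
  have hEc : ContinuousOn E (Icc a b ×ˢ univ) := by
    have c1 : ContinuousOn (fun z : ℝ × Ph => X z.1) (Icc a b ×ˢ univ) :=
      hXc.comp continuousOn_fst fun z hz => hz.1
    have c2 : ContinuousOn (fun z : ℝ × Ph => w z.1) (Icc a b ×ˢ univ) :=
      hw.comp continuousOn_fst fun z hz => hz.1
    have c3 : ContinuousOn (fun z : ℝ × Ph => cone (z.1, X z.1) z.2) (Icc a b ×ˢ univ) :=
      continuous_cone.comp_continuousOn ((continuousOn_fst.prodMk c1).prodMk continuousOn_snd)
    exact (hDc.comp c3 fun z hz => hmem z.1 hz.1 z.2).clm_apply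
      (continuousOn_const.prodMk (c2.prodMk continuousOn_const))
  have hftc : ∀ q : Ph, ∫ s in a..b, E (s, q) =
      inc1Ext g (cone (b, X b) q) - inc1Ext g (cone (a, X a) q) := by
    intro q
    have hd : ∀ s ∈ Icc a b,
        HasDerivWithinAt (fun s => inc1Ext g (cone (s, X s) q)) (E (s, q)) (Icc a b) s := by
      intro s hs
      have d1 : HasDerivWithinAt (fun s => cone (s, X s) q) ((1, w s, 0) : TP) (Icc a b) s :=
        ((hasDerivWithinAt_id s _).sub_const _).prodMk
          (((hX s hs).sub_const _).prodMk (hasDerivWithinAt_const _ _ _))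
      exact ((hG.differentiableOn one_ne_zero _ (hmem s hs q)).hasFDerivWithinAt).comp_hasDerivWithinAt
        s d1 fun s' hs' => hmem s' hs' q
    refine intervalIntegral.integral_eq_sub_of_hasDerivAt_of_le hab
      (fun s hs => (hd s hs).continuousWithinAt)
      (fun s hs => (hd s (Ioo_subset_Icc_self hs)).hasDerivAt (Icc_mem_nhds hs.1 hs.2)) ?_
    refine ContinuousOn.intervalIntegrable_of_Icc hab ?_
    exact hEc.comp (continuous_id.prodMk continuous_const).continuousOn fun s hs => ⟨hs, mem_univ _⟩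
  have hRet : ∀ s ∈ Icc a b, Ret c (1, w s, 0) g (s, X s) = ∫ q in cyl b, c q * E (s, q) := by
    intro s hs
    refine inc1_enlarge hs.2 (fun q hq hy => ?_) fun q hq => ?_
    · have h1 := cone_mem_open (hslab s hs) hq hy
      have h2 : Iic T ×ˢ (univ : Set Ph) ∈ 𝓝 (cone (s, X s) q) :=
        mem_of_superset (slab_mem_nhds h1) (prod_mono Icc_subset_Iic_self Subset.rfl)
      simp only [hE, hD]
      rw [fderivWithin_of_mem_nhds h2, (inc1_pos h1.1.1).fderiv_eq]
    · simp only [hE, hD]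
      rw [inc1_fd_zero (hmem s hs q) (inc1_small h0 ((hout s q hq).trans_lt hε)), zero_apply,
        mul_zero]
  have hcyl : ∀ s : ℝ, ∀ q ∈ cyl s, inc1Ext g (cone (s, X s) q) = g (cone (s, X s) q) := by
    intro s q hq
    have h1 : ‖q.1‖ < s := mem_ball_zero_iff.1 hq.1
    exact if_pos (show 0 < s - ‖q.1‖ by linarith)
  have hPot : ∀ s ∈ Icc a b,
      Pot c g (s, X s) = ∫ q in cyl b, c q * inc1Ext g (cone (s, X s) q) := by
    intro s hs
    refine inc1_enlarge hs.2 (fun q hq _ => by rw [hcyl s q hq]) fun q hq => ?_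
    rw [inc1Ext, if_neg (not_lt.2 (hout s q hq)), mul_zero]
  have hPi : ∀ s ∈ Icc a b, IntegrableOn (fun q => c q * inc1Ext g (cone (s, X s) q)) (cyl b) := by
    intro s hs
    have h1 := (hc.int_mul hg.continuousOn vg (hslab s hs)).congr_fun
      (g := fun q => c q * inc1Ext g (cone (s, X s) q)) (fun q hq => by simp only [hcyl s q hq])
      (measurableSet_cyl _)
    refine h1.of_forall_diff_eq_zero (measurableSet_cyl b) fun q hq => ?_
    rw [inc1Ext, if_neg (not_lt.2 (hout s q hq.2)), mul_zero]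
  -- integrability on the product
  obtain ⟨C, hC0, hC⟩ := cyl_ker hc b P
  obtain ⟨B, hB⟩ := (isCompact_Icc.prod (isCompact_closedBall (0 : Ph)
    (|b| + |P|))).exists_bound_of_continuousOn (hEc.mono (prod_mono Subset.rfl (subset_univ _)))
  have hint : Integrable (fun z : ℝ × Ph => c z.2 * E z)
      ((volume.restrict (Ioc a b)).prod (volume.restrict (cyl b))) := by
    have i1 := (cyl_dom (b := fun y => C * |B| * (1 / ‖y‖ ^ 2))
      ((integrableOn_inv_sq b).const_mul (C * |B|)) P).comp_snd (volume.restrict (Ioc a b))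
    refine i1.mono' ?_ ?_
    · refine ((cyl_meas (cyl_off hc.1.continuousOn)).comp_snd).mul ?_
      rw [Measure.prod_restrict]
      exact (hEc.mono (prod_mono Ioc_subset_Icc_self (subset_univ _))).aestronglyMeasurable
        (measurableSet_Ioc.prod (measurableSet_cyl b))
    · have m1 : ∀ᵐ z : ℝ × Ph ∂((volume.restrict (Ioc a b)).prod (volume.restrict (cyl b))),
          z.1 ∈ Ioc a b :=
        Measure.quasiMeasurePreserving_fst.ae (ae_restrict_mem measurableSet_Ioc)
      have m2 : ∀ᵐ z : ℝ × Ph ∂((volume.restrict (Ioc a b)).prod (volume.restrict (cyl b))),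
          z.2 ∈ cyl b :=
        Measure.quasiMeasurePreserving_snd.ae (ae_restrict_mem (measurableSet_cyl b))
      have m3 : ∀ᵐ z : ℝ × Ph ∂((volume.restrict (Ioc a b)).prod (volume.restrict (cyl b))),
          z.2.1 ≠ 0 := Measure.quasiMeasurePreserving_snd.ae (ae_restrict_of_ae ae_ne_zero)
      filter_upwards [m1, m2, m3] with z hs hq hy
      have hs' := Ioc_subset_Icc_self hs
      rcases le_or_gt ‖z.2.2‖ P with hv | hv
      · rw [indicator_of_mem (mem_closedBall_zero_iff.2 hv), mul_one, norm_mul]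
        have h1 : ‖z.2.1‖ < b := mem_ball_zero_iff.1 hq.1
        have h2 : ‖E z‖ ≤ |B| := (hB z ⟨hs', mem_closedBall_zero_iff.2 (norm_prod_le_iff.2
          ⟨by linarith [le_abs_self b, abs_nonneg P], by
            linarith [le_abs_self P, abs_nonneg b]⟩)⟩).trans (le_abs_self _)
        calc ‖c z.2‖ * ‖E z‖ ≤ C / ‖z.2.1‖ ^ 2 * |B| :=
              mul_le_mul (hC z.2 hq hy hv 0).1 h2 (norm_nonneg _) (by positivity)
          _ = _ := by ring
      · rw [indicator_of_notMem (by rwa [mem_closedBall_zero_iff, not_le]), mul_zero]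
        simp only [hE, hD]
        rw [inc1_fd_zero (hmem z.1 hs' z.2) (inc1_far vg hv), zero_apply, mul_zero, norm_zero]
  constructor
  · rw [intervalIntegrable_iff_integrableOn_Ioc_of_le hab]
    exact IntegrableOn.congr_fun hint.integral_prod_left
      (fun s hs => (hRet s (Ioc_subset_Icc_self hs)).symm) measurableSet_Ioc
  · rw [intervalIntegral.integral_of_le hab,
      setIntegral_congr_fun measurableSet_Ioc fun s hs => hRet s (Ioc_subset_Icc_self hs),
      integral_integral_swap (f := fun s q => c q * E (s, q)) hint,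
      hPot b (right_mem_Icc.2 hab), hPot a (left_mem_Icc.2 hab),
      ← integral_sub (hPi b (right_mem_Icc.2 hab)) (hPi a (left_mem_Icc.2 hab))]
    refine integral_congr_ae (Eventually.of_forall fun q => ?_)
    simp only
    rw [integral_const_mul, ← intervalIntegral.integral_of_le hab, hftc, mul_sub]

end Crest.Agent.R106
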