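import Crest.Agent.R106.Defs
import Crest.Agent.R244.ODE
import Crest.Agent.R236.Ode

/-!
# Row 106: smooth dependence of flows

`flow_C1`: group property from uniqueness (`ODE_solution_unique_univ`-type lemmas; `b` is locally Lipschitz),
local statement `Crest.Agent.R244.local_flow`, and an open-closed argument in `t` along a compact orbit
(`φ (t + s) = φ s ∘ φ t`); alternatively a direct Gronwall estimate on `[-T, T]`.
`flow_contDiff`: induction on `n`, generalising `X`: `Φ (t, (x, A)) = (φ (t, x), Ψ (t, x) ∘L A)` is a global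
flow of the smooth field `(x, A) ↦ (b x, fderiv b x ∘L A)` on `X × (X →L[ℝ] X)`, so `Ψ` is `C^n`; the two
partial derivatives of `φ` are `b ∘ φ` and `Ψ`, both continuous, so `φ` is differentiable with
`fderiv φ (t, x) = (s, u) ↦ s • b (φ (t, x)) + Ψ (t, x) u`.
`smooth_flow`: global existence for a bounded locally Lipschitz field (cut off far away and use
`Crest.Agent.R236.ode_global`, or `Crest.Agent.R285.flow_exists`).

-/

set_option autoImplicit false

noncomputable section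

namespace Crest.Agent.R106

open MeasureTheory Set Metric Real Filter Topology
open scoped ContDiff ENNReal RealInnerProductSpace Classical
open Crest.AnalysisR.VecCalc3 Crest.AnalysisR.PDE.RVM

variable {X : Type} [NormedAddCommGroup X] [NormedSpace ℝ X] [FiniteDimensional ℝ X]

omit [FiniteDimensional ℝ X] in
theorem sfl_uniq {b : X → X} (hb : ContDiff ℝ 1 b) {f g : ℝ → X} {a c t₀ : ℝ} (ht₀ : t₀ ∈ Ioo a c)
    (hf : ∀ t ∈ Ioo a c, HasDerivAt f (b (f t)) t) (hg : ∀ t ∈ Ioo a c, HasDerivAt g (b (g t)) t)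
    (h : f t₀ = g t₀) : EqOn f g (Ioo a c) := by
  intro t ht
  obtain ⟨a', a1, a2⟩ := exists_between (lt_min ht.1 ht₀.1)
  obtain ⟨c', c1, c2⟩ := exists_between (max_lt ht.2 ht₀.2)
  have hsub : Icc a' c' ⊆ Ioo a c := fun s hs => ⟨a1.trans_le hs.1, hs.2.trans_lt c2⟩
  have fc : ContinuousOn f (Icc a' c') := fun s hs =>
    (hf s (hsub hs)).continuousAt.continuousWithinAt
  have gc : ContinuousOn g (Icc a' c') := fun s hs =>
    (hg s (hsub hs)).continuousAt.continuousWithinAt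
  have hK : IsCompact (f '' Icc a' c' ∪ g '' Icc a' c') :=
    (isCompact_Icc.image_of_continuousOn fc).union (isCompact_Icc.image_of_continuousOn gc)
  obtain ⟨K, hL⟩ := (hb.locallyLipschitz.locallyLipschitzOn).exists_lipschitzOnWith_of_compact hK
  exact ODE_solution_unique_of_mem_Icc (v := fun _ => b)
    (s := fun _ => f '' Icc a' c' ∪ g '' Icc a' c') (K := K) (t₀ := t₀) (fun _ _ => hL)
    ⟨(lt_min_iff.1 a2).2, (max_lt_iff.1 c1).2⟩ fc
    (fun s hs => hf s (hsub (Ioo_subset_Icc_self hs)))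
    (fun s hs => Or.inl ⟨s, Ioo_subset_Icc_self hs, rfl⟩) gc
    (fun s hs => hg s (hsub (Ioo_subset_Icc_self hs)))
    (fun s hs => Or.inr ⟨s, Ioo_subset_Icc_self hs, rfl⟩) h
    ⟨(lt_min_iff.1 a2).1.le, (max_lt_iff.1 c1).1.le⟩

theorem flow_group {b : X → X} (hb : ContDiff ℝ 1 b) {φ : ℝ × X → X} (h0 : ∀ x, φ (0, x) = x)
    (hφ : ∀ t x, HasDerivAt (fun s => φ (s, x)) (b (φ (t, x))) t) (s t : ℝ) (x : X) :
    φ (s + t, x) = φ (s, φ (t, x)) := by
  have h1 : ∀ u : ℝ, HasDerivAt (fun u => φ (u + t, x)) (b (φ (u + t, x))) u := fun u =>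
    (hφ (u + t) x).comp_add_const u t
  have hs : 0 < |s| + 1 := by positivity
  exact sfl_uniq hb (f := fun u => φ (u + t, x)) (g := fun u => φ (u, φ (t, x)))
    (a := -(|s| + 1)) (c := |s| + 1) (t₀ := 0) ⟨by linarith, hs⟩ (fun u _ => h1 u)
    (fun u _ => hφ u _) (by simp [h0]) (abs_lt.1 (lt_add_one _))

theorem sfl_local {b : X → X} (hb : ContDiff ℝ 1 b) {φ : ℝ × X → X} (h0 : ∀ x, φ (0, x) = x)
    (hφ : ∀ t x, HasDerivAt (fun s => φ (s, x)) (b (φ (t, x))) t) {O : Set X} (hO : IsOpen O)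
    {z₀ : X} (hz₀ : z₀ ∈ O) :
    ∃ ε > 0, ∃ U : Set X, IsOpen U ∧ z₀ ∈ U ∧ ∃ Ψ : X → ℝ → X →L[ℝ] X,
      ∀ z ∈ U, Ψ z 0 = ContinuousLinearMap.id ℝ X ∧ ∀ s ∈ Ioo (-ε) ε,
        φ (s, z) ∈ O ∧ HasFDerivAt (fun w => φ (s, w)) (Ψ z s) z ∧
        HasDerivAt (Ψ z) ((fderiv ℝ b (φ (s, z))).comp (Ψ z s)) s := by
  obtain ⟨ε, hε, U, hU, hz, ψ, Ψ, h⟩ := Crest.Agent.R244.local_flow hO hb.contDiffOn hz₀
  have e : ∀ z ∈ U, ∀ s ∈ Ioo (-ε) ε, φ (s, z) = ψ z s := fun z hz s hs =>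
    sfl_uniq hb (f := fun u => φ (u, z)) (g := ψ z) (t₀ := 0) ⟨by linarith, hε⟩
      (fun u _ => hφ u z) (fun u hu => ((h z hz).2.2 u hu).2.1) ((h0 z).trans (h z hz).1.symm) hs
  refine ⟨ε, hε, U, hU, hz, Ψ, fun z hz => ⟨(h z hz).2.1, fun s hs => ?_⟩⟩
  obtain ⟨a1, -, a3, a4⟩ := (h z hz).2.2 s hs
  rw [e z hz s hs]
  refine ⟨a1, a3.hasFDerivAt.congr_of_eventuallyEq ?_, a4⟩
  filter_upwards [hU.mem_nhds hz] with w hw using e w hw s hs

theorem sfl_diff {b : X → X} (hb : ContDiff ℝ 1 b) {φ : ℝ × X → X} (h0 : ∀ x, φ (0, x) = x)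
    (hφ : ∀ t x, HasDerivAt (fun s => φ (s, x)) (b (φ (t, x))) t) (t : ℝ) (x : X) :
    DifferentiableAt ℝ (fun y => φ (t, y)) x := by
  set S : Set ℝ := {t | DifferentiableAt ℝ (fun y => φ (t, y)) x} with hS
  have key : ∀ t₀ : ℝ, ∃ N ∈ 𝓝 t₀, ∀ t₁ ∈ N, ∀ t₂ ∈ N, t₁ ∈ S → t₂ ∈ S := by
    intro t₀
    obtain ⟨ε, hε, U, hU, hz, Ψ, h⟩ := sfl_local hb h0 hφ isOpen_univ (mem_univ (φ (t₀, x)))
    refine ⟨ball t₀ (ε / 2) ∩ (fun s => φ (s, x)) ⁻¹' U, inter_mem (ball_mem_nhds _ (by linarith))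
      ((hφ t₀ x).continuousAt.preimage_mem_nhds (hU.mem_nhds hz)), ?_⟩
    rintro t₁ ⟨a1, a2⟩ t₂ ⟨b1, -⟩ h1
    have hd : t₂ - t₁ ∈ Ioo (-ε) ε := by
      rw [mem_ball, Real.dist_eq, abs_lt] at a1 b1
      exact ⟨by linarith, by linarith⟩
    have h2 := ((h _ a2).2 _ hd).2.1.differentiableAt.comp x h1
    have e : (fun y => φ (t₂, y)) = (fun w => φ (t₂ - t₁, w)) ∘ fun y => φ (t₁, y) := by
      funext y
      simp only [Function.comp]
      rw [← flow_group hb h0 hφ, sub_add_cancel]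
    show DifferentiableAt ℝ (fun y => φ (t₂, y)) x
    rw [e]
    exact h2
  have hclopen : IsClopen S := by
    refine ⟨isOpen_compl_iff.1 (isOpen_iff_mem_nhds.2 fun t₀ ht₀ => ?_),
      isOpen_iff_mem_nhds.2 fun t₀ ht₀ => ?_⟩
    · obtain ⟨N, hN, h⟩ := key t₀
      exact mem_of_superset hN fun t₁ h1 h2 => ht₀ (h t₁ h1 t₀ (mem_of_mem_nhds hN) h2)
    · obtain ⟨N, hN, h⟩ := key t₀
      exact mem_of_superset hN fun t₁ h1 => h t₀ (mem_of_mem_nhds hN) t₁ h1 ht₀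
  have h0S : (0 : ℝ) ∈ S := by
    show DifferentiableAt ℝ (fun y => φ (0, y)) x
    simp only [h0]
    exact differentiableAt_id
  have := hclopen.eq_univ ⟨0, h0S⟩
  have ht : t ∈ S := this ▸ mem_univ t
  exact ht

theorem flow_C1 {b : X → X} (hb : ContDiff ℝ 1 b) {φ : ℝ × X → X} (h0 : ∀ x, φ (0, x) = x)
    (hφ : ∀ t x, HasDerivAt (fun s => φ (s, x)) (b (φ (t, x))) t) :
    Continuous φ ∧ ∃ Ψ : ℝ × X → X →L[ℝ] X, (∀ x, Ψ (0, x) = ContinuousLinearMap.id ℝ X) ∧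
      (∀ t x, HasFDerivAt (fun y => φ (t, y)) (Ψ (t, x)) x) ∧
      ∀ t x, HasDerivAt (fun s => Ψ (s, x)) ((fderiv ℝ b (φ (t, x))).comp (Ψ (t, x))) t := by
  have hd := sfl_diff hb h0 hφ
  refine ⟨?_, fun p => fderiv ℝ (fun y => φ (p.1, y)) p.2, fun x => ?_,
    fun t x => (hd t x).hasFDerivAt, fun t x => ?_⟩
  · have c0 : ∀ z : X, ContinuousAt φ (0, z) := by
      intro z
      refine continuousAt_def.2 fun A hA => ?_
      rw [h0] at hA
      obtain ⟨O, hOA, hO, hzO⟩ := _root_.mem_nhds_iff.1 hA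
      obtain ⟨ε, hε, U, hU, hz, Ψ, h⟩ := sfl_local hb h0 hφ hO hzO
      refine mem_of_superset (prod_mem_nhds (Ioo_mem_nhds (show -ε < 0 by linarith) hε)
        (hU.mem_nhds hz)) ?_
      rintro ⟨s, w⟩ ⟨hs, hw⟩
      exact hOA ((h w hw).2 s hs).1
    refine continuous_iff_continuousAt.2 fun p => ?_
    obtain ⟨t, x⟩ := p
    have e : φ = φ ∘ fun p : ℝ × X => (p.1 - t, φ (t, p.2)) := by
      funext p
      simp only [Function.comp]
      rw [← flow_group hb h0 hφ, sub_add_cancel]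
    rw [e]
    refine ContinuousAt.comp (by simpa using c0 (φ (t, x))) ?_
    exact (continuousAt_fst.sub continuousAt_const).prodMk
      (ContinuousAt.comp (f := Prod.snd) (g := fun y => φ (t, y)) (hd t x).continuousAt
        continuousAt_snd)
  · simp only [h0]
    exact fderiv_fun_id
  · obtain ⟨ε, hε, U, hU, hz, Ψ, h⟩ := sfl_local hb h0 hφ isOpen_univ (mem_univ (φ (t, x)))
    obtain ⟨a1, a2⟩ := h _ hz
    have h1 := (a2 0 ⟨by linarith, hε⟩).2.2
    rw [h0, a1, ContinuousLinearMap.comp_id] at h1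
    have h2 : HasDerivAt (fun s => Ψ (φ (t, x)) (s - t)) (fderiv ℝ b (φ (t, x))) t := by
      refine HasDerivAt.comp_sub_const t t ?_
      rwa [sub_self]
    have h3 := h2.clm_comp (hasDerivAt_const t (fderiv ℝ (fun y => φ (t, y)) x))
    rw [ContinuousLinearMap.comp_zero, add_zero] at h3
    refine h3.congr_of_eventuallyEq ?_
    filter_upwards [Ioo_mem_nhds (show t - ε < t by linarith) (show t < t + ε by linarith)] with s hs
    have hs' : s - t ∈ Ioo (-ε) ε := ⟨by linarith [hs.1], by linarith [hs.2]⟩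
    have h4 := (a2 _ hs').2.1.comp x (hd t x).hasFDerivAt
    have e : (fun y => φ (s, y)) = (fun w => φ (s - t, w)) ∘ fun y => φ (t, y) := by
      funext y
      simp only [Function.comp]
      rw [← flow_group hb h0 hφ, sub_add_cancel]
    show fderiv ℝ (fun y => φ (s, y)) x = _
    rw [e]
    exact h4.fderiv

theorem sfl_nat (n : ℕ) : ∀ (X : Type) [NormedAddCommGroup X] [NormedSpace ℝ X]
    [FiniteDimensional ℝ X] (b : X → X) (φ : ℝ × X → X), ContDiff ℝ ∞ b → (∀ x, φ (0, x) = x) →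
    (∀ t x, HasDerivAt (fun s => φ (s, x)) (b (φ (t, x))) t) → ContDiff ℝ n φ := by
  induction n with
  | zero =>
    intro X _ _ _ b φ hb h0 hφ
    exact contDiff_zero.2 (flow_C1 (hb.of_le (by exact_mod_cast le_top)) h0 hφ).1
  | succ n ih =>
    intro X _ _ _ b φ hb h0 hφ
    obtain ⟨-, Ψ, a1, a2, a3⟩ := flow_C1 (hb.of_le (by exact_mod_cast le_top)) h0 hφ
    have hφn := ih X b φ hb h0 hφ
    have hB : ContDiff ℝ ∞ (fun q : X × (X →L[ℝ] X) => (b q.1, (fderiv ℝ b q.1).comp q.2)) :=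
      (hb.comp contDiff_fst).prodMk
        (((contDiff_infty_iff_fderiv.1 hb).2.comp contDiff_fst).clm_comp contDiff_snd)
    have hΦ := ih (X × (X →L[ℝ] X)) _
      (fun p => (φ (p.1, p.2.1), (Ψ (p.1, p.2.1)).comp p.2.2)) hB
      (fun q => by simp [h0, a1]) (fun t q => by
        refine (hφ t q.1).prodMk ?_
        have h3 := (a3 t q.1).clm_comp (hasDerivAt_const t q.2)
        rw [ContinuousLinearMap.comp_zero, add_zero, ContinuousLinearMap.comp_assoc] at h3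
        exact h3)
    have hΨ : ContDiff ℝ n Ψ := by
      have := (contDiff_snd.comp hΦ).comp (f := fun p : ℝ × X =>
        (p.1, (p.2, ContinuousLinearMap.id ℝ X)))
        (contDiff_fst.prodMk (contDiff_snd.prodMk contDiff_const))
      convert this using 1
      funext p
      simp
    have hbφ : ContDiff ℝ n (fun p : ℝ × X => b (φ p)) :=
      (hb.of_le (by exact_mod_cast le_top)).comp hφn
    have h1 : ContDiff ℝ n (fun p : ℝ × X =>
        ContinuousLinearMap.toSpanSingleton ℝ (b (φ p))) :=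
      (ContinuousLinearMap.smulRightL ℝ ℝ X (1 : ℝ →L[ℝ] ℝ)).contDiff.comp hbφ
    push_cast
    refine contDiff_succ_iff_hasFDerivAt.2 ⟨fun p =>
      (ContinuousLinearMap.toSpanSingleton ℝ (b (φ p))).coprod (Ψ p), ?_, fun p => ?_⟩
    · have h2 := (h1.clm_comp (contDiff_const (c := ContinuousLinearMap.fst ℝ ℝ X))).add
        (hΨ.clm_comp (contDiff_const (c := ContinuousLinearMap.snd ℝ ℝ X)))
      simpa only [ContinuousLinearMap.comp_fst_add_comp_snd] using h2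
    · exact (hasStrictFDerivAt_uncurry_coprod (𝕜 := ℝ) (u := p) (f := fun t x => φ (t, x))
        (f₁ := fun t x => ContinuousLinearMap.toSpanSingleton ℝ (b (φ (t, x))))
        (f₂ := fun t x => Ψ (t, x))
        (Eventually.of_forall fun v => (hφ v.1 v.2).hasFDerivAt)
        (Eventually.of_forall fun v => a2 v.1 v.2)
        h1.continuous.continuousAt hΨ.continuous.continuousAt).hasFDerivAt

theorem flow_contDiff {b : X → X} (hb : ContDiff ℝ ∞ b) {φ : ℝ × X → X} (h0 : ∀ x, φ (0, x) = x)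
    (hφ : ∀ t x, HasDerivAt (fun s => φ (s, x)) (b (φ (t, x))) t) : ContDiff ℝ ∞ φ :=
  contDiff_infty.2 fun n => sfl_nat n X b φ hb h0 hφ

theorem sfl_global {b : X → X} (hb : ContDiff ℝ 1 b) {M : ℝ} (hM : ∀ x, ‖b x‖ ≤ M) (x₀ : X) :
    ∃ α : ℝ → X, α 0 = x₀ ∧ ∀ t, HasDerivAt α (b (α t)) t := by
  have : CompleteSpace X := FiniteDimensional.complete ℝ X
  have : ProperSpace X := FiniteDimensional.proper ℝ X
  have hM0 : 0 ≤ M := (norm_nonneg _).trans (hM x₀)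
  lift M to NNReal using hM0
  have h1 : ∀ n : ℕ, ∃ α : ℝ → X, α 0 = x₀ ∧
      ∀ t ∈ Ioo (-(n + 1 : ℝ)) (n + 1), HasDerivAt α (b (α t)) t := by
    intro n
    have hn : (0 : ℝ) < n + 1 := by positivity
    obtain ⟨K, hK⟩ := (hb.locallyLipschitz.locallyLipschitzOn).exists_lipschitzOnWith_of_compact
      (isCompact_closedBall x₀ ((M * (n + 1) : NNReal) : ℝ))
    obtain ⟨α, h0, hα⟩ := (IsPicardLindelof.of_time_independent (f := b) (tmin := -(n + 1 : ℝ))
      (tmax := n + 1) (t₀ := ⟨0, by linarith, hn.le⟩) (x₀ := x₀) (a := M * (n + 1)) (r := 0) (L := M)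
      (K := K) (fun x _ => hM x) hK
      (by simp)).exists_eq_forall_mem_Icc_hasDerivWithinAt₀
    exact ⟨α, h0, fun t ht =>
      (hα t (Ioo_subset_Icc_self ht)).hasDerivAt (Icc_mem_nhds ht.1 ht.2)⟩
  choose α h0 hα using h1
  have h2 : ∀ m n : ℕ, m ≤ n → EqOn (α m) (α n) (Ioo (-(m + 1 : ℝ)) (m + 1)) := by
    intro m n hmn
    have hm : (0 : ℝ) < m + 1 := by positivity
    have hmn' : (m : ℝ) ≤ n := by exact_mod_cast hmn
    exact sfl_uniq hb (t₀ := 0) ⟨by linarith, hm⟩ (hα m)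
      (fun t ht => hα n t ⟨by linarith [ht.1], by linarith [ht.2]⟩) ((h0 m).trans (h0 n).symm)
  have h3 : ∀ t : ℝ, t ∈ Ioo (-((⌊|t|⌋₊ : ℝ) + 1)) (⌊|t|⌋₊ + 1) := fun t =>
    abs_lt.1 (Nat.lt_floor_add_one _)
  refine ⟨fun t => α ⌊|t|⌋₊ t, h0 _, fun t => (hα _ t (h3 t)).congr_of_eventuallyEq ?_⟩
  filter_upwards [Ioo_mem_nhds (h3 t).1 (h3 t).2] with s hs
  rcases le_total ⌊|s|⌋₊ ⌊|t|⌋₊ with h | h
  · exact h2 _ _ h (h3 s)
  · exact (h2 _ _ h hs).symm

theorem smooth_flow {b : X → X} (hb : ContDiff ℝ ∞ b) {M : ℝ} (hM : ∀ x, ‖b x‖ ≤ M) :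
    ∃ φ : ℝ × X → X, ContDiff ℝ ∞ φ ∧ (∀ x, φ (0, x) = x) ∧
      (∀ t x, HasDerivAt (fun s => φ (s, x)) (b (φ (t, x))) t) ∧
      ∀ s t x, φ (s + t, x) = φ (s, φ (t, x)) := by
  have hb1 : ContDiff ℝ 1 b := hb.of_le (by exact_mod_cast le_top)
  choose α h0 hα using sfl_global hb1 hM
  exact ⟨fun p => α p.2 p.1, flow_contDiff hb (φ := fun p => α p.2 p.1) h0 (fun t x => hα x t), h0,
    fun t x => hα x t, flow_group hb1 (φ := fun p => α p.2 p.1) h0 (fun t x => hα x t)⟩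

end Crest.Agent.R106
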