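import Crest.Agent.R106.Calc
import Crest.Agent.R106.SFlow
import Crest.Agent.R285.Flow

/-!
# Row 106: the linear Vlasov equation

`exists_vsol`: `φ` the flow of the autonomous field `p ↦ (1, vf K p)` on `TP` (`smooth_flow`);
`(φ (s, p)).1 = p.1 + s`; `Z t z = (φ (t, (0, z))).2`, `f (t, z) = f₀ (φ (-t, (t, z))).2`; `f` is constant
along `φ`, differentiate at `s = 0`.  Liouville: `Crest.Agent.R285.exists_transport_flow` with `p = 1` and
`trace_vf`, then identify its flow with `Z` on `[0, t]` by uniqueness for ODE.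

-/

set_option autoImplicit false

noncomputable section

namespace Crest.Agent.R106

open MeasureTheory Set Metric Real Filter Topology
open scoped ContDiff ENNReal RealInnerProductSpace Classical
open Crest.AnalysisR.VecCalc3 Crest.AnalysisR.PDE.RVM

theorem VSolEx_unique {X : Type} [NormedAddCommGroup X] [NormedSpace ℝ X] [FiniteDimensional ℝ X]
    {b : ℝ × X → X} (hb : ContDiff ℝ 2 b) {T : ℝ} (hT : 0 ≤ T) {γ δ : ℝ → X}
    (hγ : ∀ t ∈ Icc 0 T, HasDerivWithinAt γ (b (t, γ t)) (Icc 0 T) t)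
    (hδ : ∀ t ∈ Icc 0 T, HasDerivWithinAt δ (b (t, δ t)) (Icc 0 T) t) (h0 : γ 0 = δ 0) :
    γ T = δ T := by
  have cγ : ContinuousOn γ (Icc 0 T) := fun t ht => (hγ t ht).continuousWithinAt
  have cδ : ContinuousOn δ (Icc 0 T) := fun t ht => (hδ t ht).continuousWithinAt
  obtain ⟨R₁, h₁⟩ := isCompact_Icc.exists_bound_of_continuousOn cγ
  obtain ⟨R₂, h₂⟩ := isCompact_Icc.exists_bound_of_continuousOn cδ
  obtain ⟨L, hL⟩ := Crest.Agent.R285.flow_lip hb T (max R₁ R₂)
  exact ODE_solution_unique_of_mem_Icc_right (v := fun t x => b (t, x))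
    (s := fun _ => closedBall 0 (max R₁ R₂))
    (fun t ht => Crest.Agent.R285.flow_lip_slice hL (Ico_subset_Icc_self ht)) cγ
    (fun t ht => Crest.Agent.R285.flow_right_deriv le_rfl le_rfl ht (hγ t (Ico_subset_Icc_self ht)))
    (fun t ht => mem_closedBall_zero_iff.2 ((h₁ t (Ico_subset_Icc_self ht)).trans (le_max_left _ _)))
    cδ
    (fun t ht => Crest.Agent.R285.flow_right_deriv le_rfl le_rfl ht (hδ t (Ico_subset_Icc_self ht)))
    (fun t ht => mem_closedBall_zero_iff.2 ((h₂ t (Ico_subset_Icc_self ht)).trans (le_max_right _ _)))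
    h0 ⟨hT, le_rfl⟩

theorem exists_vsol {f₀ : Ph → ℝ} (h₀ : ContDiff ℝ ∞ f₀) {K : ST → Ph} (hK : ContDiff ℝ ∞ K)
    {M : ℝ} (hM : ∀ p, ‖K p‖ ≤ M) : ∃ f Z, VSol f₀ K f Z := by
  have hM0 : 0 ≤ M := (norm_nonneg _).trans (hM 0)
  have hv : ContDiff ℝ ∞ (vf K) := contDiff_vf hK
  have hvb : ∀ p, ‖vf K p‖ ≤ 1 + 2 * M := fun p =>
    (norm_vf_le K p).trans (by linarith [hM (p.1, p.2.1)])
  obtain ⟨φ, hφs, hφ0, hφd, hφg⟩ := smooth_flow (X := TP) (b := fun p => ((1 : ℝ), vf K p))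
    (contDiff_const.prodMk hv) (M := 1 + 2 * M) fun p => by
      rw [Prod.norm_mk, norm_one]; exact max_le (by linarith) (hvb p)
  have h1 : ∀ s p, (φ (s, p)).1 = p.1 + s := fun s p => by
    have hd : ∀ t, HasDerivAt (fun s => (φ (s, p)).1 - s) 0 t := fun t => by
      have ha : HasDerivAt (fun s => (φ (s, p)).1) 1 t := (hφd t p).fst
      have hb := HasDerivAt.sub ha (hasDerivAt_id t)
      rwa [sub_self] at hb
    have := is_const_of_deriv_eq_zero (fun t => (hd t).differentiableAt) (fun t => (hd t).deriv) s 0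
    simp only [hφ0, sub_zero] at this
    linarith
  have h2 : ∀ t z, φ (t, ((0 : ℝ), z)) = (t, (φ (t, ((0 : ℝ), z))).2) := fun t z =>
    Prod.ext (by rw [h1]; simp) rfl
  have hfs : ContDiff ℝ ∞ fun p : TP => f₀ (φ (-p.1, p)).2 :=
    h₀.comp (contDiff_snd.comp (hφs.comp (contDiff_fst.neg.prodMk contDiff_id)))
  have hode : ∀ t z, HasDerivAt (fun s => (φ (s, ((0 : ℝ), z))).2)
      (vf K (t, (φ (t, ((0 : ℝ), z))).2)) t := fun t z => by
    have : HasDerivAt (fun s => (φ (s, ((0 : ℝ), z))).2) (vf K (φ (t, ((0 : ℝ), z)))) t :=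
      (hφd t (0, z)).snd
    rwa [h2 t z] at this
  have hcont : Continuous fun p : TP => (φ (p.1, ((0 : ℝ), p.2))).2 :=
    continuous_snd.comp (hφs.continuous.comp (by fun_prop))
  refine ⟨fun p => f₀ (φ (-p.1, p)).2, fun t z => (φ (t, (0, z))).2, hfs, fun z => ?_, fun p => ?_,
    hcont, fun z => by rw [hφ0], hode, fun t w => ?_, fun t ht => ?_⟩
  · simp only [neg_zero, hφ0]
  · have hd := (hfs.differentiable (by simp) (φ (0, p))).hasFDerivAt.comp_hasDerivAt 0 (hφd 0 p)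
    have e : ((fun p : TP => f₀ (φ (-p.1, p)).2) ∘ fun s => φ (s, p)) =
        fun _ => f₀ (φ (-p.1, p)).2 := by
      funext s
      simp only [Function.comp, h1, ← hφg]
      congr 4
      ring
    rw [e, hφ0] at hd
    exact hd.unique (hasDerivAt_const _ _)
  · refine ⟨(φ (-t, (t, w))).2, ?_⟩
    have e : ((0 : ℝ), (φ (-t, (t, w))).2) = φ (-t, (t, w)) := Prod.ext (by rw [h1]; simp) rfl
    simp only [e, ← hφg, add_neg_cancel, hφ0]
  · have hv2 : ContDiff ℝ 2 (vf K) := hv.of_le (WithTop.coe_le_coe.2 (le_top : (2 : ℕ∞) ≤ ⊤))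
    have : (volume : Measure Ph).IsAddHaarMeasure := Measure.prod.instIsAddHaarMeasure _ _
    have hK1 : ContDiff ℝ 1 K := hK.of_le (by exact_mod_cast le_top)
    obtain ⟨Ψ, -, hΨ0, hΨd, hΨm⟩ := Crest.Agent.R285.exists_transport_flow (volume : Measure Ph)
      (vf K) (fun _ => 1) hv2 contDiff_const (fun _ => zero_le_one) ht (C := 1 + 2 * M)
      (fun τ _ x => (hvb _).trans (le_mul_of_one_le_right (by linarith)
        (by linarith [norm_nonneg x])))
      (fun τ _ x => by rw [trace_vf hK1]; simp)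
    have e : (fun z => (φ (t, ((0 : ℝ), z))).2) = Ψ t := by
      funext z
      exact VSolEx_unique hv2 ht (fun s _ => (hode s z).hasDerivWithinAt) (hΨd z)
        (by simp only [hφ0, hΨ0])
    have hm := hΨm t ⟨ht, le_rfl⟩
    simp only [ENNReal.ofReal_one] at hm
    rw [show (fun _ : Ph => (1 : ℝ≥0∞)) = 1 from rfl, withDensity_one] at hm
    refine ⟨(hcont.comp (continuous_const.prodMk continuous_id)).measurable, ?_⟩
    rw [e, hm]

variable {f₀ : Ph → ℝ} {K : ST → Ph} {f : TP → ℝ} {Z : ℝ → Ph → Ph}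

theorem VSol.along (h : VSol f₀ K f Z) (t : ℝ) (z : Ph) : f (t, Z t z) = f₀ z := by
  have hd : ∀ s, HasDerivAt (fun s => f (s, Z s z)) 0 s := fun s => by
    have := (h.smooth.differentiable (by simp) (s, Z s z)).hasFDerivAt.comp_hasDerivAt s
      ((hasDerivAt_id s).prodMk (h.ode s z))
    rwa [show fderiv ℝ f (s, Z s z) (1, vf K (s, Z s z)) = 0 from h.eq _] at this
  have := is_const_of_deriv_eq_zero (fun t => (hd t).differentiableAt) (fun t => (hd t).deriv) t 0
  rwa [h.zero, h.init] at this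

theorem VSol.supp (h : VSol f₀ K f Z) {M R : ℝ} (hM : ∀ p, ‖K p‖ ≤ M)
    (hR : ∀ z, f₀ z ≠ 0 → ‖z‖ ≤ R) (p : TP) (hp : f p ≠ 0) : ‖p.2‖ ≤ R + (1 + 2 * M) * |p.1| := by
  obtain ⟨t, w⟩ := p
  obtain ⟨z, rfl⟩ := h.surj t w
  rw [h.along] at hp
  have h1 := convex_univ.norm_image_sub_le_of_norm_hasDerivWithin_le (f := fun s => Z s z)
    (C := 1 + 2 * M) (fun s _ => (h.ode s z).hasDerivWithinAt)
    (fun s _ => (norm_vf_le K _).trans (by linarith [hM (s, (Z s z).1)])) (mem_univ 0) (mem_univ t)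
  simp only [h.zero, sub_zero, Real.norm_eq_abs] at h1
  have h2 := norm_le_norm_add_norm_sub' (Z t z) z
  have h3 := hR z hp
  simp only
  linarith

theorem VSol.ls (h : VSol f₀ K f Z) {M : ℝ} (hM : ∀ p, ‖K p‖ ≤ M) (hc : HasCompactSupport f₀) :
    LS f := by
  obtain ⟨R, hR⟩ := hc.isCompact.isBounded.exists_norm_le
  have hM0 : 0 ≤ M := (norm_nonneg _).trans (hM 0)
  refine fun a => ⟨R + (1 + 2 * M) * a, fun p hp hf => ?_⟩
  have h1 := h.supp hM (fun z hz => hR z (subset_tsupport _ hz)) p hf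
  have h2 : |p.1| ≤ a := abs_le.2 hp
  have h3 := mul_le_mul_of_nonneg_left h2 (by linarith : 0 ≤ 1 + 2 * M)
  linarith [norm_snd_le p.2]

theorem VSol.range (h : VSol f₀ K f Z) (p : TP) : ∃ z, f p = f₀ z := by
  obtain ⟨t, w⟩ := p
  obtain ⟨z, rfl⟩ := h.surj t w
  exact ⟨z, h.along t z⟩

theorem VSol.push (h : VSol f₀ K f Z) {t : ℝ} (ht : 0 ≤ t) {g : Ph → ℝ≥0∞} (hg : Measurable g) :
    ∫⁻ z, ENNReal.ofReal (f (t, z)) * g z = ∫⁻ z, ENNReal.ofReal (f₀ z) * g (Z t z) := by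
  have hf : Measurable fun z => ENNReal.ofReal (f (t, z)) * g z :=
    (h.smooth.continuous.comp (continuous_const.prodMk continuous_id)).measurable.ennreal_ofReal.mul
      hg
  rw [← (h.mp t ht).lintegral_comp hf]
  simp only [h.along]

end Crest.Agent.R106
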