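import Crest.Agent.R106.Rep
import Crest.Agent.R106.VSolEx
import Crest.Agent.R106.TransL

/-!
# Row 106: the iteration scheme

`exists_iter`: recursion on `{K // ContDiff ℝ ∞ K}` with choice (`exists_vsol` for the bounded smooth field
`κ ∘ K`, `contDiff_mx`, `VSol.ls`).

-/

set_option autoImplicit false

noncomputable section

namespace Crest.Agent.R106

open MeasureTheory Set Metric Real Filter Topology
open scoped ContDiff ENNReal RealInnerProductSpace Classical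
open Crest.AnalysisR.VecCalc3 Crest.AnalysisR.PDE.RVM

variable {κ : Ph → Ph} {f₀ : Ph → ℝ} {K₀ : R3 → Ph} {K : ℕ → ST → Ph} {f : ℕ → TP → ℝ}
  {Z : ℕ → ℝ → Ph → Ph}


theorem exists_iter (h : Adm f₀ K₀) (hκ : ContDiff ℝ ∞ κ) (cκ : HasCompactSupport κ) :
    ∃ K f Z, Iter κ f₀ K₀ K f Z := by
  obtain ⟨M, hM⟩ := hκ.continuous.bounded_above_of_compact_support cκ
  have ex : ∀ K : {K : ST → Ph // ContDiff ℝ ∞ K}, ∃ f Z, VSol f₀ (κ ∘ K.1) f Z := fun K =>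
    exists_vsol h.smooth (hκ.comp K.2) fun p => hM _
  choose F Y hF using ex
  let s : {K : ST → Ph // ContDiff ℝ ∞ K} → {K : ST → Ph // ContDiff ℝ ∞ K} := fun K =>
    ⟨mx K₀ (F K), contDiff_mx h.smoothK (hF K).smooth ((hF K).ls (fun p => hM _) h.cpt)⟩
  let q : ℕ → {K : ST → Ph // ContDiff ℝ ∞ K} := fun n => s^[n] ⟨fun _ => 0, contDiff_const⟩
  refine ⟨fun n => (q n).1, fun n => F (q n), fun n => Y (q n), h, hκ, cκ, rfl, fun n => (q n).2,
    fun n => hF (q n), fun n => ?_⟩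
  simp only [q, Function.iterate_succ_apply']
  rfl

theorem Iter.smoothκ (h : Iter κ f₀ K₀ K f Z) (n : ℕ) : ContDiff ℝ ∞ (κ ∘ K n) :=
  h.hκ.comp (h.smooth n)

theorem Iter.bddκ (h : Iter κ f₀ K₀ K f Z) : ∃ M, 0 ≤ M ∧ ∀ y, ‖κ y‖ ≤ M := by
  obtain ⟨M, hM⟩ := h.hκ.continuous.bounded_above_of_compact_support h.cκ
  exact ⟨M, (norm_nonneg _).trans (hM 0), hM⟩

theorem Iter.lipκ (h : Iter κ f₀ K₀ K f Z) :
    ∃ M, 0 ≤ M ∧ (∀ y, ‖fderiv ℝ κ y‖ ≤ M) ∧ ∀ y y', ‖κ y - κ y'‖ ≤ M * ‖y - y'‖ := by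
  obtain ⟨M, hM⟩ := (h.hκ.continuous_fderiv (by simp)).bounded_above_of_compact_support
    (h.cκ.fderiv ℝ)
  exact ⟨M, (norm_nonneg _).trans (hM 0), hM, fun y y' =>
    convex_univ.norm_image_sub_le_of_norm_fderiv_le
      (fun x _ => h.hκ.differentiable (by simp) x) (fun x _ => hM x) (mem_univ y') (mem_univ y)⟩

theorem Iter.supp (h : Iter κ f₀ K₀ K f Z) (T : ℝ) :
    ∃ P, ∀ n, ∀ p ∈ slab Ph T, f n p ≠ 0 → ‖p.2‖ ≤ P := by
  obtain ⟨M, hM0, hM⟩ := h.bddκ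
  obtain ⟨R, hR⟩ := h.adm.cpt.isCompact.isBounded.exists_norm_le
  refine ⟨R + (1 + 2 * M) * T, fun n p hp hf => ((h.vsol n).supp (fun _ => hM _)
    (fun z hz => hR z (subset_tsupport _ hz)) p hf).trans ?_⟩
  rw [abs_of_nonneg hp.1.1]
  have := hp.1.2
  gcongr

theorem VS_of_supp {T P : ℝ} {g : TP → ℝ} (h : ∀ p ∈ slab Ph T, g p ≠ 0 → ‖p.2‖ ≤ P) :
    VS (Icc 0 T) P g :=
  fun p hp hg => (norm_snd_le p.2).trans (h p ⟨hp, mem_univ _⟩ hg)

theorem Iter.ls (h : Iter κ f₀ K₀ K f Z) (n : ℕ) : LS (f n) := by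
  obtain ⟨M, -, hM⟩ := h.bddκ
  exact (h.vsol n).ls (fun _ => hM _) h.adm.cpt

theorem Iter.bddf (h : Iter κ f₀ K₀ K f Z) : ∃ A, ∀ n p, |f n p| ≤ A := by
  obtain ⟨A, hA⟩ := h.adm.smooth.continuous.bounded_above_of_compact_support h.adm.cpt
  refine ⟨A, fun n p => ?_⟩
  obtain ⟨z, hz⟩ := (h.vsol n).range p
  rw [hz]
  exact hA z

theorem Iter.DB_init (h : Iter κ f₀ K₀ K f Z) (k : ℕ) : ∃ C, ∀ n, DB k (f n) 0 C := by
  obtain ⟨C, hC⟩ := (h.adm.smooth.continuous_iteratedFDeriv (m := k)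
    (by exact_mod_cast le_top)).bounded_above_of_compact_support (h.adm.cpt.iteratedFDeriv k)
  refine ⟨C, fun n z => ?_⟩
  rw [show (fun z => f n (0, z)) = f₀ from funext (h.vsol n).init]
  exact hC z

theorem Iter.maxwell (h : Iter κ f₀ K₀ K f Z) (n : ℕ) {p : ST} (hp : 0 < p.1) :
    Maxwell (K (n + 1)) (f n) p := by
  rw [h.succ]
  exact mx_maxwell h.adm (h.vsol n).smooth (h.ls n) (h.vsol n).init
    (charge (h.vsol n).smooth (h.ls n) (h.vsol n).eq) hp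

theorem Iter.rep (h : Iter κ f₀ K₀ K f Z) (n : ℕ) (L : List R3) {p : ST} (hp : 0 ≤ p.1) :
    RepAt (pdx L (dat K₀ f₀)) (pdx L (K (n + 1))) (pdX L (f n)) p := by
  rw [h.succ]
  exact mx_rep h.adm (h.vsol n).smooth (h.ls n) (h.vsol n).init L hp

theorem Iter.init (h : Iter κ f₀ K₀ K f Z) (n : ℕ) (x : R3) : K (n + 1) (0, x) = K₀ x := by
  rw [h.succ]
  exact mx_init h.adm.smoothK (h.vsol n).smooth (h.ls n) x

/-- Maxwell's equations control the time derivative -/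
theorem maxwell_fderiv_le {K : ST → Ph} {f : TP → ℝ} {p : ST} (hK : DifferentiableAt ℝ K p)
    (h : Maxwell K f p) {C J : ℝ} (hx : ∀ i, ‖pd (0, ee i) K p‖ ≤ C) (hj : ∀ i, |cur f i p| ≤ J) :
    ‖fderiv ℝ K p‖ ≤ 9 * C + 3 * J := by
  have eE : ∀ (μ : ST) (i : Fin 3), pd μ (cE K i) p = (fderiv ℝ K p μ).1 i := fun μ i =>
    congrArg (fun L : ST →L[ℝ] ℝ => L μ) (((EuclideanSpace.proj i : R3 →L[ℝ] ℝ).comp
      (ContinuousLinearMap.fst ℝ R3 R3)).hasFDerivAt.comp p hK.hasFDerivAt).fderiv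
  have eB : ∀ (μ : ST) (i : Fin 3), pd μ (cB K i) p = (fderiv ℝ K p μ).2 i := fun μ i =>
    congrArg (fun L : ST →L[ℝ] ℝ => L μ) (((EuclideanSpace.proj i : R3 →L[ℝ] ℝ).comp
      (ContinuousLinearMap.snd ℝ R3 R3)).hasFDerivAt.comp p hK.hasFDerivAt).fderiv
  have bE : ∀ i j, |pd (0, ee i) (cE K j) p| ≤ C := fun i j => by
    rw [eE]; exact (abs_apply_le _ _).trans ((norm_fst_le _).trans (hx i))
  have bB : ∀ i j, |pd (0, ee i) (cB K j) p| ≤ C := fun i j => by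
    rw [eB]; exact (abs_apply_le _ _).trans ((norm_snd_le _).trans (hx i))
  have hC : 0 ≤ C := (norm_nonneg _).trans (hx 0)
  have hJ : 0 ≤ J := (abs_nonneg _).trans (hj 0)
  have three : ∀ u : R3, (∀ i, |u i| ≤ 2 * C + J) → ‖u‖ ≤ 6 * C + 3 * J := fun u hu => by
    refine (norm_le_sum u).trans ?_
    rw [Fin.sum_univ_three]
    linarith [hu 0, hu 1, hu 2]
  have ht : ‖fderiv ℝ K p (1, 0)‖ ≤ 6 * C + 3 * J := by
    refine norm_prod_le_iff.2 ⟨three _ fun i => ?_, three _ fun i => ?_⟩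
    · have h1 := h.1 i
      have h2 := abs_le.1 (bB (i + 1) (i + 2))
      have h3 := abs_le.1 (bB (i + 2) (i + 1))
      have h4 := abs_le.1 (hj i)
      rw [cu, eE] at h1
      exact abs_le.2 ⟨by linarith, by linarith⟩
    · have h1 := h.2.1 i
      have h2 := abs_le.1 (bE (i + 1) (i + 2))
      have h3 := abs_le.1 (bE (i + 2) (i + 1))
      rw [cu, eB] at h1
      exact abs_le.2 ⟨by linarith, by linarith⟩
  refine ContinuousLinearMap.opNorm_le_bound _ (by positivity) fun w => ?_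
  have e : w = w.1 • ((1, 0) : ST) + ∑ i, w.2 i • ((0, ee i) : ST) := by
    refine Prod.ext ?_ ?_
    · simp [Prod.fst_sum]
    · simp [Prod.snd_sum, sum_ee]
  have b1 : ∀ i, ‖w.2 i • fderiv ℝ K p (0, ee i)‖ ≤ ‖w‖ * C := fun i => by
    rw [norm_smul]
    exact mul_le_mul ((abs_apply_le _ _).trans (norm_snd_le w)) (hx i) (norm_nonneg _)
      (norm_nonneg _)
  have b2 : ‖w.1 • fderiv ℝ K p (1, 0)‖ ≤ ‖w‖ * (6 * C + 3 * J) := by
    rw [norm_smul]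
    exact mul_le_mul (norm_fst_le w) ht (norm_nonneg _) (norm_nonneg _)
  have e2 : fderiv ℝ K p w = w.1 • fderiv ℝ K p (1, 0) + ∑ i, w.2 i • fderiv ℝ K p (0, ee i) := by
    conv_lhs => rw [e]
    simp only [map_add, map_sum, map_smul]
  rw [e2]
  refine (norm_add_le _ _).trans ((add_le_add b2 ((norm_sum_le _ _).trans
    (Finset.sum_le_sum fun i _ => b1 i))).trans (le_of_eq ?_))
  rw [Fin.sum_univ_three]
  ring

end Crest.Agent.R106
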