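import Crest.Agent.R106.GSB
import Crest.Agent.R106.TransL
import Crest.Agent.R106.KerC

/-!
# Row 106: cut-off kernels for the logarithmic estimate
-/

set_option autoImplicit false

noncomputable section

namespace Crest.Agent.R106

open MeasureTheory Set Metric Real Filter Topology
open scoped ContDiff ENNReal RealInnerProductSpace Classical
open Crest.AnalysisR.VecCalc3 Crest.AnalysisR.PDE.RVM

/-- the cut-off that removes `r ≤ 1/D` -/
def lgψ (D : ℝ) (q : Ph) : ℝ := 1 - chi (D * ‖q.1‖)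

theorem lg_abs (D : ℝ) (q : Ph) : |lgψ D q| ≤ 1 := by
  have h1 := chi_nonneg (D * ‖q.1‖)
  have h2 := chi_le_one (D * ‖q.1‖)
  rw [lgψ, abs_le]
  constructor <;> linarith

theorem lg_zero {D : ℝ} {q : Ph} (h : D * ‖q.1‖ ≤ 1) : lgψ D q = 0 := by
  rw [lgψ, chi_one h, sub_self]

theorem lg_contDiffAt (D : ℝ) {q : Ph} (hq : q.1 ≠ 0) : ContDiffAt ℝ ∞ (lgψ D) q :=
  contDiffAt_const.sub (contDiff_chi.contDiffAt.comp q
    (contDiffAt_const.mul ((contDiffAt_norm ℝ hq).comp q contDiffAt_fst)))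

theorem lg_fderiv (D : ℝ) {q : Ph} (hq : q.1 ≠ 0) (w z : R3) :
    fderiv ℝ (lgψ D) q (w, z) = -(deriv chi (D * ‖q.1‖) * (D * ⟪nn q.1, w⟫)) := by
  have h1 : HasFDerivAt (fun q : Ph => ‖q.1‖)
      ((innerSL ℝ (nn q.1)).comp (ContinuousLinearMap.fst ℝ R3 R3)) q :=
    (hasFDerivAt_norm hq).comp q hasFDerivAt_fst
  have h2 : HasDerivAt chi (deriv chi (D * ‖q.1‖)) (D * ‖q.1‖) :=
    (contDiff_chi.differentiable (by simp) _).hasDerivAt
  have h3 := (h2.comp_hasFDerivAt q (h1.const_mul D)).const_sub 1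
  have h4 : fderiv ℝ (lgψ D) q = _ := h3.fderiv
  rw [h4]
  simp

theorem lg_fderiv_mul {m : ℕ} {k : Ph → ℝ} (hk : Ker m k) (D : ℝ) {q : Ph} (hq : q.1 ≠ 0)
    (w z : R3) : fderiv ℝ (fun q => lgψ D q * k q) q (w, z) =
      lgψ D q * fderiv ℝ k q (w, z) - k q * (deriv chi (D * ‖q.1‖) * (D * ⟪nn q.1, w⟫)) := by
  rw [fderiv_fun_mul ((lg_contDiffAt D hq).differentiableAt (by simp))
    ((hk.contDiffAt hq).differentiableAt (by simp))]
  simp only [ContinuousLinearMap.add_apply, ContinuousLinearMap.smul_apply, smul_eq_mul,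
    lg_fderiv D hq]
  ring

theorem lg_fderiv_zero {m : ℕ} {k : Ph → ℝ} (hk : Ker m k) {D : ℝ} {q : Ph} (hq : q.1 ≠ 0)
    (h : D * ‖q.1‖ ≤ 1) (w z : R3) : fderiv ℝ (fun q => lgψ D q * k q) q (w, z) = 0 := by
  rw [lg_fderiv_mul hk D hq, lg_zero h, deriv_chi_zero (Or.inl h)]
  ring

theorem lg_cut {k : Ph → ℝ} (hk : Ker 2 k) (P : ℝ) : ∃ C, 0 ≤ C ∧ ∀ (D : ℝ) (y v w : R3),
    0 < D → y ≠ 0 → ‖v‖ ≤ P → |lgψ D (y, v) * k (y, v)| ≤ C / ‖y‖ ^ 2 ∧
      |fderiv ℝ (fun q => lgψ D q * k q) (y, v) (w, 0)| ≤ C * ‖w‖ / ‖y‖ ^ 3 ∧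
      |fderiv ℝ (fun q => lgψ D q * k q) (y, v) (0, w)| ≤ C * ‖w‖ / ‖y‖ ^ 2 := by
  obtain ⟨C₀, hC₀, h₀⟩ := hk.bound P
  obtain ⟨C₁, hC₁, h₁⟩ := hk.dy_bound P
  obtain ⟨C₂, hC₂, h₂⟩ := hk.dv_bound P
  obtain ⟨C₃, hC₃, h₃⟩ := deriv_chi_bdd
  refine ⟨C₀ + C₁ + C₂ + 2 * C₀ * C₃, by positivity, fun D y v w hD hy hv => ?_⟩
  have hr : 0 < ‖y‖ := norm_pos_iff.2 hy
  have hψ := lg_abs D (y, v)
  have h03 : 0 ≤ 2 * C₀ * C₃ := by positivity
  refine ⟨?_, ?_, ?_⟩
  · rw [abs_mul]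
    refine (mul_le_of_le_one_left (abs_nonneg _) hψ).trans ((h₀ y v hy hv).trans ?_)
    exact div_le_div_of_nonneg_right (by linarith) (by positivity)
  · rw [lg_fderiv_mul hk D (q := (y, v)) hy]
    have a1 : |lgψ D (y, v) * fderiv ℝ k (y, v) (w, 0)| ≤ C₁ * ‖w‖ / ‖y‖ ^ 3 := by
      rw [abs_mul]
      exact (mul_le_of_le_one_left (abs_nonneg _) hψ).trans (h₁ y v w hy hv)
    have a2 : |deriv chi (D * ‖y‖) * (D * ⟪nn y, w⟫)| ≤ C₃ * (2 / ‖y‖ * ‖w‖) := by
      by_cases h : 2 ≤ D * ‖y‖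
      · rw [deriv_chi_zero (Or.inr h), zero_mul, abs_zero]
        positivity
      · rw [abs_mul, abs_mul, abs_of_pos hD]
        refine mul_le_mul (h₃ _) (mul_le_mul ?_ ?_ (abs_nonneg _) (by positivity))
          (by positivity) hC₃
        · rw [le_div_iff₀ hr]; linarith
        · refine (abs_real_inner_le_norm _ _).trans ?_
          rw [norm_nn hy, one_mul]
    have a3 : |k (y, v) * (deriv chi (D * ‖y‖) * (D * ⟪nn y, w⟫))| ≤
        2 * C₀ * C₃ * ‖w‖ / ‖y‖ ^ 3 := by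
      rw [abs_mul]
      refine (mul_le_mul (h₀ y v hy hv) a2 (abs_nonneg _) (by positivity)).trans (le_of_eq ?_)
      field_simp
    refine (abs_sub _ _).trans ((add_le_add a1 a3).trans ?_)
    rw [← add_div, ← add_mul]
    exact div_le_div_of_nonneg_right
      (mul_le_mul_of_nonneg_right (by linarith) (norm_nonneg _)) (by positivity)
  · rw [lg_fderiv_mul hk D (q := (y, v)) hy, inner_zero_right, mul_zero, mul_zero, mul_zero,
      sub_zero, abs_mul]
    refine (mul_le_of_le_one_left (abs_nonneg _) hψ).trans ((h₂ y v w hy hv).trans ?_)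
    exact div_le_div_of_nonneg_right
      (mul_le_mul_of_nonneg_right (by linarith) (norm_nonneg _)) (by positivity)

theorem lg_kerB {k : Ph → ℝ} (hk : Ker 2 k) {D : ℝ} (hD : 0 < D) :
    KerB fun q => lgψ D q * k q := by
  refine ⟨fun q hq => ?_, fun R => ?_⟩
  · have hq' : q.1 ≠ 0 := hq.1
    exact (((lg_contDiffAt D hq').mul (hk.contDiffAt hq')).of_le (by simp)).contDiffWithinAt
  obtain ⟨C, hC, h⟩ := lg_cut hk R
  refine ⟨C * D, fun y v u hy _ hv => ?_⟩
  have hr : 0 < ‖y‖ := norm_pos_iff.2 hy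
  by_cases h1 : D * ‖y‖ ≤ 1
  · rw [lg_fderiv_zero hk (q := (y, v)) hy h1, lg_fderiv_zero hk (q := (y, v)) hy h1]
    beta_reduce
    rw [lg_zero (q := (y, v)) h1, zero_mul, abs_zero]
    exact ⟨by positivity, by positivity, by positivity⟩
  · have h2 : 1 ≤ D * ‖y‖ := (not_le.1 h1).le
    obtain ⟨a1, a2, a3⟩ := h D y v u hD hy hv
    refine ⟨a1.trans ?_, a2.trans ?_, a3.trans ?_⟩
    · rw [div_le_div_iff₀ (by positivity) hr]
      calc C * ‖y‖ = C * ‖y‖ * 1 := (mul_one _).symm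
        _ ≤ C * ‖y‖ * (D * ‖y‖) := mul_le_mul_of_nonneg_left h2 (by positivity)
        _ = _ := by ring
    · rw [div_le_div_iff₀ (by positivity) (by positivity)]
      calc C * ‖u‖ * ‖y‖ ^ 2 = C * ‖u‖ * ‖y‖ ^ 2 * 1 := (mul_one _).symm
        _ ≤ C * ‖u‖ * ‖y‖ ^ 2 * (D * ‖y‖) := mul_le_mul_of_nonneg_left h2 (by positivity)
        _ = _ := by ring
    · rw [div_le_div_iff₀ (by positivity) hr]
      calc C * ‖u‖ * ‖y‖ = C * ‖u‖ * ‖y‖ * 1 := (mul_one _).symm
        _ ≤ C * ‖u‖ * ‖y‖ * (D * ‖y‖) := mul_le_mul_of_nonneg_left h2 (by positivity)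
        _ = _ := by ring

theorem lg_gsC (b : Ph → ℝ) (D τ : ℝ) (u : R3) :
    gsC (fun q => lgψ D q * b q) τ u = fun q => lgψ D q * gsC b τ u q := by
  funext q
  simp only [gsC]
  ring

theorem lg_time {T : ℝ} {p : ST} (hp : p ∈ slab R3 T) {q : Ph} (hq : q ∈ cyl p.1) :
    (cone p q).1 ∈ Icc 0 p.1 :=
  ⟨(cone_mem hp hq).1.1, sub_le_self _ (norm_nonneg _)⟩

theorem lg_cone (p : ST) : Continuous (cone p) :=
  continuous_cone.comp (continuous_const.prodMk continuous_id)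

/-- integrability against kernels of order `1/r²` -/
theorem lg_int {k : Ph → ℝ} (hk : ContinuousOn k ({0}ᶜ ×ˢ univ)) {T P C D : ℝ} {p : ST}
    (hb : ∀ y v : R3, y ≠ 0 → ‖v‖ ≤ P → |k (y, v)| ≤ C / ‖y‖ ^ 2) (hC : 0 ≤ C) {g : TP → ℝ}
    (hg : Continuous g) (vg : VS (Icc 0 T) P g) (hp : p ∈ slab R3 T)
    (hD : ∀ r : TP, r.1 ∈ Icc 0 p.1 → |g r| ≤ D) :
    IntegrableOn (fun q => k q * g (cone p q)) (cyl p.1) := by
  have hm : AEStronglyMeasurable k volume := by
    have h1 := hk.aestronglyMeasurable (μ := (volume : Measure Ph)) isOpen_off.measurableSet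
    rwa [Measure.restrict_eq_self_of_ae_mem] at h1
    filter_upwards [ae_ne_zero] with q hq
    exact ⟨hq, mem_univ _⟩
  have hs : ∀ q ∈ cyl p.1, q.1 ≠ 0 → P < ‖q.2‖ → k q * g (cone p q) = 0 := by
    intro q hq _ hv
    have : g (cone p q) = 0 := by
      by_contra h
      exact not_lt.2 (vg _ (cone_mem hp hq).1 h) hv
    rw [this, mul_zero]
  refine cyl_int (C := C * D) (P := P)
    (hm.mul (hg.comp (lg_cone p)).aestronglyMeasurable).restrict (fun q hq hy => ?_) hs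
  have hD0 : 0 ≤ D := (abs_nonneg _).trans (hD _ (lg_time hp hq))
  by_cases hv : P < ‖q.2‖
  · rw [hs q hq hy hv, abs_zero]
    positivity
  · rw [abs_mul]
    refine (mul_le_mul (hb q.1 q.2 hy (not_lt.1 hv)) (hD _ (lg_time hp hq)) (abs_nonneg _)
      (by positivity)).trans (le_of_eq ?_)
    ring

theorem lg_integral {α β δ t : ℝ} (hδ : 0 < δ) (ht : 0 ≤ t) :
    IntegrableOn (fun r : ℝ => α / (r + δ) + β) (Ioo 0 t) ∧
      ∫ r in Ioo 0 t, (α / (r + δ) + β) = α * (Real.log (t + δ) - Real.log δ) + β * t := by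
  have hc : ContinuousOn (fun r : ℝ => α / (r + δ) + β) (Icc 0 t) :=
    (continuousOn_const.div (continuousOn_id.add continuousOn_const)
      fun r hr => (add_pos_of_nonneg_of_pos hr.1 hδ).ne').add continuousOn_const
  refine ⟨hc.integrableOn_Icc.mono_set Ioo_subset_Icc_self, ?_⟩
  rw [← integral_Ioc_eq_integral_Ioo, ← intervalIntegral.integral_of_le ht,
    intervalIntegral.integral_eq_sub_of_hasDerivAt
      (f := fun r : ℝ => α * Real.log (r + δ) + β * r)]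
  · simp only [zero_add, mul_zero, add_zero]
    ring
  · intro r hr
    rw [uIcc_of_le ht] at hr
    have h0 : r + δ ≠ 0 := by have := hr.1; positivity
    have h1 := ((((hasDerivAt_id r).add_const δ).log h0).const_mul α).add
      ((hasDerivAt_id r).const_mul β)
    refine h1.congr_deriv ?_
    simp only [id]
    ring
  · exact (hc.mono (by rw [uIcc_of_le ht])).intervalIntegrable

/-- the part of the integral near the vertex -/
theorem lg_near {b : Ph → ℝ} {T P C D : ℝ} {p : ST}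
    (hb : ∀ y v : R3, y ≠ 0 → ‖v‖ ≤ P → |b (y, v)| ≤ C / ‖y‖ ^ 2) (hC : 0 ≤ C) {g : TP → ℝ}
    (vg : VS (Icc 0 T) P g) (hp : p ∈ slab R3 T) (hD0 : 0 < D)
    (hD : ∀ r : TP, r.1 ∈ Icc 0 p.1 → |g r| ≤ D) :
    |∫ q in cyl p.1, chi (D * ‖q.1‖) * b q * g (cone p q)| ≤ 4 * π * vB P * (2 * C) := by
  have hi : Integrable ((Icc (0 : ℝ) (2 / D)).indicator fun _ => C * D) :=
    IntegrableOn.integrable_indicator (integrableOn_const (by simp)) measurableSet_Icc
  have hnn : ∀ r : ℝ, 0 ≤ (Icc (0 : ℝ) (2 / D)).indicator (fun _ => C * D) r :=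
    fun r => indicator_nonneg (fun _ _ => by positivity) r
  refine (cyl_bound (P := P) hi.integrableOn (fun q hq hy hv => ?_) (fun r _ => hnn r)
    fun q hq _ hv => ?_).trans (mul_le_mul_of_nonneg_left ?_ ?_)
  · by_cases h : ‖q.1‖ ∈ Icc (0 : ℝ) (2 / D)
    · rw [indicator_of_mem h, abs_mul, abs_mul, abs_of_nonneg (chi_nonneg _)]
      have a1 : chi (D * ‖q.1‖) * |b q| ≤ C / ‖q.1‖ ^ 2 :=
        (mul_le_of_le_one_left (abs_nonneg _) (chi_le_one _)).trans (hb q.1 q.2 hy hv)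
      refine (mul_le_mul a1 (hD _ (lg_time hp hq)) (abs_nonneg _) (by positivity)).trans
        (le_of_eq ?_)
      ring
    · have h2 : 2 ≤ D * ‖q.1‖ := by
        have : 2 / D < ‖q.1‖ := by
          by_contra h'
          exact h ⟨norm_nonneg _, not_lt.1 h'⟩
        rw [div_lt_iff₀ hD0] at this
        linarith
      rw [chi_zero h2, indicator_of_notMem h]
      simp
  · have : g (cone p q) = 0 := by
      by_contra h
      exact not_lt.2 (vg _ (cone_mem hp hq).1 h) hv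
    rw [this, mul_zero]
  · refine (setIntegral_le_integral hi (Eventually.of_forall hnn)).trans (le_of_eq ?_)
    rw [integral_indicator measurableSet_Icc, setIntegral_const, Real.volume_real_Icc_of_le
      (by positivity), smul_eq_mul]
    field_simp
    ring
  · have := vB_nonneg P
    positivity

/-- the part of the integral away from the vertex -/
theorem lg_far {b : Ph → ℝ} (hb : Ker 2 b) (u : R3) {T M : ℝ} (P : ℝ) (hT : 0 ≤ T) (hM : 0 ≤ M) :
    ∃ C, 0 ≤ C ∧ ∀ (K : ST → Ph) (f : TP → ℝ) (D : ℝ) (p : ST), ContDiff ℝ ∞ K →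
      ContDiff ℝ ∞ f → VS (Icc 0 T) P f → (∀ r ∈ oslab Ph T, Vlasov K f r) → p ∈ slab R3 T →
      1 ≤ D → (∀ r ∈ slab Ph T, |f r| ≤ M) → (∀ r ∈ slab R3 T, ‖K r‖ ≤ M) →
      |Ret (fun q => lgψ D q * b q) (0, u, 0) f p| ≤ C * (1 + Real.log D) := by
  have hc := hb.gsC 0 u
  obtain ⟨C₁, hC₁, h₁⟩ := lg_cut hb P
  obtain ⟨C₂, hC₂, h₂⟩ := lg_cut hc P
  have hvB := vB_nonneg P
  set α : ℝ := 2 * ((C₁ * ‖u‖ + C₂) * M) with hα
  set β : ℝ := C₂ * (M * (2 * M)) with hβ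
  have hα0 : 0 ≤ α := by positivity
  have hβ0 : 0 ≤ β := by positivity
  refine ⟨4 * π * C₂ * M * vB P + 4 * π * vB P * (α * (T + 1) + β * T), by positivity,
    fun K f D p hK hf vf hv hp hD hfM hKM => ?_⟩
  have hD0 : 0 < D := by linarith
  have hδ : 0 < D⁻¹ := inv_pos.2 hD0
  have ht : 0 ≤ p.1 := hp.1.1
  have hL : 0 ≤ Real.log D := Real.log_nonneg hD
  have h1 := gs_one (trans_of_vlasov (hf.of_le (by simp)).contDiffOn (hK.of_le (by simp)).contDiffOn
    vf hv) (lg_kerB hb hD0) 0 u hp (C₀ := C₂) (A₀ := M) hC₂ (fun y v hy _ hvP => ?_)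
    fun z => hfM _ ⟨⟨le_rfl, hT⟩, mem_univ _⟩
  swap
  · have hr : 0 < ‖y‖ := norm_pos_iff.2 hy
    rw [lg_gsC, zero_mul, sub_zero, ← le_div_iff₀ (by positivity)]
    exact (h₂ D y v 0 hD0 hy hvP).1
  obtain ⟨hi, he⟩ := lg_integral (α := α) (β := β) hδ ht
  have h2 := cyl_bound (P := P) (t := p.1)
    (k := fun q => gsT (fun q => lgψ D q * b q) 0 u q * f (cone p q) +
      fderiv ℝ (gsC (fun q => lgψ D q * b q) 0 u) q (0, gF f K (cone p q)) +
      gsC (fun q => lgψ D q * b q) 0 u q * 0) hi (fun q hq hy hvP => ?_)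
      (fun r hr => by have := hr.1; positivity) (fun q hq _ hvP => ?_)
  · rw [he] at h2
    have h3 : Real.log (p.1 + D⁻¹) - Real.log D⁻¹ ≤ T + Real.log D := by
      rw [Real.log_inv]
      have a1 := Real.log_le_sub_one_of_pos (show 0 < p.1 + D⁻¹ by positivity)
      have a2 : D⁻¹ ≤ 1 := inv_le_one_of_one_le₀ hD
      have a3 := hp.1.2
      linarith
    have h4 : α * (Real.log (p.1 + D⁻¹) - Real.log D⁻¹) + β * p.1 ≤
        (α * (T + 1) + β * T) * (1 + Real.log D) := by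
      have a1 := mul_le_mul_of_nonneg_left h3 hα0
      have a2 := mul_le_mul_of_nonneg_left hp.1.2 hβ0
      nlinarith [mul_nonneg hα0 hL, mul_nonneg (mul_nonneg hα0 hT) hL,
        mul_nonneg (mul_nonneg hβ0 hT) hL]
    have h5 := mul_le_mul_of_nonneg_left h4 (show 0 ≤ 4 * π * vB P by positivity)
    have h6 : 4 * π * C₂ * M * vB P ≤ 4 * π * C₂ * M * vB P * (1 + Real.log D) :=
      le_mul_of_one_le_right (by positivity) (by linarith)
    have h7 := abs_sub_abs_le_abs_sub (Ret (fun q => lgψ D q * b q) (0, u, 0) f p)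
      (∫ q in cyl p.1, (gsT (fun q => lgψ D q * b q) 0 u q * f (cone p q) +
      fderiv ℝ (gsC (fun q => lgψ D q * b q) 0 u) q (0, gF f K (cone p q)) +
      gsC (fun q => lgψ D q * b q) 0 u q * 0))
    linarith
  · obtain ⟨y, v⟩ := q
    have hy' : y ≠ 0 := hy
    have hr : 0 < ‖y‖ := norm_pos_iff.2 hy'
    have hcm := cone_mem hp hq
    have hf1 := hfM _ hcm
    have hF : ‖gF f K (cone p (y, v))‖ ≤ M * (2 * M) := by
      rw [gF, norm_smul, Real.norm_eq_abs]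
      refine mul_le_mul hf1 ((norm_force_le _ _).trans ?_) (norm_nonneg _) hM
      exact mul_le_mul_of_nonneg_left (hKM _ ⟨hcm.1, mem_univ _⟩) (by norm_num)
    have a1 : |fderiv ℝ (gsC (fun q => lgψ D q * b q) 0 u) (y, v) (0, gF f K (cone p (y, v)))| ≤
        β / ‖y‖ ^ 2 := by
      rw [lg_gsC]
      refine (h₂ D y v _ hD0 hy' hvP).2.2.trans ?_
      exact div_le_div_of_nonneg_right (mul_le_mul_of_nonneg_left hF hC₂) (by positivity)
    have a2 : |gsT (fun q => lgψ D q * b q) 0 u (y, v) * f (cone p (y, v))| ≤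
        α / (‖y‖ + D⁻¹) / ‖y‖ ^ 2 := by
      rw [gsT, lg_gsC]
      by_cases h : D * ‖y‖ ≤ 1
      · rw [lg_fderiv_zero hb (q := (y, v)) hy' h, lg_fderiv_zero hc (q := (y, v)) hy' h, sub_zero,
          zero_mul, abs_zero]
        positivity
      · have b1 := (h₁ D y v u hD0 hy' hvP).2.1
        have b2 := (h₂ D y v (relVel v) hD0 hy' hvP).2.1
        have b3 : C₂ * ‖relVel v‖ / ‖y‖ ^ 3 ≤ C₂ / ‖y‖ ^ 3 :=
          div_le_div_of_nonneg_right (mul_le_of_le_one_right hC₂ (norm_relVel_lt v).le)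
            (by positivity)
        have b4 := (abs_sub _ _).trans (add_le_add b1 (b2.trans b3))
        rw [abs_mul]
        refine (mul_le_mul b4 hf1 (abs_nonneg _) (by positivity)).trans ?_
        have b5 : D⁻¹ ≤ ‖y‖ := by
          rw [inv_le_iff_one_le_mul₀' hD0]
          exact (not_le.1 h).le
        have b6 : α / (‖y‖ + ‖y‖) ≤ α / (‖y‖ + D⁻¹) :=
          div_le_div_of_nonneg_left hα0 (by positivity) (by linarith)
        refine le_trans (le_of_eq ?_) (div_le_div_of_nonneg_right b6 (by positivity))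
        rw [hα]
        field_simp
        ring
    rw [mul_zero, add_zero, add_div]
    exact (abs_add_le _ _).trans (add_le_add a2 a1)
  · have h0 : f (cone p q) = 0 := by
      by_contra h
      exact not_lt.2 (vf _ (cone_mem hp hq).1 h) hvP
    have h0' : ((0 : R3), gF f K (cone p q)) = (0 : Ph) := by
      rw [gF, h0, zero_smul]; rfl
    rw [h0, h0', map_zero]
    ring

end Crest.Agent.R106
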