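import Crest.Agent.R106.GSB
import Crest.Agent.R106.TransL
import Crest.Agent.R106.LogAux

/-!
# Row 106: the logarithmic estimate

Let `F = force`, `g = pd (0,u,0) f`, `c = gsC a τ u₀`.  `gs_one` with `trans_pdX … [u]` (boundary term `≤ C M`).
* `∫ fderiv c (0, pd (0,u,0) (gF f K)) = ∑_j Ret a_j (0, u, 0) (f F_j)` with `a_j = ∂_{v_j} c ∈ Ker 1`; `gs_bound` with
  `trans_mul` (`m = F_j`): `|f F_j| ≤ 2M²`, `‖H‖ ≤ 4M³`, `|s| ≤ C (1 + A exp(lτ))`.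
* `∫ b g(cone)` with `b = gsT a τ u₀ ∈ Ker 2`: split with `χ(r/δ)`, `δ = 1/D`, `χ = 1` on `r ≤ 1`, `0` on `r ≥ 2`
  (smooth in `y ≠ 0`).  Near part `≤ C D · 2δ` (`cyl_bound`).  Far part `Ret b_δ (0, u, 0) f`,
  `b_δ = (1 - χ(r/δ)) b ∈ KerB`; `gs_one` with `trans_of_vlasov`: `gsC b_δ 0 u = (1 - χ) gsC b 0 u` is `≤ C/r²` with
  its `v`-derivative, and `|gsT b_δ 0 u| ≤ C 1[r ≥ δ]/r³` with `C` independent of `δ`;
  `∫_δ^T dr/r ≤ log (1 + T) + log D`.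

-/

set_option autoImplicit false

noncomputable section

namespace Crest.Agent.R106

open MeasureTheory Set Metric Real Filter Topology
open scoped ContDiff ENNReal RealInnerProductSpace Classical
open Crest.AnalysisR.VecCalc3 Crest.AnalysisR.PDE.RVM

theorem lg_contDiff_F {K : ST → Ph} (hK : ContDiff ℝ ∞ K) :
    ContDiff ℝ ∞ fun r : TP => force (K (r.1, r.2.1)) r.2.2 :=
  contDiff_force.comp ((hK.comp (contDiff_fst.prodMk contDiff_snd.fst)).prodMk contDiff_snd.snd)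

theorem lg_contDiff_Fj {K : ST → Ph} (hK : ContDiff ℝ ∞ K) (j : Fin 3) :
    ContDiff ℝ ∞ fun r : TP => force (K (r.1, r.2.1)) r.2.2 j :=
  (EuclideanSpace.proj j : R3 →L[ℝ] ℝ).contDiff.comp (lg_contDiff_F hK)

theorem lg_dF {K : ST → Ph} (hK : ContDiff ℝ ∞ K) (r : TP) (τ : ℝ) (w z : R3) :
    fderiv ℝ (fun r : TP => force (K (r.1, r.2.1)) r.2.2) r (τ, w, z) =
      force (fderiv ℝ K (r.1, r.2.1) (τ, w)) r.2.2 +
        cross3 (fderiv ℝ relVel r.2.2 z) (K (r.1, r.2.1)).2 := by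
  obtain ⟨L, hL⟩ := exists_crossL
  have hπ : HasFDerivAt (fun r : TP => ((r.1, r.2.1) : ST))
      ((ContinuousLinearMap.fst ℝ ℝ Ph).prod
        ((ContinuousLinearMap.fst ℝ R3 R3).comp (ContinuousLinearMap.snd ℝ ℝ Ph))) r :=
    hasFDerivAt_fst.prodMk hasFDerivAt_snd.fst
  have h1 := (hK.differentiable (by simp) (r.1, r.2.1)).hasFDerivAt.comp r hπ
  have h2 : HasFDerivAt (fun r : TP => r.2.2)
      ((ContinuousLinearMap.snd ℝ R3 R3).comp (ContinuousLinearMap.snd ℝ ℝ Ph)) r :=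
    hasFDerivAt_snd.snd
  have h3 := (contDiff_relVel.differentiable (by simp) r.2.2).hasFDerivAt.comp r h2
  have h4 := h1.fst.add (L.hasFDerivAt_of_bilinear h3 h1.snd)
  have e : (fun r : TP => force (K (r.1, r.2.1)) r.2.2) =
      fun r : TP => (K (r.1, r.2.1)).1 + L (relVel r.2.2) (K (r.1, r.2.1)).2 := by
    funext r
    rw [force, hL]
  have h5 : fderiv ℝ (fun r : TP => (K (r.1, r.2.1)).1 + L (relVel r.2.2) (K (r.1, r.2.1)).2) r = _ :=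
    h4.fderiv
  rw [e, h5, force, ← hL, ← hL]
  simp [add_assoc]

theorem lg_dFj {K : ST → Ph} (hK : ContDiff ℝ ∞ K) (j : Fin 3) (r : TP) :
    |fderiv ℝ (fun r : TP => force (K (r.1, r.2.1)) r.2.2 j) r (1, vf K r)| ≤
      2 * ‖fderiv ℝ K (r.1, r.2.1)‖ + 2 * ‖K (r.1, r.2.1)‖ * ‖K (r.1, r.2.1)‖ := by
  have h1 := (EuclideanSpace.proj j : R3 →L[ℝ] ℝ).hasFDerivAt.comp r
    ((lg_contDiff_F hK).differentiable (by simp) r).hasFDerivAt
  have h2 : fderiv ℝ (fun r : TP => force (K (r.1, r.2.1)) r.2.2 j) r = _ := h1.fderiv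
  have h3 : fderiv ℝ (fun r : TP => force (K (r.1, r.2.1)) r.2.2 j) r (1, vf K r) =
      (fderiv ℝ (fun r : TP => force (K (r.1, r.2.1)) r.2.2) r (1, vf K r)) j := by
    rw [h2]; rfl
  rw [h3, vf, lg_dF hK]
  refine (abs_apply_le _ j).trans ((norm_add_le _ _).trans (add_le_add ?_ ?_))
  · refine (norm_force_le _ _).trans (mul_le_mul_of_nonneg_left ?_ (by norm_num))
    refine (ContinuousLinearMap.le_opNorm _ _).trans (mul_le_of_le_one_right (norm_nonneg _) ?_)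
    rw [Prod.norm_def]
    exact max_le (by simp) (norm_relVel_lt _).le
  · refine (norm_cross3_le _ _).trans (mul_le_mul ?_ (norm_snd_le _) (norm_nonneg _) (by positivity))
    refine (norm_fderiv_relVel_le _ _).trans ((div_le_self (norm_nonneg _) (one_le_pp _)).trans ?_)
    exact norm_force_le _ _

theorem lg_dv_sum (c : Ph → ℝ) (q : Ph) (w : R3) :
    fderiv ℝ c q (0, w) = ∑ j, fderiv ℝ c q (0, ee j) * w j := by
  have e : ((0 : R3), w) = ∑ j, w j • ((0 : R3), ee j) := by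
    refine Prod.ext ?_ ?_
    · simp [Prod.fst_sum]
    · simp only [Prod.snd_sum, Prod.smul_mk]
      exact (sum_ee w).symm
  rw [e, map_sum]
  exact Finset.sum_congr rfl fun j _ => by rw [map_smul, smul_eq_mul, mul_comm]

/-- the term with the derivative of the force -/
theorem lg_force {c : Ph → ℝ} (hc : Ker 1 c) (u : R3) (T P : ℝ) {M : ℝ} (hM : 0 ≤ M) :
    ∃ C, 0 ≤ C ∧ ∀ (K : ST → Ph) (f : TP → ℝ) (A l : ℝ) (p : ST), ContDiff ℝ ∞ K →
      ContDiff ℝ ∞ f → VS (Icc 0 T) P f → (∀ r ∈ oslab Ph T, Vlasov K f r) → p ∈ slab R3 T →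
      0 ≤ A → 1 ≤ l → (∀ r ∈ slab Ph T, |f r| ≤ M) → (∀ r ∈ slab R3 T, ‖K r‖ ≤ M) →
      (∀ r ∈ slab R3 T, ‖fderiv ℝ K r‖ ≤ A * exp (l * r.1)) →
      |∫ q in cyl p.1, fderiv ℝ c q (0, pd (0, u, 0) (gF f K) (cone p q))| ≤
        C * ((1 + A) * exp (l * p.1) / l) := by
  choose C hC h using fun j : Fin 3 => gs_bound (hc.dv (ee j)) 0 u T P
  set N : ℝ := 2 * M + 2 * M ^ 2 + 4 * M ^ 3 with hN
  have hN0 : 0 ≤ N := by positivity
  refine ⟨(∑ j, C j) * N, mul_nonneg (Finset.sum_nonneg fun j _ => hC j) hN0,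
    fun K f A l p hK hf vf hv hp hA hl hfM hKM hdK => ?_⟩
  have hl0 : 0 < l := by linarith
  have hG : ContDiff ℝ ∞ (gF f K) := contDiff_gF hf hK
  have hT := fun j => trans_mul hf hK vf hv (lg_contDiff_Fj hK j)
  have e1 : ∀ q : Ph, fderiv ℝ c q (0, pd (0, u, 0) (gF f K) (cone p q)) =
      ∑ j, fderiv ℝ c q (0, ee j) * fderiv ℝ
        (fun r : TP => f r * force (K (r.1, r.2.1)) r.2.2 j) (cone p q) (0, u, 0) := by
    intro q
    rw [lg_dv_sum]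
    refine Finset.sum_congr rfl fun j _ => ?_
    have h1 := (EuclideanSpace.proj j : R3 →L[ℝ] ℝ).hasFDerivAt.comp (cone p q)
      (hG.differentiable (by simp) (cone p q)).hasFDerivAt
    have h2 : fderiv ℝ (fun r : TP => f r * force (K (r.1, r.2.1)) r.2.2 j) (cone p q) = _ :=
      h1.fderiv
    rw [h2]; rfl
  simp only [e1]
  rw [integral_finset_sum _ fun j _ => (hc.dv (ee j)).kerB.int_ret (hT j).hg (hT j).vg
    (μ := fun _ => (0, u, 0)) measurable_const (fun _ => ⟨_, fun _ _ => le_rfl⟩) hp]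
  refine (Finset.abs_sum_le_sum_abs _ _).trans ?_
  rw [Finset.sum_mul, Finset.sum_mul]
  refine Finset.sum_le_sum fun j _ => ?_
  refine (h j T _ _ _ (N * (1 + A)) l p le_rfl (hT j) hl0 hp fun r hr => ?_).trans
    (le_of_eq (by ring))
  have hr' : r.1 ∈ Icc 0 T := ⟨hr.1, hr.2.trans hp.1.2⟩
  have a1 := hfM r ⟨hr', mem_univ _⟩
  have a2 := hKM (r.1, r.2.1) ⟨hr', mem_univ _⟩
  have a3 := hdK (r.1, r.2.1) ⟨hr', mem_univ _⟩
  have a4 : ‖force (K (r.1, r.2.1)) r.2.2‖ ≤ 2 * M :=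
    (norm_force_le _ _).trans (mul_le_mul_of_nonneg_left a2 (by norm_num))
  have a5 : |f r * force (K (r.1, r.2.1)) r.2.2 j| ≤ M * (2 * M) := by
    rw [abs_mul]
    exact mul_le_mul a1 ((abs_apply_le _ j).trans a4) (abs_nonneg _) hM
  have hE : 1 ≤ exp (l * r.1) := Real.one_le_exp (mul_nonneg hl0.le hr.1)
  have a6 : N ≤ N * (1 + A) * exp (l * r.1) :=
    (le_mul_of_one_le_right hN0 (by linarith)).trans (le_mul_of_one_le_right (by positivity) hE)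
  have hM2 : 0 ≤ M ^ 2 := by positivity
  have hM3 : 0 ≤ M ^ 3 := by positivity
  refine ⟨a5.trans (le_trans ?_ a6), ?_, ?_⟩
  · rw [hN]; nlinarith
  · rw [gF, norm_smul, Real.norm_eq_abs]
    refine (mul_le_mul a5 a4 (norm_nonneg _) (by positivity)).trans (le_trans ?_ a6)
    rw [hN]; nlinarith
  · rw [abs_mul]
    have b1 : 2 * ‖K (r.1, r.2.1)‖ * ‖K (r.1, r.2.1)‖ ≤ 2 * M * M :=
      mul_le_mul (mul_le_mul_of_nonneg_left a2 (by norm_num)) a2 (norm_nonneg _) (by positivity)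
    have b2 := (lg_dFj hK j r).trans
      (add_le_add (mul_le_mul_of_nonneg_left a3 (by norm_num)) b1)
    refine (mul_le_mul a1 b2 (abs_nonneg _) hM).trans ?_
    have b3 : 0 ≤ A * exp (l * r.1) := by positivity
    have b4 : 2 * M * (A * exp (l * r.1)) ≤ N * (A * exp (l * r.1)) :=
      mul_le_mul_of_nonneg_right (by rw [hN]; linarith) b3
    have b5 : 2 * M ^ 3 ≤ N * exp (l * r.1) :=
      le_trans (by rw [hN]; linarith) (le_mul_of_one_le_right hN0 hE)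
    calc M * (2 * (A * exp (l * r.1)) + 2 * M * M)
        = 2 * M * (A * exp (l * r.1)) + 2 * M ^ 3 := by ring
      _ ≤ N * (A * exp (l * r.1)) + N * exp (l * r.1) := add_le_add b4 b5
      _ = _ := by ring

theorem log_ret {a : Ph → ℝ} (ha : Ker 1 a) (τ : ℝ) (u₀ u : R3) (T P M : ℝ) :
    ∃ C, 0 ≤ C ∧ ∀ (K : ST → Ph) (f : TP → ℝ) (A l D : ℝ) (p : ST), ContDiff ℝ ∞ K →
      ContDiff ℝ ∞ f → VS (Icc 0 T) P f → (∀ r ∈ oslab Ph T, Vlasov K f r) → p ∈ slab R3 T →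
      0 ≤ A → 1 ≤ l → 1 ≤ D → (∀ r ∈ slab Ph T, |f r| ≤ M) → (∀ r ∈ slab R3 T, ‖K r‖ ≤ M) →
      (∀ z, |pd (0, u, 0) f (0, z)| ≤ M) →
      (∀ r ∈ slab R3 T, ‖fderiv ℝ K r‖ ≤ A * exp (l * r.1)) →
      (∀ r : TP, r.1 ∈ Icc 0 p.1 → |pd (0, u, 0) f r| ≤ D) →
      |Ret a (τ, u₀, 0) (pd (0, u, 0) f) p| ≤ C * (1 + Real.log D + (1 + A) * exp (l * p.1) / l) := by
  by_cases hMT : 0 ≤ M ∧ 0 ≤ T
  swap
  · refine ⟨0, le_rfl, fun K f A l D p _ _ _ _ hp _ _ _ _ _ h0 _ _ => ?_⟩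
    exact absurd ⟨(abs_nonneg _).trans (h0 0), hp.1.1.trans hp.1.2⟩ hMT
  obtain ⟨hM, hT⟩ := hMT
  have hc := ha.gsC τ u₀
  have hb : Ker 2 (gsT a τ u₀) := ha.gsT τ u₀
  have hd : Ker 1 fun q => gsC a τ u₀ q - τ * a q := hc.sub ((ker_const τ).mul ha)
  obtain ⟨C₀, hC₀, h₀⟩ := hd.bound P
  obtain ⟨C₁, hC₁, h₁⟩ := hb.bound P
  obtain ⟨C₂, hC₂, h₂⟩ := lg_far hb u P hT hM
  obtain ⟨C₃, hC₃, h₃⟩ := lg_force hc u T P hM
  have hvB := vB_nonneg P
  set B₀ : ℝ := 4 * π * (C₀ * T) * M * vB P with hB₀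
  set B₁ : ℝ := 4 * π * vB P * (2 * C₁) with hB₁
  have hB₀0 : 0 ≤ B₀ := by positivity
  have hB₁0 : 0 ≤ B₁ := by positivity
  refine ⟨B₀ + B₁ + C₂ + C₃, by positivity,
    fun K f A l D p hK hf vf hv hp hA hl hD hfM hKM h0 hdK hgD => ?_⟩
  have hD0 : 0 < D := by linarith
  have hTr : Trans T P (pd (0, u, 0) f) (pd (0, u, 0) (gF f K)) fun _ => 0 :=
    trans_pdX hf hK vf hv [u]
  have hg : Continuous (pd ((0 : ℝ), u, (0 : R3)) f) := (contDiff_pd hf _).continuous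
  have e0 := gs_one hTr ha.kerB τ u₀ hp (C₀ := C₀ * T) (A₀ := M) (by positivity)
    (fun y v hy hyp hvP => ?_) h0
  swap
  · have hr : 0 < ‖y‖ := norm_pos_iff.2 hy
    have a1 := h₀ y v hy hvP
    rw [pow_one, le_div_iff₀ hr] at a1
    calc |gsC a τ u₀ (y, v) - τ * a (y, v)| * ‖y‖ ^ 2
        = |gsC a τ u₀ (y, v) - τ * a (y, v)| * ‖y‖ * ‖y‖ := by ring
      _ ≤ C₀ * T := mul_le_mul a1 (hyp.trans hp.1.2) hr.le hC₀
  have i1 : IntegrableOn (fun q => gsT a τ u₀ q * pd (0, u, 0) f (cone p q)) (cyl p.1) :=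
    lg_int hb.1.continuousOn h₁ hC₁ hg hTr.vg hp hgD
  have i2 := hc.kerB.int_dv hTr.hH.continuousOn hTr.vH hp
  have i3 : IntegrableOn (fun q => lgψ D q * gsT a τ u₀ q * pd (0, u, 0) f (cone p q)) (cyl p.1) :=
    (lg_kerB hb hD0).int_mul hTr.hg.continuousOn hTr.vg hp
  have e1 : ∫ q in cyl p.1, (gsT a τ u₀ q * pd (0, u, 0) f (cone p q) +
      fderiv ℝ (gsC a τ u₀) q (0, pd (0, u, 0) (gF f K) (cone p q)) + gsC a τ u₀ q * 0) =
      (∫ q in cyl p.1, gsT a τ u₀ q * pd (0, u, 0) f (cone p q)) +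
        ∫ q in cyl p.1, fderiv ℝ (gsC a τ u₀) q (0, pd (0, u, 0) (gF f K) (cone p q)) := by
    simp only [mul_zero, add_zero]
    exact integral_add i1 i2
  have e2 : ∫ q in cyl p.1, chi (D * ‖q.1‖) * gsT a τ u₀ q * pd (0, u, 0) f (cone p q) =
      (∫ q in cyl p.1, gsT a τ u₀ q * pd (0, u, 0) f (cone p q)) -
        Ret (fun q => lgψ D q * gsT a τ u₀ q) (0, u, 0) f p := by
    refine Eq.trans ?_ (integral_sub i1 i3)
    refine integral_congr_ae (Eventually.of_forall fun q => ?_)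
    simp only [lgψ, pd]
    ring
  have b1 := lg_near h₁ hC₁ hTr.vg hp hD0 hgD
  have b2 := h₂ K f D p hK hf vf hv hp hD hfM hKM
  have b3 := h₃ K f A l p hK hf vf hv hp hA hl hfM hKM hdK
  rw [e1, ← hB₀] at e0
  rw [e2, ← hB₁] at b1
  have hL : 0 ≤ Real.log D := Real.log_nonneg hD
  have hE : 0 ≤ (1 + A) * exp (l * p.1) / l := by positivity
  generalize (1 + A) * exp (l * p.1) / l = E at *
  generalize Real.log D = L at *
  have c1 : B₀ + B₁ + C₂ * (1 + L) + C₃ * E ≤ (B₀ + B₁ + C₂ + C₃) * (1 + L + E) := by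
    nlinarith [mul_nonneg hB₀0 hL, mul_nonneg hB₀0 hE, mul_nonneg hB₁0 hL, mul_nonneg hB₁0 hE,
      mul_nonneg hC₂ hE, mul_nonneg hC₃ hL]
  refine le_trans ?_ c1
  rw [abs_le] at e0 b1 b2 b3 ⊢
  constructor <;> linarith only [e0.1, e0.2, b1.1, b1.2, b2.1, b2.2, b3.1, b3.2]

theorem rep_log (u : R3) (T P M : ℝ) :
    ∃ C, 0 ≤ C ∧ ∀ (K Kd K' : ST → Ph) (f : TP → ℝ) (A l D : ℝ) (p : ST), ContDiff ℝ ∞ K →
      ContDiff ℝ ∞ f → VS (Icc 0 T) P f → (∀ r ∈ oslab Ph T, Vlasov K f r) → p ∈ slab R3 T →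
      0 ≤ A → 1 ≤ l → 1 ≤ D → (∀ r ∈ slab Ph T, |f r| ≤ M) → (∀ r ∈ slab R3 T, ‖K r‖ ≤ M) →
      (∀ z, |pd (0, u, 0) f (0, z)| ≤ M) →
      (∀ r ∈ slab R3 T, ‖fderiv ℝ K r‖ ≤ A * exp (l * r.1)) →
      (∀ r : TP, r.1 ∈ Icc 0 p.1 → |pd (0, u, 0) f r| ≤ D) → RepAt Kd K' (pd (0, u, 0) f) p →
      ‖K' p - Kd p‖ ≤ C * (1 + Real.log D + (1 + A) * exp (l * p.1) / l) := by
  choose C₀ hC₀ h₀ using fun i : Fin 3 => log_ret ker_k0 0 (ee i) u T P M
  choose C₁ hC₁ h₁ using fun i : Fin 3 => log_ret (ker_kv i) 1 0 u T P M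
  choose C₂ hC₂ h₂ using fun i j : Fin 3 => log_ret (ker_kv i) 0 (ee j) u T P M
  have s1 : 0 ≤ ∑ i, (C₀ i + C₁ i) := Finset.sum_nonneg fun i _ => add_nonneg (hC₀ i) (hC₁ i)
  have s2 : 0 ≤ ∑ i : Fin 3, (C₂ (i + 2) (i + 1) + C₂ (i + 1) (i + 2)) :=
    Finset.sum_nonneg fun i _ => add_nonneg (hC₂ _ _) (hC₂ _ _)
  refine ⟨∑ i, (C₀ i + C₁ i) + ∑ i : Fin 3, (C₂ (i + 2) (i + 1) + C₂ (i + 1) (i + 2)),
    add_nonneg s1 s2, fun K Kd K' f A l D p hK hf vf hv hp hA hl hD hfM hKM h0 hdK hgD hrep => ?_⟩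
  have hX : 0 ≤ 1 + Real.log D + (1 + A) * exp (l * p.1) / l := by
    have := Real.log_nonneg hD
    have : 0 < l := by linarith
    positivity
  have hdiv : ∀ x : ℝ, |x / (4 * π)| ≤ |x| := fun x => by
    rw [abs_div, abs_of_pos (show 0 < 4 * π by positivity)]
    exact div_le_self (abs_nonneg _) (by linarith [Real.pi_gt_three])
  rw [Prod.norm_def, add_mul]
  refine max_le ?_ ?_
  · refine le_trans ?_ (le_add_of_nonneg_right (mul_nonneg s2 hX))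
    rw [Finset.sum_mul]
    refine (norm_le_sum _).trans (Finset.sum_le_sum fun i _ => ?_)
    rw [Prod.fst_sub, PiLp.sub_apply, hrep.1 i, sub_sub_cancel_left, abs_neg, add_mul]
    exact (hdiv _).trans ((abs_add_le _ _).trans (add_le_add
      (h₀ i K f A l D p hK hf vf hv hp hA hl hD hfM hKM h0 hdK hgD)
      (h₁ i K f A l D p hK hf vf hv hp hA hl hD hfM hKM h0 hdK hgD)))
  · refine le_trans ?_ (le_add_of_nonneg_left (mul_nonneg s1 hX))
    rw [Finset.sum_mul]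
    refine (norm_le_sum _).trans (Finset.sum_le_sum fun i _ => ?_)
    rw [Prod.snd_sub, PiLp.sub_apply, hrep.2 i, add_sub_cancel_left, add_mul]
    exact (hdiv _).trans ((abs_sub _ _).trans (add_le_add
      (h₂ _ _ K f A l D p hK hf vf hv hp hA hl hD hfM hKM h0 hdK hgD)
      (h₂ _ _ K f A l D p hK hf vf hv hp hA hl hD hfM hKM h0 hdK hgD)))

end Crest.Agent.R106
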