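import Crest.Agent.R106.VSolEx
import Crest.Agent.R106.Calc2

/-!
# Row 106: derivative bounds for the linear Vlasov equation

`tr_zero`: along `s ↦ (s, Z s z)`, FTC / mean value inequality, `surj`.
`tr_gen`: put `G (t, z) = iteratedFDeriv k (f (t, ·)) z` (or work with `g = pdl (L.map (0, ·)) f` for lists `L` of
unit vectors and `DB_of_pdl`).  Differentiating the equation, `fderiv g r (1, vf K r) = -[D^k(Df · b) - D^{k+1}f · b]`,
whose norm is at most `∑_{i=1}^k choose k i ‖D^i b‖ ‖D^{k-i+1} f‖` (induction on `L`, or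
`ContinuousLinearMap.norm_iteratedFDeriv_le_of_bilinear` style; it vanishes where `‖z‖ > P`), i.e.
`≤ k α(t) ‖D^k f‖ + β(t)`.  Let `N = sup_{slab} exp(-Φ t) ‖D^k f (t, z)‖ < ∞` (compact support),
`Φ t = 2k ∫_0^t α`; `tr_zero` with `ω = k α N exp Φ + β` gives `N ≤ N₀ + ∫ β + N/2`.
`tr_one`, `tr_succ`: `tr_gen` with `vf_iter_le`.

-/

set_option autoImplicit false

noncomputable section

namespace Crest.Agent.R106

open MeasureTheory Set Metric Real Filter Topology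
open scoped ContDiff ENNReal RealInnerProductSpace Classical
open Crest.AnalysisR.VecCalc3 Crest.AnalysisR.PDE.RVM

variable {f₀ : Ph → ℝ} {K : ST → Ph} {f : TP → ℝ} {Z : ℝ → Ph → Ph}

theorem tr_zero (h : VSol f₀ K f Z) {g : TP → ℝ} (hg : ContDiff ℝ 1 g) {w : ℝ → ℝ}
    (hw : Continuous w) {t N₀ : ℝ} (ht : 0 ≤ t) (h0 : ∀ z, |g (0, z)| ≤ N₀)
    (hb : ∀ r : TP, r.1 ∈ Icc 0 t → |fderiv ℝ g r (1, vf K r)| ≤ w r.1) (z : Ph) :
    |g (t, z)| ≤ N₀ + ∫ τ in (0 : ℝ)..t, w τ := by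
  obtain ⟨z0, rfl⟩ := h.surj t z
  have hd : ∀ s, HasDerivAt (fun s => g (s, Z s z0))
      (fderiv ℝ g (s, Z s z0) (1, vf K (s, Z s z0))) s := fun s =>
    (hg.differentiable one_ne_zero _).hasFDerivAt.comp_hasDerivAt s
      ((hasDerivAt_id s).prodMk (h.ode s z0))
  exact image_norm_le_of_norm_deriv_right_le_deriv_boundary (a := 0) (b := t)
    (B := fun s => N₀ + ∫ τ in (0 : ℝ)..s, w τ) (B' := w)
    (fun s _ => (hd s).continuousAt.continuousWithinAt) (fun s _ => (hd s).hasDerivWithinAt)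
    (by simpa using h0 _) (fun s => (hw.integral_hasStrictDerivAt 0 s).hasDerivAt.const_add N₀)
    (fun s hs => hb (s, Z s z0) (Ico_subset_Icc_self hs)) ⟨ht, le_rfl⟩

theorem Tr_comm {F : Ph → ℝ} {B : Ph → Ph} (hF : ContDiff ℝ ∞ F) (hB : ContDiff ℝ ∞ B) {k : ℕ}
    (hk : 1 ≤ k) (z : Ph) :
    ‖iteratedFDeriv ℝ k (fun y => fderiv ℝ F y (B z - B y)) z‖ ≤
      k * ‖iteratedFDeriv ℝ 1 B z‖ * ‖iteratedFDeriv ℝ k F z‖ +
        ∑ i ∈ Finset.Icc 2 k, (k.choose i : ℝ) * ‖iteratedFDeriv ℝ i B z‖ *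
          ‖iteratedFDeriv ℝ (k - i + 1) F z‖ := by
  have h1 := (ContinuousLinearMap.apply ℝ ℝ :
      Ph →L[ℝ] (Ph →L[ℝ] ℝ) →L[ℝ] ℝ).norm_iteratedFDeriv_le_of_bilinear_of_le_one
    (f := fun y => B z - B y) (g := fderiv ℝ F) (contDiff_const.sub hB)
    (hF.fderiv_right (m := ∞) (by simp)) z (c2_natle k) (by
      refine ContinuousLinearMap.opNorm_le_bound₂ _ zero_le_one fun x φ => ?_
      simpa [mul_comm] using φ.le_opNorm x)
  refine h1.trans (le_of_eq ?_)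
  have e1 : ∀ i, i ≠ 0 → ‖iteratedFDeriv ℝ i (fun y => B z - B y) z‖ = ‖iteratedFDeriv ℝ i B z‖ := by
    intro i hi
    rw [fun_iteratedFDeriv_sub_apply contDiffAt_const (hB.of_le (c2_natle i)).contDiffAt,
      iteratedFDeriv_const_of_ne hi]
    simp
  have e2 : Finset.range (k + 1) = insert 0 (insert 1 (Finset.Icc 2 k)) := by
    ext i
    simp only [Finset.mem_range, Finset.mem_insert, Finset.mem_Icc]
    omega
  simp only [norm_iteratedFDeriv_fderiv]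
  rw [e2, Finset.sum_insert (by simp), Finset.sum_insert (by simp), e1 1 one_ne_zero,
    Nat.sub_add_cancel hk, norm_iteratedFDeriv_zero, sub_self, norm_zero, mul_zero, zero_mul,
    zero_add, Nat.choose_one_right]
  refine congrArg _ (Finset.sum_congr rfl fun i hi => ?_)
  rw [e1 i (by have := (Finset.mem_Icc.1 hi).1; omega)]

theorem Tr_eq (h : VSol f₀ K f Z) (hK : ContDiff ℝ ∞ K) (L : List Ph) (t : ℝ) (z : Ph) :
    fderiv ℝ (pdl (L.map fun u => ((0 : ℝ), u)) f) (t, z) (1, vf K (t, z)) =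
      pdl L (fun y => fderiv ℝ (fun y => f (t, y)) y (vf K (t, z) - vf K (t, y))) z := by
  have hf := h.smooth
  have hb : ContDiff ℝ ∞ (vf K) := contDiff_vf hK
  have hG : ContDiff ℝ ∞ fun r : TP => fderiv ℝ f r ((0 : ℝ), vf K (t, z) - vf K r) :=
    (hf.fderiv_right (m := ∞) (by simp)).clm_apply (contDiff_const.prodMk (contDiff_const.sub hb))
  have e1 : pd ((1 : ℝ), vf K (t, z)) f = fun r => fderiv ℝ f r ((0 : ℝ), vf K (t, z) - vf K r) := by
    funext r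
    have h1 : fderiv ℝ f r (1, vf K r) = 0 := h.eq r
    have h2 : (((1 : ℝ), vf K (t, z)) : TP) = (1, vf K r) + ((0 : ℝ), vf K (t, z) - vf K r) := by
      simp
    rw [pd, h2, map_add, h1, zero_add]
  have e2 := congrFun (pd_pdl hf ((1 : ℝ), vf K (t, z)) (L.map fun u => ((0 : ℝ), u))) (t, z)
  rw [e1, congrFun (Calc_slice hG L t) z] at e2
  refine e2.trans ?_
  congr 1
  funext y
  have a1 := (hf.differentiable (by simp) (t, y)).hasFDerivAt.comp y (hasFDerivAt_prodMk_right t y)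
  have a2 : fderiv ℝ (fun y => f (t, y)) y = _ := a1.fderiv
  rw [a2]
  rfl

theorem Tr_out {T P : ℝ} (hs : ∀ r ∈ slab Ph T, f r ≠ 0 → ‖r.2‖ ≤ P) {t : ℝ} (ht : t ∈ Icc 0 T)
    {z : Ph} (hz : P < ‖z‖) (j : ℕ) : iteratedFDeriv ℝ j (fun z => f (t, z)) z = 0 := by
  have h2 : ∀ᶠ q : Ph in 𝓝 z, P < ‖q‖ := continuous_norm.continuousAt.eventually (lt_mem_nhds hz)
  have h3 : (fun q => f (t, q)) =ᶠ[𝓝 z] fun _ => 0 :=
    h2.mono fun q h2 => by_contra fun h => (hs (t, q) ⟨ht, mem_univ _⟩ h).not_gt h2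
  rw [(h3.iteratedFDeriv ℝ j).eq_of_nhds, iteratedFDeriv_fun_zero]
  rfl

theorem Tr_fin (hf : ContDiff ℝ ∞ f) {T P : ℝ} (hs : ∀ r ∈ slab Ph T, f r ≠ 0 → ‖r.2‖ ≤ P) (k : ℕ) :
    ∃ N, ∀ t ∈ Icc 0 T, DB k f t N := by
  obtain ⟨N, hN⟩ := ((isCompact_Icc (a := (0 : ℝ)) (b := T)).prod
    (isCompact_closedBall (0 : Ph) P)).exists_bound_of_continuousOn
    (hf.continuous_iteratedFDeriv (c2_natle k)).continuousOn
  refine ⟨|N|, fun t ht z => ?_⟩
  rcases le_or_gt ‖z‖ P with hz | hz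
  · refine norm_iter_le (c2_slice hf t) fun L h1 h2 => ?_
    rw [← congrFun (Calc_slice hf L t) z]
    refine (norm_pdl_le hf (fun u hu => ?_) _).trans ?_
    · obtain ⟨v, hv, rfl⟩ := List.mem_map.1 hu
      simpa using h2 v hv
    · rw [List.length_map, h1]
      exact (hN (t, z) ⟨ht, mem_closedBall_zero_iff.2 hz⟩).trans (le_abs_self N)
  · rw [Tr_out hs ht hz, norm_zero]
    exact abs_nonneg N

theorem Tr_boot {p : ℝ → Prop} {c : ℝ} (h0 : ∃ N, p N) (hl : ∀ N, p N → 0 ≤ N)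
    (hc : ∀ N, (∀ N', N < N' → p N') → p N) (hm : ∀ N N', p N → N ≤ N' → p N')
    (hs : ∀ N, p N → p (c + N / 2)) : p (2 * c) := by
  have hb : BddBelow {N | p N} := ⟨0, hl⟩
  have h1 : p (sInf {N | p N}) := hc _ fun N' hN' => by
    obtain ⟨a, ha, ha'⟩ := exists_lt_of_csInf_lt h0 hN'
    exact hm a N' ha ha'.le
  have h2 : sInf {N | p N} ≤ c + sInf {N | p N} / 2 := csInf_le hb (hs _ h1)
  exact hm _ _ h1 (by linarith)

theorem tr_gen (h : VSol f₀ K f Z) (hK : ContDiff ℝ ∞ K) {k : ℕ} (hk : 1 ≤ k) {T P N₀ : ℝ}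
    (hs : ∀ r ∈ slab Ph T, f r ≠ 0 → ‖r.2‖ ≤ P) {α β : ℝ → ℝ} (hα : Continuous α)
    (hβ : Continuous β) (hα0 : ∀ t, 0 ≤ α t) (hβ0 : ∀ t, 0 ≤ β t) (h0 : DB k f 0 N₀)
    (h1 : ∀ t ∈ Icc 0 T, ∀ z : Ph, ‖z‖ ≤ P → ‖iteratedFDeriv ℝ 1 (fun z => vf K (t, z)) z‖ ≤ α t)
    (h2 : ∀ t ∈ Icc 0 T, ∀ z : Ph, ‖z‖ ≤ P →
      ∑ i ∈ Finset.Icc 2 k, (k.choose i : ℝ) * ‖iteratedFDeriv ℝ i (fun z => vf K (t, z)) z‖ *
        ‖iteratedFDeriv ℝ (k - i + 1) (fun z => f (t, z)) z‖ ≤ β t) {t : ℝ} (ht : t ∈ Icc 0 T) :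
    DB k f t (2 * (N₀ + ∫ τ in (0 : ℝ)..t, β τ) * exp (2 * k * ∫ τ in (0 : ℝ)..t, α τ)) := by
  have hf := h.smooth
  have hb : ContDiff ℝ ∞ (vf K) := contDiff_vf hK
  obtain ⟨Φ, hΦ⟩ : ∃ Φ : ℝ → ℝ, Φ = fun s => 2 * k * ∫ τ in (0 : ℝ)..s, α τ := ⟨_, rfl⟩
  have dΦ : ∀ s, HasDerivAt Φ (2 * k * α s) s := fun s => by
    rw [hΦ]; exact (hα.integral_hasStrictDerivAt 0 s).hasDerivAt.const_mul _
  have cΦ : Continuous Φ := continuous_iff_continuousAt.2 fun s => (dΦ s).continuousAt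
  have pΦ : ∀ s, 0 ≤ s → 1 ≤ exp (Φ s) := fun s hs0 => by
    rw [hΦ]
    exact one_le_exp (mul_nonneg (by positivity)
      (intervalIntegral.integral_nonneg hs0 fun τ _ => hα0 τ))
  have Φ0 : Φ 0 = 0 := by simp [hΦ]
  have hN0 := h0.nonneg
  have key := Tr_boot (p := fun N => ∀ s ∈ Icc 0 t, DB k f s (N * exp (Φ s)))
    (c := N₀ + ∫ τ in (0 : ℝ)..t, β τ) ?_ ?_ ?_ ?_ ?_
  · have := key t ⟨ht.1, le_rfl⟩
    rwa [hΦ] at this
  · obtain ⟨N, hN⟩ := Tr_fin hf hs k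
    exact ⟨N, fun s hs' => (hN s ⟨hs'.1, hs'.2.trans ht.2⟩).mono
      (le_mul_of_one_le_right (hN s ⟨hs'.1, hs'.2.trans ht.2⟩).nonneg (pΦ s hs'.1))⟩
  · intro N hN
    exact nonneg_of_mul_nonneg_left (hN 0 ⟨le_rfl, ht.1⟩).nonneg (exp_pos _)
  · intro N hN s hs' z
    rw [← div_le_iff₀ (exp_pos _)]
    exact le_of_forall_gt_imp_ge_of_dense fun N' hN' =>
      (div_le_iff₀ (exp_pos _)).2 (hN N' hN' s hs' z)
  · intro N N' hN hle s hs'
    exact (hN s hs').mono (mul_le_mul_of_nonneg_right hle (exp_pos _).le)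
  intro N hN s hs'
  have hNn : 0 ≤ N := nonneg_of_mul_nonneg_left (hN 0 ⟨le_rfl, ht.1⟩).nonneg (exp_pos _)
  refine DB_of_pdl hf fun L hL hu z => ?_
  have cw : Continuous fun τ => N / 2 * (exp (Φ τ) * (2 * k * α τ)) := by fun_prop
  have h3 := tr_zero h (g := pdl (L.map fun u => ((0 : ℝ), u)) f)
    ((contDiff_pdl hf _).of_le (by simp)) (w := fun τ => N / 2 * (exp (Φ τ) * (2 * k * α τ)) + β τ)
    (cw.add hβ) (N₀ := N₀) hs'.1 (fun y => DB.pdl_le hf (hL ▸ h0) hu y) ?_ z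
  · have e1 : ∫ τ in (0 : ℝ)..s, N / 2 * (exp (Φ τ) * (2 * k * α τ)) =
        N / 2 * exp (Φ s) - N / 2 * exp (Φ 0) :=
      intervalIntegral.integral_eq_sub_of_hasDerivAt (f := fun τ => N / 2 * exp (Φ τ))
        (fun τ _ => (dΦ τ).exp.const_mul _) (cw.intervalIntegrable _ _)
    rw [intervalIntegral.integral_add (cw.intervalIntegrable _ _) (hβ.intervalIntegrable _ _), e1,
      Φ0, exp_zero] at h3
    have a1 : ∫ τ in (0 : ℝ)..s, β τ ≤ ∫ τ in (0 : ℝ)..t, β τ :=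
      intervalIntegral.integral_mono_interval le_rfl hs'.1 hs'.2
        (Eventually.of_forall fun τ => hβ0 τ) (hβ.intervalIntegrable _ _)
    have a2 : 0 ≤ ∫ τ in (0 : ℝ)..t, β τ :=
      intervalIntegral.integral_nonneg ht.1 fun τ _ => hβ0 τ
    have a3 := le_mul_of_one_le_right (add_nonneg hN0 a2) (pΦ s hs'.1)
    refine h3.trans ?_
    nlinarith
  · rintro ⟨τ, y⟩ hτ
    have hτt : τ ∈ Icc 0 t := ⟨hτ.1, hτ.2.trans hs'.2⟩
    have hτT : τ ∈ Icc 0 T := ⟨hτ.1, hτt.2.trans ht.2⟩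
    have hF := c2_slice hf τ
    have hB := c2_slice hb τ
    rw [Tr_eq h hK]
    refine (norm_pdl_le (g := fun y' => fderiv ℝ (fun y => f (τ, y)) y' (vf K (τ, y) - vf K (τ, y')))
      ((hF.fderiv_right (m := ∞) (by simp)).clm_apply (contDiff_const.sub hB)) hu y).trans ?_
    rw [hL]
    refine (Tr_comm hF hB hk y).trans ?_
    have a0 : 0 ≤ N * exp (Φ τ) := by positivity
    rcases le_or_gt ‖y‖ P with hy | hy
    · refine add_le_add ?_ (h2 τ hτT y hy)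
      have a1 := mul_le_mul (h1 τ hτT y hy) (hN τ hτt y) (norm_nonneg _) (hα0 τ)
      have a2 := mul_le_mul_of_nonneg_left a1 (Nat.cast_nonneg (α := ℝ) k)
      nlinarith
    · simp only [Tr_out hs hτT hy, norm_zero, mul_zero, Finset.sum_const_zero, add_zero]
      have := hα0 τ
      have := hβ0 τ
      positivity

theorem Tr_int {a b l t T : ℝ} (ha : 0 ≤ a) (hb : 0 ≤ b) (hl : 0 < l) (ht : t ≤ T) :
    ∫ τ in (0 : ℝ)..t, (a + b * exp (l * τ)) ≤ a * T + b * exp (l * t) / l := by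
  have e1 : ∫ τ in (0 : ℝ)..t, (a + b * exp (l * τ)) =
      (a * t + b * exp (l * t) / l) - (a * 0 + b * exp (l * 0) / l) :=
    intervalIntegral.integral_eq_sub_of_hasDerivAt (f := fun τ => a * τ + b * exp (l * τ) / l)
      (fun τ _ => by
        have h1 := ((hasDerivAt_id τ).const_mul a).add
          ((((hasDerivAt_id τ).const_mul l).exp.const_mul b).div_const l)
        refine HasDerivAt.congr_deriv h1 ?_
        simp only [id]
        field_simp)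
      (Continuous.intervalIntegrable (by fun_prop) _ _)
  rw [e1]
  have : 0 ≤ b * exp (l * 0) / l := by positivity
  nlinarith

theorem tr_one (T M P : ℝ) : ∃ C, 1 ≤ C ∧ ∀ (f₀ : Ph → ℝ) (K : ST → Ph) (f : TP → ℝ)
    (Z : ℝ → Ph → Ph) (A l t : ℝ), VSol f₀ K f Z → ContDiff ℝ ∞ K →
    (∀ r ∈ slab Ph T, f r ≠ 0 → ‖r.2‖ ≤ P) → 0 ≤ A → 0 < l → t ∈ Icc 0 T →
    (∀ τ ∈ Icc 0 T, DB 0 K τ M ∧ DB 1 K τ (A * exp (l * τ))) → DB 1 f 0 M →
    DB 1 f t (C * exp (C * (1 + A * exp (l * t) / l))) := by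
  obtain ⟨C, hC, hv⟩ := vf_iter_le 1 M P
  have hT := abs_nonneg T
  have hM := abs_nonneg M
  refine ⟨1 + 2 * |M| + 2 * C * (1 + |T|), by nlinarith, ?_⟩
  intro f₀ K f Z A l t h hK hs hA hl ht hKb h0
  have h1 := tr_gen h hK le_rfl hs (α := fun τ => C + C * A * exp (l * τ)) (β := fun _ => 0)
    (by fun_prop) continuous_const (fun _ => by positivity) (fun _ => le_rfl) h0
    (fun τ hτ z hz => (hv K τ _ hK (fun j hj => by
      obtain rfl : j = 0 := by omega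
      exact (hKb τ hτ).1) (hKb τ hτ).2 z ((norm_snd_le z).trans hz)).trans (le_of_eq (by ring)))
    (fun τ _ z _ => by simp) ht
  refine h1.mono ?_
  have h2 := Tr_int hC (mul_nonneg hC hA) hl (ht.2.trans (le_abs_self T))
  have hX : 0 ≤ A * exp (l * t) / l := by positivity
  rw [mul_assoc C A, mul_div_assoc C] at h2
  simp only [intervalIntegral.integral_zero, add_zero, Nat.cast_one, mul_one]
  refine mul_le_mul (by nlinarith [le_abs_self M]) (exp_le_exp.2 ?_) (exp_pos _).le (by positivity)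
  nlinarith [mul_nonneg hM hX, mul_nonneg (mul_nonneg hC hT) hX]

theorem tr_succ {k : ℕ} (hk : 2 ≤ k) (T M P : ℝ) : ∃ C, 0 ≤ C ∧ ∀ (f₀ : Ph → ℝ) (K : ST → Ph)
    (f : TP → ℝ) (Z : ℝ → Ph → Ph) (A l t : ℝ), VSol f₀ K f Z → ContDiff ℝ ∞ K →
    (∀ r ∈ slab Ph T, f r ≠ 0 → ‖r.2‖ ≤ P) → 0 ≤ A → 0 < l → t ∈ Icc 0 T →
    (∀ τ ∈ Icc 0 T, (∀ j < k, DB j K τ M ∧ DB j f τ M) ∧ DB k K τ (A * exp (l * τ))) →
    DB k f 0 M → DB k f t (C * (1 + A * exp (l * t) / l)) := by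
  obtain ⟨C, hC, hv⟩ := c2_unif (p := fun i C => ∀ (K : ST → Ph) (t A : ℝ), ContDiff ℝ ∞ K →
      (∀ j < i, DB j K t M) → DB i K t A →
      ∀ z : Ph, ‖z.2‖ ≤ P → ‖iteratedFDeriv ℝ i (fun z => vf K (t, z)) z‖ ≤ C * (1 + A))
    (fun i C C' h hC K t A h1 h2 h3 z hz => (h K t A h1 h2 h3 z hz).trans
      (mul_le_mul_of_nonneg_right hC (by linarith [h3.nonneg])))
    (fun i => (vf_iter_le i M P).imp fun _ h => h.2) k
  obtain ⟨S, hS⟩ : ∃ S : ℝ, S = ∑ i ∈ Finset.Icc 2 k, (k.choose i : ℝ) := ⟨_, rfl⟩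
  have hS0 : 0 ≤ S := hS ▸ Finset.sum_nonneg fun _ _ => Nat.cast_nonneg _
  have hT := abs_nonneg T
  have hM := abs_nonneg M
  obtain ⟨D, hD⟩ : ∃ D : ℝ, D = S * C * |M| := ⟨_, rfl⟩
  have hD0 : 0 ≤ D := by rw [hD]; positivity
  refine ⟨2 * (|M| + D * (1 + |M|) * |T| + D) * exp (2 * k * (C * (1 + |M|) * |T|)),
    by positivity, ?_⟩
  intro f₀ K f Z A l t h hK hs hA hl ht hKb h0
  have hM0 := h0.nonneg
  rw [abs_of_nonneg hM0] at hD ⊢
  have h1 := tr_gen h hK (by omega) hs (α := fun _ => C * (1 + M))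
    (β := fun τ => D * (1 + M) + D * A * exp (l * τ))
    continuous_const (by fun_prop) (fun _ => by positivity) (fun _ => by positivity) h0
    (fun τ hτ z hz => hv 1 (by omega) K τ _ hK (fun j hj => ((hKb τ hτ).1 j (by omega)).1)
      ((hKb τ hτ).1 1 (by omega)).1 z ((norm_snd_le z).trans hz))
    (fun τ hτ z hz => ?_) ht
  · refine h1.mono ?_
    have h2 := Tr_int (a := D * (1 + M)) (by positivity) (mul_nonneg hD0 hA) hl
      (ht.2.trans (le_abs_self T))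
    have hX : 0 ≤ A * exp (l * t) / l := by positivity
    rw [mul_assoc D A, mul_div_assoc D] at h2
    have h3 : exp (2 * k * ∫ τ in (0 : ℝ)..t, C * (1 + M)) ≤ exp (2 * k * (C * (1 + M) * |T|)) := by
      refine exp_le_exp.2 (mul_le_mul_of_nonneg_left ?_ (by positivity))
      rw [intervalIntegral.integral_const, sub_zero, smul_eq_mul, mul_comm]
      exact mul_le_mul_of_nonneg_left (ht.2.trans (le_abs_self T)) (by positivity)
    rw [mul_right_comm _ (exp _)]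
    refine mul_le_mul ?_ h3 (exp_pos _).le (by positivity)
    have h4 : 0 ≤ D * (1 + M) * |T| := by positivity
    nlinarith [mul_nonneg hM0 hX, mul_nonneg h4 hX]
  · have hE : 0 ≤ A * exp (l * τ) := by positivity
    have a1 : ∀ i ∈ Finset.Icc 2 k, (k.choose i : ℝ) * ‖iteratedFDeriv ℝ i (fun z => vf K (τ, z)) z‖ *
        ‖iteratedFDeriv ℝ (k - i + 1) (fun z => f (τ, z)) z‖ ≤
        (k.choose i : ℝ) * (C * (1 + (M + A * exp (l * τ))) * M) := by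
      intro i hi
      obtain ⟨i1, i2⟩ := Finset.mem_Icc.1 hi
      rw [mul_assoc]
      refine mul_le_mul_of_nonneg_left (mul_le_mul (hv i i2 K τ _ hK
        (fun j hj => ((hKb τ hτ).1 j (by omega)).1) ?_ z ((norm_snd_le z).trans hz))
        (((hKb τ hτ).1 _ (by omega)).2 z) (norm_nonneg _) (by positivity)) (Nat.cast_nonneg _)
      rcases i2.eq_or_lt with rfl | i3
      · exact (hKb τ hτ).2.mono (by linarith)
      · exact ((hKb τ hτ).1 i i3).1.mono (by linarith)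
    refine (Finset.sum_le_sum a1).trans (le_of_eq ?_)
    rw [← Finset.sum_mul, ← hS, hD]
    ring

end Crest.Agent.R106
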