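import Crest.Agent.R106.It0
import Crest.Agent.R106.Log
import Crest.Agent.R106.Tr

/-!
# Row 106: uniform `C¹` bounds

`c0`: `rep_bound` (`l = 1`) with `trans_of_vlasov` for the bounded field `κ ∘ K n`, `Adm.dat_bdd`.
`c1`: induction on `n` for the claim `‖fderiv (K n) p‖ ≤ A exp (l p.1)` on the slab with fixed `A`, `l`: it gives
`‖fderiv (κ ∘ K n) p‖ ≤ M A exp (l p.1)`, `tr_one` gives `DB 1 (f n) τ (D t)` for `τ ≤ t` with
`D t = C exp (C (1 + M A exp (l t)/l))`, `rep_log` for `u = ee i` (`pdX [u] g = pd (0, u, 0) g`) gives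
`‖pd (0, ee i) (K (n+1)) p‖ ≤ C' (1 + (1 + A) exp (l t)/l)`, `maxwell_fderiv_le` (for `t > 0`, then by continuity
at `t = 0`; if `T = 0`, prove the statement for `max T 1` first) gives the same for the full derivative with
`C''`; choose `l = max 1 (4 C'')`, `A = 2 C'' + 1`.

-/

set_option autoImplicit false

noncomputable section

namespace Crest.Agent.R106

open MeasureTheory Set Metric Real Filter Topology
open scoped ContDiff ENNReal RealInnerProductSpace Classical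
open Crest.AnalysisR.VecCalc3 Crest.AnalysisR.PDE.RVM

variable {κ : Ph → Ph} {f₀ : Ph → ℝ} {K₀ : R3 → Ph} {K : ℕ → ST → Ph} {f : ℕ → TP → ℝ}
  {Z : ℕ → ℝ → Ph → Ph}


theorem Iter.c0 (h : Iter κ f₀ K₀ K f Z) (T : ℝ) : ∃ C, ∀ n, ∀ p ∈ slab R3 T, ‖K n p‖ ≤ C := by
  obtain ⟨P, hP⟩ := h.supp T
  obtain ⟨A, hA⟩ := h.bddf
  obtain ⟨M, hM0, hM⟩ := h.bddκ
  obtain ⟨C, hC0, hC⟩ := rep_bound T P
  obtain ⟨Cd, hd⟩ := h.adm.dat_bdd T 0
  have hA0 : 0 ≤ A := (abs_nonneg _).trans (hA 0 0)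
  refine ⟨max 0 (Cd + C * (A + A * (2 * M)) * exp T), fun n p hp => ?_⟩
  cases n with
  | zero =>
    rw [h.zero, norm_zero]
    exact le_max_left _ _
  | succ n =>
    refine le_trans ?_ (le_max_right _ _)
    have ht := trans_of_vlasov (T := T) ((h.vsol n).smooth.of_le (by simp)).contDiffOn
      ((h.smoothκ n).of_le (by simp)).contDiffOn (VS_of_supp (hP n)) fun r _ => (h.vsol n).eq r
    have hAM : 0 ≤ A * (2 * M) := by positivity
    have h1 := hC T _ _ _ _ _ (A + A * (2 * M)) 1 p le_rfl ht one_pos hp (h.rep n [] hp.1.1)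
      fun r hr => by
        have e : A + A * (2 * M) ≤ (A + A * (2 * M)) * exp (1 * r.1) :=
          le_mul_of_one_le_right (by positivity) (one_le_exp (by linarith [hr.1]))
        refine ⟨by linarith [hA n r], ?_, by rw [abs_zero]; linarith⟩
        have e2 : ‖gF (f n) (κ ∘ K n) r‖ ≤ A * (2 * M) := by
          rw [gF, norm_smul, Real.norm_eq_abs]
          exact mul_le_mul (hA n r) ((norm_force_le _ _).trans
            (mul_le_mul_of_nonneg_left (hM _) zero_le_two)) (norm_nonneg _) hA0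
        linarith
    have h2 := hd p hp
    rw [norm_iteratedFDeriv_zero] at h2
    have h3 : ‖K (n + 1) p - dat K₀ f₀ p‖ ≤ C * (A + A * (2 * M)) * exp T := by
      refine le_trans h1 ?_
      rw [div_one, one_mul]
      exact mul_le_mul_of_nonneg_left (exp_le_exp.2 hp.1.2) (by positivity)
    have h4 := norm_le_norm_add_norm_sub' (K (n + 1) p) (dat K₀ f₀ p)
    linarith

theorem it1_c1 (h : Iter κ f₀ K₀ K f Z) {T : ℝ} (hT : 0 < T) : ∃ C, ∀ n,
    (∀ p ∈ slab R3 T, ‖fderiv ℝ (K n) p‖ ≤ C) ∧ ∀ t ∈ Icc 0 T, DB 1 (f n) t C := by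
  obtain ⟨P, hP⟩ := h.supp T
  obtain ⟨A₀, hA₀⟩ := h.bddf
  obtain ⟨Mκ, hM0, hM⟩ := h.bddκ
  obtain ⟨L, hL0, hL, -⟩ := h.lipκ
  obtain ⟨D₀, hD₀⟩ := h.DB_init 1
  obtain ⟨Cd, hd⟩ := h.adm.dat_bdd T 1
  have hA0 : 0 ≤ A₀ := (abs_nonneg _).trans (hA₀ 0 0)
  have hD0 : 0 ≤ D₀ := (hD₀ 0).nonneg
  have hd0 : 0 ≤ Cd := (norm_nonneg _).trans (hd (0, 0) ⟨⟨le_rfl, hT.le⟩, mem_univ _⟩)
  obtain ⟨C₁, hC₁, tr⟩ := tr_one T (A₀ + Mκ + D₀) P
  choose c hc0 hc using fun i : Fin 3 => rep_log (ee i) T P (A₀ + Mκ + D₀)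
  obtain ⟨C₂, hC₂, hcC⟩ : ∃ C₂, 0 ≤ C₂ ∧ ∀ i, c i ≤ C₂ :=
    ⟨∑ i, c i, Finset.sum_nonneg fun i _ => hc0 i,
      fun i => Finset.single_le_sum (fun i _ => hc0 i) (Finset.mem_univ i)⟩
  have hJ : 0 ≤ A₀ * vB P := mul_nonneg hA0 (vB_nonneg P)
  obtain ⟨a, ha⟩ : ∃ a, a = 9 * Cd + 9 * C₂ * (2 + 2 * C₁) + 3 * (A₀ * vB P) := ⟨_, rfl⟩
  obtain ⟨b, hb⟩ : ∃ b, b = 9 * C₂ * (C₁ + 1) * L := ⟨_, rfl⟩
  have ha0 : 0 ≤ a := by rw [ha]; positivity
  have hb0 : 0 ≤ b := by rw [hb]; positivity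
  obtain ⟨l, hl⟩ : ∃ l, l = 2 * b + 1 := ⟨_, rfl⟩
  have hl1 : 1 ≤ l := by linarith
  have hl0 : 0 < l := by linarith
  have hA' : 0 ≤ L * (2 * a) := by positivity
  have hmono : ∀ s t : ℝ, s ≤ t → C₁ * exp (C₁ * (1 + L * (2 * a) * exp (l * s) / l)) ≤
      C₁ * exp (C₁ * (1 + L * (2 * a) * exp (l * t) / l)) := fun s t hst => by
    gcongr
  have s1 : ∀ n, (∀ p ∈ slab R3 T, ‖fderiv ℝ (K n) p‖ ≤ 2 * a * exp (l * p.1)) →
      ∀ p ∈ slab R3 T, ‖fderiv ℝ (κ ∘ K n) p‖ ≤ L * (2 * a) * exp (l * p.1) := by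
    intro n ih p hp
    rw [fderiv_comp p (h.hκ.differentiable (by simp) _) ((h.smooth n).differentiable (by simp) _),
      mul_assoc]
    exact (ContinuousLinearMap.opNorm_comp_le _ _).trans
      (mul_le_mul (hL _) (ih p hp) (norm_nonneg _) hL0)
  have s2 : ∀ n, (∀ p ∈ slab R3 T, ‖fderiv ℝ (K n) p‖ ≤ 2 * a * exp (l * p.1)) →
      ∀ t ∈ Icc 0 T, DB 1 (f n) t (C₁ * exp (C₁ * (1 + L * (2 * a) * exp (l * t) / l))) := by
    intro n ih t ht
    refine tr f₀ _ _ _ _ l t (h.vsol n) (h.smoothκ n) (hP n) hA' hl0 ht (fun τ hτ => ⟨?_, ?_⟩)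
      ((hD₀ n).mono (by linarith))
    · exact DB_zero.2 fun z => (hM _).trans (by linarith)
    · refine DB_of_joint (h.smoothκ n) fun z => ?_
      rw [norm_iteratedFDeriv_one]
      exact s1 n ih (τ, z) ⟨hτ, mem_univ _⟩
  have key : ∀ n, ∀ p ∈ slab R3 T, ‖fderiv ℝ (K n) p‖ ≤ 2 * a * exp (l * p.1) := by
    intro n
    induction n with
    | zero =>
      intro p _
      rw [h.zero, fderiv_fun_const, Pi.zero_apply, norm_zero]
      positivity
    | succ n ih =>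
      have hpos : ∀ p ∈ Ioc 0 T ×ˢ (univ : Set R3),
          ‖fderiv ℝ (K (n + 1)) p‖ ≤ 2 * a * exp (l * p.1) := by
        intro p hp
        have hp' : p ∈ slab R3 T := ⟨⟨hp.1.1.le, hp.1.2⟩, mem_univ _⟩
        obtain ⟨E, hE⟩ : ∃ E, E = exp (l * p.1) := ⟨_, rfl⟩
        have hE1 : 1 ≤ E := hE ▸ one_le_exp (mul_nonneg hl0.le hp.1.1.le)
        obtain ⟨e, he⟩ : ∃ e, e = E / l := ⟨_, rfl⟩
        have he0 : 0 ≤ e := by rw [he]; positivity
        have heE : e ≤ E := he ▸ div_le_self (by linarith) hl1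
        have hel : e * l = E := by rw [he]; field_simp
        have hx : ∀ i, ‖pd (0, ee i) (K (n + 1)) p‖ ≤
            Cd + C₂ * (1 + 2 * C₁ + C₁ * (L * (2 * a) * e) + (1 + L * (2 * a)) * e) := by
          intro i
          have hu : ∀ u ∈ [ee i], ‖u‖ ≤ 1 := fun u hu => by
            rw [List.mem_singleton.1 hu, norm_ee]
          have h1 : 1 ≤ C₁ * exp (C₁ * (1 + L * (2 * a) * exp (l * p.1) / l)) :=
            one_le_mul_of_one_le_of_one_le hC₁ (one_le_exp (by positivity))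
          have h2 := hc i (κ ∘ K n) _ _ (f n) (L * (2 * a)) l _ p (h.smoothκ n) (h.vsol n).smooth
            (VS_of_supp (hP n)) (fun r _ => (h.vsol n).eq r) hp' hA' hl1 h1
            (fun r _ => (hA₀ n r).trans (by linarith)) (fun r _ => (hM _).trans (by linarith))
            (fun z => (DB.pdX_le (L := [ee i]) (h.vsol n).smooth (hD₀ n) hu z).trans (by linarith))
            (s1 n ih)
            (fun r hr => (DB.pdX_le (L := [ee i]) (h.vsol n).smooth
              (s2 n ih r.1 ⟨hr.1, hr.2.trans hp.1.2⟩) hu r.2).trans (hmono _ _ hr.2))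
            (h.rep n [ee i] hp.1.1.le)
          rw [Real.log_mul (by linarith) (exp_pos _).ne', Real.log_exp, ← hE, mul_div_assoc,
            mul_div_assoc, ← he] at h2
          have h3 : Real.log C₁ ≤ C₁ := Real.log_le_self (by linarith)
          have h4 : 0 ≤ Real.log C₁ := Real.log_nonneg hC₁
          have h5 : ‖pd (0, ee i) (K (n + 1)) p - pd (0, ee i) (dat K₀ f₀) p‖ ≤
              C₂ * (1 + 2 * C₁ + C₁ * (L * (2 * a) * e) + (1 + L * (2 * a)) * e) :=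
            le_trans h2 (mul_le_mul (hcC i) (by linarith) (by positivity) hC₂)
          have h6 : ‖pd (0, ee i) (dat K₀ f₀) p‖ ≤ Cd := by
            have := hd p hp'
            rw [norm_iteratedFDeriv_one] at this
            refine ((fderiv ℝ (dat K₀ f₀) p).le_opNorm _).trans ?_
            rw [Prod.norm_def, norm_zero, norm_ee, max_eq_right zero_le_one, mul_one]
            exact this
          have h7 := norm_le_norm_add_norm_sub' (pd (0, ee i) (K (n + 1)) p) (pd (0, ee i) (dat K₀ f₀) p)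
          linarith
        have hj : ∀ i, |cur (f n) i p| ≤ A₀ * vB P := fun i =>
          abs_cur_le (fun v hv => VS_of_supp (hP n) (p.1, p.2, v) hp'.1 hv) (fun v => hA₀ n _) i
        refine (maxwell_fderiv_le ((h.smooth _).differentiable (by simp) p) (h.maxwell n hp.1.1)
          hx hj).trans ?_
        rw [← hE]
        have k1 : 9 * (Cd + C₂ * (1 + 2 * C₁ + C₁ * (L * (2 * a) * e) + (1 + L * (2 * a)) * e)) +
            3 * (A₀ * vB P) = (a - 9 * C₂) + 9 * C₂ * e + a * (2 * b * e) := by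
          rw [hb]
          linarith
        have k2 : 0 ≤ a - 9 * C₂ := by
          have : 0 ≤ C₂ * C₁ := by positivity
          linarith
        have k3 : 2 * b * e ≤ E := by
          rw [← hel, hl]
          linarith
        have k4 := mul_le_mul_of_nonneg_left k3 ha0
        have k5 := mul_le_mul_of_nonneg_left hE1 k2
        have k6 := mul_le_mul_of_nonneg_left heE hC₂
        rw [k1]
        linarith
      have hcl : IsClosed {p : ST | ‖fderiv ℝ (K (n + 1)) p‖ ≤ 2 * a * exp (l * p.1)} :=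
        isClosed_le ((h.smooth _).continuous_fderiv (by simp)).norm (by fun_prop)
      intro p hp
      refine closure_minimal (s := Ioc 0 T ×ˢ (univ : Set R3)) hpos hcl ?_
      rw [closure_prod_eq, closure_Ioc hT.ne, closure_univ]
      exact hp
  refine ⟨max (2 * a * exp (l * T)) (C₁ * exp (C₁ * (1 + L * (2 * a) * exp (l * T) / l))),
    fun n => ⟨fun p hp => (key n p hp).trans (le_trans ?_ (le_max_left _ _)), fun t ht =>
      (s2 n (key n) t ht).mono ((hmono _ _ ht.2).trans (le_max_right _ _))⟩⟩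
  have := hp.1.2
  gcongr

theorem Iter.c1 (h : Iter κ f₀ K₀ K f Z) (T : ℝ) : ∃ C, ∀ n,
    (∀ p ∈ slab R3 T, ‖fderiv ℝ (K n) p‖ ≤ C) ∧ ∀ t ∈ Icc 0 T, DB 1 (f n) t C := by
  obtain ⟨C, hC⟩ := it1_c1 h (T := max T 1) (lt_max_of_lt_right one_pos)
  exact ⟨C, fun n => ⟨fun p hp => (hC n).1 p ⟨⟨hp.1.1, hp.1.2.trans (le_max_left _ _)⟩, hp.2⟩,
    fun t ht => (hC n).2 t ⟨ht.1, ht.2.trans (le_max_left _ _)⟩⟩⟩

end Crest.Agent.R106
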