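import Crest.Agent.R106.It1
import Crest.Agent.R106.Calc2

/-!
# Row 106: uniform bounds for all space derivatives

Strong induction on `k` (`k = 0, 1`: `c0`, `c1`, `bddf`).  For `k ≥ 2` let `M` bound all lower orders (also for
`κ ∘ K n`, by `DB_comp`).  Induction on `n` for `DB k (K n) t (A exp (l t))`: `DB_comp`, `tr_succ` give
`DB k (f n) t (C (1 + A) exp (l t))`, `DB_gF` the same for `gF (f n) (κ ∘ K n)`, and `rep_bound` with
`trans_pdX`, `Iter.rep` for unit lists `L` (`DB_of_pdl`, `DB.pdX_le`) gives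
`DB k (K (n+1)) t (C_d + C (1 + A) exp (l t)/l)`; choose `l`, `A`.

-/

set_option autoImplicit false

noncomputable section

namespace Crest.Agent.R106

open MeasureTheory Set Metric Real Filter Topology
open scoped ContDiff ENNReal RealInnerProductSpace Classical
open Crest.AnalysisR.VecCalc3 Crest.AnalysisR.PDE.RVM

variable {κ : Ph → Ph} {f₀ : Ph → ℝ} {K₀ : R3 → Ph} {K : ℕ → ST → Ph} {f : ℕ → TP → ℝ}
  {Z : ℕ → ℝ → Ph → Ph}


theorem It2_step (h : Iter κ f₀ K₀ K f Z) (T : ℝ) {k : ℕ} (hk : 2 ≤ k) {M : ℝ}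
    (hM : ∀ j < k, ∀ n, ∀ t ∈ Icc 0 T,
      DB j (K n) t M ∧ DB j (κ ∘ K n) t M ∧ DB j (f n) t M)
    (h0 : ∀ n, DB k (f n) 0 M) :
    ∃ C, ∀ n, ∀ t ∈ Icc 0 T, DB k (K n) t C ∧ DB k (f n) t C := by
  obtain ⟨P, hP⟩ := h.supp T
  obtain ⟨C₁, hC₁, H₁⟩ := DB_comp h.hκ h.cκ k M
  obtain ⟨C₂, hC₂, H₂⟩ := tr_succ hk T M P
  obtain ⟨C₃, hC₃, H₃⟩ := DB_gF (k := k) (by omega) M P
  obtain ⟨C₄, hC₄, H₄⟩ := rep_bound T P
  obtain ⟨Cd', Hd'⟩ := h.adm.dat_bdd T k
  obtain ⟨Cd, hCd, Hd⟩ : ∃ Cd, 0 ≤ Cd ∧ ∀ p ∈ slab R3 T,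
      ‖iteratedFDeriv ℝ k (dat K₀ f₀) p‖ ≤ Cd :=
    ⟨max Cd' 0, le_max_right _ _, fun p hp => (Hd' p hp).trans (le_max_left _ _)⟩
  obtain ⟨D₁, hD₁⟩ : ∃ D₁, D₁ = C₁ + C₂ * (1 + C₁) := ⟨_, rfl⟩
  have hD₁0 : 0 ≤ D₁ := by rw [hD₁]; positivity
  obtain ⟨D, hD⟩ : ∃ D, D = D₁ + C₃ * (1 + D₁) := ⟨_, rfl⟩
  have hD0 : 0 ≤ D := by rw [hD]; positivity
  obtain ⟨l, hl⟩ : ∃ l, l = 2 * (C₄ * D) + 1 := ⟨_, rfl⟩
  have hCD : 0 ≤ C₄ * D := mul_nonneg hC₄ hD0
  have hl1 : 1 ≤ l := by rw [hl]; linarith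
  have hl0 : 0 < l := by linarith
  obtain ⟨A, hA⟩ : ∃ A, A = 2 * Cd + 1 := ⟨_, rfl⟩
  have hA0 : 0 ≤ A := by rw [hA]; linarith
  have he : ∀ t ∈ Icc (0 : ℝ) T, 1 ≤ exp (l * t) := fun t ht =>
    one_le_exp (mul_nonneg hl0.le ht.1)
  have hE : ∀ t ∈ Icc (0 : ℝ) T, 1 ≤ (1 + A) * exp (l * t) := fun t ht => by
    have := he t ht
    nlinarith
  -- the transport step
  have hκs : ∀ n, (∀ t ∈ Icc 0 T, DB k (K n) t (A * exp (l * t))) →
      ∀ t ∈ Icc 0 T, DB k (κ ∘ K n) t (C₁ * (1 + A) * exp (l * t)) := by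
    intro n hn t ht
    refine (H₁ (K n) t _ (h.smooth n) (fun j hj => (hM j hj n t ht).1) (hn t ht)).mono ?_
    have := he t ht
    rw [mul_assoc]
    exact mul_le_mul_of_nonneg_left (by nlinarith) hC₁
  have hfs : ∀ n, (∀ t ∈ Icc 0 T, DB k (K n) t (A * exp (l * t))) →
      ∀ t ∈ Icc 0 T, DB k (f n) t (D₁ * ((1 + A) * exp (l * t))) := by
    intro n hn t ht
    refine (H₂ f₀ (κ ∘ K n) (f n) (Z n) (C₁ * (1 + A)) l t (h.vsol n) (h.smoothκ n) (hP n)
      (by positivity) hl0 ht (fun τ hτ => ⟨fun j hj => (hM j hj n τ hτ).2, hκs n hn τ hτ⟩)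
      (h0 n)).mono ?_
    have h1 := hE t ht
    have h2 : C₁ * (1 + A) * exp (l * t) / l ≤ C₁ * (1 + A) * exp (l * t) :=
      div_le_self (by positivity) hl1
    have h3 : 1 + C₁ * (1 + A) * exp (l * t) / l ≤ (1 + C₁) * ((1 + A) * exp (l * t)) := by
      nlinarith
    have h4 := mul_le_mul_of_nonneg_left h3 hC₂
    have h5 : 0 ≤ C₁ * ((1 + A) * exp (l * t)) := by positivity
    rw [hD₁]
    nlinarith
  have main : ∀ n, ∀ t ∈ Icc 0 T, DB k (K n) t (A * exp (l * t)) := by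
    intro n
    induction n with
    | zero =>
      intro t ht z
      rw [h.zero]
      simp only [iteratedFDeriv_fun_zero, Pi.zero_apply, norm_zero]
      positivity
    | succ n ih =>
      intro t ht
      have hvs : VS (Icc 0 T) P (f n) := VS_of_supp (hP n)
      have hg : ∀ τ ∈ Icc 0 T, DB k (gF (f n) (κ ∘ K n)) τ (D * ((1 + A) * exp (l * τ))) := by
        intro τ hτ
        have h1 := hE τ hτ
        refine (H₃ (κ ∘ K n) (f n) τ (D₁ * ((1 + A) * exp (l * τ))) (h.smoothκ n)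
          (h.vsol n).smooth (fun p hp hne => hvs p (by rw [mem_singleton_iff.1 hp]; exact hτ) hne)
          (fun j hj => (hM j hj n τ hτ).2) ((hκs n ih τ hτ).mono ?_) (hfs n ih τ hτ)).mono ?_
        · have h5 : 0 ≤ C₂ * (1 + C₁) * ((1 + A) * exp (l * τ)) := by positivity
          rw [hD₁]
          nlinarith
        · have h3 : 1 + D₁ * ((1 + A) * exp (l * τ)) ≤ (1 + D₁) * ((1 + A) * exp (l * τ)) := by
            nlinarith
          have h4 := mul_le_mul_of_nonneg_left h3 hC₃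
          have h5 : 0 ≤ D₁ * ((1 + A) * exp (l * τ)) := by positivity
          rw [hD]
          nlinarith
      have hsg : ContDiff ℝ ∞ (gF (f n) (κ ∘ K n)) := contDiff_gF (n := ⊤) (h.vsol n).smooth (h.smoothκ n)
      refine DB_of_pdl (h.smooth (n + 1)) fun L hL hL1 x => ?_
      have hp : ((t, x) : ST) ∈ slab R3 T := ⟨ht, mem_univ _⟩
      have hb := H₄ T (pdx L (dat K₀ f₀)) (pdx L (K (n + 1))) (pdX L (f n)) (fun _ => 0)
        (pdX L (gF (f n) (κ ∘ K n))) (D * (1 + A)) l (t, x) le_rfl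
        (trans_pdX (h.vsol n).smooth (h.smoothκ n) hvs (fun r _ => (h.vsol n).eq r) L) hl0 hp
        (h.rep n L ht.1) (by
          rintro ⟨τ, z⟩ hτ
          have hτ' : τ ∈ Icc 0 T := ⟨hτ.1, hτ.2.trans ht.2⟩
          have h1 := hE τ hτ'
          refine ⟨?_, ?_, ?_⟩
          · have := DB.pdX_le (h.vsol n).smooth (hL ▸ hfs n ih τ hτ') hL1 z
            rw [Real.norm_eq_abs] at this
            refine this.trans ?_
            have h5 : 0 ≤ C₃ * (1 + D₁) * ((1 + A) * exp (l * τ)) := by positivity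
            rw [hD]
            dsimp only
            nlinarith
          · have := DB.pdX_le hsg (hL ▸ hg τ hτ') hL1 z
            refine this.trans (le_of_eq ?_)
            dsimp only
            ring
          · simp only [abs_zero]
            positivity)
      have hd : ‖pdx L (dat K₀ f₀) (t, x)‖ ≤ Cd := by
        refine (norm_pdl_le h.adm.contDiff_dat ?_ _).trans ?_
        · intro u hu
          obtain ⟨w, hw, rfl⟩ := List.mem_map.1 hu
          simpa using hL1 w hw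
        · rw [List.length_map, hL]
          exact Hd _ hp
      have h1 := he t ht
      have h2 : C₄ * (D * (1 + A)) * exp (l * t) / l ≤ (1 + A) / 2 * exp (l * t) := by
        rw [div_le_iff₀ hl0]
        have h5 : 0 ≤ (1 + A) * exp (l * t) := by positivity
        have h6 : C₄ * D ≤ l / 2 := by rw [hl]; linarith
        have h7 := mul_le_mul_of_nonneg_right h6 h5
        nlinarith
      have h3 := norm_le_norm_add_norm_sub' (pdx L (K (n + 1)) (t, x)) (pdx L (dat K₀ f₀) (t, x))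
      change ‖pdx L (K (n + 1)) (t, x)‖ ≤ _
      dsimp only at hb
      have h4 : Cd ≤ Cd * exp (l * t) := le_mul_of_one_le_right hCd h1
      have h5 : Cd * exp (l * t) + (1 + A) / 2 * exp (l * t) = A * exp (l * t) := by
        rw [hA]; ring
      linarith
  refine ⟨A * exp (l * T) + D₁ * ((1 + A) * exp (l * T)), fun n t ht => ?_⟩
  have h1 : exp (l * t) ≤ exp (l * T) := exp_le_exp.2 (mul_le_mul_of_nonneg_left ht.2 hl0.le)
  have h2 : A * exp (l * t) ≤ A * exp (l * T) := mul_le_mul_of_nonneg_left h1 hA0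
  have h3 : D₁ * ((1 + A) * exp (l * t)) ≤ D₁ * ((1 + A) * exp (l * T)) :=
    mul_le_mul_of_nonneg_left (mul_le_mul_of_nonneg_left h1 (by linarith)) hD₁0
  have h4 : 0 ≤ A * exp (l * T) := by positivity
  have h5 : 0 ≤ D₁ * ((1 + A) * exp (l * T)) := by positivity
  exact ⟨(main n t ht).mono (by linarith), (hfs n (main n) t ht).mono (by linarith)⟩

theorem Iter.ck (h : Iter κ f₀ K₀ K f Z) (T : ℝ) (k : ℕ) :
    ∃ C, ∀ n, ∀ t ∈ Icc 0 T, DB k (K n) t C ∧ DB k (f n) t C := by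
  induction k using Nat.strong_induction_on with
  | _ k ih =>
  rcases Nat.lt_or_ge k 2 with hk | hk
  · interval_cases k
    · obtain ⟨C, hC⟩ := h.c0 T
      obtain ⟨A, hA⟩ := h.bddf
      refine ⟨max C A, fun n t ht => ⟨DB_zero.2 fun z => ?_, DB_zero.2 fun z => ?_⟩⟩
      · exact (hC n (t, z) ⟨ht, mem_univ _⟩).trans (le_max_left _ _)
      · rw [Real.norm_eq_abs]
        exact (hA n _).trans (le_max_right _ _)
    · obtain ⟨C, hC⟩ := h.c1 T
      refine ⟨C, fun n t ht => ⟨DB_of_joint (h.smooth n) fun z => ?_, (hC n).2 t ht⟩⟩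
      rw [norm_iteratedFDeriv_one]
      exact (hC n).1 (t, z) ⟨ht, mem_univ _⟩
  · obtain ⟨M₁, hM₁, H₁⟩ := c2_unif
      (p := fun j C => j < k → ∀ n, ∀ t ∈ Icc 0 T, DB j (K n) t C ∧ DB j (f n) t C)
      (fun i C C' hp hC hi n t ht => ⟨(hp hi n t ht).1.mono hC, (hp hi n t ht).2.mono hC⟩)
      (fun i => by
        by_cases hi : i < k
        · obtain ⟨C, hC⟩ := ih i hi
          exact ⟨C, fun _ => hC⟩
        · exact ⟨0, fun hi' => absurd hi' hi⟩) k
    obtain ⟨M₂, hM₂, H₂⟩ := c2_unif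
      (p := fun j C => j < k → ∀ n, ∀ t ∈ Icc 0 T, DB j (κ ∘ K n) t C)
      (fun i C C' hp hC hi n t ht => (hp hi n t ht).mono hC)
      (fun i => by
        obtain ⟨C, -, hC⟩ := DB_comp h.hκ h.cκ i M₁
        exact ⟨C * (1 + M₁), fun hi n t ht => hC (K n) t M₁ (h.smooth n)
          (fun j hj => (H₁ j (by omega) (by omega) n t ht).1) (H₁ i hi.le hi n t ht).1⟩) k
    obtain ⟨M₃, H₃⟩ := h.DB_init k
    have hM₃ : 0 ≤ M₃ := (H₃ 0).nonneg
    refine It2_step h T hk (M := M₁ + M₂ + M₃) (fun j hj n t ht => ⟨?_, ?_, ?_⟩)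
      fun n => (H₃ n).mono (by linarith)
    · exact (H₁ j hj.le hj n t ht).1.mono (by linarith)
    · exact (H₂ j hj.le hj n t ht).mono (by linarith)
    · exact (H₁ j hj.le hj n t ht).2.mono (by linarith)

end Crest.Agent.R106
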