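import Crest.Agent.R106.Calc
import Crest.Agent.R106.Calc2

/-!
# Row 106: families of smooth functions with uniformly bounded directional derivatives
-/

set_option autoImplicit false
set_option linter.unusedSectionVars false

noncomputable section

namespace Crest.Agent.R106

open MeasureTheory Set Metric Real Filter Topology
open scoped ContDiff ENNReal RealInnerProductSpace Classical
open Crest.AnalysisR.VecCalc3 Crest.AnalysisR.PDE.RVM

section Gen

variable {D Y : Type} [NormedAddCommGroup D] [NormedSpace ℝ D] [NormedAddCommGroup Y]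
  [NormedSpace ℝ Y]

/-- all derivatives along sublists of `L` are bounded on `S`, uniformly in `n` -/
def Bs (S : Set D) : List D → (ℕ → D → Y) → Prop
  | [], u => (∀ n, ContDiff ℝ ∞ (u n)) ∧ ∃ C, ∀ n, ∀ p ∈ S, ‖u n p‖ ≤ C
  | a :: L, u => Bs S L u ∧ Bs S L fun n => pd a (u n)

variable {S : Set D} {L : List D} {u w : ℕ → D → Y}

theorem Bs.nil (h : Bs S L u) : Bs S [] u := by
  induction L with
  | nil => exact h
  | cons a L ih => exact ih h.1

theorem Bs.smooth (h : Bs S L u) (n : ℕ) : ContDiff ℝ ∞ (u n) := h.nil.1 n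

theorem bs_diff {g : D → Y} (hg : ContDiff ℝ ∞ g) (p : D) : DifferentiableAt ℝ g p :=
  hg.differentiable (by simp) p

theorem Bs.mono {S' : Set D} (h : Bs S L u) (hS : S' ⊆ S) : Bs S' L u := by
  induction L generalizing u with
  | nil =>
    obtain ⟨h1, C, h2⟩ := h
    exact ⟨h1, C, fun n p hp => h2 n p (hS hp)⟩
  | cons a L ih => exact ⟨ih h.1, ih h.2⟩

theorem Bs.reindex (h : Bs S L u) (σ : ℕ → ℕ) : Bs S L fun n => u (σ n) := by
  induction L generalizing u with
  | nil =>
    obtain ⟨h1, C, h2⟩ := h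
    exact ⟨fun n => h1 _, C, fun n p hp => h2 _ p hp⟩
  | cons a L ih => exact ⟨ih h.1, ih h.2⟩

theorem Bs.shift (h : Bs S L fun n => u (n + 1)) (h0 : u 0 = fun _ => 0) : Bs S L u := by
  induction L generalizing u with
  | nil =>
    obtain ⟨h1, C, h2⟩ := h
    refine ⟨fun n => ?_, max C 0, fun n p hp => ?_⟩
    · cases n with
      | zero => rw [h0]; exact contDiff_const
      | succ n => exact h1 n
    · cases n with
      | zero => rw [h0]; simp
      | succ n => exact (h2 n p hp).trans (le_max_left _ _)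
  | cons a L ih =>
    refine ⟨ih h.1 h0, ih (u := fun n => pd a (u n)) h.2 ?_⟩
    rw [h0]
    funext p
    simp [pd]

theorem Bs.congr (hS : IsOpen S) (h : Bs S L u) (hw : ∀ n, ContDiff ℝ ∞ (w n))
    (e : ∀ n, ∀ p ∈ S, w n p = u n p) : Bs S L w := by
  induction L generalizing u w with
  | nil =>
    obtain ⟨-, C, h2⟩ := h
    exact ⟨hw, C, fun n p hp => (e n p hp).symm ▸ h2 n p hp⟩
  | cons a L ih =>
    refine ⟨ih h.1 hw e, ih h.2 (fun n => contDiff_pd (hw n) a) fun n p hp => ?_⟩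
    have : w n =ᶠ[𝓝 p] u n := by
      filter_upwards [hS.mem_nhds hp] with q hq using e n q hq
    simp only [pd, this.fderiv_eq]

theorem Bs.extend {S' : Set D} (hS : IsOpen S') (h : Bs S L u) (e : ∀ n, ∀ p ∈ S', u n p = 0) :
    Bs (S ∪ S') L u := by
  induction L generalizing u with
  | nil =>
    obtain ⟨h1, C, h2⟩ := h
    refine ⟨h1, max C 0, fun n p hp => ?_⟩
    rcases hp with hp | hp
    · exact (h2 n p hp).trans (le_max_left _ _)
    · rw [e n p hp]; simp
  | cons a L ih =>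
    refine ⟨ih h.1 e, ih h.2 fun n p hp => ?_⟩
    have : u n =ᶠ[𝓝 p] fun _ => 0 := by
      filter_upwards [hS.mem_nhds hp] with q hq using e n q hq
    simp [pd, this.fderiv_eq]

theorem Bs.add (h : Bs S L u) (h' : Bs S L w) : Bs S L fun n p => u n p + w n p := by
  induction L generalizing u w with
  | nil =>
    obtain ⟨h1, C, h2⟩ := h
    obtain ⟨h3, C', h4⟩ := h'
    exact ⟨fun n => (h1 n).add (h3 n), C + C', fun n p hp =>
      (norm_add_le _ _).trans (add_le_add (h2 n p hp) (h4 n p hp))⟩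
  | cons a L ih =>
    refine ⟨ih h.1 h'.1, ?_⟩
    have e : (fun n => pd a fun p => u n p + w n p) =
        fun n p => pd a (u n) p + pd a (w n) p := by
      funext n p
      simp only [pd]
      rw [fderiv_fun_add (bs_diff (h.smooth n) p) (bs_diff (h'.smooth n) p), add_apply]
    rw [e]
    exact ih h.2 h'.2

theorem Bs.clm {Z : Type} [NormedAddCommGroup Z] [NormedSpace ℝ Z] (A : Y →L[ℝ] Z)
    (h : Bs S L u) : Bs S L fun n p => A (u n p) := by
  induction L generalizing u with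
  | nil =>
    obtain ⟨h1, C, h2⟩ := h
    exact ⟨fun n => A.contDiff.comp (h1 n), ‖A‖ * C, fun n p hp =>
      A.le_opNorm_of_le (h2 n p hp)⟩
  | cons a L ih =>
    refine ⟨ih h.1, ?_⟩
    have e : (fun n => pd a fun p => A (u n p)) = fun n p => A (pd a (u n) p) := by
      funext n
      exact pdl_clm A (h.smooth n) [a]
    rw [e]
    exact ih h.2

theorem Bs.neg (h : Bs S L u) : Bs S L fun n p => -u n p :=
  h.clm (-ContinuousLinearMap.id ℝ Y)

theorem Bs.sub (h : Bs S L u) (h' : Bs S L w) : Bs S L fun n p => u n p - w n p := by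
  simpa only [sub_eq_add_neg] using h.add h'.neg

theorem Bs.sum3 {u : Fin 3 → ℕ → D → Y} (h : ∀ i, Bs S L (u i)) :
    Bs S L fun n p => ∑ i, u i n p := by
  simpa only [Fin.sum_univ_three] using ((h 0).add (h 1)).add (h 2)

theorem Bs.bil {Z W : Type} [NormedAddCommGroup Z] [NormedSpace ℝ Z] [NormedAddCommGroup W]
    [NormedSpace ℝ W] (B : Y →L[ℝ] Z →L[ℝ] W) {w : ℕ → D → Z} (h : Bs S L u) (h' : Bs S L w) :
    Bs S L fun n p => B (u n p) (w n p) := by
  induction L generalizing u w with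
  | nil =>
    obtain ⟨h1, C, h2⟩ := h
    obtain ⟨h3, C', h4⟩ := h'
    refine ⟨fun n => (B.contDiff.comp (h1 n)).clm_apply (h3 n), ‖B‖ * C * C', fun n p hp => ?_⟩
    have := (norm_nonneg _).trans (h2 n p hp)
    refine (B.le_opNorm₂ _ _).trans ?_
    gcongr
    · exact h2 n p hp
    · exact h4 n p hp
  | cons a L ih =>
    refine ⟨ih h.1 h'.1, ?_⟩
    have e : (fun n => pd a fun p => B (u n p) (w n p)) =
        fun n p => B (u n p) (pd a (w n) p) + B (pd a (u n) p) (w n p) := by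
      funext n p
      simp only [pd]
      rw [(B.hasFDerivAt_of_bilinear (bs_diff (h.smooth n) p).hasFDerivAt
        (bs_diff (h'.smooth n) p).hasFDerivAt).fderiv]
      simp
    rw [e]
    exact (ih h.1 h'.2).add (ih h.2 h'.1)

theorem Bs.mul {u w : ℕ → D → ℝ} (h : Bs S L u) (h' : Bs S L w) :
    Bs S L fun n p => u n p * w n p :=
  h.bil (ContinuousLinearMap.mul ℝ ℝ) h'

theorem Bs.comp {E : Type} [NormedAddCommGroup E] [NormedSpace ℝ E] {K : ℕ → D → E}
    (h : Bs S L K) : ∀ (Y : Type) [NormedAddCommGroup Y] [NormedSpace ℝ Y] (κ : E → Y),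
    ContDiff ℝ ∞ κ → HasCompactSupport κ → Bs S L fun n => κ ∘ K n := by
  induction L generalizing K with
  | nil =>
    intro Y _ _ κ hκ cκ
    obtain ⟨C, hC⟩ := hκ.continuous.bounded_above_of_compact_support cκ
    exact ⟨fun n => hκ.comp (h.1 n), C, fun n p _ => hC _⟩
  | cons a L ih =>
    intro Y _ _ κ hκ cκ
    refine ⟨ih h.1 Y κ hκ cκ, ?_⟩
    have h1 := ih h.1 (E →L[ℝ] Y) (fderiv ℝ κ) (contDiff_infty_iff_fderiv.1 hκ).2 (cκ.fderiv ℝ)
    have e : (fun n => pd a (κ ∘ K n)) = fun n p => (ContinuousLinearMap.id ℝ (E →L[ℝ] Y))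
        ((fderiv ℝ κ ∘ K n) p) (pd a (K n) p) := by
      funext n p
      simp only [pd]
      rw [fderiv_comp p (bs_diff hκ _) (bs_diff (h.smooth n) p)]
      simp
    rw [e]
    exact h1.bil _ h.2

theorem Bs.pull {E : Type} [NormedAddCommGroup E] [NormedSpace ℝ E] (A : E →L[ℝ] D) {S' : Set E}
    (hA : MapsTo A S' S) {L : List E} (h : Bs S (L.map A) u) : Bs S' L fun n p => u n (A p) := by
  induction L generalizing u with
  | nil =>
    obtain ⟨h1, C, h2⟩ := h
    exact ⟨fun n => (h1 n).comp A.contDiff, C, fun n p hp => h2 n _ (hA hp)⟩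
  | cons a L ih =>
    refine ⟨ih h.1, ?_⟩
    have e : (fun n => pd a fun p => u n (A p)) = fun n p => pd (A a) (u n) (A p) := by
      funext n p
      simp only [pd]
      exact congrArg (fun F : E →L[ℝ] Y => F a)
        ((bs_diff (h.smooth n) (A p)).hasFDerivAt.comp p A.hasFDerivAt).fderiv
    rw [e]
    exact ih h.2

theorem bs_fixed (hS : IsCompact S) (L : List D) {φ : D → Y} (hφ : ContDiff ℝ ∞ φ) :
    Bs S L fun _ => φ := by
  induction L generalizing φ with
  | nil =>
    obtain ⟨C, hC⟩ := hS.exists_bound_of_continuousOn hφ.continuous.continuousOn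
    exact ⟨fun _ => hφ, C, fun _ p hp => hC p hp⟩
  | cons a L ih => exact ⟨ih hφ, ih (contDiff_pd hφ a)⟩

theorem Bs.pdl (h : Bs S L u) : ∃ C, ∀ n, ∀ p ∈ S, ‖pdl L (u n) p‖ ≤ C := by
  induction L generalizing u with
  | nil => exact h.2
  | cons a L ih =>
    obtain ⟨C, hC⟩ := ih h.2
    refine ⟨C, fun n p hp => ?_⟩
    rw [pdl_cons, pd_pdl (h.smooth n)]
    exact hC n p hp

theorem bs_basis [FiniteDimensional ℝ D] : ∃ (m : ℕ) (b : Fin m → D), ∀ u : D, ‖u‖ ≤ 1 →
    ∃ c : Fin m → ℝ, (∀ i, |c i| ≤ 1) ∧ u = ∑ i, c i • b i := by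
  let B := Module.finBasis ℝ D
  let A : D →L[ℝ] (Fin (Module.finrank ℝ D) → ℝ) := LinearMap.toContinuousLinearMap B.equivFun.toLinearMap
  have hM : 0 < ‖A‖ + 1 := by positivity
  refine ⟨_, fun i => (‖A‖ + 1) • B i, fun u hu => ⟨fun i => B.equivFun u i / (‖A‖ + 1), fun i => ?_, ?_⟩⟩
  · rw [abs_div, abs_of_pos hM, div_le_one hM]
    have h1 : ‖A u i‖ ≤ ‖A u‖ := norm_le_pi_norm _ i
    have h2 : ‖A u‖ ≤ ‖A‖ * 1 := A.le_opNorm_of_le hu
    have h3 : |B.equivFun u i| = ‖A u i‖ := rfl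
    linarith
  · conv_lhs => rw [← B.sum_equivFun u]
    refine Finset.sum_congr rfl fun i _ => ?_
    rw [smul_smul, div_mul_cancel₀ _ hM.ne']

theorem bs_iter [FiniteDimensional ℝ D] {k : ℕ} (h : ∀ L : List D, L.length = k → Bs S L u)
    (hu : ∀ n, ContDiff ℝ ∞ (u n)) : ∃ C, ∀ n, ∀ p ∈ closure S, ‖iteratedFDeriv ℝ k (u n) p‖ ≤ C := by
  obtain ⟨m, b, hb⟩ := bs_basis (D := D)
  have h1 : ∀ L : List (Fin m), ∃ C, L.length = k → ∀ n, ∀ p ∈ S, ‖R106.pdl (L.map b) (u n) p‖ ≤ C := by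
    intro L
    by_cases hL : L.length = k
    · obtain ⟨C, hC⟩ := (h (L.map b) (by rw [List.length_map, hL])).pdl
      exact ⟨C, fun _ => hC⟩
    · exact ⟨0, fun h => absurd h hL⟩
  choose C hC using h1
  obtain ⟨M, hM⟩ := ((List.finite_length_eq (Fin m) k).image C).bddAbove
  refine ⟨(Fintype.card (Fin m) : ℝ) ^ k * M, fun n => ?_⟩
  refine closure_minimal (t := {p | ‖iteratedFDeriv ℝ k (u n) p‖ ≤ _}) (fun p hp => ?_)
    (isClosed_le ((hu n).continuous_iteratedFDeriv (c2_natle k)).norm continuous_const)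
  exact norm_iter_le_basis b hb (hu n) fun L hL => (hC L hL n p hp).trans (hM ⟨L, hL, rfl⟩)

end Gen

section Time

variable {X Y : Type} [NormedAddCommGroup X] [NormedSpace ℝ X] [NormedAddCommGroup Y]
  [NormedSpace ℝ Y]

/-- number of directions with a time component -/
def bsTc (L : List (ℝ × X)) : ℕ := L.countP fun a => a.1 ≠ 0

theorem bsTc_cons_zero {a : ℝ × X} (ha : a.1 = 0) (L : List (ℝ × X)) : bsTc (a :: L) = bsTc L := by
  simp [bsTc, ha]

theorem bsTc_cons_ne {a : ℝ × X} (ha : a.1 ≠ 0) (L : List (ℝ × X)) : bsTc (a :: L) = bsTc L + 1 := by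
  simp [bsTc, ha]

theorem bsTc_map {X' : Type} {A : ℝ × X → ℝ × X'} (hA : ∀ a, (A a).1 = a.1) (L : List (ℝ × X)) :
    bsTc (L.map A) = bsTc L := by
  simp [bsTc, List.countP_map, Function.comp_def, hA]

theorem bsTc_le (L : List (ℝ × X)) : bsTc L ≤ L.length := List.countP_le_length

/-- bounded derivatives with at most `m` time derivatives -/
def Bd (S : Set (ℝ × X)) (m : ℕ) (u : ℕ → ℝ × X → Y) : Prop := ∀ L, bsTc L ≤ m → Bs S L u

variable {S : Set (ℝ × X)} {m : ℕ} {u : ℕ → ℝ × X → Y}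

theorem Bd.pd (h : Bd S m u) (e : X) : Bd S m fun n => pd (0, e) (u n) := fun L hL =>
  (h ((0, e) :: L) (by rwa [bsTc_cons_zero rfl])).2

theorem Bd.smooth (h : Bd S m u) (n : ℕ) : ContDiff ℝ ∞ (u n) := (h [] (Nat.zero_le _)).1 n

theorem Bd.succ (h : Bd S m u) (ht : Bd S m fun n => R106.pd (1, 0) (u n)) : Bd S (m + 1) u := by
  intro L hL
  induction L generalizing u with
  | nil => exact h [] (Nat.zero_le _)
  | cons a L ih =>
    by_cases ha : a.1 = 0
    · rw [bsTc_cons_zero ha] at hL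
      obtain ⟨τ, e⟩ := a
      obtain rfl : τ = 0 := ha
      refine ⟨ih h ht hL, ih (h.pd e) ?_ hL⟩
      have e1 : (fun n => R106.pd (1, 0) (R106.pd (0, e) (u n))) =
          fun n => R106.pd (0, e) (R106.pd (1, 0) (u n)) := by
        funext n
        exact pd_comm (h.smooth n) _ _
      rw [e1]
      exact ht.pd e
    · rw [bsTc_cons_ne ha] at hL
      have hL' : bsTc L ≤ m := by omega
      refine ⟨h L hL', ?_⟩
      have e1 : (fun n => R106.pd a (u n)) = fun n p =>
          (a.1 • ContinuousLinearMap.id ℝ Y) (R106.pd (1, 0) (u n) p) + R106.pd (0, a.2) (u n) p := by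
        funext n p
        simp only [R106.pd, smul_apply, ContinuousLinearMap.id_apply]
        rw [← map_smul, ← map_add]
        simp
      rw [e1]
      exact ((ht L hL').clm _).add (h.pd a.2 L hL')

theorem bd_zero {T : ℝ} (hu : ∀ n, ContDiff ℝ ∞ (u n))
    (h : ∀ k, ∃ C, ∀ n, ∀ t ∈ Icc 0 T, DB k (u n) t C) : Bd (oslab X T) 0 u := by
  have h1 : ∀ L : List X, ∃ C, ∀ n, ∀ p ∈ oslab X T,
      ‖pdl (L.map fun e => ((0 : ℝ), e)) (u n) p‖ ≤ C := by
    intro L
    obtain ⟨C, hC⟩ := h L.length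
    refine ⟨C * ∏ i, ‖L.get i‖, fun n p hp => ?_⟩
    obtain ⟨t, z⟩ := p
    rw [pdl_slice (hu n)]
    refine (ContinuousMultilinearMap.le_opNorm _ _).trans ?_
    exact mul_le_mul_of_nonneg_right (hC n t (Ioo_subset_Icc_self hp.1) z)
      (Finset.prod_nonneg fun i _ => norm_nonneg _)
  clear h
  intro L hL
  induction L generalizing u with
  | nil => exact ⟨hu, h1 []⟩
  | cons a L ih =>
    by_cases ha : a.1 = 0
    · rw [bsTc_cons_zero ha] at hL
      obtain ⟨τ, e⟩ := a
      obtain rfl : τ = 0 := ha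
      refine ⟨ih hu h1 hL, ih (fun n => contDiff_pd (hu n) _) (fun L' => ?_) hL⟩
      obtain ⟨C, hC⟩ := h1 (L' ++ [e])
      refine ⟨C, fun n p hp => ?_⟩
      have := hC n p hp
      rwa [List.map_append, pdl_append] at this
    · rw [bsTc_cons_ne ha] at hL
      omega

theorem bs_closure {T : ℝ} (hT : 0 < T) : closure (oslab X T) = slab X T := by
  rw [oslab, closure_prod_eq, closure_Ioo hT.ne, closure_univ, slab]

end Time

end Crest.Agent.R106
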