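import Crest.Agent.R106.It2
import Crest.Agent.R106.It3Aux

/-!
# Row 106: uniform bounds for all derivatives

For a normed space `X`, target `Y` and `k : ℕ` call a family `u : ℕ → ℝ × X → Y` of smooth functions `Bd k` if for
all `j ≤ k` and all lists `L : List X` the derivative `iteratedFDeriv j (pdl (L.map (0, ·)) (u n))` is bounded on
the open slab uniformly in `n`.  `Bd k` is closed under space derivatives, sums, continuous linear maps,
products (induction on the length of `L`, `norm_iteratedFDeriv_mul_le`/bilinear), composition with `κ`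
(induction on `L` generalising `κ` to smooth maps with bounded derivatives into any space; for `L = []`
`norm_iteratedFDeriv_comp_le`), lifting from `ST` to `TP`, multiplication of a family supported in `‖z‖ ≤ P` by a
fixed smooth function of `v`, and `vint` (`norm_iter_vint_le`, `pdx_vint`).  `Bd 0` holds for `K`, `f` by `ck`.
`Bd k → Bd (k+1)`: `norm_iter_le_basis`-like splitting `D^{k+1} g = D^k (fderiv g)` in the directions `(1, 0)`
and `(0, e)`; for the time direction commute (`pd_pdl`) and use the equations on the open slab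
(`Iter.maxwell`, `VSol.eq`, `pdl_congr`; `K 0 = 0`).  Finally pass from the open to the closed slab by
continuity.

-/

set_option autoImplicit false

noncomputable section

namespace Crest.Agent.R106

open MeasureTheory Set Metric Real Filter Topology
open scoped ContDiff ENNReal RealInnerProductSpace Classical
open Crest.AnalysisR.VecCalc3 Crest.AnalysisR.PDE.RVM

variable {κ : Ph → Ph} {f₀ : Ph → ℝ} {K₀ : R3 → Ph} {K : ℕ → ST → Ph} {f : ℕ → TP → ℝ}
  {Z : ℕ → ℝ → Ph → Ph}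

theorem it3_open (T P : ℝ) : IsOpen {p : TP | p.1 ∈ Ioo 0 T ∧ P < ‖p.2.2‖} :=
  (isOpen_Ioo.preimage continuous_fst).inter
    (isOpen_lt continuous_const continuous_snd.snd.norm)

theorem it3_vs {T P : ℝ} {g : TP → ℝ} (vs : VS (Ioo 0 T) P g) (μ : TP) :
    VS (Ioo 0 T) P (pd μ g) := by
  intro p hp hne
  by_contra hP
  have : g =ᶠ[𝓝 p] fun _ => 0 := by
    filter_upwards [(it3_open T P).mem_nhds ⟨hp, not_le.1 hP⟩] with q hq
    by_contra h
    exact absurd (vs q hq.1 h) (not_le.2 hq.2)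
  exact hne (by simp [pd, this.fderiv_eq])

theorem it3_cur {T P : ℝ} (i : Fin 3) {L : List ST} {g : ℕ → TP → ℝ} (ls : ∀ n, LS (g n))
    (vs : ∀ n, VS (Ioo 0 T) P (g n))
    (h : Bs (oslab Ph T) (L.map fun a => ((a.1, a.2, 0) : TP)) g) :
    Bs (oslab R3 T) L fun n => cur (g n) i := by
  induction L generalizing g with
  | nil =>
    obtain ⟨h1, C, h2⟩ := h
    refine ⟨fun n => cur_contDiff (h1 n) (ls n) i, C * vB P, fun n p hp => ?_⟩
    exact abs_cur_le (fun v hv => vs n (p.1, p.2, v) hp.1 hv)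
      (fun v => h2 n (p.1, p.2, v) ⟨hp.1, mem_univ _⟩) i
  | cons a L ih =>
    refine ⟨ih ls vs h.1, ?_⟩
    have e : (fun n => pd a (cur (g n) i)) = fun n => cur (pd (a.1, a.2, 0) (g n)) i := by
      funext n
      exact pd_cur (h.smooth n) (ls n) a.1 a.2 i
    rw [e]
    exact ih (fun n => (ls n).pd _) (fun n => it3_vs (vs n) _) h.2

/-- electric component as a linear map -/
def it3E (i : Fin 3) : Ph →L[ℝ] ℝ :=
  (EuclideanSpace.proj i : R3 →L[ℝ] ℝ).comp (ContinuousLinearMap.fst ℝ R3 R3)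
/-- magnetic component as a linear map -/
def it3B (i : Fin 3) : Ph →L[ℝ] ℝ :=
  (EuclideanSpace.proj i : R3 →L[ℝ] ℝ).comp (ContinuousLinearMap.snd ℝ R3 R3)

theorem it3_dec (w : Ph) :
    w = ∑ i, w.1 i • ((ee i, 0) : Ph) + ∑ i, w.2 i • ((0, ee i) : Ph) := by
  refine Prod.ext ?_ ?_
  · simp [Prod.fst_sum, sum_ee]
  · simp [Prod.snd_sum, sum_ee]

theorem it3_comp {D : Type} [NormedAddCommGroup D] [NormedSpace ℝ D] {S : Set D} {L : List D}
    {u : ℕ → D → Ph} (h1 : ∀ i, Bs S L fun n p => (u n p).1 i)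
    (h2 : ∀ i, Bs S L fun n p => (u n p).2 i) : Bs S L u := by
  have e : u = fun n p => ∑ i, ContinuousLinearMap.toSpanSingleton ℝ ((ee i, 0) : Ph) ((u n p).1 i) +
      ∑ i, ContinuousLinearMap.toSpanSingleton ℝ ((0, ee i) : Ph) ((u n p).2 i) := by
    funext n p
    exact it3_dec (u n p)
  rw [e]
  exact (Bs.sum3 fun i => (h1 i).clm _).add (Bs.sum3 fun i => (h2 i).clm _)

theorem it3_K (h : Iter κ f₀ K₀ K f Z) {T : ℝ} {m : ℕ} (hK : Bd (oslab R3 T) m K)
    (hf : Bd (oslab Ph T) m f) : Bd (oslab R3 T) (m + 1) K := by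
  obtain ⟨P, hP⟩ := h.supp T
  have vs : ∀ n, VS (Ioo 0 T) P (f n) := fun n p hp hne =>
    VS_of_supp (hP n) p (Ioo_subset_Icc_self hp) hne
  have hc : ∀ i, Bd (oslab R3 T) m fun n => cur (f n) i := fun i L hL =>
    it3_cur i h.ls vs (hf _ ((bsTc_map (A := fun a : ST => ((a.1, a.2, 0) : TP))
      (fun _ => rfl) L).trans_le hL))
  have hE : ∀ i, Bd (oslab R3 T) m fun n => cE (K (n + 1)) i := fun i L hL =>
    ((hK L hL).reindex (· + 1)).clm (it3E i)
  have hB : ∀ i, Bd (oslab R3 T) m fun n => cB (K (n + 1)) i := fun i L hL =>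
    ((hK L hL).reindex (· + 1)).clm (it3B i)
  have hE' : ∀ i, Bd (oslab R3 T) (m + 1) fun n => cE (K (n + 1)) i := by
    intro i
    refine (hE i).succ fun L hL => ?_
    refine ((((hB (i + 2)).pd (ee (i + 1)) L hL).sub ((hB (i + 1)).pd (ee (i + 2)) L hL)).sub
      (hc i L hL)).congr (isOpen_oslab _ _) (fun n => contDiff_pd ((hE i).smooth n) _)
      fun n p hp => ?_
    have := (h.maxwell n (p := p) hp.1.1).1 i
    simp only [cu] at this
    linarith
  have hB' : ∀ i, Bd (oslab R3 T) (m + 1) fun n => cB (K (n + 1)) i := by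
    intro i
    refine (hB i).succ fun L hL => ?_
    refine (((hE (i + 1)).pd (ee (i + 2)) L hL).sub ((hE (i + 2)).pd (ee (i + 1)) L hL)).congr
      (isOpen_oslab _ _) (fun n => contDiff_pd ((hB i).smooth n) _) fun n p hp => ?_
    have := (h.maxwell n (p := p) hp.1.1).2.1 i
    simp only [cu] at this
    linarith
  exact fun L hL => Bs.shift (it3_comp (fun i => hE' i L hL) fun i => hB' i L hL) h.zero

theorem it3_f (h : Iter κ f₀ K₀ K f Z) {T : ℝ} {m : ℕ} (hK : Bd (oslab R3 T) m K)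
    (hf : Bd (oslab Ph T) m f) : Bd (oslab Ph T) (m + 1) f := by
  obtain ⟨P, hP⟩ := h.supp T
  have vs : ∀ n, VS (Ioo 0 T) P (f n) := fun n p hp hne =>
    VS_of_supp (hP n) p (Ioo_subset_Icc_self hp) hne
  set S : Set TP := {p | p.1 ∈ Ioo 0 T ∧ ‖p.2.2‖ < P + 1} with hS
  have hSo : IsOpen S := (isOpen_Ioo.preimage continuous_fst).inter
    (isOpen_lt continuous_snd.snd.norm continuous_const)
  have hf' : Bd S m f := fun L hL => (hf L hL).mono fun p hp => ⟨hp.1, mem_univ _⟩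
  have hv : ∀ L : List TP, Bs S L fun _ p => relVel p.2.2 := fun L =>
    (bs_fixed (isCompact_closedBall (0 : R3) (P + 1)) _ contDiff_relVel).pull
      ((ContinuousLinearMap.snd ℝ R3 R3).comp (ContinuousLinearMap.snd ℝ ℝ Ph))
      fun p hp => mem_closedBall_zero_iff.2 hp.2.le
  have hκ : Bd S m fun n p => κ (K n (p.1, p.2.1)) := by
    intro L hL
    set A : TP →L[ℝ] ST := (ContinuousLinearMap.id ℝ ℝ).prodMap (ContinuousLinearMap.fst ℝ R3 R3)
    have hA : MapsTo A S (oslab R3 T) := fun p hp => ⟨hp.1, mem_univ _⟩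
    exact ((hK (L.map A) ((bsTc_map (A := A) (fun _ => rfl) L).trans_le hL)).comp Ph κ h.hκ
      h.cκ).pull A hA
  obtain ⟨X, hX⟩ := exists_crossL
  have hF : Bd S m fun n p => force (κ (K n (p.1, p.2.1))) p.2.2 := by
    intro L hL
    have := ((hκ L hL).clm (ContinuousLinearMap.fst ℝ R3 R3)).add
      ((hv L).bil X ((hκ L hL).clm (ContinuousLinearMap.snd ℝ R3 R3)))
    simp only [hX] at this
    exact this
  have h1 : Bd S (m + 1) f := by
    refine hf'.succ fun L hL => ?_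
    refine ((Bs.sum3 fun i => ((hv L).clm (EuclideanSpace.proj i : R3 →L[ℝ] ℝ)).mul
      (hf'.pd (ee i, 0) L hL)).add (Bs.sum3 fun i =>
        ((hF L hL).clm (EuclideanSpace.proj i : R3 →L[ℝ] ℝ)).mul
          (hf'.pd (0, ee i) L hL))).neg.congr hSo (fun n => contDiff_pd (hf.smooth n) _)
      fun n p _ => ?_
    have e1 := (h.vsol n).eq p
    have e2 : ((1 : ℝ), vf (κ ∘ K n) p) = ((1 : ℝ), (0 : Ph)) +
        (∑ i, (vf (κ ∘ K n) p).1 i • (((0 : ℝ), (ee i, 0)) : TP) +
          ∑ i, (vf (κ ∘ K n) p).2 i • (((0 : ℝ), (0, ee i)) : TP)) := by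
      refine Prod.ext ?_ ?_
      · simp [Prod.fst_sum]
      · simpa [Prod.snd_sum] using it3_dec (vf (κ ∘ K n) p)
    rw [Vlasov, e2, map_add, map_add, map_sum, map_sum] at e1
    simp only [map_smul, smul_eq_mul] at e1
    exact eq_neg_of_add_eq_zero_left e1
  intro L hL
  refine ((h1 L hL).extend (it3_open T P) fun n p hp => ?_).mono fun p hp => ?_
  · by_contra h'
    exact absurd (vs n p hp.1 h') (not_le.2 hp.2)
  · rcases lt_or_ge P ‖p.2.2‖ with h' | h'
    · exact Or.inr ⟨hp.1, h'⟩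
    · exact Or.inl ⟨hp.1, by linarith⟩

theorem it3_main (h : Iter κ f₀ K₀ K f Z) (T : ℝ) (m : ℕ) :
    Bd (oslab R3 T) m K ∧ Bd (oslab Ph T) m f := by
  induction m with
  | zero =>
    refine ⟨bd_zero h.smooth fun k => ?_, bd_zero (fun n => (h.vsol n).smooth) fun k => ?_⟩
    · obtain ⟨C, hC⟩ := h.ck T k
      exact ⟨C, fun n t ht => (hC n t ht).1⟩
    · obtain ⟨C, hC⟩ := h.ck T k
      exact ⟨C, fun n t ht => (hC n t ht).2⟩
  | succ m ih => exact ⟨it3_K h ih.1 ih.2, it3_f h ih.1 ih.2⟩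

theorem Iter.joint (h : Iter κ f₀ K₀ K f Z) {T : ℝ} (hT : 0 < T) (k : ℕ) : ∃ C, ∀ n,
    (∀ p ∈ slab R3 T, ‖iteratedFDeriv ℝ k (K n) p‖ ≤ C) ∧
      ∀ p ∈ slab Ph T, ‖iteratedFDeriv ℝ k (f n) p‖ ≤ C := by
  obtain ⟨hK, hf⟩ := it3_main h T k
  obtain ⟨C1, h1⟩ := bs_iter (k := k) (fun L hL => hK L (hL ▸ bsTc_le L)) h.smooth
  obtain ⟨C2, h2⟩ := bs_iter (k := k) (fun L hL => hf L (hL ▸ bsTc_le L))
    fun n => (h.vsol n).smooth
  rw [bs_closure hT] at h1 h2
  exact ⟨max C1 C2, fun n => ⟨fun p hp => (h1 n p hp).trans (le_max_left _ _),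
    fun p hp => (h2 n p hp).trans (le_max_right _ _)⟩⟩

end Crest.Agent.R106
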