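import Crest.Agent.R106.It1

/-!
# Row 106: the iteration converges

Claim: `‖K (n+1) p - K n p‖ ≤ A 2^{-n} exp (l t)` on the slab.  `g = f (n+1) - f n` vanishes at `t = 0` and
`fderiv g r (1, vf (κ ∘ K (n+1)) r) = -fderiv (f n) r (0, 0, force (κ K(n+1) - κ K n) v)`, so `tr_zero` gives
`|g| ≤ C A 2^{-n} exp (l t)` (`l ≥ 1`).  `RepAt.sub`, `Trans.sub` with
`H = gF (f (n+1)) _ - gF (f n) _`, `rep_bound`: `‖K (n+2) - K (n+1)‖ ≤ C' A 2^{-n} exp (l t)/l`; `l = max 1 (2C')`.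

-/

set_option autoImplicit false

noncomputable section

namespace Crest.Agent.R106

open MeasureTheory Set Metric Real Filter Topology
open scoped ContDiff ENNReal RealInnerProductSpace Classical
open Crest.AnalysisR.VecCalc3 Crest.AnalysisR.PDE.RVM

variable {κ : Ph → Ph} {f₀ : Ph → ℝ} {K₀ : R3 → Ph} {K : ℕ → ST → Ph} {f : ℕ → TP → ℝ}
  {Z : ℕ → ℝ → Ph → Ph}

theorem it4_DB {g : TP → ℝ} (hg : ContDiff ℝ ∞ g) {C : ℝ} {r : TP} (h : DB 1 g r.1 C) (u : Ph) :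
    |fderiv ℝ g r (0, u)| ≤ C * ‖u‖ := by
  have h1 := h r.2
  rw [norm_iteratedFDeriv_one] at h1
  have h2 : HasFDerivAt (fun z => g (r.1, z)) ((fderiv ℝ g r).comp (ContinuousLinearMap.inr ℝ ℝ Ph)) r.2 :=
    HasFDerivAt.comp r.2 (g := g) (f := fun z => (r.1, z)) (hg.differentiable (by simp) r).hasFDerivAt
      (hasFDerivAt_prodMk_right r.1 r.2)
  rw [h2.fderiv] at h1
  exact (ContinuousLinearMap.le_of_opNorm_le _ h1 u :)

theorem it4_int {c l t : ℝ} (hc : 0 ≤ c) (hl : 1 ≤ l) :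
    ∫ τ in (0 : ℝ)..t, c * exp (l * τ) ≤ c * exp (l * t) := by
  have l0 : 0 < l := by linarith
  rw [intervalIntegral.integral_const_mul, intervalIntegral.integral_comp_mul_left _ l0.ne',
    integral_exp, mul_zero, exp_zero, smul_eq_mul]
  refine mul_le_mul_of_nonneg_left ?_ hc
  rw [inv_mul_le_iff₀ l0]
  nlinarith [exp_pos (l * t)]

theorem it4_f (h : Iter κ f₀ K₀ K f Z) {T C₁ M B l : ℝ} (hC₁ : 0 ≤ C₁) (hM : 0 ≤ M) (hB : 0 ≤ B)
    (hl : 1 ≤ l) {n : ℕ} (h1 : ∀ t ∈ Icc 0 T, DB 1 (f n) t C₁)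
    (h2 : ∀ y y', ‖κ y - κ y'‖ ≤ M * ‖y - y'‖)
    (h3 : ∀ p ∈ slab R3 T, ‖K (n + 1) p - K n p‖ ≤ B * exp (l * p.1)) :
    ∀ r ∈ slab Ph T, |f (n + 1) r - f n r| ≤ 2 * C₁ * M * B * exp (l * r.1) := by
  rintro ⟨t, z⟩ ⟨ht, -⟩
  have s1 := (h.vsol (n + 1)).smooth
  have s0 := (h.vsol n).smooth
  refine (tr_zero (h.vsol (n + 1)) (g := fun r => f (n + 1) r - f n r) ((s1.sub s0).of_le (by simp))
    (w := fun τ => 2 * C₁ * M * B * exp (l * τ)) (N₀ := 0) (by fun_prop) ht.1 (fun z => ?_)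
    (fun r hr => ?_) z).trans ?_
  · rw [(h.vsol (n + 1)).init, (h.vsol n).init, sub_self, abs_zero]
  · have hr' : r.1 ∈ Icc 0 T := ⟨hr.1, hr.2.trans ht.2⟩
    have e1 : fderiv ℝ (f (n + 1)) r (1, vf (κ ∘ K (n + 1)) r) = 0 := (h.vsol (n + 1)).eq r
    have e0 : fderiv ℝ (f n) r (1, vf (κ ∘ K n) r) = 0 := (h.vsol n).eq r
    have e : ((1, vf (κ ∘ K (n + 1)) r) : TP) = (1, vf (κ ∘ K n) r) +
        (0, 0, force (κ (K (n + 1) (r.1, r.2.1)) - κ (K n (r.1, r.2.1))) r.2.2) := by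
      rw [← force_sub]
      simp [vf]
    rw [fderiv_fun_sub (s1.differentiable (by simp) r) (s0.differentiable (by simp) r),
      sub_apply, e1, e, map_add, e0, zero_add, zero_sub, abs_neg]
    refine (it4_DB s0 (h1 _ hr') _).trans ?_
    have a1 := norm_force_le (κ (K (n + 1) (r.1, r.2.1)) - κ (K n (r.1, r.2.1))) r.2.2
    have a2 := (h2 _ _).trans (mul_le_mul_of_nonneg_left (h3 (r.1, r.2.1) ⟨hr', mem_univ _⟩) hM)
    rw [Prod.norm_mk, norm_zero, max_eq_right (norm_nonneg _)]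
    calc _ ≤ C₁ * (2 * (M * (B * exp (l * r.1)))) := mul_le_mul_of_nonneg_left (by linarith) hC₁
      _ = _ := by ring
  · rw [zero_add]
    exact it4_int (by positivity) hl

theorem Iter.cauchy (h : Iter κ f₀ K₀ K f Z) (T : ℝ) : ∃ C, ∀ n,
    (∀ p ∈ slab R3 T, ‖K (n + 1) p - K n p‖ ≤ C / 2 ^ n) ∧
      ∀ p ∈ slab Ph T, |f (n + 1) p - f n p| ≤ C / 2 ^ n := by
  rcases lt_or_ge T 0 with hT | hT
  · exact ⟨0, fun n => ⟨fun p hp => absurd (hp.1.1.trans hp.1.2) (not_le.2 hT),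
      fun p hp => absurd (hp.1.1.trans hp.1.2) (not_le.2 hT)⟩⟩
  obtain ⟨C₀, H₀⟩ := h.c0 T
  obtain ⟨C₁, H₁⟩ := h.c1 T
  obtain ⟨Mb, hMb, Hb⟩ := h.bddκ
  obtain ⟨M, hM, -, HM⟩ := h.lipκ
  obtain ⟨P, HP⟩ := h.supp T
  obtain ⟨Af, HA⟩ := h.bddf
  obtain ⟨C', hC', HR⟩ := rep_bound T P
  have hC₀ : 0 ≤ C₀ := (norm_nonneg _).trans (H₀ 0 (0, 0) ⟨⟨le_rfl, hT⟩, mem_univ _⟩)
  have hC₁ : 0 ≤ C₁ := ((H₁ 0).2 0 ⟨le_rfl, hT⟩).nonneg
  have hAf : 0 ≤ Af := (abs_nonneg _).trans (HA 0 0)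
  obtain ⟨D, hD⟩ : ∃ D, D = 2 * C₁ * M + (4 * C₁ * M * Mb + 2 * Af * M) := ⟨_, rfl⟩
  have D0 : 0 ≤ D := by rw [hD]; positivity
  obtain ⟨l, hl, hl'⟩ : ∃ l : ℝ, 1 ≤ l ∧ 2 * C' * D ≤ l := ⟨max 1 _, le_max_left _ _, le_max_right _ _⟩
  have l0 : 0 < l := by linarith
  have tr : ∀ n, Trans T P (f n) (gF (f n) (κ ∘ K n)) fun _ => 0 := fun n =>
    trans_of_vlasov ((h.vsol n).smooth.of_le (by simp)).contDiffOn
      ((h.smoothκ n).of_le (by simp)).contDiffOn (VS_of_supp (HP n)) fun r _ => (h.vsol n).eq r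
  have key : ∀ n, ∀ p ∈ slab R3 T, ‖K (n + 1) p - K n p‖ ≤ 2 * C₀ / 2 ^ n * exp (l * p.1) := by
    intro n
    induction n with
    | zero =>
      intro p hp
      have a1 := H₀ 0 p hp
      have a2 := H₀ 1 p hp
      have a3 := norm_sub_le (K 1 p) (K 0 p)
      have a4 : 1 ≤ exp (l * p.1) := one_le_exp (mul_nonneg l0.le hp.1.1)
      simp only [zero_add, pow_zero, div_one]
      nlinarith
    | succ n ih =>
      intro p hp
      have hB : 0 ≤ 2 * C₀ / 2 ^ n := by positivity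
      have e : 2 * C₀ / 2 ^ (n + 1) = 2 * C₀ / 2 ^ n / 2 := by rw [pow_succ, div_div]
      rw [e]
      generalize 2 * C₀ / 2 ^ n = B at *
      have a1 := it4_f h hC₁ hM hB hl (H₁ n).2 HM ih
      have a2 := HR T _ _ _ _ _ (D * B) l p le_rfl ((tr (n + 1)).sub (tr n)) l0 hp
        (RepAt.sub hp (h.rep (n + 1) [] hp.1.1) (h.rep n [] hp.1.1) (tr (n + 1)).hg (tr n).hg
          (tr (n + 1)).vg (tr n).vg) fun r hr => by
          have hr' : r.1 ∈ Icc 0 T := ⟨hr.1, hr.2.trans hp.1.2⟩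
          have b1 := a1 r ⟨hr', mem_univ _⟩
          have b0 : 0 ≤ B * exp (l * r.1) := by positivity
          have b2 := (HM _ _).trans (mul_le_mul_of_nonneg_left (ih (r.1, r.2.1) ⟨hr', mem_univ _⟩) hM)
          refine ⟨b1.trans ?_, ?_, ?_⟩
          · rw [hD]
            gcongr
            exact le_add_of_nonneg_right (by positivity)
          · have e : gF (f (n + 1)) (κ ∘ K (n + 1)) r - gF (f n) (κ ∘ K n) r =
                (f (n + 1) r - f n r) • force (κ (K (n + 1) (r.1, r.2.1))) r.2.2 +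
                f n r • force (κ (K (n + 1) (r.1, r.2.1)) - κ (K n (r.1, r.2.1))) r.2.2 := by
              rw [← force_sub, sub_smul, smul_sub]
              simp [gF]
            rw [e]
            refine (norm_add_le _ _).trans ?_
            rw [norm_smul, norm_smul, Real.norm_eq_abs, Real.norm_eq_abs]
            have b3 := (norm_force_le (κ (K (n + 1) (r.1, r.2.1))) r.2.2).trans
              (mul_le_mul_of_nonneg_left (Hb _) zero_le_two)
            have b4 := (norm_force_le (κ (K (n + 1) (r.1, r.2.1)) - κ (K n (r.1, r.2.1))) r.2.2).trans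
              (mul_le_mul_of_nonneg_left b2 zero_le_two)
            calc _ ≤ 2 * C₁ * M * B * exp (l * r.1) * (2 * Mb) + Af * (2 * (M * (B * exp (l * r.1)))) := by
                  gcongr
                  exact HA n r
              _ = (4 * C₁ * M * Mb + 2 * Af * M) * B * exp (l * r.1) := by ring
              _ ≤ _ := by
                  have : 4 * C₁ * M * Mb + 2 * Af * M ≤ D := by
                    rw [hD]; exact le_add_of_nonneg_left (by positivity)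
                  gcongr
          · rw [sub_zero, abs_zero]
            positivity
      rw [sub_self, sub_zero] at a2
      refine a2.trans ?_
      rw [div_le_iff₀ l0]
      have b0 : 0 ≤ B * exp (l * p.1) := by positivity
      nlinarith [mul_le_mul_of_nonneg_right hl' b0]
  refine ⟨(1 + 2 * C₁ * M) * (2 * C₀) * exp (l * T), fun n => ⟨fun p hp => ?_, fun p hp => ?_⟩⟩
  · refine (key n p hp).trans ?_
    have : 2 * C₀ ≤ (1 + 2 * C₁ * M) * (2 * C₀) :=
      le_mul_of_one_le_left (by positivity) (le_add_of_nonneg_right (by positivity))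
    rw [div_mul_eq_mul_div]
    gcongr ?_ * exp (l * ?_) / _
    exact hp.1.2
  · refine (it4_f h hC₁ hM (by positivity) hl (H₁ n).2 HM (key n) p hp).trans ?_
    rw [← mul_div_assoc, div_mul_eq_mul_div]
    gcongr
    · linarith
    · exact hp.1.2

end Crest.Agent.R106
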