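import Crest.Agent.R106.KerC

/-!
# Row 106: explicit formula for `dvb`

With `r = |y|`, `ρ = r d = r - y·v̂`, `A = r D̄ = r - y·w̄`, `N' = r NN(e, w) = Θ y·e - (r - y·w) v̂·e` one has
`cc = N'/(r ρ) - D μ`, `kap = d μ`, `μ = χ(tt) N̄'/(A ρ)`, `tt = (ρ/φ₀² + 200 η² r)/A`.  `∂_u r = n·u`.
(1) Without `μ`: `∂_e(-Θ/r) + ∂_w(-v̂_e/r) - ∂_{v̂}(N'/(rρ)) = NN/(p² d² r²)` using `∂_{v̂} N' = d v̂_e`,
`∂_{v̂} ρ = 1/p² - d`, `∂_{v̂} r = 1 - d`.  (2) `∂_w d = ∂_{v̂} D`, so the `μ` terms give `-∂_ξ μ` with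
`ξ = d w - D v̂` (frozen at the point); `∂_ξ r = d - D`, `∂_ξ A = d κ - D Θ̄`, `∂_ξ ρ = d Θ - D/p²`,
`∂_ξ N̄' = d (Θ̄ w_e - κ v̂_e)`, `κ = gap w w̄`.  Practical way: compute `HasFDerivAt`/`HasDerivAt` along the
line `s ↦ (y + s u, v)` for general `u` in terms of the scalars `n·u`, `v̂·u`, `w·u`, `w̄·u`, `e·u`, then
`field_simp; ring` (the formula was checked numerically).

-/

set_option autoImplicit false

noncomputable section

namespace Crest.Agent.R106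

open MeasureTheory Set Metric Real Filter Topology
open scoped ContDiff ENNReal RealInnerProductSpace Classical
open Crest.AnalysisR.VecCalc3 Crest.AnalysisR.PDE.RVM

/-- `a` is differentiable at `q` with derivative `x` in direction `μ` -/
def K1D {E : Type} [NormedAddCommGroup E] [NormedSpace ℝ E] (q μ : Ph) (a : Ph → E) (x : E) : Prop :=
  DifferentiableAt ℝ a q ∧ fderiv ℝ a q μ = x

namespace K1D

variable {q μ : Ph} {a b : Ph → ℝ} {x y : ℝ}

theorem const {E : Type} [NormedAddCommGroup E] [NormedSpace ℝ E] (c : E) :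
    K1D q μ (fun _ => c) 0 := ⟨differentiableAt_const c, by simp⟩

theorem add (ha : K1D q μ a x) (hb : K1D q μ b y) : K1D q μ (fun p => a p + b p) (x + y) :=
  ⟨ha.1.add hb.1, by rw [fderiv_fun_add ha.1 hb.1]; simp [ha.2, hb.2]⟩

theorem sub (ha : K1D q μ a x) (hb : K1D q μ b y) : K1D q μ (fun p => a p - b p) (x - y) :=
  ⟨ha.1.sub hb.1, by rw [fderiv_fun_sub ha.1 hb.1]; simp [ha.2, hb.2]⟩

theorem neg (ha : K1D q μ a x) : K1D q μ (fun p => -a p) (-x) :=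
  ⟨ha.1.neg, by rw [fderiv_fun_neg]; simp [ha.2]⟩

theorem mul (ha : K1D q μ a x) (hb : K1D q μ b y) :
    K1D q μ (fun p => a p * b p) (a q * y + b q * x) :=
  ⟨ha.1.mul hb.1, by rw [fderiv_fun_mul ha.1 hb.1]; simp [ha.2, hb.2]⟩

theorem comp (ha : K1D q μ a x) {χ : ℝ → ℝ} (h : HasDerivAt χ y (a q)) :
    K1D q μ (fun p => χ (a p)) (y * x) :=
  have h1 := h.comp_hasFDerivAt q ha.1.hasFDerivAt
  ⟨h1.differentiableAt, by rw [show (fun p => χ (a p)) = χ ∘ a from rfl, h1.fderiv]; simp [ha.2]⟩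

theorem inv (ha : K1D q μ a x) (h : a q ≠ 0) : K1D q μ (fun p => (a p)⁻¹) (-(a q ^ 2)⁻¹ * x) :=
  ha.comp (hasDerivAt_inv h)

theorem div (ha : K1D q μ a x) (hb : K1D q μ b y) (h : b q ≠ 0) :
    K1D q μ (fun p => a p / b p) (a q * (-(b q ^ 2)⁻¹ * y) + (b q)⁻¹ * x) := by
  simpa only [div_eq_mul_inv] using ha.mul (hb.inv h)

theorem div_const (ha : K1D q μ a x) (c : ℝ) : K1D q μ (fun p => a p / c) (x / c) := by
  simpa [div_eq_mul_inv, mul_comm] using ha.mul (const c⁻¹)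

theorem inner {f g : Ph → R3} {u v : R3} (hf : K1D q μ f u) (hg : K1D q μ g v) :
    K1D q μ (fun p => ⟪f p, g p⟫) (⟪f q, v⟫ + ⟪u, g q⟫) :=
  ⟨hf.1.inner ℝ hg.1, by rw [fderiv_inner_apply ℝ hf.1 hg.1, hf.2, hg.2]⟩

theorem gap {f g : Ph → R3} {u v : R3} (hf : K1D q μ f u) (hg : K1D q μ g v) :
    K1D q μ (fun p => gap (f p) (g p)) (0 - (⟪f q, v⟫ + ⟪u, g q⟫)) :=
  (const 1).sub (hf.inner hg)

theorem norm (hq : q.1 ≠ 0) : K1D q μ (fun p => ‖p.1‖) ⟪nn q.1, μ.1⟫ :=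
  have h1 := (hasFDerivAt_norm hq).comp q hasFDerivAt_fst
  ⟨h1.differentiableAt, by
    rw [show (fun p : Ph => ‖p.1‖) = (fun y => ‖y‖) ∘ Prod.fst from rfl, h1.fderiv]; simp⟩

theorem nn (hq : q.1 ≠ 0) :
    K1D q μ (fun p => nn p.1) (‖q.1‖⁻¹ • (μ.1 - ⟪nn q.1, μ.1⟫ • nn q.1)) :=
  have h1 := ((contDiffAt_nn hq).differentiableAt (by simp)).hasFDerivAt.comp q hasFDerivAt_fst
  ⟨h1.differentiableAt, by
    rw [show (fun p : Ph => R106.nn p.1) = R106.nn ∘ Prod.fst from rfl, h1.fderiv, ← fderiv_nn hq]; rfl⟩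

theorem vel : K1D q μ (fun p => relVel p.2) (KP.dvel q.2 μ.2) :=
  have h1 := (contDiff_relVel.differentiable (by simp) q.2).hasFDerivAt.comp q hasFDerivAt_snd
  ⟨h1.differentiableAt, by
    rw [show (fun p : Ph => relVel p.2) = relVel ∘ Prod.snd from rfl, h1.fderiv, KP.dvel,
      ← fderiv_relVel]
    rfl⟩

/-- the derivative of `μ` in terms of those of `d`, `D̄`, `N̄`, `r` -/
theorem mu {P : KP} (h : P.OK) (hq : q.1 ≠ 0) {d' Db' Nb' r' : ℝ}
    (hd : K1D q μ (fun p => R106.gap (R106.nn p.1) (relVel p.2)) d')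
    (hD : K1D q μ (fun p => R106.gap (R106.nn p.1) P.wb) Db') (hN : K1D q μ (NN P.e P.wb) Nb')
    (hr : K1D q μ (fun p => ‖p.1‖) r') :
    K1D q μ P.mu ((deriv chi (P.tt q) * ((d' / P.φ₀ ^ 2 - P.tt q * Db') / R106.gap (R106.nn q.1) P.wb) *
      NN P.e P.wb q + chi (P.tt q) * (Nb' - NN P.e P.wb q * (Db' / R106.gap (R106.nn q.1) P.wb +
        d' / R106.gap (R106.nn q.1) (relVel q.2) + r' / ‖q.1‖))) /
      (R106.gap (R106.nn q.1) P.wb * R106.gap (R106.nn q.1) (relVel q.2) * ‖q.1‖)) := by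
  have d0 := (gap_pos (norm_nn_le q.1) (norm_relVel_lt q.2)).ne'
  have D0 := (gap_pos (norm_nn_le q.1) h.hwb).ne'
  have r0 := norm_ne_zero_iff.2 hq
  have ht : K1D q μ P.tt _ := ((hd.div_const _).add (const _)).div hD D0
  have h1 : K1D q μ P.mu _ :=
    ((ht.comp (contDiff_chi.differentiable (by simp) _).hasDerivAt).mul hN).div ((hD.mul hd).mul hr)
      (mul_ne_zero (mul_ne_zero D0 d0) r0)
  refine ⟨h1.1, h1.2.trans ?_⟩
  have := h.φpos.ne'
  generalize deriv chi (P.tt q) = χ'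
  generalize chi (P.tt q) = χ
  rw [KP.tt]
  field_simp
  ring

theorem NN (e w : R3) {n' V' : R3} (hn : K1D q μ (fun p => R106.nn p.1) n')
    (hV : K1D q μ (fun p => relVel p.2) V') :
    K1D q μ (NN e w) (R106.gap w (relVel q.2) * ⟪n', e⟫ - ⟪w, V'⟫ * ⟪R106.nn q.1, e⟫ -
      (R106.gap (R106.nn q.1) w * ⟪V', e⟫ - ⟪n', w⟫ * ⟪relVel q.2, e⟫)) := by
  have h1 : K1D q μ (R106.NN e w) _ := (((const w).gap hV).mul (hn.inner (const e))).sub
    ((hn.gap (const w)).mul (hV.inner (const e)))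
  refine ⟨h1.1, h1.2.trans ?_⟩
  simp only [inner_zero_left, inner_zero_right]
  ring

end K1D

theorem KP.OK.dvb_eq {P : KP} (h : P.OK) {q : Ph} (hq : q.1 ≠ 0) :
    P.dvb q * ‖q.1‖ ^ 2 = P.F1 q := by
  have d0 := (gap_pos (norm_nn_le q.1) (norm_relVel_lt q.2)).ne'
  have D0 := (gap_pos (norm_nn_le q.1) h.hwb).ne'
  have r0 := norm_ne_zero_iff.2 hq
  have hn := fun u => K1D.nn (μ := (u, 0)) hq
  have hV : ∀ u, K1D q (u, 0) (fun p => relVel p.2) 0 := fun u => by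
    simpa [KP.dvel] using K1D.vel (q := q) (μ := (u, 0))
  have hr := fun u => K1D.norm (μ := (u, 0)) hq
  have hd := fun u => (hn u).gap (hV u)
  have hm := fun u => K1D.mu h hq (hd u) ((hn u).gap (K1D.const P.wb)) (K1D.NN _ _ (hn u) (hV u)) (hr u)
  have h1 : K1D q (P.e, 0) P.b1 _ := (((K1D.const P.w).gap (hV _)).mul ((hr _).inv r0)).neg
  have h2 : K1D q (P.w, 0) P.b2 _ :=
    ((((hV _).inner (K1D.const P.e)).mul ((hr _).inv r0)).add ((hd _).mul (hm _))).neg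
  have h3 : K1D q (relVel q.2, 0) P.cc _ :=
    ((K1D.NN _ _ (hn _) (hV _)).div ((hd _).mul (hr _)) (mul_ne_zero d0 r0)).sub
      (((hn _).gap (K1D.const P.w)).mul (hm _))
  have hv : ⟪relVel q.2, relVel q.2⟫ = 1 - 1 / pp q.2 ^ 2 := by
    rw [real_inner_self_eq_norm_sq, norm_relVel_sq]
  have hg : ∀ a b : R3, ⟪a, b⟫ = 1 - gap a b := fun a b => by simp [gap]
  have p0 := (pp_pos q.2).ne'
  have φ0 := h.φpos.ne'
  rw [KP.dvb, h1.2, h2.2, h3.2]
  simp only [KP.F1, KP.mu, inner_zero_left, inner_zero_right, inner_smul_left, inner_sub_left,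
    conj_trivial, hv]
  generalize deriv chi (P.tt q) = χ'
  generalize chi (P.tt q) = χ
  rw [hg (nn q.1) (relVel q.2), hg (nn q.1) P.w, hg (nn q.1) P.wb, hg P.w (relVel q.2), hg P.w P.wb,
    hg (relVel q.2) P.w, hg (relVel q.2) P.wb, gap_comm (relVel q.2), gap_comm (relVel q.2)]
  simp only [KP.tt, NN]
  field_simp
  ring

/-- the `v`-derivative of `cc` (only `v̂` varies: `fderiv_relVel`) -/
theorem KP.OK.dcc_eq {P : KP} (h : P.OK) {q : Ph} (hq : q.1 ≠ 0) (u : R3) :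
    fderiv ℝ P.cc q (0, u) * ‖q.1‖ = P.F2 q u := by
  have d0 := (gap_pos (norm_nn_le q.1) (norm_relVel_lt q.2)).ne'
  have D0 := (gap_pos (norm_nn_le q.1) h.hwb).ne'
  have r0 := norm_ne_zero_iff.2 hq
  have hn : K1D q (0, u) (fun p => nn p.1) 0 := by simpa using K1D.nn (μ := (0, u)) hq
  have hV := K1D.vel (q := q) (μ := (0, u))
  have hr : K1D q (0, u) (fun p => ‖p.1‖) 0 := by simpa using K1D.norm (μ := (0, u)) hq
  have hd := hn.gap hV
  have h3 : K1D q (0, u) P.cc _ :=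
    ((K1D.NN _ _ hn hV).div (hd.mul hr) (mul_ne_zero d0 r0)).sub ((hn.gap (K1D.const P.w)).mul
      (K1D.mu h hq hd (hn.gap (K1D.const P.wb)) (K1D.NN _ _ hn hV) hr))
  have φ0 := h.φpos.ne'
  rw [h3.2]
  simp only [KP.F2, inner_zero_left, inner_zero_right]
  field_simp
  ring

end Crest.Agent.R106
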