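import Crest.Agent.R106.Defs

/-!
# Row 106: layer cake and optimisation lemmas

`layer_one`: for `ρ < u ≤ U`, `1/u = 1/U + ∫_ρ^U 1[u ≤ l] dl/l²`; Tonelli.  `layer_two`:
`1/u² = ∫_ρ^∞ 1[u ≤ l] 2 dl/l³`.  `opt3`: take `R = max (√(c/a)) ((b/a)^{1/3})` (and `R → 0` if `b = c = 0`).

-/

set_option autoImplicit false

noncomputable section

namespace Crest.Agent.R106

open MeasureTheory Set Metric Real Filter Topology
open scoped ContDiff ENNReal RealInnerProductSpace Classical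
open Crest.AnalysisR.VecCalc3 Crest.AnalysisR.PDE.RVM

theorem layer_aux {α : Type} [MeasurableSpace α] (ν : Measure α) [SFinite ν] {u : α → ℝ}
    (hu : Measurable u) {M₀ M : ℝ} (h : ∀ l, 0 < l → ν {a | u a ≤ l} ≤ ENNReal.ofReal (M₀ + M * l))
    {S : Set ℝ} (hS : MeasurableSet S) (hS0 : S ⊆ Ioi 0) {w : ℝ → ℝ} (hw : Measurable w)
    (hw0 : ∀ l ∈ S, 0 ≤ w l) :
    ∫⁻ a, (∫⁻ l in S, if u a ≤ l then ENNReal.ofReal (w l) else 0) ∂ν ≤
      ∫⁻ l in S, ENNReal.ofReal (w l * (M₀ + M * l)) := by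
  have hm : Measurable (Function.uncurry fun (a : α) (l : ℝ) =>
      if u a ≤ l then ENNReal.ofReal (w l) else 0) :=
    Measurable.ite (measurableSet_le (hu.comp measurable_fst) measurable_snd)
      (hw.comp measurable_snd).ennreal_ofReal measurable_const
  rw [lintegral_lintegral_swap hm.aemeasurable]
  refine setLIntegral_mono' hS fun l hl => ?_
  have e : (fun a => if u a ≤ l then ENNReal.ofReal (w l) else 0) =
      {a | u a ≤ l}.indicator fun _ => ENNReal.ofReal (w l) := by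
    ext a; simp [indicator]
  rw [e, lintegral_indicator_const (measurableSet_le hu measurable_const),
    ENNReal.ofReal_mul (hw0 l hl)]
  exact mul_le_mul_right (h l (hS0 hl)) _

theorem layer_Ioc {g G : ℝ → ℝ} {a b : ℝ} (hab : a ≤ b) (hg : ContinuousOn g (Icc a b))
    (h0 : ∀ x ∈ Icc a b, 0 ≤ g x) (hG : ∀ x ∈ Icc a b, HasDerivAt G (g x) x) :
    ∫⁻ l in Ioc a b, ENNReal.ofReal (g l) = ENNReal.ofReal (G b - G a) := by
  have hi : IntervalIntegrable g volume a b := (hg.mono (by rw [uIcc_of_le hab])).intervalIntegrable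
  rw [← intervalIntegral.integral_eq_sub_of_hasDerivAt (by rwa [uIcc_of_le hab]) hi,
    intervalIntegral.integral_of_le hab, ofReal_integral_eq_lintegral_ofReal hi.1]
  exact (ae_restrict_iff' measurableSet_Ioc).2 (ae_of_all _ fun x hx => h0 x (Ioc_subset_Icc_self hx))

theorem layer_Ioi {g G : ℝ → ℝ} {a : ℝ} (h0 : ∀ x ∈ Ioi a, 0 ≤ g x)
    (hG : ∀ x ∈ Ici a, HasDerivAt G (g x) x) (hl : Tendsto G atTop (𝓝 0)) :
    ∫⁻ l in Ioi a, ENNReal.ofReal (g l) = ENNReal.ofReal (-G a) := by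
  have hi := integrableOn_Ioi_deriv_of_nonneg' hG h0 hl
  rw [← ofReal_integral_eq_lintegral_ofReal hi
    ((ae_restrict_iff' measurableSet_Ioi).2 (ae_of_all _ h0)),
    integral_Ioi_of_hasDerivAt_of_nonneg' hG h0 hl, zero_sub]

theorem layer_opt {x : ℝ≥0∞} {a b c R₀ : ℝ} (ha : 0 < a) (hb : 0 ≤ b) (hc : 0 ≤ c) (hR : 0 < R₀)
    (h : ∀ R, R₀ ≤ R → x ≤ ENNReal.ofReal (a * R + b / R ^ 2 + c / R)) :
    x ≤ ENNReal.ofReal (3 * (√(a * c) + (a ^ 2 * b) ^ (1 / 3 : ℝ) + a * R₀)) := by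
  set A := √(a * c) with hA
  set B := (a ^ 2 * b) ^ (1 / 3 : ℝ) with hB
  have hA0 : 0 ≤ A := Real.sqrt_nonneg _
  have hB0 : 0 ≤ B := by positivity
  have hA2 : A ^ 2 = a * c := Real.sq_sqrt (by positivity)
  have hB3 : B ^ 3 = a ^ 2 * b := by
    rw [hB, one_div]
    exact_mod_cast Real.rpow_inv_natCast_pow (by positivity : (0 : ℝ) ≤ a ^ 2 * b) (n := 3) (by norm_num)
  set S := A + B + a * R₀ with hS
  have haR : 0 < a * R₀ := by positivity
  have hS0 : 0 < S := by positivity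
  refine (h (S / a) ((le_div_iff₀ ha).2 (by linarith))).trans (ENNReal.ofReal_le_ofReal ?_)
  have e1 : a * (S / a) = S := by field_simp
  have e2 : b / (S / a) ^ 2 ≤ S := by
    have : B ^ 3 ≤ S ^ 3 := pow_le_pow_left₀ hB0 (by linarith) 3
    rw [div_pow, div_div_eq_mul_div, div_le_iff₀ (by positivity)]
    nlinarith
  have e3 : c / (S / a) ≤ S := by
    have : A ^ 2 ≤ S ^ 2 := pow_le_pow_left₀ hA0 (by linarith) 2
    rw [div_div_eq_mul_div, div_le_iff₀ hS0]
    nlinarith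
  linarith

theorem layer_one {α : Type} [MeasurableSpace α] (ν : Measure α) [SFinite ν] {u : α → ℝ}
    (hu : Measurable u) {M₀ M ρ U : ℝ} (h0 : 0 ≤ M₀) (h1 : 0 ≤ M) (hρ : 0 < ρ) (hU : ρ ≤ U)
    (h : ∀ l, 0 < l → ν {a | u a ≤ l} ≤ ENNReal.ofReal (M₀ + M * l)) :
    ∫⁻ a, ENNReal.ofReal (if ρ < u a ∧ u a ≤ U then 1 / u a else 0) ∂ν ≤
      ENNReal.ofReal (M₀ / ρ + M * (1 + Real.log (U / ρ))) := by
  have hU0 : 0 < U := hρ.trans_le hU
  have key : ∀ a, ENNReal.ofReal (if ρ < u a ∧ u a ≤ U then 1 / u a else 0) ≤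
      {a | u a ≤ U}.indicator (fun _ => ENNReal.ofReal (1 / U)) a +
        ∫⁻ l in Ioc ρ U, if u a ≤ l then ENNReal.ofReal (1 / l ^ 2) else 0 := by
    intro a
    split_ifs with ha
    · have hua : 0 < u a := hρ.trans ha.1
      have h2 := layer_Ioc (g := fun l => 1 / l ^ 2) (G := fun l => -l⁻¹) ha.2
        (continuousOn_const.div (continuousOn_id.pow 2) fun x hx =>
          pow_ne_zero _ (hua.trans_le hx.1).ne')
        (fun x _ => by positivity) (fun x hx => by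
          exact (hasDerivAt_inv (hua.trans_le hx.1).ne').fun_neg.congr_deriv (by simp))
      have h3 : ∫⁻ l in Ioc (u a) U, ENNReal.ofReal (1 / l ^ 2) ≤
          ∫⁻ l in Ioc ρ U, if u a ≤ l then ENNReal.ofReal (1 / l ^ 2) else 0 :=
        (setLIntegral_mono' measurableSet_Ioc fun l hl => by rw [if_pos hl.1.le]).trans
          (lintegral_mono_set (Ioc_subset_Ioc_left ha.1.le))
      rw [indicator_of_mem (show a ∈ {a | u a ≤ U} from ha.2)]
      refine le_trans ?_ (add_le_add le_rfl h3)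
      rw [h2]
      refine le_trans (ENNReal.ofReal_le_ofReal (le_of_eq ?_)) ENNReal.ofReal_add_le
      simp only [one_div]; ring
    · simp
  refine (lintegral_mono key).trans ?_
  rw [lintegral_add_left (measurable_const.indicator (measurableSet_le hu measurable_const)),
    lintegral_indicator_const (measurableSet_le hu measurable_const)]
  have h2 := layer_aux ν hu h (S := Ioc ρ U) measurableSet_Ioc (fun x hx => hρ.trans hx.1)
    (w := fun l => 1 / l ^ 2) (by fun_prop) (fun _ _ => by positivity)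
  have h3 := layer_Ioc (g := fun l => 1 / l ^ 2 * (M₀ + M * l))
    (G := fun l => M₀ * -l⁻¹ + M * Real.log l) hU
    ((continuousOn_const.div (continuousOn_id.pow 2) fun x hx =>
          pow_ne_zero _ (hρ.trans_le hx.1).ne').mul (by fun_prop))
    (fun x hx => by have := hρ.trans_le hx.1; positivity) (fun x hx => by
      have hx0 := (hρ.trans_le hx.1).ne'
      refine (((hasDerivAt_inv hx0).fun_neg.const_mul M₀).fun_add
        ((Real.hasDerivAt_log hx0).const_mul M)).congr_deriv ?_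
      field_simp)
  rw [h3] at h2
  have hlog : Real.log ρ ≤ Real.log U := Real.log_le_log hρ hU
  have hinv : U⁻¹ ≤ ρ⁻¹ := inv_anti₀ hρ hU
  refine (add_le_add (mul_le_mul_right (h U hU0) _) h2).trans ?_
  rw [← ENNReal.ofReal_mul (by positivity), ← ENNReal.ofReal_add (by positivity)
    (by nlinarith [mul_le_mul_of_nonneg_left hlog h1, mul_le_mul_of_nonneg_left hinv h0])]
  refine ENNReal.ofReal_le_ofReal (le_of_eq ?_)
  rw [Real.log_div hU0.ne' hρ.ne']
  field_simp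
  ring

theorem layer_two {α : Type} [MeasurableSpace α] (ν : Measure α) [SFinite ν] {u : α → ℝ}
    (hu : Measurable u) {M₀ M ρ : ℝ} (h0 : 0 ≤ M₀) (h1 : 0 ≤ M) (hρ : 0 < ρ)
    (h : ∀ l, 0 < l → ν {a | u a ≤ l} ≤ ENNReal.ofReal (M₀ + M * l)) :
    ∫⁻ a, ENNReal.ofReal (if ρ < u a then 1 / u a ^ 2 else 0) ∂ν ≤
      ENNReal.ofReal (M₀ / ρ ^ 2 + 2 * M / ρ) := by
  have hd : ∀ x : ℝ, x ≠ 0 → HasDerivAt (fun l : ℝ => -(l⁻¹ ^ 2)) (2 / x ^ 3) x := by
    intro x hx
    refine ((hasDerivAt_inv hx).fun_pow 2).fun_neg.congr_deriv ?_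
    norm_num
    field_simp
  have hl : Tendsto (fun l : ℝ => -(l⁻¹ ^ 2)) atTop (𝓝 0) := by
    simpa using ((tendsto_inv_atTop_zero (𝕜 := ℝ)).pow 2).neg
  have key : ∀ a, ENNReal.ofReal (if ρ < u a then 1 / u a ^ 2 else 0) ≤
        ∫⁻ l in Ioi ρ, if u a ≤ l then ENNReal.ofReal (2 / l ^ 3) else 0 := by
    intro a
    split_ifs with ha
    · have hua : 0 < u a := hρ.trans ha
      have h2 := layer_Ioi (g := fun l => 2 / l ^ 3) (G := fun l => -(l⁻¹ ^ 2)) (a := u a)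
        (fun x hx => by have := hua.trans hx; positivity)
        (fun x hx => hd x (hua.trans_le hx).ne') hl
      have h3 : ∫⁻ l in Ioi (u a), ENNReal.ofReal (2 / l ^ 3) ≤
          ∫⁻ l in Ioi ρ, if u a ≤ l then ENNReal.ofReal (2 / l ^ 3) else 0 :=
        (setLIntegral_mono' measurableSet_Ioi fun l hl => by rw [if_pos (le_of_lt hl)]).trans
          (lintegral_mono_set (Ioi_subset_Ioi ha.le))
      refine le_trans (le_of_eq ?_) h3
      rw [h2]
      simp
    · simp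
  refine (lintegral_mono key).trans ?_
  have h2 := layer_aux ν hu h (S := Ioi ρ) measurableSet_Ioi (Ioi_subset_Ioi hρ.le)
    (w := fun l => 2 / l ^ 3) (by fun_prop) (fun x hx => by have := hρ.trans hx; positivity)
  have h3 := layer_Ioi (g := fun l => 2 / l ^ 3 * (M₀ + M * l))
    (G := fun l => M₀ * -(l⁻¹ ^ 2) + 2 * M * -l⁻¹) (a := ρ)
    (fun x hx => by have := hρ.trans hx; positivity) (fun x hx => by
      have hx0 := (hρ.trans_le hx).ne'
      refine (((hd x hx0).const_mul M₀).fun_add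
        ((hasDerivAt_inv hx0).fun_neg.const_mul (2 * M))).congr_deriv ?_
      field_simp)
    (by simpa using (hl.const_mul M₀).add ((tendsto_inv_atTop_zero (𝕜 := ℝ)).neg.const_mul (2 * M)))
  rw [h3] at h2
  refine h2.trans (ENNReal.ofReal_le_ofReal (le_of_eq ?_))
  field_simp
  ring

theorem opt3 {x : ℝ≥0∞} {a b c : ℝ} (ha : 0 < a) (hb : 0 ≤ b) (hc : 0 ≤ c)
    (h : ∀ R, 0 < R → x ≤ ENNReal.ofReal (a * R + b / R ^ 2 + c / R)) :
    x ≤ ENNReal.ofReal (3 * (√(a * c) + (a ^ 2 * b) ^ (1 / 3 : ℝ))) := by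
  refine ENNReal.le_of_forall_pos_le_add fun ε hε _ => ?_
  have hε' : (0 : ℝ) < ε := hε
  have hR : 0 < (ε : ℝ) / (3 * a) := by positivity
  refine (layer_opt ha hb hc hR fun R hR' => h R (hR.trans_le hR')).trans ?_
  rw [← ENNReal.ofReal_coe_nnreal]
  refine le_trans (ENNReal.ofReal_le_ofReal (le_of_eq ?_)) ENNReal.ofReal_add_le
  field_simp

theorem opt3' {x : ℝ≥0∞} {a b c R₀ : ℝ} (ha : 0 < a) (hb : 0 ≤ b) (hc : 0 ≤ c) (hR : 0 < R₀)
    (h : ∀ R, R₀ ≤ R → x ≤ ENNReal.ofReal (a * R + b / R ^ 2 + c / R)) :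
    x ≤ ENNReal.ofReal (3 * (√(a * c) + (a ^ 2 * b) ^ (1 / 3 : ℝ) + a * R₀)) := by
  exact layer_opt ha hb hc hR h

/-- bathtub optimisation -/
theorem opt_bath {x e : ℝ≥0∞} {a : ℝ} (ha : 0 < a)
    (h : ∀ μ : ℝ, 0 < μ → x ≤ e / ENNReal.ofReal μ + ENNReal.ofReal (a * μ ^ (1 / 3 : ℝ))) :
    x ≤ 2 * ENNReal.ofReal (a ^ (3 / 4 : ℝ)) * e ^ (1 / 4 : ℝ) := by
  have cube : ∀ s : ℝ, 0 ≤ s → (s ^ 3) ^ (1 / 3 : ℝ) = s := fun s hs => by
    rw [one_div]
    exact_mod_cast Real.pow_rpow_inv_natCast hs (n := 3) (by norm_num)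
  rcases eq_or_ne e ⊤ with rfl | he
  · rw [ENNReal.top_rpow_of_pos (by norm_num), ENNReal.mul_top]
    · exact le_top
    · exact mul_ne_zero two_ne_zero (ENNReal.ofReal_pos.2 (by positivity)).ne'
  rcases eq_or_ne e 0 with rfl | he0
  · refine le_trans (ENNReal.le_of_forall_pos_le_add (b := 0) fun ε hε _ => ?_) zero_le
    have hε' : (0 : ℝ) < ε := hε
    refine (h ((ε / a) ^ 3) (by positivity)).trans ?_
    rw [cube _ (by positivity), ENNReal.zero_div, mul_div_cancel₀ _ ha.ne', ENNReal.ofReal_coe_nnreal]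
  obtain ⟨E, hE, rfl⟩ : ∃ E : ℝ, 0 < E ∧ e = ENNReal.ofReal E :=
    ⟨e.toReal, ENNReal.toReal_pos he0 he, (ENNReal.ofReal_toReal he).symm⟩
  set s := (E / a) ^ (1 / 4 : ℝ) with hs
  have hs0 : 0 < s := by positivity
  have hs4 : s ^ 4 = E / a := by
    rw [hs, one_div]
    exact_mod_cast Real.rpow_inv_natCast_pow (by positivity : (0 : ℝ) ≤ E / a) (n := 4) (by norm_num)
  have e1 : a ^ (3 / 4 : ℝ) * E ^ (1 / 4 : ℝ) = a * s := by
    have e2 : a ^ (3 / 4 : ℝ) * a ^ (1 / 4 : ℝ) = a := by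
      rw [← Real.rpow_add ha]; norm_num
    have e3 : E ^ (1 / 4 : ℝ) = a ^ (1 / 4 : ℝ) * s := by
      rw [hs, ← Real.mul_rpow ha.le (by positivity), mul_div_cancel₀ _ ha.ne']
    rw [e3, ← mul_assoc, e2]
  refine (h (s ^ 3) (by positivity)).trans (le_of_eq ?_)
  have e4 : E / s ^ 3 = a * s := by
    rw [div_eq_iff (by positivity), eq_div_iff ha.ne'] at *
    linarith
  rw [cube _ hs0.le, ← ENNReal.ofReal_div_of_pos (by positivity), e4,
    ENNReal.ofReal_rpow_of_pos hE, mul_assoc, ← ENNReal.ofReal_mul (by positivity), e1, two_mul]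

/-- Cauchy–Schwarz -/
theorem lintegral_cs {α : Type} [MeasurableSpace α] (ν : Measure α) {f g : α → ℝ≥0∞}
    (hf : AEMeasurable f ν) (hg : AEMeasurable g ν) :
    ∫⁻ a, f a * g a ∂ν ≤ (∫⁻ a, f a ^ 2 ∂ν) ^ (1 / 2 : ℝ) * (∫⁻ a, g a ^ 2 ∂ν) ^ (1 / 2 : ℝ) := by
  have := ENNReal.lintegral_mul_le_Lp_mul_Lq ν Real.HolderConjugate.two_two hf hg
  simpa using this

/-- Tonelli for `(s, y, v)` -/
theorem lintegral_TP {F : TP → ℝ≥0∞} (hF : Measurable F) :
    ∫⁻ q, F q = ∫⁻ p : ST, ∫⁻ v, F (p.1, p.2, v) := by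
  have hG : Measurable fun p : ST => ∫⁻ v, F (p.1, p.2, v) :=
    Measurable.lintegral_prod_right' (f := fun q : ST × R3 => F (q.1.1, q.1.2, q.2))
      (hF.comp (by fun_prop))
  rw [Measure.volume_eq_prod, lintegral_prod _ hF.aemeasurable, Measure.volume_eq_prod ℝ R3,
    lintegral_prod _ hG.aemeasurable]
  refine lintegral_congr fun t => ?_
  rw [Measure.volume_eq_prod]
  exact lintegral_prod (fun z => F (t, z)) (hF.comp measurable_prodMk_left).aemeasurable

end Crest.Agent.R106
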