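import Crest.Agent.R106.Basic
import Crest.Agent.R106.CDefs
import Crest.Agent.R106.Layer

/-!
# Row 106: basic facts on the abstract layer

Measurability by `fun_prop`/`Measurable.ite`; Tonelli (`lintegral_prod`, `lintegral_TP`).

-/

set_option autoImplicit false

noncomputable section

namespace Crest.Agent.R106

open MeasureTheory Set Metric Real Filter Topology
open scoped ContDiff ENNReal RealInnerProductSpace Classical
open Crest.AnalysisR.VecCalc3 Crest.AnalysisR.PDE.RVM

theorem measurable_rr : Measurable rr := by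
  unfold rr
  fun_prop

theorem measurable_pv : Measurable pv := by
  unfold pv
  fun_prop

theorem measurable_ph : Measurable ph := by
  unfold ph
  fun_prop

theorem one_le_Lg {Q : ℝ} (hQ : 1 ≤ Q) : 1 ≤ Lg Q := by
  unfold Lg
  linarith [Real.log_nonneg hQ]

theorem ph_pos (q : TP) : 0 < ph q := by
  exact ang_pos (norm_nn_le _) (norm_relVel_lt _)

theorem one_le_pv_ph (q : TP) : 1 ≤ pv q * ph q := by
  have := inv_pp_le_ang (norm_nn_le q.2.1) q.2.2
  rw [div_le_iff₀ (pp_pos _), mul_comm] at this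
  exact this

theorem ph_le_two (q : TP) : ph q ≤ 2 := by
  exact ang_le_two (norm_nn_le _) (norm_relVel_lt _).le

namespace LD

variable {L : LD} {A En Tm : ℝ}

theorem OK.A_nonneg (h : L.OK A En Tm) : 0 ≤ A := by
  exact (h.f0 0).trans (h.fA 0)

theorem OK.norm_w_lt (h : L.OK A En Tm) (s : ℝ) : ‖L.w s‖ < 1 := by
  have h1 : 0 < L.Q := by linarith [h.hQ]
  have h2 : 0 < 1 / (2 * L.Q ^ 2) := by positivity
  linarith [h.hw s]

theorem OK.meas_ps (h : L.OK A En Tm) : Measurable L.ps := by
  exact measurable_ang' (by fun_prop) (h.mw.comp measurable_fst)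

theorem OK.meas_th (h : L.OK A En Tm) : Measurable L.th := by
  exact measurable_ang' (h.mw.comp measurable_fst) (by fun_prop)

theorem OK.meas_DD (h : L.OK A En Tm) : Measurable L.DD := by
  exact measurable_gap' (by fun_prop) (h.mw.comp measurable_fst)

theorem OK.meas_cell (h : L.OK A En Tm) (p₀ θ₀ : ℝ) : MeasurableSet {q | L.Cell p₀ θ₀ q} := by
  exact (measurableSet_le measurable_const measurable_pv).inter
    ((measurableSet_lt measurable_pv measurable_const).inter
      ((measurableSet_le measurable_const h.meas_th).inter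
        (measurableSet_lt h.meas_th measurable_const)))

theorem measurableSet_dom (L : LD) : MeasurableSet L.dom := by
  exact (measurable_fst measurableSet_Icc).inter
    (measurableSet_lt measurable_snd.norm measurable_fst)

theorem OK.meas_k1 (h : L.OK A En Tm) (φ₀ : ℝ) : Measurable (L.k1 φ₀) := by
  exact (h.mG.comp (by fun_prop)).div
    (((measurable_pv.const_mul _).mul measurable_ph).mul measurable_rr)

theorem OK.meas_k2 (h : L.OK A En Tm) (η : ℝ) : Measurable (L.k2 η) := by
  exact ((h.mG.comp (by fun_prop)).const_mul _).div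
    ((measurable_pv.mul (measurable_ph.pow_const 2)).mul measurable_rr)

theorem OK.meas_k3 (h : L.OK A En Tm) : Measurable L.k3 := by
  exact ((h.mB.comp (by fun_prop)).mul h.meas_ps).div
    ((measurable_pv.mul measurable_ph).mul measurable_rr)

theorem OK.meas_k4 (h : L.OK A En Tm) (φ₀ : ℝ) : Measurable (L.k4 φ₀) := by
  exact Measurable.ite (measurableSet_le measurable_ph (h.meas_ps.const_mul _))
    (measurable_const.div ((measurable_rr.pow_const 2).const_mul _)) measurable_const

theorem OK.meas_kt (h : L.OK A En Tm) (φ₀ η : ℝ) : Measurable (L.kt φ₀ η) := by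
  exact (((h.meas_k1 φ₀).add (h.meas_k2 η)).add h.meas_k3).add (h.meas_k4 φ₀)

theorem OK.meas_k5 (h : L.OK A En Tm) (φ₀ : ℝ) : Measurable (L.k5 φ₀) := by
  exact Measurable.ite (measurableSet_le measurable_ph (h.meas_ps.const_mul _))
    (measurable_ph.div (h.meas_ps.mul measurable_rr)) measurable_const

theorem OK.inv_le_ps (h : L.OK A En Tm) (q : TP) : 1 / L.Q ≤ L.ps q := by
  exact inv_le_ang (norm_nn_le _) (by linarith [h.hQ]) (h.hw _)

theorem OK.ps_pos (h : L.OK A En Tm) (q : TP) : 0 < L.ps q := by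
  exact ang_pos (norm_nn_le _) (h.norm_w_lt _)

theorem OK.ps_sq (h : L.OK A En Tm) (q : TP) : L.ps q ^ 2 = 2 * L.DD q := by
  exact ang_sq (norm_nn_le _) (h.norm_w_lt _).le

theorem OK.tri (h : L.OK A En Tm) (q : TP) :
    ph q ≤ L.ps q + L.th q ∧ L.ps q ≤ ph q + L.th q ∧ L.th q ≤ ph q + L.ps q := by
  have h1 := norm_nn_le q.2.1
  have h2 := (h.norm_w_lt q.1).le
  have h3 := (norm_relVel_lt q.2.2).le
  unfold ph ps th
  refine ⟨ang_triangle h1 h2 h3, ?_, ?_⟩
  · rw [ang_comm (L.w q.1)]
    exact ang_triangle h1 h3 h2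
  · rw [add_comm, ang_comm (nn q.2.1) (L.w q.1)]
    exact ang_triangle h2 h1 h3

theorem OK.rr_lt (h : L.OK A En Tm) {q : TP} (hq : L.fc q ≠ 0) : rr q < Tm := by
  obtain ⟨⟨h1, h2⟩, -⟩ := h.supp q hq
  exact h2.trans_le (h1.2.trans h.sm)

theorem OK.I_eq (h : L.OK A En Tm) {k : TP → ℝ} (hk : Measurable k) :
    L.I k = ∫⁻ s in Icc L.s₀ L.s₁, L.Is k s := by
  have hF : Measurable fun q => ENNReal.ofReal (L.fc q * k q) := (h.mf.mul hk).ennreal_ofReal
  rw [setLIntegral_eq_of_support_subset]
  · unfold I Is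
    rw [Measure.volume_eq_prod, lintegral_prod _ hF.aemeasurable]
  · intro s hs
    by_contra hs'
    apply hs
    unfold Is
    have : ∀ q : Ph, L.fc (s, q) = 0 := fun q => by
      by_contra h0
      exact hs' (h.supp _ h0).1.1
    simp [this]

theorem OK.I_eq' (h : L.OK A En Tm) {k : TP → ℝ} (hk : Measurable k) :
    L.I k = ∫⁻ p in L.dom, ∫⁻ v, ENNReal.ofReal (L.fc (p.1, p.2, v) * k (p.1, p.2, v)) := by
  rw [setLIntegral_eq_of_support_subset]
  · exact lintegral_TP (h.mf.mul hk).ennreal_ofReal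
  · intro p hp
    by_contra hp'
    apply hp
    have : ∀ v, L.fc (p.1, p.2, v) = 0 := fun v => by
      by_contra h0
      exact hp' (h.supp _ h0).1
    simp [this]

theorem OK.I_mono (h : L.OK A En Tm) {k k' : TP → ℝ} (hk : ∀ q, L.fc q ≠ 0 → q.2.1 ≠ 0 → k q ≤ k' q) :
    L.I k ≤ L.I k' := by
  have h0 : ∀ᵐ q : TP, q.2.1 ≠ 0 := by
    rw [ae_iff]
    have : {q : TP | ¬ q.2.1 ≠ 0} = (univ : Set ℝ) ×ˢ (({0} : Set R3) ×ˢ (univ : Set R3)) := by
      ext q
      simp [Set.mem_prod]
    rw [this, Measure.volume_eq_prod, Measure.prod_prod, Measure.volume_eq_prod, Measure.prod_prod,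
      measure_singleton, zero_mul, mul_zero]
  refine lintegral_mono_ae (h0.mono fun q hq => ENNReal.ofReal_le_ofReal ?_)
  by_cases h1 : L.fc q = 0
  · rw [h1, zero_mul, zero_mul]
  · exact mul_le_mul_of_nonneg_left (hk q h1 hq) (h.f0 q)

theorem OK.I_add (h : L.OK A En Tm) {k k' : TP → ℝ} (hk : Measurable k) :
    L.I (fun q => k q + k' q) ≤ L.I k + L.I k' := by
  have hF : Measurable fun q => ENNReal.ofReal (L.fc q * k q) := (h.mf.mul hk).ennreal_ofReal
  unfold I
  rw [← lintegral_add_left hF]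
  refine lintegral_mono fun q => ?_
  simp only [mul_add]
  exact ENNReal.ofReal_add_le

theorem OK.I_sum (h : L.OK A En Tm) {ι : Type} (s : Finset ι) {k : ι → TP → ℝ}
    (hk : ∀ i, Measurable (k i)) : L.I (fun q => ∑ i ∈ s, k i q) ≤ ∑ i ∈ s, L.I (k i) := by
  induction s using Finset.induction_on with
  | empty => simp [I]
  | insert a s ha ih =>
    simp only [Finset.sum_insert ha]
    exact (h.I_add (hk a)).trans (add_le_add le_rfl ih)

theorem OK.I_const_mul (h : L.OK A En Tm) {c : ℝ} (hc : 0 ≤ c) (k : TP → ℝ) :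
    L.I (fun q => c * k q) = ENNReal.ofReal c * L.I k := by
  have _ := h
  unfold I
  rw [← lintegral_const_mul' _ _ ENNReal.ofReal_ne_top]
  refine lintegral_congr fun q => ?_
  rw [← ENNReal.ofReal_mul hc, mul_left_comm]

theorem OK.cover (h : L.OK A En Tm) {N : ℕ} (hN : L.Q < 2 ^ N) {q : TP} (hq : L.fc q ≠ 0) :
    ∃ j ∈ Finset.range N, ∃ k ∈ Finset.range (N + 2), L.Cell (2 ^ j) (2 / 2 ^ k) q := by
  have hQ := (h.supp q hq).2
  obtain ⟨j, hj1, hj2⟩ := exists_nat_pow_near (one_le_pp q.2.2) (show (1 : ℝ) < 2 by norm_num)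
  have hj : j < N := (pow_lt_pow_iff_right₀ (show (1 : ℝ) < 2 by norm_num)).1
    (hj1.trans_lt (hQ.trans_lt hN))
  have h1 : L.th q < 2 := ang_lt_two (h.norm_w_lt _).le (norm_relVel_lt _)
  have h2 : 1 / pp q.2.2 ≤ L.th q := inv_pp_le_ang (h.norm_w_lt _).le _
  have h3 : 2 / 2 ^ (N + 1) ≤ L.th q := by
    refine le_trans ?_ h2
    rw [pow_succ, mul_comm, ← div_div, div_self two_ne_zero]
    exact one_div_le_one_div_of_le (pp_pos _) (hQ.trans hN.le)
  have hex : ∃ k : ℕ, 2 / 2 ^ k ≤ L.th q := ⟨_, h3⟩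
  refine ⟨j, Finset.mem_range.2 hj, Nat.find hex,
    Finset.mem_range.2 (Nat.lt_succ_of_le (Nat.find_min' hex h3)), hj1, ?_, Nat.find_spec hex, ?_⟩
  · rw [pow_succ, mul_comm] at hj2
    exact hj2
  · rcases hk : Nat.find hex with _ | k
    · rw [pow_zero]
      linarith
    · have h4 := not_le.1 (Nat.find_min hex (show k < Nat.find hex by omega))
      rwa [pow_succ, mul_comm _ (2 : ℝ), ← div_div, div_self two_ne_zero, mul_one_div]

/-- a time integral over the observer interval -/
theorem OK.time_le (h : L.OK A En Tm) {F : ST → ℝ≥0∞} (hF : Measurable F) {c : ℝ≥0∞}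
    (hc : ∀ s ∈ Icc L.s₀ L.s₁, ∫⁻ y in ball (0 : R3) s, F (s, y) ≤ c) :
    ∫⁻ p in L.dom, F p ≤ ENNReal.ofReal L.T * c := by
  have hm := hF.indicator L.measurableSet_dom
  rw [← lintegral_indicator L.measurableSet_dom, Measure.volume_eq_prod,
    lintegral_prod _ hm.aemeasurable]
  calc ∫⁻ s, ∫⁻ y, L.dom.indicator F (s, y) ≤ ∫⁻ s, (Icc L.s₀ L.s₁).indicator (fun _ => c) s := by
        refine lintegral_mono fun s => ?_
        by_cases hs : s ∈ Icc L.s₀ L.s₁
        · rw [indicator_of_mem hs]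
          refine le_trans (le_of_eq ?_) (hc s hs)
          rw [← lintegral_indicator measurableSet_ball]
          refine lintegral_congr fun y => ?_
          by_cases hy : ‖y‖ < s
          · rw [indicator_of_mem (show (s, y) ∈ L.dom from ⟨hs, hy⟩),
              indicator_of_mem (mem_ball_zero_iff.2 hy)]
          · rw [indicator_of_notMem (show (s, y) ∉ L.dom from fun h' => hy h'.2),
              indicator_of_notMem (fun h' => hy (mem_ball_zero_iff.1 h'))]
        · have : ∀ y, L.dom.indicator F (s, y) = 0 := fun y =>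
            indicator_of_notMem (show (s, y) ∉ L.dom from fun h' => hs h'.1) _
          simp [this]
    _ ≤ _ := by
        rw [lintegral_indicator_const measurableSet_Icc, Real.volume_Icc, mul_comm]
        exact mul_le_mul_left (ENNReal.ofReal_le_ofReal (by linarith [h.s1])) _

end LD

end Crest.Agent.R106
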