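import Crest.Agent.R106.LDB

/-!
# Row 106: energy type bounds of the abstract layer

`layer1`, `layer2`: apply `layer_one`, `layer_two` to the measure
`volume.withDensity (ofReal (fc · 1_Cell · D))` and `u = r (D + θ₀²)`.
`sl_near`, `meet_energy`: `sl` with `h` the indicator of `[s₀ - R, s₁]` (for `meet_energy`, `R = l/θ₀²`,
`u ≤ l → r ≤ R`, `p₀ ≤ p` in the cell).  `meet_of_meetT`: if `r > T` and `u ≤ l` then `T < l/θ₀²`.

-/

set_option autoImplicit false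

noncomputable section

namespace Crest.Agent.R106

open MeasureTheory Set Metric Real Filter Topology
open scoped ContDiff ENNReal RealInnerProductSpace Classical
open Crest.AnalysisR.VecCalc3 Crest.AnalysisR.PDE.RVM

namespace LD

variable {L : LD} {A En Tm : ℝ}

theorem OK.flx_total (h : L.OK A En Tm) (hE : 0 ≤ En) :
    L.I (fun q => pv q * ph q ^ 2) ≤ ENNReal.ofReal (En * L.T) := by
  have hk : Measurable fun q => pv q * ph q ^ 2 := measurable_pv.mul (measurable_ph.pow_const 2)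
  rw [h.I_eq hk]
  refine (setLIntegral_mono' measurableSet_Icc fun s _ => h.flx s).trans ?_
  rw [setLIntegral_const, Real.volume_Icc, ENNReal.ofReal_mul hE]
  exact mul_le_mul_right (ENNReal.ofReal_le_ofReal (by linarith [h.s1])) _

theorem OK.sl_near (h : L.OK A En Tm) (hE : 0 ≤ En) {R : ℝ} (hR : 0 ≤ R) :
    ∫⁻ p in L.dom ∩ {p | ‖p.2‖ ≤ R}, ENNReal.ofReal (gap (nn p.2) (L.w p.1)) *
      ((∫⁻ v, ENNReal.ofReal (L.fc (p.1, p.2, v) * pp v)) + ENNReal.ofReal (L.B p ^ 2)) ≤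
      ENNReal.ofReal (En * (L.T + R)) := by
  have _ := hR
  have h1 := h.sl ((Icc (L.s₀ - R) L.s₁).indicator fun _ => 1)
    (measurable_const.indicator measurableSet_Icc)
  have hm : MeasurableSet (L.dom ∩ {p : ST | ‖p.2‖ ≤ R}) :=
    L.measurableSet_dom.inter (measurableSet_le (by fun_prop) measurable_const)
  refine le_trans ?_ (h1.trans ?_)
  · refine le_trans (setLIntegral_mono' hm fun p hp => ?_) (lintegral_mono_set inter_subset_left)
    have : p.1 - ‖p.2‖ ∈ Icc (L.s₀ - R) L.s₁ := by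
      have h2 := hp.1.1
      have h3 : ‖p.2‖ ≤ R := hp.2
      exact ⟨by linarith [h2.1], by linarith [h2.2, norm_nonneg p.2]⟩
    rw [indicator_of_mem this, mul_one]
  · rw [ENNReal.ofReal_mul hE]
    refine mul_le_mul_right ((setLIntegral_le_lintegral _ _).trans ?_) _
    rw [lintegral_indicator_const measurableSet_Icc, one_mul, Real.volume_Icc]
    exact ENNReal.ofReal_le_ofReal (by linarith [h.s1])

theorem OK.ldb2_DD (h : L.OK A En Tm) (q : TP) : 0 ≤ L.DD q :=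
  gap_nonneg (norm_nn_le _) (h.norm_w_lt _).le

theorem OK.ldb2_near (h : L.OK A En Tm) (hE : 0 ≤ En) {p₀ R : ℝ} (hp : 0 < p₀) (hR : 0 ≤ R) :
    L.I (fun q => if p₀ ≤ pv q ∧ rr q ≤ R then L.DD q else 0) ≤
      ENNReal.ofReal (En * (L.T + R) / p₀) := by
  have hk : Measurable fun q => if p₀ ≤ pv q ∧ rr q ≤ R then L.DD q else 0 :=
    Measurable.ite ((measurableSet_le measurable_const measurable_pv).inter
      (measurableSet_le measurable_rr measurable_const)) h.meas_DD measurable_const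
  have hm : MeasurableSet {p : ST | ‖p.2‖ ≤ R} := measurableSet_le (by fun_prop) measurable_const
  set F : ST → ℝ≥0∞ := fun p => ENNReal.ofReal (gap (nn p.2) (L.w p.1)) *
      ((∫⁻ v, ENNReal.ofReal (L.fc (p.1, p.2, v) * pp v)) + ENNReal.ofReal (L.B p ^ 2)) with hF
  have key : ∀ p : ST, ∫⁻ v, ENNReal.ofReal (L.fc (p.1, p.2, v) *
      if p₀ ≤ pv (p.1, p.2, v) ∧ rr (p.1, p.2, v) ≤ R then L.DD (p.1, p.2, v) else 0) ≤
      {p : ST | ‖p.2‖ ≤ R}.indicator (fun p => ENNReal.ofReal p₀⁻¹ * F p) p := by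
    intro p
    by_cases hpR : ‖p.2‖ ≤ R
    · rw [indicator_of_mem (show p ∈ {p : ST | ‖p.2‖ ≤ R} from hpR)]
      have hg : 0 ≤ gap (nn p.2) (L.w p.1) := gap_nonneg (norm_nn_le _) (h.norm_w_lt _).le
      refine le_trans ?_ (mul_le_mul_right (mul_le_mul_right le_self_add _) _)
      rw [← mul_assoc, ← ENNReal.ofReal_mul (inv_nonneg.2 hp.le),
        ← lintegral_const_mul' _ _ ENNReal.ofReal_ne_top]
      refine lintegral_mono fun v => ?_
      rw [← ENNReal.ofReal_mul (by positivity)]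
      refine ENNReal.ofReal_le_ofReal ?_
      have hf := h.f0 (p.1, p.2, v)
      have hv := pp_pos v
      split_ifs with hc
      · have h1 : 1 ≤ p₀⁻¹ * pp v := by
          rw [← div_eq_inv_mul, one_le_div hp]; exact hc.1
        have h2 := mul_le_mul_of_nonneg_left h1 (mul_nonneg hf hg)
        simp only [DD]
        linarith
      · rw [mul_zero]; positivity
    · have : ∀ v, ¬ (p₀ ≤ pv (p.1, p.2, v) ∧ rr (p.1, p.2, v) ≤ R) := fun v hc => hpR hc.2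
      simp [this]
  rw [h.I_eq' hk]
  refine (lintegral_mono key).trans ?_
  rw [lintegral_indicator hm, Measure.restrict_restrict hm, inter_comm,
    lintegral_const_mul' _ _ ENNReal.ofReal_ne_top, div_eq_inv_mul,
    ENNReal.ofReal_mul (inv_nonneg.2 hp.le)]
  exact mul_le_mul_right (h.sl_near hE hR) _

theorem OK.ldb2_rr (h : L.OK A En Tm) {θ₀ l : ℝ} (hθ : 0 < θ₀) {q : TP}
    (hl : rr q * (L.DD q + θ₀ ^ 2) ≤ l) : rr q ≤ l / θ₀ ^ 2 := by
  rw [le_div_iff₀ (by positivity)]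
  have := mul_nonneg (norm_nonneg q.2.1) (h.ldb2_DD q)
  unfold rr at *
  linarith

theorem OK.meet_energy (h : L.OK A En Tm) (hE : 0 ≤ En) {p₀ θ₀ : ℝ} (hp : 0 < p₀) (hθ : 0 < θ₀) :
    L.Meet p₀ θ₀ (En * L.T / p₀) (En / p₀) := by
  intro l hl
  refine (h.I_mono fun q _ _ => ?_).trans
    ((h.ldb2_near hE hp (R := l / θ₀ ^ 2) (by positivity)).trans (le_of_eq ?_))
  · split_ifs with h1 h2
    · exact le_rfl
    · exact absurd ⟨h1.1.1, h.ldb2_rr hθ h1.2⟩ h2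
    · exact h.ldb2_DD q
    · exact le_rfl
  · congr 1
    ring

theorem OK.meet_of_meetT (h : L.OK A En Tm) (hE : 0 ≤ En) {p₀ θ₀ M₁ : ℝ} (hp : 0 < p₀)
    (hθ : 0 < θ₀) (hM : 0 ≤ M₁) (hm : L.MeetT p₀ θ₀ M₁) : L.Meet p₀ θ₀ 0 (M₁ + 2 * En / p₀) := by
  intro l hl
  have hl' : 0 < l / θ₀ ^ 2 := by positivity
  have a1 : 0 ≤ M₁ * (l / θ₀ ^ 2) := by positivity
  have a2 : 0 ≤ En / p₀ * (l / θ₀ ^ 2) := by positivity
  have e : 0 + (M₁ + 2 * En / p₀) * l / θ₀ ^ 2 =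
      M₁ * (l / θ₀ ^ 2) + 2 * (En / p₀ * (l / θ₀ ^ 2)) := by ring
  rw [e]
  rcases le_or_gt (l / θ₀ ^ 2) L.T with hT | hT
  · refine (h.I_mono fun q _ _ => ?_).trans ((hm l hl).trans (ENNReal.ofReal_le_ofReal ?_))
    · split_ifs with h1 h2
      · exact le_rfl
      · exact absurd ⟨h1.1, h1.2, (h.ldb2_rr hθ h1.2).trans hT⟩ h2
      · exact h.ldb2_DD q
      · exact le_rfl
    · rw [mul_div_assoc]; linarith
  · refine (h.meet_energy hE hp hθ l hl).trans (ENNReal.ofReal_le_ofReal ?_)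
    have := mul_le_mul_of_nonneg_left hT.le (by positivity : 0 ≤ En / p₀)
    have e2 : En * L.T / p₀ = En / p₀ * L.T := by ring
    rw [e2, mul_div_assoc]
    linarith

/-- the measure `f 1_Cell D ds dy dv` -/
def ldb2_nu (L : LD) (p₀ θ₀ : ℝ) : Measure TP :=
  volume.withDensity fun q => ENNReal.ofReal (L.fc q * if L.Cell p₀ θ₀ q then L.DD q else 0)

instance (L : LD) (p₀ θ₀ : ℝ) : SFinite (L.ldb2_nu p₀ θ₀) := by
  unfold ldb2_nu; infer_instance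

theorem OK.ldb2_int (h : L.OK A En Tm) (p₀ θ₀ : ℝ) {g : TP → ℝ} (hg : Measurable g) :
    ∫⁻ q, ENNReal.ofReal (g q) ∂(L.ldb2_nu p₀ θ₀) =
      L.I fun q => (if L.Cell p₀ θ₀ q then L.DD q else 0) * g q := by
  have hm : Measurable fun q => ENNReal.ofReal (L.fc q * if L.Cell p₀ θ₀ q then L.DD q else 0) :=
    (h.mf.mul (Measurable.ite (h.meas_cell p₀ θ₀) h.meas_DD measurable_const)).ennreal_ofReal
  rw [ldb2_nu, lintegral_withDensity_eq_lintegral_mul _ hm hg.ennreal_ofReal]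
  refine lintegral_congr fun q => ?_
  have : 0 ≤ L.fc q * if L.Cell p₀ θ₀ q then L.DD q else 0 :=
    mul_nonneg (h.f0 q) (by split_ifs; exacts [h.ldb2_DD q, le_rfl])
  rw [Pi.mul_apply, ← ENNReal.ofReal_mul this, mul_assoc]

theorem OK.ldb2_u (h : L.OK A En Tm) (θ₀ : ℝ) : Measurable fun q => rr q * (L.DD q + θ₀ ^ 2) :=
  measurable_rr.mul (h.meas_DD.add_const _)

theorem OK.ldb2_meas (h : L.OK A En Tm) {p₀ θ₀ M₀ M₁ : ℝ} (hm : L.Meet p₀ θ₀ M₀ M₁) (l : ℝ)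
    (hl : 0 < l) : L.ldb2_nu p₀ θ₀ {q | rr q * (L.DD q + θ₀ ^ 2) ≤ l} ≤
      ENNReal.ofReal (M₀ + M₁ / θ₀ ^ 2 * l) := by
  have hs : MeasurableSet {q | rr q * (L.DD q + θ₀ ^ 2) ≤ l} :=
    measurableSet_le (h.ldb2_u θ₀) measurable_const
  have e : M₀ + M₁ / θ₀ ^ 2 * l = M₀ + M₁ * l / θ₀ ^ 2 := by ring
  rw [e, ldb2_nu, withDensity_apply _ hs, ← lintegral_indicator hs]
  refine le_trans (le_of_eq (lintegral_congr fun q => ?_)) (hm l hl)
  by_cases h1 : rr q * (L.DD q + θ₀ ^ 2) ≤ l <;> by_cases h2 : L.Cell p₀ θ₀ q <;>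
    simp [indicator, h1, h2]

theorem OK.layer1 (h : L.OK A En Tm) {p₀ θ₀ M₀ M₁ ρ U : ℝ} (hθ : 0 < θ₀) (h0 : 0 ≤ M₀)
    (h1 : 0 ≤ M₁) (hm : L.Meet p₀ θ₀ M₀ M₁) (hρ : 0 < ρ) (hU : ρ ≤ U) :
    L.I (fun q => if L.Cell p₀ θ₀ q ∧ ρ < rr q * (L.DD q + θ₀ ^ 2) ∧ rr q * (L.DD q + θ₀ ^ 2) ≤ U
      then L.DD q / (rr q * (L.DD q + θ₀ ^ 2)) else 0) ≤
      ENNReal.ofReal (M₀ / ρ + M₁ / θ₀ ^ 2 * (1 + Real.log (U / ρ))) := by
  have _ := hθ
  have h2 := layer_one (L.ldb2_nu p₀ θ₀) (h.ldb2_u θ₀) h0 (by positivity : 0 ≤ M₁ / θ₀ ^ 2) hρ hU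
    (h.ldb2_meas hm)
  have hg : Measurable fun a => if ρ < rr a * (L.DD a + θ₀ ^ 2) ∧ rr a * (L.DD a + θ₀ ^ 2) ≤ U then
      1 / (rr a * (L.DD a + θ₀ ^ 2)) else 0 :=
    Measurable.ite ((measurableSet_lt measurable_const (h.ldb2_u θ₀)).inter
      (measurableSet_le (h.ldb2_u θ₀) measurable_const)) (measurable_const.div (h.ldb2_u θ₀))
      measurable_const
  rw [h.ldb2_int p₀ θ₀ hg] at h2
  refine le_trans (le_of_eq ?_) h2
  congr 1
  ext q
  by_cases a1 : L.Cell p₀ θ₀ q <;>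
    by_cases a2 : ρ < rr q * (L.DD q + θ₀ ^ 2) ∧ rr q * (L.DD q + θ₀ ^ 2) ≤ U <;>
    simp [a1, a2, div_eq_mul_inv]

theorem OK.layer2 (h : L.OK A En Tm) {p₀ θ₀ M₀ M₁ ρ : ℝ} (hθ : 0 < θ₀) (h0 : 0 ≤ M₀)
    (h1 : 0 ≤ M₁) (hm : L.Meet p₀ θ₀ M₀ M₁) (hρ : 0 < ρ) :
    L.I (fun q => if L.Cell p₀ θ₀ q ∧ ρ < rr q * (L.DD q + θ₀ ^ 2)
      then L.DD q / (rr q * (L.DD q + θ₀ ^ 2)) ^ 2 else 0) ≤
      ENNReal.ofReal (M₀ / ρ ^ 2 + 2 * (M₁ / θ₀ ^ 2) / ρ) := by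
  have _ := hθ
  have h2 := layer_two (L.ldb2_nu p₀ θ₀) (h.ldb2_u θ₀) h0 (by positivity : 0 ≤ M₁ / θ₀ ^ 2) hρ
    (h.ldb2_meas hm)
  have hg : Measurable fun a => if ρ < rr a * (L.DD a + θ₀ ^ 2) then
      1 / (rr a * (L.DD a + θ₀ ^ 2)) ^ 2 else 0 :=
    Measurable.ite (measurableSet_lt measurable_const (h.ldb2_u θ₀))
      (measurable_const.div ((h.ldb2_u θ₀).pow_const 2)) measurable_const
  rw [h.ldb2_int p₀ θ₀ hg] at h2
  refine le_trans (le_of_eq ?_) h2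
  congr 1
  ext q
  by_cases a1 : L.Cell p₀ θ₀ q <;> by_cases a2 : ρ < rr q * (L.DD q + θ₀ ^ 2) <;>
    simp [a1, a2, div_eq_mul_inv]

end LD

end Crest.Agent.R106
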