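import Crest.Agent.R106.Supp
import Crest.Agent.R106.CV
import Crest.Agent.R106.Layer

/-!
# Row 106: a solution satisfies the hypotheses of the abstract layer

`E' = 4|En| + 8π|Tm| + 1`.  Measurability: the functions are continuous on (or sums of measurable functions on)
the measurable set where they are not zero (`ContinuousOn.measurable_piecewise`, `TSol.contZ`; for `G` note that
`good` contains the measurable factor `nn y`: first make `p ↦ K (cone2 …)` measurable by cutting off).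
`flx`: `p φ² = 2 p d`, `FluxB`, Tonelli.  `kg`: `(a + b)² ≤ 2a² + 2b²`, `FluxB`, `lintegral_inv_sq`.
`sl`: `cv` with `g (τ, x) = 1_{[0, s₁]}(τ) h(τ) (∫⁻ f pp + ofReal ‖B‖²)`, Tonelli (or `lintegral_prod_le`), `EnB`.

-/

set_option autoImplicit false

noncomputable section

namespace Crest.Agent.R106

open MeasureTheory Set Metric Real Filter Topology
open scoped ContDiff ENNReal RealInnerProductSpace Classical
open Crest.AnalysisR.VecCalc3 Crest.AnalysisR.PDE.RVM

theorem layok_cut {X Y : Type} [TopologicalSpace X] [MeasurableSpace X] [OpensMeasurableSpace X]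
    [SecondCountableTopology X] [TopologicalSpace Y] [MeasurableSpace Y] [BorelSpace Y] [Zero Y]
    {T : ℝ} {g : ℝ × X → Y} (hg : ContinuousOn g (slab X T)) :
    ∃ G : ℝ × X → Y, Measurable G ∧ ∀ p ∈ slab X T, G p = g p := by
  have hs : MeasurableSet (slab X T) := measurableSet_Icc.prod MeasurableSet.univ
  exact ⟨(slab X T).piecewise g fun _ => 0, hg.measurable_piecewise continuousOn_const hs,
    fun p hp => piecewise_eq_of_mem _ _ _ hp⟩

/-- an integral over the union of the cones -/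
theorem layok_time {s₀ s₁ : ℝ} {F : ST → ℝ≥0∞} {c : ℝ≥0∞}
    (hc : ∀ s ∈ Icc s₀ s₁, ∫⁻ y in ball (0 : R3) s, F (s, y) ≤ c) :
    ∫⁻ p in {p : ST | p.1 ∈ Icc s₀ s₁ ∧ ‖p.2‖ < p.1}, F p ≤ c * ENNReal.ofReal (s₁ - s₀) := by
  have hm : MeasurableSet {p : ST | p.1 ∈ Icc s₀ s₁ ∧ ‖p.2‖ < p.1} :=
    (measurable_fst measurableSet_Icc).inter (measurableSet_lt measurable_snd.norm measurable_fst)
  rw [← lintegral_indicator hm, Measure.volume_eq_prod]
  refine (lintegral_prod_le _).trans ?_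
  rw [← Real.volume_Icc, ← setLIntegral_const, ← lintegral_indicator measurableSet_Icc]
  refine lintegral_mono fun s => ?_
  by_cases hs : s ∈ Icc s₀ s₁
  · rw [indicator_of_mem hs]
    refine le_trans (le_of_eq ?_) (hc s hs)
    rw [← lintegral_indicator measurableSet_ball]
    refine lintegral_congr fun y => ?_
    by_cases hy : ‖y‖ < s
    · rw [indicator_of_mem (show (s, y) ∈ {p : ST | p.1 ∈ Icc s₀ s₁ ∧ ‖p.2‖ < p.1} from ⟨hs, hy⟩),
        indicator_of_mem (mem_ball_zero_iff.2 hy)]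
    · rw [indicator_of_notMem (show (s, y) ∉ _ from fun h => hy h.2),
        indicator_of_notMem (fun h => hy (mem_ball_zero_iff.1 h))]
  · rw [indicator_of_notMem hs]
    refine le_of_eq ?_
    rw [← lintegral_zero (μ := (volume : Measure R3))]
    refine lintegral_congr fun y => ?_
    rw [indicator_of_notMem (show (s, y) ∉ _ from fun h => hs h.1)]

theorem lay_ok (A P₀ En Cd Tm : ℝ) : ∃ E', 0 < E' ∧ ∀ (T : ℝ) (f₀ : Ph → ℝ) (K₀ : R3 → Ph)
    (Kd : ST → Ph) (f : TP → ℝ) (K : ST → Ph) (Z : ℝ → Ph → Ph),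
    CSet A P₀ En Cd Tm T f₀ K₀ Kd f K Z → ∀ (z : Ph) (s₀ s₁ T' Q t : ℝ), MomB f₀ Z t Q → f₀ z ≠ 0 →
      0 ≤ s₀ → s₀ ≤ s₁ → s₁ ≤ t → t ≤ T → s₁ ≤ s₀ + T' → 0 < T' → T' ≤ 1 → 2 ≤ Q → 1 / Q ^ 2 ≤ T' →
      (ldOf f K (fun s => Z s z) s₀ s₁ T' Q).OK A E' Tm := by
  have hE : 0 < 4 * |En| + 8 * π * |Tm| + 1 := by positivity
  refine ⟨4 * |En| + 8 * π * |Tm| + 1, hE, ?_⟩
  set E' := 4 * |En| + 8 * π * |Tm| + 1 with hE'
  intro T f₀ K₀ Kd f K Z hC z s₀ s₁ T' Q t hM hz h0 h01 h1t htT h1 hT'0 hT'1 hQ hQT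
  have hS := hC.sol
  have h1T : s₁ ≤ T := h1t.trans htT
  have hZ : Measurable fun s : ℝ => Z s z :=
    hS.traj.meas.comp (f := fun s : ℝ => ((s, z) : TP)) (by fun_prop)
  obtain ⟨F, hF, hFf⟩ := layok_cut hS.hf.continuousOn
  obtain ⟨Kc, hKc, hKK⟩ := layok_cut hS.hK.continuousOn
  have hτ : ∀ {s : ℝ} {y : R3}, s ∈ Icc s₀ s₁ → ‖y‖ < s → s - ‖y‖ ∈ Icc 0 s₁ := by
    intro s y hs hy
    exact ⟨by linarith, by linarith [hs.2, norm_nonneg y]⟩
  have hτt : ∀ {s : ℝ} {y : R3}, s ∈ Icc s₀ s₁ → ‖y‖ < s → s - ‖y‖ ∈ Icc 0 t :=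
    fun hs hy => ⟨(hτ hs hy).1, (hτ hs hy).2.trans h1t⟩
  have hτT : ∀ {s : ℝ} {y : R3}, s ∈ Icc s₀ s₁ → ‖y‖ < s → s - ‖y‖ ∈ Icc 0 T :=
    fun hs hy => ⟨(hτ hs hy).1, (hτ hs hy).2.trans h1T⟩
  have hdom : MeasurableSet {p : ST | p.1 ∈ Icc s₀ s₁ ∧ ‖p.2‖ < p.1} :=
    (measurable_fst measurableSet_Icc).inter (measurableSet_lt measurable_snd.norm measurable_fst)
  have hdom3 : MeasurableSet {q : TP | q.1 ∈ Icc s₀ s₁ ∧ ‖q.2.1‖ < q.1} :=
    (measurable_fst measurableSet_Icc).inter
      (measurableSet_lt measurable_snd.fst.norm measurable_fst)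
  have hKm : Measurable fun p : ST => Kc (cone2 (p.1, (Z p.1 z).1) p.2) :=
    hKc.comp ((measurable_fst.sub measurable_snd.norm).prodMk
      ((hZ.comp measurable_fst).fst.sub measurable_snd))
  have hEn : ∀ c : ℝ, 0 ≤ c → c ≤ 4 → ENNReal.ofReal c * ENNReal.ofReal En ≤ ENNReal.ofReal E' := by
    intro c hc hc4
    rw [← ENNReal.ofReal_mul hc]
    refine ENNReal.ofReal_le_ofReal ?_
    have h1 : c * En ≤ c * |En| := mul_le_mul_of_nonneg_left (le_abs_self _) hc
    have h2 : c * |En| ≤ 4 * |En| := mul_le_mul_of_nonneg_right hc4 (abs_nonneg _)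
    have h3 : 0 ≤ 8 * π * |Tm| := by positivity
    linarith
  refine
    { mf := ?_, mw := ?_, mG := ?_, mB := ?_, Tpos := hT'0, Tle := hT'1, hQ := hQ, Tge := hQT,
      s0 := h0, s01 := h01, s1 := h1, sm := h1T.trans hC.hT, f0 := ?_, fA := ?_, supp := ?_,
      hw := ?_, G0 := ?_, B0 := ?_, flx := ?_, kg := ?_, sl := ?_ }
  · -- mf
    have : (ldOf f K (fun s => Z s z) s₀ s₁ T' Q).fc = fun q : TP =>
        if q.1 ∈ Icc s₀ s₁ ∧ ‖q.2.1‖ < q.1 then F (cone (q.1, (Z q.1 z).1) q.2) else 0 := by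
      funext q
      simp only [ldOf]
      split_ifs with hq
      · exact (hFf _ ⟨hτT hq.1 hq.2, mem_univ _⟩).symm
      · rfl
    rw [this]
    refine Measurable.ite hdom3 (hF.comp ?_) measurable_const
    exact (measurable_fst.sub measurable_snd.fst.norm).prodMk
      (((hZ.comp measurable_fst).fst.sub measurable_snd.fst).prodMk measurable_snd.snd)
  · -- mw
    exact Measurable.ite measurableSet_Icc (measurable_relVel' hZ.snd) measurable_const
  · -- mG
    have : (ldOf f K (fun s => Z s z) s₀ s₁ T' Q).G = fun p : ST =>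
        if p.1 ∈ Icc s₀ s₁ ∧ ‖p.2‖ < p.1 then ‖(Kc (cone2 (p.1, (Z p.1 z).1) p.2)).1 +
          cross3 (nn p.2) (Kc (cone2 (p.1, (Z p.1 z).1) p.2)).2‖ + ‖p.2‖⁻¹ else 0 := by
      funext p
      simp only [ldOf]
      split_ifs with hp
      · rw [hKK _ ⟨hτT hp.1 hp.2, mem_univ _⟩]; rfl
      · rfl
    rw [this]
    refine Measurable.ite hdom (Measurable.add (Measurable.norm (hKm.fst.add ?_))
      measurable_snd.norm.inv) measurable_const
    exact contDiff_cross3.continuous.measurable.comp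
      ((measurable_nn' measurable_snd).prodMk hKm.snd)
  · -- mB
    have : (ldOf f K (fun s => Z s z) s₀ s₁ T' Q).B = fun p : ST =>
        if p.1 ∈ Icc s₀ s₁ ∧ ‖p.2‖ < p.1 then ‖(Kc (cone2 (p.1, (Z p.1 z).1) p.2)).2‖ else 0 := by
      funext p
      simp only [ldOf]
      split_ifs with hp
      · rw [hKK _ ⟨hτT hp.1 hp.2, mem_univ _⟩]
      · rfl
    rw [this]
    exact Measurable.ite hdom hKm.snd.norm measurable_const
  · -- f0
    intro q
    simp only [ldOf]
    split_ifs with hq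
    · exact hS.nonneg _ ⟨hτT hq.1 hq.2, mem_univ _⟩
    · exact le_rfl
  · -- fA
    intro q
    simp only [ldOf]
    split_ifs with hq
    · exact hS.le A hC.hA _ ⟨hτT hq.1 hq.2, mem_univ _⟩
    · exact (hS.nonneg₀ z).trans (hC.hA z)
  · -- supp
    intro q hq
    simp only [ldOf] at hq
    split_ifs at hq with hq'
    · exact ⟨hq', hS.supp_of htT hM (cone (q.1, (Z q.1 z).1) q.2)
        ⟨hτt hq'.1 hq'.2, mem_univ _⟩ hq⟩
    · exact absurd rfl hq
  · -- hw
    intro s
    simp only [ldOf]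
    split_ifs with hs
    · exact norm_relVel_le (hM z hz s ⟨h0.trans hs.1, hs.2.trans h1t⟩)
    · rw [norm_zero, sub_nonneg, div_le_one (by positivity)]
      nlinarith
  · -- G0
    intro p
    simp only [ldOf]
    split_ifs with hp
    · positivity
    · exact le_rfl
  · -- B0
    intro p
    simp only [ldOf]
    split_ifs with hp
    · positivity
    · exact le_rfl
  · -- flx
    intro s
    simp only [LD.Is, ldOf]
    by_cases hs : s ∈ Icc s₀ s₁
    swap
    · simp [hs]
    have hfl := hC.flux (s, (Z s z).1) ⟨⟨h0.trans hs.1, hs.2.trans h1T⟩, mem_univ _⟩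
    rw [Measure.volume_eq_prod]
    refine (lintegral_prod_le _).trans (le_trans ?_ (hEn 2 (by norm_num) (by norm_num)))
    refine le_trans ?_ (mul_le_mul_right hfl _)
    rw [← lintegral_const_mul' _ _ ENNReal.ofReal_ne_top, ← lintegral_indicator measurableSet_ball]
    refine lintegral_mono fun y => ?_
    by_cases hy : ‖y‖ < s
    swap
    · simp [hy]
    rw [indicator_of_mem (mem_ball_zero_iff.2 hy)]
    refine le_trans (le_of_eq ?_) (mul_le_mul_right le_self_add _)
    rw [← lintegral_const_mul' _ _ ENNReal.ofReal_ne_top]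
    refine lintegral_congr fun v => ?_
    rw [if_pos ⟨hs, hy⟩, ← ENNReal.ofReal_mul (by norm_num)]
    congr 1
    simp only [pv, ph]
    rw [ang_sq (norm_nn_le _) (norm_relVel_lt _).le]
    ring
  · -- kg
    refine (layok_time (s₀ := s₀) (s₁ := s₁) (c := ENNReal.ofReal E') fun s hs => ?_).trans ?_
    swap
    · rw [← ENNReal.ofReal_mul hE.le]
      refine ENNReal.ofReal_le_ofReal (mul_le_mul_of_nonneg_left ?_ hE.le)
      show s₁ - s₀ ≤ T'
      linarith
    have hfl := hC.flux (s, (Z s z).1) ⟨⟨h0.trans hs.1, hs.2.trans h1T⟩, mem_univ _⟩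
    have hfl' : ∫⁻ y in ball (0 : R3) s,
        ENNReal.ofReal (‖good K (s, (Z s z).1) y‖ ^ 2 / 2) ≤ ENNReal.ofReal En :=
      le_trans (lintegral_mono fun y => le_add_self) hfl
    have hs0 : 0 ≤ s := h0.trans hs.1
    calc ∫⁻ y in ball (0 : R3) s,
          ENNReal.ofReal ((ldOf f K (fun s => Z s z) s₀ s₁ T' Q).G (s, y) ^ 2)
        ≤ ∫⁻ y in ball (0 : R3) s,
            (ENNReal.ofReal 4 * ENNReal.ofReal (‖good K (s, (Z s z).1) y‖ ^ 2 / 2) +
              ENNReal.ofReal 2 * ENNReal.ofReal (1 / ‖y‖ ^ 2)) := by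
          refine setLIntegral_mono' measurableSet_ball fun y hy => ?_
          simp only [ldOf]
          rw [if_pos ⟨hs, mem_ball_zero_iff.1 hy⟩, ← ENNReal.ofReal_mul (by norm_num),
            ← ENNReal.ofReal_mul (by norm_num),
            ← ENNReal.ofReal_add (by positivity) (by positivity)]
          refine ENNReal.ofReal_le_ofReal ?_
          rw [one_div, ← inv_pow]
          nlinarith [sq_nonneg (‖good K (s, (Z s z).1) y‖ - ‖y‖⁻¹)]
      _ = ENNReal.ofReal 4 * (∫⁻ y in ball (0 : R3) s,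
            ENNReal.ofReal (‖good K (s, (Z s z).1) y‖ ^ 2 / 2)) +
              ENNReal.ofReal 2 * ENNReal.ofReal (4 * π * s) := by
          rw [lintegral_add_right _ (by fun_prop), lintegral_const_mul' _ _ ENNReal.ofReal_ne_top,
            lintegral_const_mul' _ _ ENNReal.ofReal_ne_top, lintegral_inv_sq]
      _ ≤ ENNReal.ofReal 4 * ENNReal.ofReal |En| +
              ENNReal.ofReal 2 * ENNReal.ofReal (4 * π * s) := by
          gcongr
          exact hfl'.trans (ENNReal.ofReal_le_ofReal (le_abs_self _))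
      _ ≤ ENNReal.ofReal E' := by
          rw [← ENNReal.ofReal_mul (by norm_num), ← ENNReal.ofReal_mul (by norm_num),
            ← ENNReal.ofReal_add (by positivity) (by positivity)]
          refine ENNReal.ofReal_le_ofReal ?_
          have h2 : s ≤ |Tm| := ((hs.2.trans h1T).trans hC.hT).trans (le_abs_self _)
          have h3 := mul_le_mul_of_nonneg_left h2 (show 0 ≤ 8 * π by positivity)
          linarith
  · -- sl
    intro h hh
    set g : ST → ℝ≥0∞ := fun p => if p.1 ∈ Icc 0 s₁ then h p.1 *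
      ((∫⁻ v, ENNReal.ofReal (f (p.1, p.2, v) * pp v)) + ENNReal.ofReal (‖(K p).2‖ ^ 2)) else 0
      with hg
    have hcv := cv (hS.hasX z h0 h1T) (fun s _ => norm_relVel_lt _)
      (contDiff_relVel.continuous.comp_continuousOn
        ((hS.contZ z).mono (Icc_subset_Icc h0 h1T)).snd) g
    refine le_trans ?_ (hcv.trans ?_)
    · refine le_trans (setLIntegral_mono' hdom fun p hp => ?_)
        (lintegral_mono_set (fun p hp => ⟨hp.1, mem_univ _⟩))
      replace hp : p.1 ∈ Icc s₀ s₁ ∧ ‖p.2‖ < p.1 := hp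
      simp only [ldOf, hg]
      rw [if_pos hp.1, if_pos hp, if_pos (show (cone2 (p.1, (Z p.1 z).1) p.2).1 ∈ Icc 0 s₁ from
        hτ hp.1 hp.2), mul_assoc, mul_comm _ (h _)]
      simp only [if_pos hp]
      exact le_rfl
    · change _ ≤ _ * ∫⁻ τ in Icc 0 s₁, h τ
      rw [Measure.volume_eq_prod]
      refine (lintegral_prod_le _).trans ?_
      rw [← lintegral_const_mul' _ _ ENNReal.ofReal_ne_top, ← lintegral_indicator measurableSet_Icc]
      refine lintegral_mono fun τ => ?_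
      by_cases hτ' : τ ∈ Icc 0 s₁
      swap
      · simp only [hg, if_neg hτ', lintegral_zero, zero_le]
      rw [indicator_of_mem hτ']
      by_cases htop : h τ = ⊤
      · rw [htop, ENNReal.mul_top (by simpa using hE)]
        exact le_top
      simp only [hg, if_pos hτ']
      rw [lintegral_const_mul' _ _ htop, mul_comm]
      refine mul_le_mul_left (le_trans ?_ (hEn 2 (by norm_num) (by norm_num))) _
      refine le_trans ?_ (mul_le_mul_right (hC.en τ ⟨hτ'.1, hτ'.2.trans h1T⟩) _)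
      rw [← lintegral_const_mul' _ _ ENNReal.ofReal_ne_top]
      refine lintegral_mono fun x => ?_
      rw [mul_add]
      refine add_le_add (le_mul_of_one_le_left (zero_le) (by simp)) ?_
      rw [← ENNReal.ofReal_mul (by norm_num)]
      refine ENNReal.ofReal_le_ofReal ?_
      nlinarith [sq_nonneg ‖(K (τ, x)).1‖]

end Crest.Agent.R106
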