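import Crest.Agent.R106.Cyl
import Crest.Agent.R106.Calc

/-!
# Row 106: limits of functions with bounded derivatives

Interpolation: if `‖g‖ ≤ ε` and `‖D² g‖ ≤ C` on the slab then `‖D g‖ ≤ 2ε/h + C h`-type bounds hold for
`0 < h ≤ T/2` (from each point one can move by `h` in direction `u` or `-u` inside the slab).  So every
`iteratedFDeriv k (u n)` is uniformly Cauchy on the slab, with a continuous limit `P k`.  On the open slab
`hasFDerivAt_of_tendstoUniformlyOn` shows that `P k` has derivative `(P (k+1)).curryLeft`; extend to the closed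
convex slab (`hasFDerivWithinAt_closure_of_tendsto_fderiv`, or directly by the mean value inequality);
`HasFTaylorSeriesUpToOn.contDiffOn`.  (Alternatively: induction on `n` for `ContDiffOn ℝ n`, generalising `Y`,
with `contDiffOn_succ_iff_hasFDerivWithinAt_of_uniqueDiffOn`/`contDiffOn_succ_of_fderivWithin` applied to
`fderiv (u n)`.)

-/

set_option autoImplicit false

noncomputable section

namespace Crest.Agent.R106

open MeasureTheory Set Metric Real Filter Topology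
open scoped ContDiff ENNReal RealInnerProductSpace Classical
open Crest.AnalysisR.VecCalc3 Crest.AnalysisR.PDE.RVM

theorem lim_taylor {E Y : Type} [NormedAddCommGroup E] [NormedSpace ℝ E] [NormedAddCommGroup Y]
    [NormedSpace ℝ Y] {S : Set E} (hS : Convex ℝ S) {w : E → Y} (hw : ContDiff ℝ ∞ w) {C : ℝ}
    (hC : ∀ p ∈ S, ‖iteratedFDeriv ℝ 2 w p‖ ≤ C) {p q : E} (hp : p ∈ S) (hq : q ∈ S) :
    ‖w q - w p - fderiv ℝ w p (q - p)‖ ≤ C * ‖q - p‖ * ‖q - p‖ := by
  have hC0 : 0 ≤ C := (norm_nonneg _).trans (hC p hp)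
  have h1 : ContDiff ℝ ∞ (fderiv ℝ w) := hw.fderiv_right (m := ∞) le_rfl
  have hL : ∀ x ∈ S, ‖fderiv ℝ w x - fderiv ℝ w p‖ ≤ C * ‖x - p‖ := fun x hx =>
    hS.norm_image_sub_le_of_norm_fderiv_le (fun y _ => h1.differentiable (by simp) y)
      (fun y hy => by
        rw [← norm_iteratedFDeriv_one, norm_iteratedFDeriv_fderiv]
        exact hC y hy) hp hx
  refine (hS.inter (convex_closedBall p ‖q - p‖)).norm_image_sub_le_of_norm_fderiv_le'
    (fun y _ => hw.differentiable (by simp) y) (fun y hy => (hL y hy.1).trans ?_)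
    ⟨hp, mem_closedBall_self (norm_nonneg _)⟩ ⟨hq, by simp [dist_eq_norm]⟩
  exact mul_le_mul_of_nonneg_left (by simpa [dist_eq_norm] using hy.2) hC0

theorem lim_move {X : Type} [NormedAddCommGroup X] [NormedSpace ℝ X] {T h : ℝ} (hh : 2 * h ≤ T)
    {p v : ℝ × X} (hp : p ∈ slab X T) (hv : ‖v‖ ≤ h) : p + v ∈ slab X T ∨ p - v ∈ slab X T := by
  have h1 : |v.1| ≤ h := (norm_fst_le v).trans hv
  have h2 := abs_le.1 h1
  obtain ⟨⟨h3, h4⟩, -⟩ := hp
  simp only [slab, mem_prod, mem_Icc, mem_univ, and_true, Prod.fst_add, Prod.fst_sub]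
  by_cases a : 0 ≤ v.1
  · by_cases b : p.1 ≤ h
    · left; constructor <;> linarith [h2.1, h2.2]
    · right; constructor <;> linarith [h2.1, h2.2]
  · by_cases b : p.1 ≤ h
    · right; constructor <;> linarith [h2.1, h2.2]
    · left; constructor <;> linarith [h2.1, h2.2]

theorem lim_convex (X : Type) [NormedAddCommGroup X] [NormedSpace ℝ X] (T : ℝ) :
    Convex ℝ (slab X T) := (convex_Icc 0 T).prod convex_univ

theorem lim_interp {X Y : Type} [NormedAddCommGroup X] [NormedSpace ℝ X] [NormedAddCommGroup Y]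
    [NormedSpace ℝ Y] {T h ε C : ℝ} (h0 : 0 < h) (hh : 2 * h ≤ T) {u w : ℝ × X → Y}
    (hu : ContDiff ℝ ∞ u) (hw : ContDiff ℝ ∞ w)
    (bu : ∀ p ∈ slab X T, ‖iteratedFDeriv ℝ 2 u p‖ ≤ C)
    (bw : ∀ p ∈ slab X T, ‖iteratedFDeriv ℝ 2 w p‖ ≤ C)
    (hε : ∀ p ∈ slab X T, ‖u p - w p‖ ≤ ε) {p : ℝ × X} (hp : p ∈ slab X T) :
    ‖fderiv ℝ u p - fderiv ℝ w p‖ ≤ 2 * ε / h + 2 * C * h := by
  have hC0 : 0 ≤ C := (norm_nonneg _).trans (bu p hp)
  have key : ∀ q ∈ slab X T, ‖q - p‖ = h →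
      ‖(fderiv ℝ u p - fderiv ℝ w p) (q - p)‖ ≤ 2 * ε + 2 * C * h * h := fun q hq hn => by
    have a1 := lim_taylor (lim_convex X T) hu bu hp hq
    have a2 := lim_taylor (lim_convex X T) hw bw hp hq
    rw [hn] at a1 a2
    have e : (fderiv ℝ u p - fderiv ℝ w p) (q - p) = (u q - w q) - (u p - w p) -
        (u q - u p - fderiv ℝ u p (q - p)) + (w q - w p - fderiv ℝ w p (q - p)) := by
      rw [sub_apply]; abel
    rw [e]
    have b1 := norm_add_le ((u q - w q) - (u p - w p) - (u q - u p - fderiv ℝ u p (q - p)))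
      (w q - w p - fderiv ℝ w p (q - p))
    have b2 := norm_sub_le ((u q - w q) - (u p - w p)) (u q - u p - fderiv ℝ u p (q - p))
    have b3 := norm_sub_le (u q - w q) (u p - w p)
    linarith [hε q hq, hε p hp]
  refine ContinuousLinearMap.opNorm_le_of_unit_norm ?_ fun v hv => ?_
  · have := (norm_nonneg _).trans (hε p hp)
    positivity
  have hn : ‖h • v‖ = h := by rw [norm_smul, hv, mul_one, Real.norm_of_nonneg h0.le]
  have k2 : ‖(fderiv ℝ u p - fderiv ℝ w p) (h • v)‖ ≤ 2 * ε + 2 * C * h * h := by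
    rcases lim_move hh hp hn.le with a | a
    · simpa using key _ a (by simpa using hn)
    · have := key _ a (by simpa using hn)
      rwa [sub_sub_cancel_left, map_neg, norm_neg] at this
  rw [map_smul, norm_smul, Real.norm_of_nonneg h0.le] at k2
  rw [← mul_le_mul_iff_right₀ h0]
  refine k2.trans (le_of_eq ?_)
  field_simp

theorem lim_step {X Y : Type} [NormedAddCommGroup X] [NormedSpace ℝ X]
    [NormedAddCommGroup Y] [NormedSpace ℝ Y] [CompleteSpace Y] {T : ℝ} (hT : 0 < T)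
    {u : ℕ → ℝ × X → Y} (hu : ∀ n, ContDiff ℝ ∞ (u n)) {C : ℝ}
    (hb : ∀ n, ∀ p ∈ slab X T, ‖iteratedFDeriv ℝ 2 (u n) p‖ ≤ C) {u' : ℝ × X → Y}
    (hl : TendstoUniformlyOn u u' atTop (slab X T)) :
    ∃ g : ℝ × X → ℝ × X →L[ℝ] Y,
      TendstoUniformlyOn (fun n => fderiv ℝ (u n)) g atTop (slab X T) ∧
      ∀ p ∈ slab X T, HasFDerivWithinAt u' (g p) (slab X T) p := by
  have hC0 : 0 ≤ C := (norm_nonneg _).trans (hb 0 (0, 0) ⟨⟨le_rfl, hT.le⟩, trivial⟩)
  have hc : UniformCauchySeqOn (fun n => fderiv ℝ (u n)) atTop (slab X T) := by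
    refine Metric.uniformCauchySeqOn_iff.2 fun ε hε => ?_
    set h : ℝ := min (T / 2) (ε / (4 * (2 * C + 1))) with hh
    have h0 : 0 < h := lt_min (by linarith) (by positivity)
    have h1 : h ≤ T / 2 := min_le_left _ _
    have h2 : h ≤ ε / (4 * (2 * C + 1)) := min_le_right _ _
    rw [le_div_iff₀ (by positivity)] at h2
    obtain ⟨N, hN⟩ := Metric.uniformCauchySeqOn_iff.1 hl.uniformCauchySeqOn (ε * h / 8)
      (by positivity)
    refine ⟨N, fun m hm n hn p hp => ?_⟩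
    have := lim_interp h0 (by linarith) (hu m) (hu n) (hb m) (hb n) (ε := ε * h / 8)
      (fun q hq => by simpa [dist_eq_norm] using (hN m hm n hn q hq).le) hp
    rw [dist_eq_norm]
    have e : 2 * (ε * h / 8) / h = ε / 4 := by field_simp; ring
    rw [e] at this
    nlinarith
  have hp : ∀ p ∈ slab X T, ∃ g, Tendsto (fun n => fderiv ℝ (u n) p) atTop (𝓝 g) := fun p hp =>
    cauchySeq_tendsto_of_complete (hc.cauchySeq hp)
  choose! g hg using hp
  refine ⟨g, hc.tendstoUniformlyOn_of_tendsto hg, fun p hp => ?_⟩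
  have key : ∀ q ∈ slab X T, ‖u' q - u' p - g p (q - p)‖ ≤ C * ‖q - p‖ * ‖q - p‖ := fun q hq => by
    refine le_of_tendsto' (f := fun n => ‖u n q - u n p - fderiv ℝ (u n) p (q - p)‖) (x := atTop)
      ?_ fun n => lim_taylor (lim_convex X T) (hu n) (hb n) hp hq
    refine (((hl.tendsto_at hq).sub (hl.tendsto_at hp)).sub ?_).norm
    exact ((ContinuousLinearMap.apply ℝ Y (q - p)).continuous.tendsto _).comp (hg p hp)
  rw [hasFDerivWithinAt_iff_isLittleO, Asymptotics.isLittleO_iff]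
  intro c hc
  have h1 : ∀ᶠ q in 𝓝[slab X T] p, ‖q - p‖ < c / (C + 1) := by
    refine mem_nhdsWithin_of_mem_nhds ?_
    filter_upwards [ball_mem_nhds p (show 0 < c / (C + 1) by positivity)] with q hq
    simpa [dist_eq_norm] using hq
  filter_upwards [h1, self_mem_nhdsWithin] with q h2 hq
  refine (key q hq).trans (mul_le_mul_of_nonneg_right ?_ (norm_nonneg _))
  rw [lt_div_iff₀ (by positivity)] at h2
  nlinarith [norm_nonneg (q - p)]

theorem lim_nat {X : Type} [NormedAddCommGroup X] [NormedSpace ℝ X] {T : ℝ} (hT : 0 < T) (N : ℕ) :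
    ∀ {Y : Type} [NormedAddCommGroup Y] [NormedSpace ℝ Y] [CompleteSpace Y] {u : ℕ → ℝ × X → Y},
    (∀ n, ContDiff ℝ ∞ (u n)) →
    (∀ k : ℕ, ∃ C, ∀ n, ∀ p ∈ slab X T, ‖iteratedFDeriv ℝ k (u n) p‖ ≤ C) → ∀ {u' : ℝ × X → Y},
    TendstoUniformlyOn u u' atTop (slab X T) → ContDiffOn ℝ N u' (slab X T) := by
  induction N with
  | zero =>
    intro Y _ _ _ u hu _ u' hl
    exact contDiffOn_zero.2 (hl.continuousOn
      (Eventually.of_forall fun n => (hu n).continuous.continuousOn).frequently)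
  | succ N ih =>
    intro Y _ _ _ u hu hb u' hl
    obtain ⟨C, hC⟩ := hb 2
    obtain ⟨g, h1, h2⟩ := lim_step hT hu hC hl
    rw [Nat.cast_succ, contDiffOn_succ_iff_hasFDerivWithinAt_of_uniqueDiffOn (uniqueDiffOn_slab X hT)]
    refine ⟨by simp, g, ih (fun n => (hu n).fderiv_right (m := ∞) le_rfl) (fun k => ?_) h1, h2⟩
    simpa only [norm_iteratedFDeriv_fderiv] using hb (k + 1)

theorem lim_smooth {X Y : Type} [NormedAddCommGroup X] [NormedSpace ℝ X] [FiniteDimensional ℝ X]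
    [NormedAddCommGroup Y] [NormedSpace ℝ Y] [CompleteSpace Y] {T : ℝ} (hT : 0 < T)
    {u : ℕ → ℝ × X → Y} (hu : ∀ n, ContDiff ℝ ∞ (u n))
    (hb : ∀ k : ℕ, ∃ C, ∀ n, ∀ p ∈ slab X T, ‖iteratedFDeriv ℝ k (u n) p‖ ≤ C) {u' : ℝ × X → Y}
    (hl : TendstoUniformlyOn u u' atTop (slab X T)) :
    ContDiffOn ℝ ∞ u' (slab X T) ∧
      ∀ p ∈ oslab X T, Tendsto (fun n => fderiv ℝ (u n) p) atTop (𝓝 (fderiv ℝ u' p)) := by
  refine ⟨contDiffOn_infty.2 fun N => lim_nat hT N hu hb hl, fun p hp => ?_⟩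
  obtain ⟨C, hC⟩ := hb 2
  obtain ⟨g, h1, h2⟩ := lim_step hT hu hC hl
  have hp' : p ∈ slab X T := mem_of_mem_nhds (slab_mem_nhds hp)
  rw [((h2 p hp').hasFDerivAt (slab_mem_nhds hp)).fderiv]
  exact h1.tendsto_at hp'

theorem unif_lim {X Y : Type} [NormedAddCommGroup Y] [CompleteSpace Y] {S : Set X} {u : ℕ → X → Y}
    {C : ℝ} (h : ∀ n, ∀ p ∈ S, ‖u (n + 1) p - u n p‖ ≤ C / 2 ^ n) :
    ∃ u', TendstoUniformlyOn u u' atTop S := by
  have hd : ∀ p ∈ S, ∀ n, dist (u n p) (u (n + 1) p) ≤ 2 * C / 2 / 2 ^ n := fun p hp n => by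
    rw [dist_comm, dist_eq_norm, mul_div_cancel_left₀ C two_ne_zero]
    exact h n p hp
  have hp : ∀ p ∈ S, ∃ g, Tendsto (fun n => u n p) atTop (𝓝 g) := fun p hp =>
    cauchySeq_tendsto_of_complete (cauchySeq_of_le_geometric_two (hd p hp))
  choose! g hg using hp
  refine ⟨g, Metric.tendstoUniformlyOn_iff.2 fun ε hε => ?_⟩
  have h0 : Tendsto (fun n : ℕ => 2 * C / 2 ^ n) atTop (𝓝 0) :=
    tendsto_const_nhds.div_atTop (tendsto_pow_atTop_atTop_of_one_lt one_lt_two)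
  filter_upwards [h0.eventually (gt_mem_nhds hε)] with n hn p hp
  rw [dist_comm]
  exact (dist_le_of_le_geometric_two_of_tendsto (hd p hp) (hg p hp) n).trans_lt hn

end Crest.Agent.R106
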