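import Crest.Agent.R106.It3
import Crest.Agent.R106.It4
import Crest.Agent.R106.Lim

/-!
# Row 106: the limit solves the equations

Pointwise limits and dominated convergence (uniform supports `Iter.supp`, uniform bounds `LimD.bK`, `LimD.bf`;
`pd (τ, u) (cE K i) p = (fderiv K p (τ, u)).1 i` at points of differentiability).  For `lim_rep` dominate the
integrand of `Ret` by `C/|y|` on `‖v‖ ≤ P` (`cyl_int`, `cone_mem_open`, `LimD.df`).

-/

set_option autoImplicit false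

noncomputable section

namespace Crest.Agent.R106

open MeasureTheory Set Metric Real Filter Topology
open scoped ContDiff ENNReal RealInnerProductSpace Classical
open Crest.AnalysisR.VecCalc3 Crest.AnalysisR.PDE.RVM

variable {κ : Ph → Ph} {f₀ : Ph → ℝ} {K₀ : R3 → Ph} {K : ℕ → ST → Ph} {f : ℕ → TP → ℝ}
  {Z : ℕ → ℝ → Ph → Ph}

variable {T : ℝ} {K' : ST → Ph} {f' : TP → ℝ}

theorem LimPDE_apply {X Y : Type} [NormedAddCommGroup X] [NormedSpace ℝ X] [NormedAddCommGroup Y]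
    [NormedSpace ℝ Y] {A : ℕ → X →L[ℝ] Y} {A' : X →L[ℝ] Y} {u : ℕ → X} {u' : X}
    (hA : Tendsto A atTop (𝓝 A')) (hu : Tendsto u atTop (𝓝 u')) :
    Tendsto (fun n => A n (u n)) atTop (𝓝 (A' u')) :=
  (isBoundedBilinearMap_apply.continuous.tendsto (A', u')).comp (hA.prodMk_nhds hu)

theorem LimPDE_sub {X : Type} : oslab X T ⊆ slab X T := prod_mono_left Ioo_subset_Icc_self

theorem LimPDE_vint {g : ℕ → TP → ℝ} {g' : TP → ℝ} {p : ST} {P A : ℝ} (hc : ∀ n, Continuous (g n))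
    (hs : ∀ n v, g n (p.1, p.2, v) ≠ 0 → ‖v‖ ≤ P) (hb : ∀ n v, |g n (p.1, p.2, v)| ≤ A)
    (hl : ∀ v, Tendsto (fun n => g n (p.1, p.2, v)) atTop (𝓝 (g' (p.1, p.2, v)))) :
    Tendsto (fun n => vint (g n) p) atTop (𝓝 (vint g' p)) := by
  refine tendsto_integral_of_dominated_convergence ((closedBall (0 : R3) P).indicator fun _ => A)
    (fun n => ((hc n).comp (by fun_prop)).aestronglyMeasurable) ?_ (fun n => ae_of_all _ fun v => ?_)
    (ae_of_all _ hl)
  · exact (integrable_indicator_iff measurableSet_closedBall).2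
      (integrableOn_const measure_closedBall_lt_top.ne)
  · by_cases hv : v ∈ closedBall (0 : R3) P
    · rw [indicator_of_mem hv]
      exact hb n v
    · rw [indicator_of_notMem hv]
      by_contra h0
      refine hv (mem_closedBall_zero_iff.2 (hs n v fun h1 => h0 ?_))
      rw [h1, norm_zero]

theorem LimPDE_pd (h : Iter κ f₀ K₀ K f Z) (hl : LimD T K f K' f') {p : ST} (hp : p ∈ oslab R3 T)
    (A : Ph →L[ℝ] ℝ) (μ : ST) :
    Tendsto (fun n => pd μ (fun q => A (K (n + 1) q)) p) atTop (𝓝 (pd μ (fun q => A (K' q)) p)) := by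
  have d1 : DifferentiableAt ℝ K' p :=
    (hl.sK.contDiffAt (slab_mem_nhds hp)).differentiableAt (by simp)
  have e : ∀ G : ST → Ph, DifferentiableAt ℝ G p →
      pd μ (fun q => A (G q)) p = A (fderiv ℝ G p μ) := fun G hG =>
    congrArg (fun B : ST →L[ℝ] ℝ => B μ) (A.hasFDerivAt.comp p hG.hasFDerivAt).fderiv
  rw [e K' d1]
  simp only [fun n => e (K (n + 1)) ((h.smooth (n + 1)).differentiable (by simp) p)]
  exact (A.continuous.tendsto _).comp
    (LimPDE_apply ((hl.dK p hp).comp (tendsto_add_atTop_nat 1)) tendsto_const_nhds)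

theorem LimPDE_ret (h : Iter κ f₀ K₀ K f Z) (hl : LimD T K f K' f') {p : ST} (hp : p ∈ slab R3 T)
    {a : Ph → ℝ} (ha : Ker 1 a) (μ : TP) :
    Tendsto (fun n => Ret a μ (f n) p) atTop (𝓝 (Ret a μ f' p)) := by
  obtain ⟨P, hP⟩ := h.supp T
  obtain ⟨C, hC0, hC⟩ := ha.bound P
  obtain ⟨C₁, hC₁⟩ := hl.bf 1
  simp only [norm_iteratedFDeriv_one] at hC₁
  have hae : ∀ᵐ q ∂(volume.restrict (cyl p.1)), q ∈ cyl p.1 ∧ q.1 ≠ 0 :=
    (ae_restrict_mem (measurableSet_cyl _)).and (ae_restrict_of_ae ae_ne_zero)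
  refine tendsto_integral_of_dominated_convergence
    (fun q : Ph => if ‖q.2‖ ≤ P then |C * p.1 * (C₁ * ‖μ‖)| / ‖q.1‖ ^ 2 else 0) (fun n => ?_) ?_
    (fun n => hae.mono fun q hq => ?_) (hae.mono fun q hq => ?_)
  · exact (ha.kerB.int_ret (((h.vsol n).smooth.of_le (by simp)).contDiffOn) (VS_of_supp (hP n))
      (μ := fun _ => μ) measurable_const (fun _ => ⟨‖μ‖, fun _ _ => le_rfl⟩) hp).aestronglyMeasurable
  · refine cyl_int (C := |C * p.1 * (C₁ * ‖μ‖)|) (P := P) (Measurable.aestronglyMeasurable ?_)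
      (fun q _ _ => ?_) fun q _ _ hq => if_neg (not_le.2 hq)
    · exact Measurable.ite (measurableSet_le (by fun_prop) measurable_const) (by fun_prop)
        measurable_const
    · split_ifs
      · exact (abs_of_nonneg (by positivity)).le
      · rw [abs_zero]
        positivity
  · have ho := cone_mem_open hp hq.1 hq.2
    split_ifs with hv
    · have hy : 0 < ‖q.1‖ := norm_pos_iff.2 hq.2
      have hyt : ‖q.1‖ ≤ p.1 := (mem_ball_zero_iff.1 hq.1.1).le
      have h1 : |a q| ≤ C * p.1 / ‖q.1‖ ^ 2 := by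
        refine (hC q.1 q.2 hq.2 hv).trans ?_
        rw [pow_one, div_le_div_iff₀ hy (by positivity), sq, mul_assoc]
        gcongr
      have h2 : ‖fderiv ℝ (f n) (cone p q) μ‖ ≤ C₁ * ‖μ‖ :=
        (ContinuousLinearMap.le_opNorm _ _).trans
          (mul_le_mul_of_nonneg_right (hC₁ n _ (LimPDE_sub ho)) (norm_nonneg _))
      rw [norm_mul]
      refine (mul_le_mul h1 h2 (norm_nonneg _) ((abs_nonneg _).trans h1)).trans ?_
      rw [div_mul_eq_mul_div]
      exact div_le_div_of_nonneg_right (le_abs_self _) (by positivity)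
    · rw [fderiv_zero_of_VS (VS_of_supp (hP n)) ho (not_le.1 hv)]
      simp
  · exact (LimPDE_apply (hl.df _ (cone_mem_open hp hq.1 hq.2)) tendsto_const_nhds).const_mul _

theorem Iter.lim (h : Iter κ f₀ K₀ K f Z) (hT : 0 < T) : ∃ K' f', LimD T K f K' f' := by
  obtain ⟨C, hC⟩ := h.cauchy T
  obtain ⟨K', hK'⟩ := unif_lim (S := slab R3 T) (u := K) fun n => (hC n).1
  obtain ⟨f', hf'⟩ := unif_lim (S := slab Ph T) (u := f) fun n => (hC n).2
  have bK : ∀ k : ℕ, ∃ C, ∀ n, ∀ p ∈ slab R3 T, ‖iteratedFDeriv ℝ k (K n) p‖ ≤ C := fun k =>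
    (h.joint hT k).imp fun _ hC n => (hC n).1
  have bf : ∀ k : ℕ, ∃ C, ∀ n, ∀ p ∈ slab Ph T, ‖iteratedFDeriv ℝ k (f n) p‖ ≤ C := fun k =>
    (h.joint hT k).imp fun _ hC n => (hC n).2
  obtain ⟨a1, a2⟩ := lim_smooth hT h.smooth bK hK'
  obtain ⟨b1, b2⟩ := lim_smooth hT (fun n => (h.vsol n).smooth) bf hf'
  exact ⟨K', f', hT, bK, bf, hK', hf', a1, b1, a2, b2⟩

theorem Iter.lim_vl (h : Iter κ f₀ K₀ K f Z) (hl : LimD T K f K' f') :
    ∀ p ∈ oslab Ph T, Vlasov (κ ∘ K') f' p := by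
  intro p hp
  have h1 : Tendsto (fun n => K n (p.1, p.2.1)) atTop (𝓝 (K' (p.1, p.2.1))) :=
    hl.uK.tendsto_at ⟨Ioo_subset_Icc_self hp.1, mem_univ _⟩
  have hc : Continuous fun y : Ph => (((1 : ℝ), relVel p.2.2, force (κ y) p.2.2) : TP) :=
    continuous_const.prodMk (continuous_const.prodMk
      (contDiff_force.continuous.comp (h.hκ.continuous.prodMk continuous_const)))
  have h2 := LimPDE_apply (hl.df p hp) ((hc.tendsto _).comp h1)
  refine tendsto_nhds_unique h2 (tendsto_const_nhds.congr fun n => ?_)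
  exact ((h.vsol n).eq p).symm

theorem LimPDE_E (h : Iter κ f₀ K₀ K f Z) (hl : LimD T K f K' f') {p : ST} (hp : p ∈ oslab R3 T)
    (i : Fin 3) (μ : ST) :
    Tendsto (fun n => pd μ (cE (K (n + 1)) i) p) atTop (𝓝 (pd μ (cE K' i) p)) :=
  LimPDE_pd h hl hp ((EuclideanSpace.proj i : R3 →L[ℝ] ℝ).comp (ContinuousLinearMap.fst ℝ R3 R3)) μ

theorem LimPDE_B (h : Iter κ f₀ K₀ K f Z) (hl : LimD T K f K' f') {p : ST} (hp : p ∈ oslab R3 T)
    (i : Fin 3) (μ : ST) :
    Tendsto (fun n => pd μ (cB (K (n + 1)) i) p) atTop (𝓝 (pd μ (cB K' i) p)) :=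
  LimPDE_pd h hl hp ((EuclideanSpace.proj i : R3 →L[ℝ] ℝ).comp (ContinuousLinearMap.snd ℝ R3 R3)) μ

theorem LimPDE_src (h : Iter κ f₀ K₀ K f Z) (hl : LimD T K f K' f') {p : ST} (hp : p ∈ slab R3 T) :
    Tendsto (fun n => vint (f n) p) atTop (𝓝 (vint f' p)) ∧
      ∀ i, Tendsto (fun n => cur (f n) i p) atTop (𝓝 (cur f' i p)) := by
  obtain ⟨P, hP⟩ := h.supp T
  obtain ⟨A, hA⟩ := h.bddf
  have hm : ∀ v : R3, ((p.1, p.2, v) : TP) ∈ slab Ph T := fun v => ⟨hp.1, mem_univ _⟩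
  have hs : ∀ n v, f n (p.1, p.2, v) ≠ 0 → ‖v‖ ≤ P := fun n v h0 =>
    VS_of_supp (hP n) (p.1, p.2, v) hp.1 h0
  have hc : ∀ n, Continuous (f n) := fun n => (h.vsol n).smooth.continuous
  have ht : ∀ v, Tendsto (fun n => f n (p.1, p.2, v)) atTop (𝓝 (f' (p.1, p.2, v))) := fun v =>
    hl.uf.tendsto_at (hm v)
  refine ⟨LimPDE_vint hc hs (fun n v => hA n _) ht, fun i => ?_⟩
  have hr : ∀ v : R3, |relVel v i| ≤ 1 := fun v =>
    (PiLp.norm_apply_le (relVel v) i).trans (norm_relVel_lt v).le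
  have hc' : Continuous fun r : TP => relVel r.2.2 i := (pint_relVel i).continuous
  unfold cur
  refine LimPDE_vint (P := P) (A := A) (fun n => (hc n).mul hc') (fun n v h0 => ?_) (fun n v => ?_)
    fun v => ?_
  · exact hs n v (left_ne_zero_of_mul h0)
  · rw [abs_mul]
    exact (mul_le_of_le_one_right (abs_nonneg _) (hr v)).trans (hA n _)
  · exact (ht v).mul_const _

theorem Iter.lim_mx (h : Iter κ f₀ K₀ K f Z) (hl : LimD T K f K' f') :
    ∀ p ∈ oslab R3 T, Maxwell K' f' p := by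
  intro p hp
  have hE := LimPDE_E h hl hp
  have hB := LimPDE_B h hl hp
  obtain ⟨hρ, hj⟩ := LimPDE_src h hl (LimPDE_sub hp)
  have hM : ∀ n, Maxwell (K (n + 1)) (f n) p := fun n => h.maxwell n hp.1.1
  have cE' : ∀ i, Tendsto (fun n => cu (cE (K (n + 1))) i p) atTop (𝓝 (cu (cE K') i p)) := fun i =>
    (hE (i + 2) (0, ee (i + 1))).sub (hE (i + 1) (0, ee (i + 2)))
  have cB' : ∀ i, Tendsto (fun n => cu (cB (K (n + 1))) i p) atTop (𝓝 (cu (cB K') i p)) := fun i =>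
    (hB (i + 2) (0, ee (i + 1))).sub (hB (i + 1) (0, ee (i + 2)))
  have dE : Tendsto (fun n => dx (cE (K (n + 1))) p) atTop (𝓝 (dx (cE K') p)) :=
    tendsto_finsetSum _ fun i _ => hE i (0, ee i)
  have dB : Tendsto (fun n => dx (cB (K (n + 1))) p) atTop (𝓝 (dx (cB K') p)) :=
    tendsto_finsetSum _ fun i _ => hB i (0, ee i)
  refine ⟨fun i => ?_, fun i => ?_, ?_, ?_⟩
  · exact tendsto_nhds_unique ((hE i (1, 0)).sub (cB' i))
      ((hj i).neg.congr fun n => ((hM n).1 i).symm)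
  · exact tendsto_nhds_unique ((hB i (1, 0)).add (cE' i))
      (tendsto_const_nhds.congr fun n => ((hM n).2.1 i).symm)
  · exact tendsto_nhds_unique dE (hρ.congr fun n => (hM n).2.2.1.symm)
  · exact tendsto_nhds_unique dB (tendsto_const_nhds.congr fun n => (hM n).2.2.2.symm)

theorem Iter.lim_rep (h : Iter κ f₀ K₀ K f Z) (hl : LimD T K f K' f') :
    ∀ p ∈ slab R3 T, RepAt (dat K₀ f₀) K' f' p := by
  intro p hp
  have hR : ∀ n, RepAt (dat K₀ f₀) (K (n + 1)) (f n) p := fun n => h.rep n [] hp.1.1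
  have h1 : Tendsto (fun n => K (n + 1) p) atTop (𝓝 (K' p)) :=
    (hl.uK.tendsto_at hp).comp (tendsto_add_atTop_nat 1)
  refine ⟨fun i => ?_, fun i => ?_⟩
  · have hc : Continuous fun y : Ph => y.1 i := by fun_prop
    exact tendsto_nhds_unique ((hc.tendsto _).comp h1)
      ((((LimPDE_ret h hl hp ker_k0 _).add (LimPDE_ret h hl hp (ker_kv i) _)).div_const _).const_sub
        _ |>.congr fun n => ((hR n).1 i).symm)
  · have hc : Continuous fun y : Ph => y.2 i := by fun_prop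
    exact tendsto_nhds_unique ((hc.tendsto _).comp h1)
      ((((LimPDE_ret h hl hp (ker_kv _) _).sub (LimPDE_ret h hl hp (ker_kv _) _)).div_const _).const_add
        _ |>.congr fun n => ((hR n).2 i).symm)

end Crest.Agent.R106
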