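import Crest.Agent.R106.Basic
import Crest.Agent.R106.Greedy

/-!
# Row 106: the meeting lemma for two trajectories

Let `E` be the set; choose `σ τ = s` for `τ ∈ E`.  `σ` is monotone on `E`: if `τ < τ'` and `σ τ' < σ τ` then
`τ' - τ ≤ ‖x τ' - x τ‖ < τ' - τ` (`x` is strictly subluminal, `X` subluminal).  Put `h₁ = p₀θ₀/50`,
`h₂ = Γθ₀/50` (both `≥ H`) and label `τ ∈ E` by `⌊(Λ₁ τ - Λ₁ a)/h₁⌋₊ + ⌊(Λ₂ (σ τ) - Λ₂ s₀)/h₂⌋₊ ≤ 15/θ₀`;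
both summands are monotone.  Claim: two points `τ < τ'` of `E` with the same label satisfy
`τ' - τ ≤ 10 l/θ₀²` (then `Real.volume_le_diam` on each label class).  Let `s = σ τ ≤ s' = σ τ'`,
`w₀ = V̂ s`, `e = (1 + θ₀²/10) w₀`, `ℓ(τ) = e·y - |y|` for `y = X (σ τ) - x τ`.  On `[τ, τ']`,
`‖v · - v τ‖ ≤ 2h₁`, so `ang w₀ v̂ ≥ 0.92 θ₀` (`ang_relVel_lip`) and `1 - e·v̂ ≥ 0.32 θ₀²`; on `[s, s']`,
`‖V · - V s‖ ≤ 2h₂`, so `ang w₀ V̂ ≤ 2/pp(V s) + 0.16θ₀ ≤ 0.24 θ₀` (`ang_self_relVel`) and `e·V̂ ≥ 1`.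
Hence `ℓ τ' - ℓ τ = [e·(X s' - X s) - (s' - s)] + [(τ' - τ) - e·(x τ' - x τ)] ≥ 0.32 θ₀² (τ' - τ)` (monotonicity
from derivatives), while `|ℓ τ| ≤ l` and `|ℓ τ'| ≤ 2 l` (`gap n' w₀ ≤ 2 gap n' (V̂ s') + 0.026 θ₀²`).

-/

set_option autoImplicit false

noncomputable section

namespace Crest.Agent.R106

open MeasureTheory Set Metric Real Filter Topology
open scoped ContDiff ENNReal RealInnerProductSpace Classical
open Crest.AnalysisR.VecCalc3 Crest.AnalysisR.PDE.RVM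

theorem meet1_incr {f f' : ℝ → R3} {a b : ℝ}
    (hf : ∀ t ∈ Icc a b, HasDerivWithinAt f (f' t) (Icc a b) t) (e : R3) {c τ τ' : ℝ}
    (hτ : a ≤ τ) (hle : τ ≤ τ') (hτ' : τ' ≤ b) (h : ∀ t ∈ Icc τ τ', c ≤ ⟪e, f' t⟫) :
    c * (τ' - τ) ≤ ⟪e, f τ' - f τ⟫ := by
  have hsub : Icc τ τ' ⊆ Icc a b := Icc_subset_Icc hτ hτ'
  have hd : ∀ t ∈ Icc τ τ', HasDerivWithinAt (fun t => ⟪e, f t⟫ - c * t) (⟪e, f' t⟫ - c)
      (Icc τ τ') t := by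
    intro t ht
    have h1 : HasDerivWithinAt f (f' t) (Icc τ τ') t := (hf t (hsub ht)).mono hsub
    have h2 : HasDerivWithinAt (fun t => ⟪e, f t⟫) (⟪e, f' t⟫) (Icc τ τ') t :=
      (innerSL ℝ e).hasFDerivAt.comp_hasDerivWithinAt t h1
    have h3 : HasDerivWithinAt (fun t : ℝ => c * t) c (Icc τ τ') t := by
      simpa using (hasDerivWithinAt_id t (Icc τ τ')).const_mul c
    exact h2.sub h3
  have hm : MonotoneOn (fun t => ⟪e, f t⟫ - c * t) (Icc τ τ') := by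
    refine monotoneOn_of_hasDerivWithinAt_nonneg (f' := fun t => ⟪e, f' t⟫ - c) (convex_Icc _ _)
      (fun t ht => (hd t ht).continuousWithinAt)
      (fun t ht => (hd t (interior_subset ht)).mono interior_subset) (fun t ht => ?_)
    have := h t (interior_subset ht)
    linarith
  have := hm (left_mem_Icc.2 hle) (right_mem_Icc.2 hle) hle
  simp only at this
  rw [inner_sub_right]
  linarith

theorem meet1_lip {f f' : ℝ → R3} {a b c : ℝ}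
    (hf : ∀ t ∈ Icc a b, HasDerivWithinAt f (f' t) (Icc a b) t) (h : ∀ t ∈ Icc a b, ‖f' t‖ ≤ c)
    {τ τ' : ℝ} (hτ : τ ∈ Icc a b) (hτ' : τ' ∈ Icc a b) (hle : τ ≤ τ') :
    ‖f τ' - f τ‖ ≤ c * (τ' - τ) := by
  have := Convex.norm_image_sub_le_of_norm_hasDerivWithin_le hf h (convex_Icc a b) hτ hτ'
  rwa [Real.norm_eq_abs, abs_of_nonneg (sub_nonneg.2 hle)] at this

/-- the retarded time is monotone -/
theorem meet1_mono {x v X V : ℝ → R3} {a b s₀ s₁ H W : ℝ}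
    (hx : ∀ τ ∈ Icc a b, HasDerivWithinAt x (relVel (v τ)) (Icc a b) τ)
    (hX : ∀ s ∈ Icc s₀ s₁, HasDerivWithinAt X (relVel (V s)) (Icc s₀ s₁) s)
    (hv : Var v a b H W) {τ τ' s s' : ℝ} (hτ : τ ∈ Icc a b) (hτ' : τ' ∈ Icc a b) (hlt : τ < τ')
    (hs : s ∈ Icc s₀ s₁) (hs' : s' ∈ Icc s₀ s₁) (e1 : s - ‖X s - x τ‖ = τ)
    (e2 : s' - ‖X s' - x τ'‖ = τ') : s ≤ s' := by
  by_contra hc
  push Not at hc
  obtain ⟨Λ, hΛ, hW, hvar⟩ := hv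
  set Q := pp (v a) + (H + W) with hQ
  have hb : ∀ t ∈ Icc a b, pp (v t) ≤ Q := by
    intro t ht
    have h1 := hvar a t le_rfl ht.1 ht.2
    have h2 := abs_pp_sub (v t) (v a)
    have h3 := hΛ ht.2
    have h4 := le_abs_self (pp (v t) - pp (v a))
    linarith
  have hQ1 : 1 ≤ Q := (one_le_pp _).trans (hb τ hτ)
  have hx' := meet1_lip hx (fun t ht => norm_relVel_le (hb t ht)) hτ hτ' hlt.le
  have hX' := meet1_lip hX (c := 1) (fun t _ => (norm_relVel_lt _).le) hs' hs hc.le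
  have htri : ‖X s - x τ‖ ≤ ‖X s - X s'‖ + ‖X s' - x τ'‖ + ‖x τ' - x τ‖ := by
    have : X s - x τ = (X s - X s') + (X s' - x τ') + (x τ' - x τ) := by abel
    rw [this]
    exact norm_add₃_le
  have hpos : 0 < 1 / (2 * Q ^ 2) * (τ' - τ) := by
    have : 0 < τ' - τ := sub_pos.2 hlt
    positivity
  nlinarith

/-- two meeting times with small variation in between are close -/
theorem meet1_close {x v X V : ℝ → R3} {a b s₀ s₁ p₀ θ₀ Γ l : ℝ}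
    (hx : ∀ τ ∈ Icc a b, HasDerivWithinAt x (relVel (v τ)) (Icc a b) τ)
    (hX : ∀ s ∈ Icc s₀ s₁, HasDerivWithinAt X (relVel (V s)) (Icc s₀ s₁) s)
    (hθ : 0 < θ₀) (hθ2 : θ₀ ≤ 2) (hp₀ : 0 < p₀) (hΓ : 50 ≤ Γ * θ₀)
    {τ τ' s s' : ℝ} (hτ : τ ∈ Icc a b) (hτ' : τ' ∈ Icc a b) (hle : τ ≤ τ')
    (hs : s ∈ Icc s₀ s₁) (hs' : s' ∈ Icc s₀ s₁) (hss : s ≤ s') (e1 : s - ‖X s - x τ‖ = τ)
    (e2 : s' - ‖X s' - x τ'‖ = τ') (hp : p₀ ≤ pp (v τ)) (hG : Γ / 2 ≤ pp (V s))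
    (hang : θ₀ ≤ ang (relVel (V s)) (relVel (v τ)))
    (hl : ‖X s - x τ‖ * (gap (nn (X s - x τ)) (relVel (V s)) + θ₀ ^ 2) ≤ l)
    (hl' : ‖X s' - x τ'‖ * (gap (nn (X s' - x τ')) (relVel (V s')) + θ₀ ^ 2) ≤ l)
    (hv : ∀ t ∈ Icc τ τ', ‖v t - v τ‖ ≤ p₀ * θ₀ / 25)
    (hV : ∀ u ∈ Icc s s', ‖V u - V s‖ ≤ Γ * θ₀ / 25) :
    τ' - τ ≤ 4 * l / θ₀ ^ 2 := by
  have hΓ0 : 0 < Γ := by
    by_contra h
    push Not at h
    nlinarith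
  set w := relVel (V s) with hw
  have hw1 : ‖w‖ ≤ 1 := (norm_relVel_lt _).le
  set e : R3 := (1 + θ₀ ^ 2 / 10) • w with he
  have hθsq : 0 < θ₀ ^ 2 := by positivity
  have hθ4 : θ₀ ^ 2 ≤ 4 := by nlinarith
  -- the slow curve
  have A1 : ∀ t ∈ Icc τ τ', -(1 - 8 / 25 * θ₀ ^ 2) ≤ ⟪-e, relVel (v t)⟫ := by
    intro t ht
    have h1 := ang_relVel_lip hw1 (v τ) (v t)
    have h2 : 2 * ‖v τ - v t‖ / pp (v τ) ≤ 2 / 25 * θ₀ := by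
      rw [div_le_iff₀ (pp_pos _), norm_sub_rev]
      have := hv t ht
      nlinarith
    have h3 : 23 / 25 * θ₀ ≤ ang w (relVel (v t)) := by
      have := le_abs_self (ang w (relVel (v τ)) - ang w (relVel (v t)))
      linarith
    have h4 := ang_sq hw1 (norm_relVel_lt (v t)).le
    have h5 : (23 / 25 * θ₀) ^ 2 ≤ ang w (relVel (v t)) ^ 2 :=
      pow_le_pow_left₀ (by positivity) h3 2
    have h6 := gap_nonneg hw1 (norm_relVel_lt (v t)).le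
    rw [inner_neg_left, he, real_inner_smul_left]
    unfold gap at h4 h6
    have h7 : θ₀ ^ 2 / 10 * ⟪w, relVel (v t)⟫ ≤ θ₀ ^ 2 / 10 * 1 :=
      mul_le_mul_of_nonneg_left (by linarith) (by positivity)
    nlinarith
  -- the fast curve
  have A2 : ∀ u ∈ Icc s s', 1 ≤ ⟪e, relVel (V u)⟫ := by
    intro u hu
    have h1 := ang_relVel_lip hw1 (V s) (V u)
    have h2 : 2 * ‖V s - V u‖ / pp (V s) ≤ 4 / 25 * θ₀ := by
      rw [div_le_iff₀ (pp_pos _), norm_sub_rev]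
      have := hV u hu
      nlinarith
    have h0 : 2 / pp (V s) ≤ 2 / 25 * θ₀ := by
      rw [div_le_iff₀ (pp_pos _)]
      nlinarith
    have h00 := ang_self_relVel (V s)
    have h3 : ang w (relVel (V u)) ≤ 6 / 25 * θ₀ := by
      have := neg_abs_le (ang w (relVel (V s)) - ang w (relVel (V u)))
      linarith
    have h4 := ang_sq hw1 (norm_relVel_lt (V u)).le
    have h5 : ang w (relVel (V u)) ^ 2 ≤ (6 / 25 * θ₀) ^ 2 :=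
      pow_le_pow_left₀ (ang_nonneg _ _) h3 2
    rw [he, real_inner_smul_left]
    unfold gap at h4
    have h6 : 1 - 18 / 625 * θ₀ ^ 2 ≤ ⟪w, relVel (V u)⟫ := by nlinarith
    have h7 : (1 + θ₀ ^ 2 / 10) * (1 - 18 / 625 * θ₀ ^ 2) ≤ (1 + θ₀ ^ 2 / 10) * ⟪w, relVel (V u)⟫ :=
      mul_le_mul_of_nonneg_left h6 (by positivity)
    nlinarith
  have B1 := meet1_incr hx (-e) hτ.1 hle hτ'.2 A1
  have B2 := meet1_incr hX e hs.1 hss hs'.2 A2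
  -- the values of `e·y - |y|`
  have key : ∀ y : R3, ⟪e, y⟫ - ‖y‖ =
      ‖y‖ * (-gap (nn y) w + θ₀ ^ 2 / 10 * (1 - gap (nn y) w)) := by
    intro y
    have : ⟪e, y⟫ = ‖y‖ * ((1 + θ₀ ^ 2 / 10) * ⟪nn y, w⟫) := by
      conv_lhs => rw [← smul_nn y]
      rw [he, real_inner_smul_left, real_inner_smul_right, real_inner_comm]
      ring
    rw [this]
    unfold gap
    ring
  have C1 : -l ≤ ⟪e, X s - x τ⟫ - ‖X s - x τ‖ := by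
    rw [key]
    have g2 := gap_le_two (norm_nn_le (X s - x τ)) hw1
    have : -(gap (nn (X s - x τ)) w + θ₀ ^ 2) ≤
        -gap (nn (X s - x τ)) w + θ₀ ^ 2 / 10 * (1 - gap (nn (X s - x τ)) w) := by nlinarith
    have := mul_le_mul_of_nonneg_left this (norm_nonneg (X s - x τ))
    linarith
  have C2 : ⟪e, X s' - x τ'⟫ - ‖X s' - x τ'‖ ≤ l / 10 := by
    rw [key]
    have g0 := gap_nonneg (norm_nn_le (X s' - x τ')) hw1
    have g1 := gap_nonneg (norm_nn_le (X s' - x τ')) (norm_relVel_lt (V s')).le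
    have : -gap (nn (X s' - x τ')) w + θ₀ ^ 2 / 10 * (1 - gap (nn (X s' - x τ')) w) ≤
        (gap (nn (X s' - x τ')) (relVel (V s')) + θ₀ ^ 2) / 10 := by nlinarith
    have := mul_le_mul_of_nonneg_left this (norm_nonneg (X s' - x τ'))
    linarith
  have hl0 : 0 ≤ l := by
    have g1 := gap_nonneg (norm_nn_le (X s' - x τ')) (norm_relVel_lt (V s')).le
    exact le_trans (by positivity) hl'
  rw [inner_neg_left] at B1
  simp only [inner_sub_right] at B1 B2 C1 C2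
  rw [le_div_iff₀ hθsq]
  nlinarith

theorem meet1_floor {Λ : ℝ → ℝ} {h c s s' : ℝ} (hh : 0 < h) (hc : c ≤ Λ s)
    (he : ⌊(Λ s - c) / h⌋₊ = ⌊(Λ s' - c) / h⌋₊) : Λ s' - Λ s ≤ h := by
  have h1 : ((⌊(Λ s - c) / h⌋₊ : ℕ) : ℝ) ≤ (Λ s - c) / h :=
    Nat.floor_le (div_nonneg (sub_nonneg.2 hc) hh.le)
  have h2 := Nat.lt_floor_add_one ((Λ s' - c) / h)
  rw [← he] at h2
  have h3 : (Λ s' - c) / h ≤ (Λ s - c) / h + 1 := by linarith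
  rw [div_add_one hh.ne', div_le_div_iff_of_pos_right hh] at h3
  linarith

theorem meet_traj : ∃ C, 0 < C ∧ ∀ (x v X V : ℝ → R3) (a b s₀ s₁ H p₀ θ₀ Γ l : ℝ),
    (∀ τ ∈ Icc a b, HasDerivWithinAt x (relVel (v τ)) (Icc a b) τ) → ContinuousOn v (Icc a b) →
    (∀ s ∈ Icc s₀ s₁, HasDerivWithinAt X (relVel (V s)) (Icc s₀ s₁) s) →
    Var v a b H (p₀ / 5) → Var V s₀ s₁ H (Γ / 10) → (∀ s ∈ Icc s₀ s₁, Γ / 2 ≤ pp (V s)) →
    1 ≤ H → 0 < θ₀ → θ₀ ≤ 2 → 50 * H ≤ p₀ * θ₀ → 50 * H ≤ Γ * θ₀ → 0 < l →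
    volume {τ ∈ Icc a b | ∃ s ∈ Icc s₀ s₁, s - ‖X s - x τ‖ = τ ∧ p₀ ≤ pp (v τ) ∧
      θ₀ ≤ ang (relVel (V s)) (relVel (v τ)) ∧
      ‖X s - x τ‖ * (gap (nn (X s - x τ)) (relVel (V s)) + θ₀ ^ 2) ≤ l} ≤
      ENNReal.ofReal (C * l / θ₀ ^ 3) := by
  refine ⟨68, by norm_num, ?_⟩
  intro x v X V a b s₀ s₁ H p₀ θ₀ Γ l hx _ hX hv hV hG hH hθ hθ2 hp hΓ hl
  set E := {τ ∈ Icc a b | ∃ s ∈ Icc s₀ s₁, s - ‖X s - x τ‖ = τ ∧ p₀ ≤ pp (v τ) ∧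
      θ₀ ≤ ang (relVel (V s)) (relVel (v τ)) ∧
      ‖X s - x τ‖ * (gap (nn (X s - x τ)) (relVel (V s)) + θ₀ ^ 2) ≤ l} with hE
  have hch : ∀ τ, ∃ s, τ ∈ E → s ∈ Icc s₀ s₁ ∧ s - ‖X s - x τ‖ = τ ∧ p₀ ≤ pp (v τ) ∧
      θ₀ ≤ ang (relVel (V s)) (relVel (v τ)) ∧
      ‖X s - x τ‖ * (gap (nn (X s - x τ)) (relVel (V s)) + θ₀ ^ 2) ≤ l := by
    intro τ
    by_cases h : τ ∈ E
    · obtain ⟨s, hs⟩ := h.2
      exact ⟨s, fun _ => hs⟩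
    · exact ⟨0, fun h' => absurd h' h⟩
  choose σ hσ using hch
  have hσm : ∀ τ ∈ E, ∀ τ' ∈ E, τ < τ' → σ τ ≤ σ τ' := fun τ h τ' h' hlt =>
    meet1_mono hx hX hv h.1 h'.1 hlt (hσ τ h).1 (hσ τ' h').1 (hσ τ h).2.1 (hσ τ' h').2.1
  obtain ⟨Λ₁, m₁, w₁, v₁⟩ := hv
  obtain ⟨Λ₂, m₂, w₂, v₂⟩ := hV
  have hp₀ : 0 < p₀ := by
    by_contra h
    push Not at h
    nlinarith
  have hΓ0 : 0 < Γ := by
    by_contra h
    push Not at h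
    nlinarith
  set h₁ := p₀ * θ₀ / 50 with hh₁
  set h₂ := Γ * θ₀ / 50 with hh₂
  have h₁0 : 0 < h₁ := by positivity
  have h₂0 : 0 < h₂ := by positivity
  set lab : ℝ → ℕ := fun τ => ⌊(Λ₁ τ - Λ₁ a) / h₁⌋₊ + ⌊(Λ₂ (σ τ) - Λ₂ s₀) / h₂⌋₊ with hlab
  have hclose : ∀ τ ∈ E, ∀ τ' ∈ E, τ < τ' → lab τ = lab τ' → τ' - τ ≤ 4 * l / θ₀ ^ 2 := by
    intro τ h τ' h' hlt heq
    have hss := hσm τ h τ' h' hlt
    have f1 : ⌊(Λ₁ τ - Λ₁ a) / h₁⌋₊ ≤ ⌊(Λ₁ τ' - Λ₁ a) / h₁⌋₊ :=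
      Nat.floor_mono (div_le_div_of_nonneg_right (sub_le_sub_right (m₁ hlt.le) _) h₁0.le)
    have f2 : ⌊(Λ₂ (σ τ) - Λ₂ s₀) / h₂⌋₊ ≤ ⌊(Λ₂ (σ τ') - Λ₂ s₀) / h₂⌋₊ :=
      Nat.floor_mono (div_le_div_of_nonneg_right (sub_le_sub_right (m₂ hss) _) h₂0.le)
    simp only [hlab] at heq
    have g1 : Λ₁ τ' - Λ₁ τ ≤ h₁ := meet1_floor h₁0 (m₁ h.1.1) (by omega)
    have g2 : Λ₂ (σ τ') - Λ₂ (σ τ) ≤ h₂ := meet1_floor h₂0 (m₂ (hσ τ h).1.1) (by omega)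
    refine meet1_close hx hX hθ hθ2 hp₀ (by linarith) h.1 h'.1 hlt.le (hσ τ h).1 (hσ τ' h').1 hss
      (hσ τ h).2.1 (hσ τ' h').2.1 (hσ τ h).2.2.1 (hG _ (hσ τ h).1) (hσ τ h).2.2.2.1
      (hσ τ h).2.2.2.2 (hσ τ' h').2.2.2.2 (fun t ht => ?_) (fun u hu => ?_)
    · have := v₁ τ t h.1.1 ht.1 (ht.2.trans h'.1.2)
      have := m₁ ht.2
      linarith
    · have := v₂ (σ τ) u (hσ τ h).1.1 hu.1 (hu.2.trans (hσ τ' h').1.2)
      have := m₂ hu.2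
      linarith
  set N := ⌊15 / θ₀⌋₊ with hN
  have hlabN : ∀ τ ∈ E, lab τ ≤ N := by
    intro τ h
    apply Nat.le_floor
    have a1 : ((⌊(Λ₁ τ - Λ₁ a) / h₁⌋₊ : ℕ) : ℝ) ≤ (Λ₁ τ - Λ₁ a) / h₁ :=
      Nat.floor_le (div_nonneg (sub_nonneg.2 (m₁ h.1.1)) h₁0.le)
    have a2 : ((⌊(Λ₂ (σ τ) - Λ₂ s₀) / h₂⌋₊ : ℕ) : ℝ) ≤ (Λ₂ (σ τ) - Λ₂ s₀) / h₂ :=
      Nat.floor_le (div_nonneg (sub_nonneg.2 (m₂ (hσ τ h).1.1)) h₂0.le)
    have b1 : (Λ₁ τ - Λ₁ a) / h₁ ≤ 10 / θ₀ := by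
      rw [div_le_div_iff₀ h₁0 hθ]
      have := m₁ h.1.2
      have : Λ₁ τ - Λ₁ a ≤ p₀ / 5 := by linarith
      rw [hh₁]
      nlinarith
    have b2 : (Λ₂ (σ τ) - Λ₂ s₀) / h₂ ≤ 5 / θ₀ := by
      rw [div_le_div_iff₀ h₂0 hθ]
      have := m₂ (hσ τ h).1.2
      have : Λ₂ (σ τ) - Λ₂ s₀ ≤ Γ / 10 := by linarith
      rw [hh₂]
      nlinarith
    have : (15 : ℝ) / θ₀ = 10 / θ₀ + 5 / θ₀ := by ring
    simp only [hlab]
    push_cast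
    linarith
  have hsub : E ⊆ ⋃ k ∈ Finset.range (N + 1), {τ ∈ E | lab τ = k} := by
    intro τ h
    simp only [mem_iUnion]
    exact ⟨lab τ, Finset.mem_range.2 (Nat.lt_succ_of_le (hlabN τ h)), h, rfl⟩
  have hcl : ∀ k, volume {τ ∈ E | lab τ = k} ≤ ENNReal.ofReal (4 * l / θ₀ ^ 2) := by
    intro k
    refine (Real.volume_le_diam _).trans (ediam_le_of_forall_dist_le ?_)
    intro τ h τ' h'
    have hnn : 0 ≤ 4 * l / θ₀ ^ 2 := by positivity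
    rw [Real.dist_eq, abs_le]
    rcases lt_trichotomy τ τ' with hlt | heq | hlt
    · have := hclose τ h.1 τ' h'.1 hlt (h.2.trans h'.2.symm)
      constructor <;> linarith
    · subst heq
      constructor <;> linarith
    · have := hclose τ' h'.1 τ h.1 hlt (h'.2.trans h.2.symm)
      constructor <;> linarith
  calc volume E ≤ volume (⋃ k ∈ Finset.range (N + 1), {τ ∈ E | lab τ = k}) := measure_mono hsub
    _ ≤ ∑ k ∈ Finset.range (N + 1), volume {τ ∈ E | lab τ = k} := measure_biUnion_finset_le _ _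
    _ ≤ ∑ _k ∈ Finset.range (N + 1), ENNReal.ofReal (4 * l / θ₀ ^ 2) :=
        Finset.sum_le_sum fun k _ => hcl k
    _ = ENNReal.ofReal (((N + 1 : ℕ) : ℝ) * (4 * l / θ₀ ^ 2)) := by
        rw [Finset.sum_const, Finset.card_range, nsmul_eq_mul, ENNReal.ofReal_mul (by positivity),
          ENNReal.ofReal_natCast]
    _ ≤ ENNReal.ofReal (68 * l / θ₀ ^ 3) := by
        apply ENNReal.ofReal_le_ofReal
        have n1 : (N : ℝ) ≤ 15 / θ₀ := Nat.floor_le (by positivity)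
        have n2 : (1 : ℝ) ≤ 2 / θ₀ := by rw [le_div_iff₀ hθ]; linarith
        have n3 : ((N + 1 : ℕ) : ℝ) ≤ 17 / θ₀ := by
          push_cast
          have : (17 : ℝ) / θ₀ = 15 / θ₀ + 2 / θ₀ := by ring
          linarith
        calc ((N + 1 : ℕ) : ℝ) * (4 * l / θ₀ ^ 2) ≤ 17 / θ₀ * (4 * l / θ₀ ^ 2) :=
              mul_le_mul_of_nonneg_right n3 (by positivity)
          _ = 68 * l / θ₀ ^ 3 := by field_simp; ring

end Crest.Agent.R106
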