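import Crest.Agent.R106.CDefs

/-!
# Row 106: numerology: basic facts and the terms without cells

Write `x = Γ/Q ∈ (0, 1]`, `L = Lg Q ≥ 1`, `T = Del c₀ Q Γ`; then `T ≤ c₀ x²` and `T ≤ c₀ x^{15/8}/L`.
`num_B`: `√T Q ≤ √c₀ Γ`; `η T Q^{5/3} L^{2/3} ≤ 4 CM c₀ Γ`;
`η T^{3/4} Q^{3/2} L ≤ 4 CM Q^{5/24} L^{4/3} Γ^{5/8} ≤ εΓ` since `Γ^{3/8} ≥ Q^{7/32}` and `7/32 > 5/24`.
`big` is the only asymptotic input (`isLittleO_log_rpow_rpow_atTop` or similar).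

-/

set_option autoImplicit false

noncomputable section

namespace Crest.Agent.R106

open MeasureTheory Set Metric Real Filter Topology
open scoped ContDiff ENNReal RealInnerProductSpace Classical
open Crest.AnalysisR.VecCalc3 Crest.AnalysisR.PDE.RVM

theorem NumA_Lg {Q : ℝ} (hQ : 1 ≤ Q) : 1 ≤ Lg Q := by
  have := Real.log_nonneg hQ
  unfold Lg; linarith

theorem NumA_rp {x : ℝ} (hx : 0 ≤ x) (a : ℝ) (n : ℕ) (b : ℝ) (h : a * n = b) :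
    (x ^ a) ^ n = x ^ b := by
  rw [← Real.rpow_natCast, ← Real.rpow_mul hx, h]

theorem big (a δ C ε : ℝ) (hδ : 0 < δ) (hε : 0 < ε) :
    ∃ Q₀, 2 ≤ Q₀ ∧ ∀ Q, Q₀ ≤ Q → C * Lg Q ^ a ≤ ε * Q ^ δ := by
  have h := (isLittleO_log_rpow_rpow_atTop |a| hδ).bound
    (show 0 < ε / (|C| * 2 ^ |a| + 1) by positivity)
  obtain ⟨Q₁, hQ₁⟩ := Filter.eventually_atTop.1 h
  refine ⟨max Q₁ 3, le_trans (by norm_num) (le_max_right _ _), fun Q hQ => ?_⟩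
  have hQ3 : 3 ≤ Q := le_trans (le_max_right _ _) hQ
  have h1 := hQ₁ Q (le_trans (le_max_left _ _) hQ)
  have hlog : 1 ≤ Real.log Q := by
    rw [Real.le_log_iff_exp_le (by linarith)]
    have := Real.exp_one_lt_d9
    linarith
  have hL := NumA_Lg (Q := Q) (by linarith)
  have hL2 : Lg Q ≤ 2 * Real.log Q := by unfold Lg; linarith
  have hA : 0 ≤ Real.log Q ^ |a| := by positivity
  have hB : 0 < Q ^ δ := Real.rpow_pos_of_pos (by linarith) _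
  rw [Real.norm_of_nonneg hA, Real.norm_of_nonneg hB.le] at h1
  have h2 : Lg Q ^ a ≤ 2 ^ |a| * Real.log Q ^ |a| := by
    calc Lg Q ^ a ≤ Lg Q ^ |a| := Real.rpow_le_rpow_of_exponent_le hL (le_abs_self a)
      _ ≤ (2 * Real.log Q) ^ |a| := Real.rpow_le_rpow (by linarith) hL2 (abs_nonneg a)
      _ = _ := Real.mul_rpow (by norm_num) (by linarith)
  have h3 : 0 ≤ Lg Q ^ a := Real.rpow_nonneg (by linarith) _
  have hK : 0 < |C| * 2 ^ |a| + 1 := by positivity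
  calc C * Lg Q ^ a ≤ |C| * Lg Q ^ a := mul_le_mul_of_nonneg_right (le_abs_self C) h3
    _ ≤ |C| * (2 ^ |a| * Real.log Q ^ |a|) := mul_le_mul_of_nonneg_left h2 (abs_nonneg C)
    _ ≤ (|C| * 2 ^ |a| + 1) * Real.log Q ^ |a| := by nlinarith
    _ ≤ (|C| * 2 ^ |a| + 1) * (ε / (|C| * 2 ^ |a| + 1) * Q ^ δ) :=
        mul_le_mul_of_nonneg_left h1 hK.le
    _ = ε * Q ^ δ := by field_simp

theorem Del_pos {c₀ Q Γ : ℝ} (hc : 0 < c₀) (hQ : 1 ≤ Q) (hΓ : 0 < Γ) : 0 < Del c₀ Q Γ := by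
  have hL := NumA_Lg hQ
  have : 0 < Q := by linarith
  have : 0 < Lg Q := by linarith
  unfold Del
  positivity

theorem Del_mono {c₀ Q Γ Γ' : ℝ} (hc : 0 < c₀) (hQ : 1 ≤ Q) (hΓ : 0 < Γ) (h : Γ ≤ Γ') :
    Del c₀ Q Γ ≤ Del c₀ Q Γ' := by
  have hL := NumA_Lg hQ
  have hQ0 : 0 < Q := by linarith
  have hL0 : 0 < Lg Q := by linarith
  have hΓ' : 0 < Γ' := by linarith
  have h1 : Q / Γ' ≤ Q / Γ := div_le_div_of_nonneg_left hQ0.le hΓ h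
  unfold Del
  refine div_le_div_of_nonneg_left hc.le (by positivity) ?_
  gcongr

theorem Del_le {c₀ Q Γ : ℝ} (hc : 0 < c₀) (hQ : 1 ≤ Q) (hΓ : 0 < Γ) :
    Del c₀ Q Γ ≤ c₀ * (Γ / Q) ^ 2 ∧ Del c₀ Q Γ ≤ c₀ * (Γ / Q) ^ (15 / 8 : ℝ) / Lg Q := by
  have hL := NumA_Lg hQ
  have hQ0 : 0 < Q := by linarith
  have hL0 : 0 < Lg Q := by linarith
  have hy : 0 < (Q / Γ) ^ (15 / 8 : ℝ) := by positivity
  have e1 : (Γ / Q) ^ (15 / 8 : ℝ) = ((Q / Γ) ^ (15 / 8 : ℝ))⁻¹ := by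
    rw [← Real.inv_rpow (by positivity), inv_div]
  constructor
  · calc Del c₀ Q Γ ≤ c₀ / (Q / Γ) ^ 2 := by
          unfold Del
          refine div_le_div_of_nonneg_left hc.le (by positivity) ?_
          have : 0 < Lg Q * (Q / Γ) ^ (15 / 8 : ℝ) := by positivity
          linarith
      _ = c₀ * (Γ / Q) ^ 2 := by field_simp
  · calc Del c₀ Q Γ ≤ c₀ / (Lg Q * (Q / Γ) ^ (15 / 8 : ℝ)) := by
          unfold Del
          refine div_le_div_of_nonneg_left hc.le (by positivity) ?_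
          have : 0 < (Q / Γ) ^ 2 := by positivity
          linarith
      _ = _ := by rw [e1]; field_simp

theorem Del_ratio {c₀ Q Γ p : ℝ} (hc : 0 < c₀) (hQ : 1 ≤ Q) (hp : 0 < p) (h : p ≤ Γ) :
    Del c₀ Q Γ / Del c₀ Q p ≤ (Γ / p) ^ 2 := by
  have hL := NumA_Lg hQ
  have hQ0 : 0 < Q := by linarith
  have hL0 : 0 < Lg Q := by linarith
  have hΓ : 0 < Γ := by linarith
  have ht : 1 ≤ Γ / p := by rw [le_div_iff₀ hp]; linarith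
  have e1 : Q / p = Q / Γ * (Γ / p) := by field_simp
  have h2 : (Γ / p) ^ (15 / 8 : ℝ) ≤ (Γ / p) ^ 2 := by
    rw [← Real.rpow_natCast]
    exact Real.rpow_le_rpow_of_exponent_le ht (by norm_num)
  have hy : 0 < (Q / Γ) ^ (15 / 8 : ℝ) := by positivity
  have hD : 0 < (Q / Γ) ^ 2 + Lg Q * (Q / Γ) ^ (15 / 8 : ℝ) := by positivity
  have hD' : 0 < (Q / p) ^ 2 + Lg Q * (Q / p) ^ (15 / 8 : ℝ) := by positivity
  have h3 : (Q / p) ^ 2 + Lg Q * (Q / p) ^ (15 / 8 : ℝ) ≤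
      (Γ / p) ^ 2 * ((Q / Γ) ^ 2 + Lg Q * (Q / Γ) ^ (15 / 8 : ℝ)) := by
    rw [e1, Real.mul_rpow (by positivity) (by positivity), mul_pow]
    have := mul_le_mul_of_nonneg_left h2 (mul_pos hL0 hy).le
    nlinarith
  unfold Del
  generalize (Q / Γ) ^ 2 + Lg Q * (Q / Γ) ^ (15 / 8 : ℝ) = A at *
  generalize (Q / p) ^ 2 + Lg Q * (Q / p) ^ (15 / 8 : ℝ) = B at *
  have e2 : c₀ / A / (c₀ / B) = B / A := by field_simp
  rw [e2, div_le_iff₀ hD]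
  exact h3

theorem Del_half {c₀ Q : ℝ} (hc : 0 < c₀) (hQ : 1 ≤ Q) : c₀ / 8 / Lg Q ≤ Del c₀ Q (Q / 2) := by
  have hL := NumA_Lg hQ
  have hQ0 : 0 < Q := by linarith
  have hL0 : 0 < Lg Q := by linarith
  have e1 : Q / (Q / 2) = 2 := by field_simp
  have h2 : (2 : ℝ) ^ (15 / 8 : ℝ) ≤ 4 := by
    calc (2 : ℝ) ^ (15 / 8 : ℝ) ≤ 2 ^ ((2 : ℕ) : ℝ) :=
          Real.rpow_le_rpow_of_exponent_le (by norm_num) (by norm_num)
      _ = 4 := by rw [Real.rpow_natCast]; norm_num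
  unfold Del
  rw [e1, div_div]
  refine div_le_div_of_nonneg_left hc.le (by positivity) ?_
  nlinarith

/-- the number of dyadic scales -/
theorem N_le {Q : ℝ} {N : ℕ} (hQ : 2 ≤ Q) (hN : (2 : ℝ) ^ N ≤ 2 * Q) : (N : ℝ) + 2 ≤ 5 * Lg Q := by
  have h1 : Real.log ((2 : ℝ) ^ N) ≤ Real.log (2 * Q) := Real.log_le_log (by positivity) hN
  rw [Real.log_pow, Real.log_mul (by norm_num) (by linarith)] at h1
  have h2 := Real.log_two_gt_d9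
  have h3 : 0 ≤ Real.log Q := Real.log_nonneg (by linarith)
  have h4 : (N : ℝ) ≤ 1 + 2 * Real.log Q := by
    by_contra hh
    push Not at hh
    nlinarith
  unfold Lg
  linarith

theorem exists_N {Q : ℝ} (hQ : 1 ≤ Q) : ∃ N : ℕ, Q < 2 ^ N ∧ (2 : ℝ) ^ N ≤ 2 * Q := by
  obtain ⟨n, h1, h2⟩ := exists_nat_pow_near hQ (show (1 : ℝ) < 2 by norm_num)
  exact ⟨n + 1, h2, by rw [pow_succ]; linarith⟩

/-- dyadic geometric sums -/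
theorem sum_up {a : ℝ} (ha : 0 < a) : ∃ C, 0 < C ∧ ∀ (N : ℕ) (X : ℝ), 0 < X →
    ∑ j ∈ Finset.range N, (if (2 : ℝ) ^ j ≤ X then ((2 : ℝ) ^ j) ^ a else 0) ≤ C * X ^ a := by
  have hr : 1 < (2 : ℝ) ^ a := Real.one_lt_rpow (by norm_num) ha
  have e : ∀ j : ℕ, ((2 : ℝ) ^ j) ^ a = ((2 : ℝ) ^ a) ^ j := fun j => by
    rw [← Real.rpow_natCast, ← Real.rpow_mul (by norm_num), mul_comm, Real.rpow_mul (by norm_num),
      Real.rpow_natCast]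
  obtain ⟨K, hK0, hK⟩ : ∃ K : ℝ, 0 < K ∧ K * 2 ^ a = K + 1 := by
    refine ⟨(2 ^ a - 1)⁻¹, inv_pos.2 (by linarith), ?_⟩
    have : (2 : ℝ) ^ a - 1 ≠ 0 := by linarith
    field_simp
    ring
  refine ⟨K + 1, by linarith, fun N X hX => ?_⟩
  have hXa : 0 < X ^ a := Real.rpow_pos_of_pos hX _
  suffices H : ∑ j ∈ Finset.range N, (if (2 : ℝ) ^ j ≤ X then ((2 : ℝ) ^ j) ^ a else 0) ≤
        (K + 1) * X ^ a ∧
      ∑ j ∈ Finset.range N, (if (2 : ℝ) ^ j ≤ X then ((2 : ℝ) ^ j) ^ a else 0) ≤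
        K * ((2 : ℝ) ^ a) ^ N from H.1
  induction N with
  | zero => simp only [Finset.range_zero, Finset.sum_empty]; constructor <;> positivity
  | succ N ih =>
    rw [Finset.sum_range_succ]
    have hp : 0 < ((2 : ℝ) ^ a) ^ N := by positivity
    have e2 : K * ((2 : ℝ) ^ a) ^ (N + 1) = (K + 1) * ((2 : ℝ) ^ a) ^ N := by
      rw [pow_succ, ← hK]; ring
    split_ifs with hh
    · have h1 : ((2 : ℝ) ^ N) ^ a ≤ X ^ a := Real.rpow_le_rpow (by positivity) hh ha.le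
      rw [e] at h1
      rw [e N, e2]
      have := mul_le_mul_of_nonneg_left h1 (show 0 ≤ K + 1 by linarith)
      constructor <;> linarith [ih.2]
    · rw [e2]
      constructor <;> linarith [ih.1, ih.2]

theorem sum_down {a : ℝ} (ha : 0 < a) : ∃ C, 0 < C ∧ ∀ N : ℕ,
    ∑ k ∈ Finset.range N, ((2 : ℝ) / 2 ^ k) ^ a ≤ C := by
  have hr : 1 < (2 : ℝ) ^ a := Real.one_lt_rpow (by norm_num) ha
  have hρ : ((2 : ℝ) ^ a)⁻¹ < 1 := inv_lt_one_of_one_lt₀ hr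
  have hρ0 : 0 ≤ ((2 : ℝ) ^ a)⁻¹ := by positivity
  have e : ∀ j : ℕ, ((2 : ℝ) / 2 ^ j) ^ a = 2 ^ a * (((2 : ℝ) ^ a)⁻¹) ^ j := fun j => by
    rw [Real.div_rpow (by norm_num) (by positivity), inv_pow, div_eq_mul_inv]
    congr 2
    rw [← Real.rpow_natCast, ← Real.rpow_mul (by norm_num), mul_comm, Real.rpow_mul (by norm_num),
      Real.rpow_natCast]
  refine ⟨2 ^ a * (1 - ((2 : ℝ) ^ a)⁻¹)⁻¹, mul_pos (by positivity) (inv_pos.2 (by linarith)),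
    fun N => ?_⟩
  simp_rw [e]
  rw [← Finset.mul_sum]
  refine mul_le_mul_of_nonneg_left ?_ (by positivity)
  rw [← tsum_geometric_of_lt_one hρ0 hρ]
  exact (summable_geometric_of_lt_one hρ0 hρ).sum_le_tsum _ (fun _ _ => by positivity)

theorem num_A {CM c₀ : ℝ} (hCM : 1 ≤ CM) (hc : 0 < c₀) (hc1 : c₀ ≤ 1) :
    ∃ Q₀, 2 ≤ Q₀ ∧ ∀ Q, Q₀ ≤ Q → 1 ≤ HH CM Q ∧ 10 * HH CM Q ≤ G0 Q ∧ G0 Q ≤ Q / 2 ∧
      ∀ Γ, G0 Q ≤ Γ → Γ ≤ Q → 1 ≤ eta0 CM Q Γ ∧ eta0 CM Q Γ ≤ HH CM Q ∧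
        1 / Q ^ 2 ≤ Del c₀ Q Γ ∧ Del c₀ Q Γ ≤ 1 ∧ 0 < phi0 Q Γ ∧ phi0 Q Γ ≤ 1 / 10 := by
  obtain ⟨Q₁, hQ₁, h₁⟩ := big (1 / 3) (1 / 4) (10 * CM) 1 (by norm_num) one_pos
  obtain ⟨Q₂, -, h₂⟩ := big 0 (5 / 12) 2 1 (by norm_num) one_pos
  obtain ⟨Q₃, -, h₃⟩ := big 1 1 2 c₀ one_pos hc
  refine ⟨max Q₁ (max Q₂ Q₃), le_trans hQ₁ (le_max_left _ _), fun Q hQ => ?_⟩
  have hQa : Q₁ ≤ Q := le_trans (le_max_left _ _) hQ
  have h1 := h₁ Q hQa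
  have h2 := h₂ Q (le_trans (le_trans (le_max_left _ _) (le_max_right _ _)) hQ)
  have h3 := h₃ Q (le_trans (le_trans (le_max_right _ _) (le_max_right _ _)) hQ)
  have hQ1 : 1 ≤ Q := by linarith
  have hQ0 : 0 < Q := by linarith
  have hL := NumA_Lg hQ1
  have hL0 : 0 < Lg Q := by linarith
  rw [Real.rpow_zero] at h2
  rw [Real.rpow_one, Real.rpow_one] at h3
  have eH : HH CM Q = CM * (Q ^ (1 / 3 : ℝ) * Lg Q ^ (1 / 3 : ℝ)) := by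
    unfold HH; rw [Real.mul_rpow hQ0.le hL0.le]
  have hq3 : 1 ≤ Q ^ (1 / 3 : ℝ) := Real.one_le_rpow hQ1 (by norm_num)
  have hl3 : 1 ≤ Lg Q ^ (1 / 3 : ℝ) := Real.one_le_rpow hL (by norm_num)
  have hH : Q ^ (1 / 3 : ℝ) ≤ HH CM Q := by
    rw [eH]
    have : Q ^ (1 / 3 : ℝ) ≤ Q ^ (1 / 3 : ℝ) * Lg Q ^ (1 / 3 : ℝ) := by nlinarith
    nlinarith
  have eG : G0 Q = Q ^ (1 / 3 : ℝ) * Q ^ (1 / 4 : ℝ) := by
    unfold G0; rw [← Real.rpow_add hQ0]; norm_num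
  have eQ : G0 Q * Q ^ (5 / 12 : ℝ) = Q := by
    unfold G0; rw [← Real.rpow_add hQ0]; norm_num
  have hG0 : 0 < G0 Q := Real.rpow_pos_of_pos hQ0 _
  refine ⟨by linarith, ?_, ?_, fun Γ hΓ1 hΓ2 => ?_⟩
  · rw [eH, eG]; nlinarith
  · nlinarith
  have hΓ : 0 < Γ := by linarith
  have hx1 : Γ / Q ≤ 1 := by rw [div_le_one hQ0]; exact hΓ2
  have hx0 : 0 < Γ / Q := by positivity
  have hy1 : 1 ≤ Q / Γ := by rw [le_div_iff₀ hΓ]; linarith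
  have hy2 : Q / Γ ≤ Q ^ (5 / 12 : ℝ) := by
    rw [div_le_iff₀ hΓ]
    have : 0 < Q ^ (5 / 12 : ℝ) := by positivity
    nlinarith
  refine ⟨?_, ?_, ?_, ?_, ?_, ?_⟩
  · have a1 : (Q / Γ) ^ (1 / 8 : ℝ) ≤ Q ^ (1 / 3 : ℝ) := by
      calc (Q / Γ) ^ (1 / 8 : ℝ) ≤ (Q ^ (5 / 12 : ℝ)) ^ (1 / 8 : ℝ) :=
            Real.rpow_le_rpow (by positivity) hy2 (by norm_num)
        _ = Q ^ ((5 / 12 : ℝ) * (1 / 8)) := by rw [← Real.rpow_mul hQ0.le]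
        _ ≤ _ := Real.rpow_le_rpow_of_exponent_le hQ1 (by norm_num)
    have a2 : (Q / Γ) ^ (1 / 8 : ℝ) * (Γ / Q) ^ (1 / 8 : ℝ) = 1 := by
      rw [← Real.mul_rpow (by positivity) (by positivity)]
      have : Q / Γ * (Γ / Q) = 1 := by field_simp
      rw [this, Real.one_rpow]
    have a3 : 0 < (Γ / Q) ^ (1 / 8 : ℝ) := by positivity
    unfold eta0
    exact a2.symm.trans_le (mul_le_mul_of_nonneg_right (a1.trans hH) a3.le)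
  · have a1 : (Γ / Q) ^ (1 / 8 : ℝ) ≤ 1 := Real.rpow_le_one hx0.le hx1 (by norm_num)
    unfold eta0
    nlinarith
  · have a1 : (Q / Γ) ^ (15 / 8 : ℝ) ≤ (Q / Γ) ^ 2 := by
      rw [← Real.rpow_natCast]
      exact Real.rpow_le_rpow_of_exponent_le hy1 (by norm_num)
    have a2 : (Q / Γ) ^ 2 ≤ Q := by
      calc (Q / Γ) ^ 2 ≤ (Q ^ (5 / 12 : ℝ)) ^ 2 := by gcongr
        _ = Q ^ (5 / 6 : ℝ) := NumA_rp hQ0.le _ _ _ (by norm_num)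
        _ ≤ Q ^ (1 : ℝ) := Real.rpow_le_rpow_of_exponent_le hQ1 (by norm_num)
        _ = Q := Real.rpow_one Q
    have a3 : (Q / Γ) ^ 2 + Lg Q * (Q / Γ) ^ (15 / 8 : ℝ) ≤ 2 * Lg Q * Q := by
      have := mul_le_mul_of_nonneg_left (a1.trans a2) hL0.le
      nlinarith
    unfold Del
    rw [div_le_div_iff₀ (by positivity) (by positivity)]
    nlinarith
  · have a1 := (Del_le hc hQ1 hΓ).1
    have a2 : (Γ / Q) ^ 2 ≤ 1 := pow_le_one₀ hx0.le hx1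
    nlinarith
  · unfold phi0; positivity
  · have a1 : (Γ / Q) ^ (3 / 8 : ℝ) ≤ 1 := Real.rpow_le_one hx0.le hx1 (by norm_num)
    unfold phi0
    linarith

/-- the corrector is absorbed by the freezing step -/
theorem num_M (C : ℝ) : ∃ CM, 1 ≤ CM ∧ ∀ Q Γ, 1 ≤ Q → 0 < Γ →
    C * (Q * phi0 Q Γ * Lg Q) ^ (1 / 3 : ℝ) ≤ eta0 CM Q Γ / 2 := by
  refine ⟨1 + 2 * |C|, by have := abs_nonneg C; linarith, fun Q Γ hQ hΓ => ?_⟩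
  have hQ0 : 0 < Q := by linarith
  have hL := NumA_Lg hQ
  have hL0 : 0 < Lg Q := by linarith
  have hx : 0 < (Γ / Q) ^ (3 / 8 : ℝ) := by positivity
  have h1 : (Q * phi0 Q Γ * Lg Q) ^ (1 / 3 : ℝ) ≤
      (Q * Lg Q) ^ (1 / 3 : ℝ) * (Γ / Q) ^ (1 / 8 : ℝ) := by
    calc (Q * phi0 Q Γ * Lg Q) ^ (1 / 3 : ℝ) ≤ (Q * Lg Q * (Γ / Q) ^ (3 / 8 : ℝ)) ^ (1 / 3 : ℝ) := by
          refine Real.rpow_le_rpow (by unfold phi0; positivity) ?_ (by norm_num)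
          unfold phi0
          have : 0 < Q * Lg Q * (Γ / Q) ^ (3 / 8 : ℝ) := by positivity
          nlinarith
      _ = _ := by
          rw [Real.mul_rpow (by positivity) hx.le, ← Real.rpow_mul (by positivity)]
          norm_num
  have h2 : 0 ≤ (Q * phi0 Q Γ * Lg Q) ^ (1 / 3 : ℝ) := by unfold phi0; positivity
  have h3 := mul_le_mul_of_nonneg_right (le_abs_self C) h2
  have h4 := mul_le_mul_of_nonneg_left h1 (abs_nonneg C)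
  unfold eta0 HH
  nlinarith

theorem num_B {CM ε : ℝ} (hCM : 1 ≤ CM) (hε : 0 < ε) : ∃ c₁ Q₀, 0 < c₁ ∧ 2 ≤ Q₀ ∧
    ∀ c₀ Q Γ, 0 < c₀ → c₀ ≤ c₁ → Q₀ ≤ Q → G0 Q ≤ Γ → Γ ≤ Q →
      √(Del c₀ Q Γ) * Q + 4 * eta0 CM Q Γ / Γ *
        (Del c₀ Q Γ * Q ^ (5 / 3 : ℝ) * Lg Q ^ (2 / 3 : ℝ) +
          Del c₀ Q Γ ^ (3 / 4 : ℝ) * Q ^ (3 / 2 : ℝ) * Lg Q) ≤ ε * Γ := by
  obtain ⟨Q₀, hQ₀, h₀⟩ := big (4 / 3) (1 / 96) (12 * CM) ε (by norm_num) hε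
  have hCM0 : 0 < CM := by linarith
  refine ⟨min 1 (min ((ε / 3) ^ 2) (ε / (12 * CM))), Q₀, by positivity, hQ₀,
    fun c₀ Q Γ hc hc1 hQ hΓ1 hΓ2 => ?_⟩
  have hca : c₀ ≤ 1 := hc1.trans (min_le_left _ _)
  have hcb : c₀ ≤ (ε / 3) ^ 2 := hc1.trans ((min_le_right _ _).trans (min_le_left _ _))
  have hcc : c₀ ≤ ε / (12 * CM) := hc1.trans ((min_le_right _ _).trans (min_le_right _ _))
  rw [le_div_iff₀ (by positivity)] at hcc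
  have h1 := h₀ Q hQ
  have hQ1 : 1 ≤ Q := by linarith
  have hQ0 : 0 < Q := by linarith
  have hL := NumA_Lg hQ1
  have hL0 : 0 < Lg Q := by linarith
  have hG0 : 0 < G0 Q := Real.rpow_pos_of_pos hQ0 _
  have hΓ : 0 < Γ := by linarith
  have hT := Del_pos hc hQ1 hΓ
  obtain ⟨hT1, hT2⟩ := Del_le hc hQ1 hΓ
  -- first term
  have t1 : √(Del c₀ Q Γ) * Q ≤ ε / 3 * Γ := by
    have : √(Del c₀ Q Γ) ≤ ε / 3 * (Γ / Q) := by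
      refine Real.sqrt_le_iff.2 ⟨by positivity, hT1.trans ?_⟩
      rw [mul_pow]
      exact mul_le_mul_of_nonneg_right hcb (by positivity)
    calc √(Del c₀ Q Γ) * Q ≤ ε / 3 * (Γ / Q) * Q := mul_le_mul_of_nonneg_right this hQ0.le
      _ = _ := by field_simp
  -- roots
  obtain ⟨u, hu0, hu⟩ : ∃ u : ℝ, 0 < u ∧ ∀ (n : ℕ) (b : ℝ), (1 / 24 : ℝ) * n = b → Q ^ b = u ^ n :=
    ⟨Q ^ (1 / 24 : ℝ), by positivity, fun n b h => (NumA_rp hQ0.le _ _ _ h).symm⟩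
  obtain ⟨g, hg0, hg⟩ : ∃ u : ℝ, 0 < u ∧ ∀ (n : ℕ) (b : ℝ), (1 / 8 : ℝ) * n = b → Γ ^ b = u ^ n :=
    ⟨Γ ^ (1 / 8 : ℝ), by positivity, fun n b h => (NumA_rp hΓ.le _ _ _ h).symm⟩
  obtain ⟨l, hl0, hl⟩ : ∃ u : ℝ, 0 < u ∧
      ∀ (n : ℕ) (b : ℝ), (1 / 3 : ℝ) * n = b → Lg Q ^ b = u ^ n :=
    ⟨Lg Q ^ (1 / 3 : ℝ), by positivity, fun n b h => (NumA_rp hL0.le _ _ _ h).symm⟩
  have eΓ : Γ = g ^ 8 := by rw [← hg 8 1 (by norm_num), Real.rpow_one]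
  have eL : Lg Q = l ^ 3 := by rw [← hl 3 1 (by norm_num), Real.rpow_one]
  have eη : eta0 CM Q Γ = CM * (u ^ 8 * l) * (g / u ^ 3) := by
    unfold eta0 HH
    rw [Real.mul_rpow hQ0.le hL0.le, Real.div_rpow hΓ.le hQ0.le, hu 8 _ (by norm_num),
      hl 1 _ (by norm_num), hg 1 _ (by norm_num), hu 3 _ (by norm_num), pow_one, pow_one]
  have hT3 : Del c₀ Q Γ ≤ c₀ * (g ^ 15 / u ^ 45) / l ^ 3 := by
    rw [Real.div_rpow hΓ.le hQ0.le, hg 15 _ (by norm_num), hu 45 _ (by norm_num), eL] at hT2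
    exact hT2
  have hT4 : Del c₀ Q Γ ^ (3 / 4 : ℝ) ≤ g ^ 12 / u ^ 36 := by
    have a1 : Del c₀ Q Γ ≤ (Γ / Q) ^ (2 : ℝ) := by
      rw [Real.rpow_two]
      have : 0 ≤ (Γ / Q) ^ 2 := by positivity
      nlinarith
    calc Del c₀ Q Γ ^ (3 / 4 : ℝ) ≤ ((Γ / Q) ^ (2 : ℝ)) ^ (3 / 4 : ℝ) :=
          Real.rpow_le_rpow hT.le a1 (by norm_num)
      _ = (Γ / Q) ^ ((2 : ℝ) * (3 / 4)) := by rw [← Real.rpow_mul (by positivity)]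
      _ = _ := by
          rw [Real.div_rpow hΓ.le hQ0.le, hg 12 _ (by norm_num), hu 36 _ (by norm_num)]
  have hkey : 12 * CM * l ^ 4 * u ^ 5 ≤ ε * g ^ 3 := by
    rw [hl 4 _ (by norm_num)] at h1
    have a1 : Q ^ (1 / 96 : ℝ) * u ^ 5 ≤ g ^ 3 := by
      rw [← hu 5 (5 / 24) (by norm_num), ← hg 3 (3 / 8) (by norm_num), ← Real.rpow_add hQ0]
      calc Q ^ ((1 / 96 : ℝ) + 5 / 24) = (G0 Q) ^ (3 / 8 : ℝ) := by
            unfold G0; rw [← Real.rpow_mul hQ0.le]; norm_num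
        _ ≤ _ := Real.rpow_le_rpow hG0.le hΓ1 (by norm_num)
    calc 12 * CM * l ^ 4 * u ^ 5 ≤ ε * Q ^ (1 / 96 : ℝ) * u ^ 5 :=
          mul_le_mul_of_nonneg_right h1 (by positivity)
      _ = ε * (Q ^ (1 / 96 : ℝ) * u ^ 5) := by ring
      _ ≤ _ := mul_le_mul_of_nonneg_left a1 hε.le
  rw [eη, hu 40 (5 / 3) (by norm_num), hu 36 (3 / 2) (by norm_num), hl 2 (2 / 3) (by norm_num)]
  have t2 : 4 * (CM * (u ^ 8 * l) * (g / u ^ 3)) / Γ *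
      (Del c₀ Q Γ * u ^ 40 * l ^ 2 + Del c₀ Q Γ ^ (3 / 4 : ℝ) * u ^ 36 * Lg Q) ≤
      4 * (CM * (u ^ 8 * l) * (g / u ^ 3)) / Γ *
      (c₀ * (g ^ 15 / u ^ 45) / l ^ 3 * u ^ 40 * l ^ 2 + g ^ 12 / u ^ 36 * u ^ 36 * Lg Q) := by
    gcongr
  have t3 : 4 * (CM * (u ^ 8 * l) * (g / u ^ 3)) / Γ *
      (c₀ * (g ^ 15 / u ^ 45) / l ^ 3 * u ^ 40 * l ^ 2 + g ^ 12 / u ^ 36 * u ^ 36 * Lg Q) =
      4 * CM * c₀ * Γ + 4 * CM * l ^ 4 * u ^ 5 * g ^ 5 := by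
    rw [eL, eΓ]; field_simp
  have t4 : 4 * CM * c₀ * Γ ≤ ε / 3 * Γ := mul_le_mul_of_nonneg_right (by linarith) hΓ.le
  have t5 : 4 * CM * l ^ 4 * u ^ 5 * g ^ 5 ≤ ε / 3 * Γ := by
    calc 4 * CM * l ^ 4 * u ^ 5 * g ^ 5 ≤ ε / 3 * g ^ 3 * g ^ 5 :=
          mul_le_mul_of_nonneg_right (by linarith) (by positivity)
      _ = ε / 3 * Γ := by rw [eΓ]; ring
  linarith

end Crest.Agent.R106
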