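import Crest.Agent.R106.Supp
import Crest.Agent.R106.CV
import Crest.Agent.R106.Layer
import Crest.Agent.R106.Meet1
import Crest.Agent.R106.NumA

/-!
# Row 106: the meeting lemma

Fix `l`.  Let `S ⊆ TP` be the measurable set of `(s, y, v)` with `s ∈ [s₀, s₁]`, `‖y‖ < s`, the cell conditions,
`u ≤ l`, `r ≤ T'`, and `Ψ (s, y, v) = cone (s, X s) (y, v)`, continuous and injective on `S` (`cv_inj`), so `Ψ '' S` is
measurable (`MeasurableSet.image_of_continuousOn_injOn`) and contained in `[max 0 (s₀ - T'), s₁] × Ph`.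
By `cv` for each `v` and Tonelli, `I ≤ ∫⁻_{Ψ '' S} ofReal f = ∫⁻ τ ∫⁻ z ofReal (f₀ z) 1_{Ψ''S}(τ, Z τ z)` (`push`).
Cover the time interval by `n ≤ 1 + 2T'/Δ` windows `W = [α, β] ⊆ [0, s₁]` of length `≤ Δ = Del c₀ Q p₀`.  For a window and
`z` with `f₀ z ≠ 0` let `E = {τ ∈ W | (τ, Z τ z) ∈ Ψ '' S}`; if `E ≠ ∅` let `τ₁ = sInf E`; by continuity
`p₀ ≤ pp (Z τ₁ z).2 ≤ 2p₀`; `Boot` at `τ₁`, `Del_mono`, `Var.mono` give `Var … τ₁ β H (p₀/5)`; `meet_traj` on `[τ₁, β]`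
gives `volume E ≤ C l/θ₀³`, and `Var.dist_le` gives `p₀/2 ≤ pp (Z β z).2`.  Tonelli and `TSol.markov` bound the
window by `(C l/θ₀³)(2 En/p₀)`.

-/

set_option autoImplicit false

noncomputable section

namespace Crest.Agent.R106

open MeasureTheory Set Metric Real Filter Topology
open scoped ContDiff ENNReal RealInnerProductSpace Classical
open Crest.AnalysisR.VecCalc3 Crest.AnalysisR.PDE.RVM

/-- the points of phase space that are seen in a cell -/
def MeetS (X V : ℝ → R3) (s₀ s₁ T' p₀ θ₀ l : ℝ) : Set TP :=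
  {r | ∃ s ∈ Icc s₀ s₁, s - ‖X s - r.2.1‖ = r.1 ∧ 0 ≤ r.1 ∧ ‖X s - r.2.1‖ ≤ T' ∧ p₀ ≤ pp r.2.2 ∧
    pp r.2.2 ≤ 2 * p₀ ∧ θ₀ ≤ ang (relVel (V s)) (relVel r.2.2) ∧
    ‖X s - r.2.1‖ * (gap (nn (X s - r.2.1)) (relVel (V s)) + θ₀ ^ 2) ≤ l}

theorem Meet2_gap (y w : R3) (c : ℝ) : ‖y‖ * (gap (nn y) w + c) = ‖y‖ - ⟪y, w⟫ + ‖y‖ * c := by
  conv_rhs => rw [← smul_nn y, real_inner_smul_left, smul_nn]
  unfold gap
  ring

theorem Meet2_closed {X V : ℝ → R3} {s₀ s₁ T' p₀ θ₀ l : ℝ} (hX : ContinuousOn X (Icc s₀ s₁))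
    (hV : ContinuousOn V (Icc s₀ s₁)) : IsClosed (MeetS X V s₀ s₁ T' p₀ θ₀ l) := by
  have cX : Continuous fun s : Icc s₀ s₁ => X s := hX.domRestrict
  have cV : Continuous fun s : Icc s₀ s₁ => V s := hV.domRestrict
  have c1 := contDiff_pp.continuous
  have c2 := contDiff_relVel.continuous
  have c3 : Continuous fun u : Icc s₀ s₁ × TP => X u.1 := cX.comp continuous_fst
  have c4 : Continuous fun u : Icc s₀ s₁ × TP => V u.1 := cV.comp continuous_fst
  have hC : IsClosed {u : Icc s₀ s₁ × TP | (u.1 : ℝ) - ‖X u.1 - u.2.2.1‖ = u.2.1 ∧ 0 ≤ u.2.1 ∧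
      ‖X u.1 - u.2.2.1‖ ≤ T' ∧ p₀ ≤ pp u.2.2.2 ∧ pp u.2.2.2 ≤ 2 * p₀ ∧
      θ₀ ≤ ang (relVel (V u.1)) (relVel u.2.2.2) ∧
      ‖X u.1 - u.2.2.1‖ * (gap (nn (X u.1 - u.2.2.1)) (relVel (V u.1)) + θ₀ ^ 2) ≤ l} := by
    simp only [Meet2_gap]
    simp only [ang, gap, ofPred_and]
    have c5 : Continuous fun u : Icc s₀ s₁ × TP => X u.1 - u.2.2.1 := c3.sub (by fun_prop)
    have c6 := c2.comp c4
    refine (isClosed_eq ((continuous_subtype_val.comp continuous_fst).sub c5.norm) ?_).inter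
      ((isClosed_le ?_ ?_).inter ((isClosed_le c5.norm ?_).inter
      ((isClosed_le ?_ ?_).inter ((isClosed_le ?_ ?_).inter ((isClosed_le ?_
        (continuous_const.mul (continuous_const.sub (c6.inner ?_))).sqrt).inter
        (isClosed_le ((c5.norm.sub (c5.inner c6)).add (c5.norm.mul ?_)) ?_)))))) <;> fun_prop
  convert isClosedMap_snd_of_compactSpace _ hC using 1
  ext r
  constructor
  · rintro ⟨s, hs, h⟩
    exact ⟨(⟨s, hs⟩, r), h, rfl⟩
  · rintro ⟨⟨s, r⟩, h, rfl⟩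
    exact ⟨s, s.2, h⟩

theorem Meet2_cv {X w : ℝ → R3} {a b : ℝ}
    (hX : ∀ s ∈ Icc a b, HasDerivWithinAt X (w s) (Icc a b) s) (hw : ∀ s ∈ Icc a b, ‖w s‖ < 1)
    (hwc : ContinuousOn w (Icc a b)) (mX : Measurable X) (mw : Measurable w) {G : TP → ℝ≥0∞}
    (hG : Measurable G) :
    ∫⁻ q : TP, (if q.1 ∈ Icc a b then
      ENNReal.ofReal (gap (nn q.2.1) (w q.1)) * G (cone (q.1, X q.1) q.2) else 0) ≤ ∫⁻ q, G q := by
  have hm : Measurable fun q : TP => if q.1 ∈ Icc a b then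
      ENNReal.ofReal (gap (nn q.2.1) (w q.1)) * G (cone (q.1, X q.1) q.2) else 0 := by
    refine Measurable.ite (measurable_fst measurableSet_Icc) ?_ measurable_const
    refine Measurable.mul ?_ (hG.comp ?_)
    · have := measurable_nn
      unfold gap
      fun_prop
    · unfold cone
      fun_prop
  have ma : Measurable fun u : ST × R3 => ((u.1.1, u.1.2, u.2) : TP) := by fun_prop
  have sw : ∀ F : TP → ℝ≥0∞, Measurable F → ∫⁻ q, F q = ∫⁻ v, ∫⁻ p : ST, F (p.1, p.2, v) :=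
    fun F hF => (lintegral_TP hF).trans (lintegral_lintegral_swap (hF.comp ma).aemeasurable)
  rw [sw _ hm, sw _ hG]
  refine lintegral_mono fun v => ?_
  refine le_trans (le_of_eq ?_) (cv hX hw hwc fun p => G (p.1, p.2, v))
  rw [← lintegral_indicator (measurableSet_Icc.prod MeasurableSet.univ)]
  refine lintegral_congr fun p => ?_
  by_cases hp : p.1 ∈ Icc a b
  · rw [if_pos hp, indicator_of_mem (show p ∈ Icc a b ×ˢ univ from ⟨hp, mem_univ _⟩)]
    rfl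
  · rw [if_neg hp, indicator_of_notMem fun h => hp h.1]

theorem Meet2_cover {g : ℝ → ℝ≥0∞} {a b Δ : ℝ} {c : ℝ≥0∞}
    (h : ∀ α β, a ≤ α → α ≤ β → β ≤ b → β ≤ α + Δ → ∫⁻ τ in Icc α β, g τ ≤ c) (n : ℕ) :
    ∀ b', a ≤ b' → b' ≤ b → b' ≤ a + ((n : ℝ) + 1) * Δ →
      ∫⁻ τ in Icc a b', g τ ≤ ((n : ℝ≥0∞) + 1) * c := by
  induction n with
  | zero =>
    intro b' h1 h2 h3
    simpa using h a b' le_rfl h1 h2 (by simpa using h3)
  | succ n ih =>
    intro b' h1 h2 h3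
    push_cast at h3 ⊢
    rw [add_mul (_ + 1), one_mul]
    by_cases hb : b' ≤ a + ((n : ℝ) + 1) * Δ
    · exact (ih b' h1 h2 hb).trans le_self_add
    have hb' := (not_le.1 hb).le
    have hΔ : 0 ≤ Δ := by linarith
    have ha : a ≤ a + ((n : ℝ) + 1) * Δ := le_add_of_nonneg_right (by positivity)
    rw [← Icc_union_Icc_eq_Icc ha hb']
    exact (lintegral_union_le _ _ _).trans
      (add_le_add (ih _ ha (hb'.trans h2) le_rfl) (h _ _ ha hb' h2 (by linarith)))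

theorem meet_sol (A P₀ En Cd Tm : ℝ) : ∃ Cm, 0 < Cm ∧ ∀ (T : ℝ) (f₀ : Ph → ℝ) (K₀ : R3 → Ph)
    (Kd : ST → Ph) (f : TP → ℝ) (K : ST → Ph) (Z : ℝ → Ph → Ph),
    CSet A P₀ En Cd Tm T f₀ K₀ Kd f K Z → ∀ (c₀ Q H t : ℝ) (z : Ph) (s₀ s₁ T' p₀ θ₀ Γ : ℝ),
      0 < c₀ → 1 ≤ Q → t ≤ T → Boot f₀ Z c₀ Q H (1 / 10) t → 0 ≤ s₀ → s₀ ≤ s₁ → s₁ ≤ t →
      s₁ ≤ s₀ + T' → 0 < T' → Var (fun s => (Z s z).2) s₀ s₁ H (Γ / 10) →
      (∀ s ∈ Icc s₀ s₁, Γ / 2 ≤ pp (Z s z).2) → G0 Q ≤ p₀ → 1 ≤ H → 0 < θ₀ → θ₀ ≤ 2 →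
      50 * H ≤ p₀ * θ₀ → 50 * H ≤ Γ * θ₀ →
      (ldOf f K (fun s => Z s z) s₀ s₁ T' Q).MeetT p₀ θ₀
        (Cm * (1 + T' / Del c₀ Q p₀) / (p₀ * θ₀)) := by
  obtain ⟨C, hC, hm⟩ := meet_traj
  refine ⟨4 * C * (|En| + 1), by positivity, ?_⟩
  intro T f₀ K₀ Kd f K Z h c₀ Q H t z s₀ s₁ T' p₀ θ₀ Γ hc hQ ht hB h0 h01 h1t h1 hT' hV hΓ hG hH hθ
    hθ2 hp hΓθ l hl
  have hs := h.sol
  have h1T : s₁ ≤ T := h1t.trans ht
  have hp₀ : 0 < p₀ := by
    by_contra hh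
    nlinarith [mul_nonneg (neg_nonneg.2 (not_lt.1 hh)) hθ.le]
  have hΔ : 0 < Del c₀ Q p₀ := Del_pos hc hQ hp₀
  have hsub : Icc s₀ s₁ ⊆ Icc 0 T := Icc_subset_Icc h0 h1T
  have cZ := (hs.contZ z).mono hsub
  have mZ : Measurable fun s => Z s z := hs.traj.meas.comp (measurable_id.prodMk measurable_const)
  set M := MeetS (fun s => (Z s z).1) (fun s => (Z s z).2) s₀ s₁ T' p₀ θ₀ l with hMdef
  have hM : MeasurableSet M := (Meet2_closed cZ.fst cZ.snd).measurableSet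
  have hMt : ∀ r ∈ M, r.1 ∈ Icc (max 0 (s₀ - T')) s₁ := by
    rintro r ⟨s, hs, e1, e2, e3, -⟩
    have := norm_nonneg ((Z s z).1 - r.2.1)
    exact ⟨max_le e2 (by linarith [hs.1]), by linarith [hs.2]⟩
  have hI : Icc (max 0 (s₀ - T')) s₁ ⊆ Icc 0 T := Icc_subset_Icc (le_max_left _ _) h1T
  have mf₀ : Measurable fun z => ENNReal.ofReal (f₀ z) := hs.cont₀.measurable.ennreal_ofReal
  have mG : Measurable (M.indicator fun r => ENNReal.ofReal (f r)) := by
    rw [← Set.piecewise_eq_indicator]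
    refine ContinuousOn.measurable_piecewise ?_ continuousOn_const hM
    exact ENNReal.continuous_ofReal.comp_continuousOn
      (hs.hf.continuousOn.mono fun r hr => ⟨hI (hMt r hr), mem_univ _⟩)
  have m1 : Measurable (M.indicator fun _ => (1 : ℝ≥0∞)) := measurable_const.indicator hM
  -- one window
  have win : ∀ α β, max 0 (s₀ - T') ≤ α → α ≤ β → β ≤ s₁ → β ≤ α + Del c₀ Q p₀ →
      ∫⁻ τ in Icc α β, ∫⁻ z', ENNReal.ofReal (f₀ z') * M.indicator (fun _ => 1) (τ, Z τ z') ≤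
        ENNReal.ofReal (En / (p₀ / 2)) * ENNReal.ofReal (C * l / θ₀ ^ 3) := by
    intro α β hα hαβ hβ hβα
    have hα0 : 0 ≤ α := (le_max_left _ _).trans hα
    have hβT : β ≤ T := hβ.trans h1T
    have mZ' : Measurable fun p : TP => ((p.1, Z p.1 p.2) : TP) := measurable_fst.prodMk hs.traj.meas
    rw [lintegral_lintegral_swap
      ((mf₀.comp measurable_snd).mul (m1.comp mZ')).aemeasurable]
    have mS : MeasurableSet {z' | p₀ / 2 ≤ pp (Z β z').2} :=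
      measurableSet_le measurable_const (contDiff_pp.continuous.measurable.comp
        (hs.traj.meas.comp (measurable_const.prodMk measurable_id)).snd)
    refine le_trans ?_ (mul_le_mul_left (hs.markov h.en ⟨hα0.trans hαβ, hβT⟩ (half_pos hp₀)) _)
    rw [← lintegral_mul_const _ mf₀, ← lintegral_indicator mS]
    refine lintegral_mono fun z' => ?_
    have mz : Measurable fun τ => ((τ, Z τ z') : TP) :=
      mZ'.comp (measurable_id.prodMk measurable_const)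
    have e : ∫⁻ τ in Icc α β, ENNReal.ofReal (f₀ z') * M.indicator (fun _ => 1) (τ, Z τ z') =
        ENNReal.ofReal (f₀ z') * volume {τ ∈ Icc α β | (τ, Z τ z') ∈ M} := by
      refine (lintegral_const_mul _ (m1.comp mz)).trans ?_
      congr 1
      refine (lintegral_indicator_one (mz hM)).trans ?_
      rw [Measure.restrict_apply (mz hM), inter_comm]
      rfl
    rw [e]
    by_cases hz : f₀ z' = 0
    · simp [hz]
    have cz := (hs.contZ z').snd.mono (Icc_subset_Icc hα0 hβT)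
    have cp : ContinuousOn (fun τ => pp (Z τ z').2) (Icc α β) :=
      contDiff_pp.continuous.comp_continuousOn cz
    have hE : IsCompact (Icc α β ∩ (fun τ => pp (Z τ z').2) ⁻¹' Icc p₀ (2 * p₀)) :=
      isCompact_Icc.of_isClosed_subset (cp.preimage_isClosed_of_isClosed isClosed_Icc isClosed_Icc)
        inter_subset_left
    rcases eq_empty_or_nonempty {τ ∈ Icc α β | (τ, Z τ z') ∈ M} with he | ⟨τ₀, hτ₀, hτM⟩
    · rw [he]
      simp
    obtain ⟨τ₁, ⟨hτ₁, hp1, hp2⟩, hmin⟩ := hE.exists_isLeast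
      ⟨τ₀, hτ₀, by obtain ⟨s, -, -, -, -, e4, e5, -⟩ := hτM; exact ⟨e4, e5⟩⟩
    have hτ0 : 0 ≤ τ₁ := hα0.trans hτ₁.1
    have hv : Var (fun τ => (Z τ z').2) τ₁ β H (p₀ / 5) :=
      (hB z' hz τ₁ ⟨hτ0, hτ₁.2.trans (hβ.trans h1t)⟩ (hG.trans hp1)).mono le_rfl hτ₁.2
        (le_min (by linarith [Del_mono hc hQ hp₀ hp1, hτ₁.1]) (hβ.trans h1t)) le_rfl
        (by linarith)
    have hd := hv.dist_le ⟨le_rfl, hτ₁.2⟩ ⟨hτ₁.2, le_rfl⟩
    have hpβ : p₀ / 2 ≤ pp (Z β z').2 := by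
      have a1 := (abs_le.1 ((abs_pp_sub (Z β z').2 (Z τ₁ z').2).trans hd)).1
      have a2 : p₀ * θ₀ ≤ p₀ * 2 := mul_le_mul_of_nonneg_left hθ2 hp₀.le
      linarith
    rw [indicator_of_mem (show z' ∈ {z' | p₀ / 2 ≤ pp (Z β z').2} from hpβ)]
    refine mul_le_mul_right (le_trans (measure_mono ?_)
      (hm (fun τ => (Z τ z').1) (fun τ => (Z τ z').2) (fun s => (Z s z).1) (fun s => (Z s z).2)
        τ₁ β s₀ s₁ H p₀ θ₀ Γ l (hs.hasX z' hτ0 hβT) (cz.mono (Icc_subset_Icc_left hτ₁.1))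
        (hs.hasX z h0 h1T) hv hV hΓ hH hθ hθ2 hp hΓθ hl)) _
    rintro τ ⟨hτ, s, hs, e1, -, -, e4, e5, e6, e7⟩
    exact ⟨⟨hmin ⟨hτ, e4, e5⟩, hτ.2⟩, s, hs, e1, e4, e6, e7⟩
  have ha : max 0 (s₀ - T') ≤ s₁ := max_le (h0.trans h01) (by linarith)
  have hn : s₁ ≤ max 0 (s₀ - T') + ((⌊2 * T' / Del c₀ Q p₀⌋₊ : ℝ) + 1) * Del c₀ Q p₀ := by
    have a1 := (div_lt_iff₀ hΔ).1 (Nat.lt_floor_add_one (2 * T' / Del c₀ Q p₀))
    linarith [le_max_right 0 (s₀ - T')]
  calc (ldOf f K (fun s => Z s z) s₀ s₁ T' Q).I _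
      ≤ ∫⁻ q : TP, if q.1 ∈ Icc s₀ s₁ then
          ENNReal.ofReal (gap (nn q.2.1) (relVel (Z q.1 z).2)) *
            M.indicator (fun r => ENNReal.ofReal (f r)) (cone (q.1, (Z q.1 z).1) q.2) else 0 := by
        refine lintegral_mono fun q => ?_
        by_cases a1 : q.1 ∈ Icc s₀ s₁ ∧ ‖q.2.1‖ < q.1
        swap
        · simp only [ldOf, if_neg a1, zero_mul, ENNReal.ofReal_zero, zero_le]
        dsimp only
        rw [if_pos a1.1]
        split_ifs with a2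
        · obtain ⟨⟨b1, b2, b3, -⟩, b5, b6⟩ := a2
          simp only [LD.th, LD.DD, ldOf, if_pos a1, if_pos a1.1, rr, pv] at b1 b2 b3 b5 b6 ⊢
          have hq : cone (q.1, (Z q.1 z).1) q.2 ∈ M := by
            refine ⟨q.1, a1.1, ?_⟩
            simp only [cone, sub_sub_cancel]
            exact ⟨trivial, sub_nonneg.2 a1.2.le, b6, b1, b2.le, b3, b5⟩
          rw [indicator_of_mem hq, mul_comm,
            ENNReal.ofReal_mul (gap_nonneg (norm_nn_le _) (norm_relVel_lt _).le)]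
        · simp
    _ ≤ ∫⁻ q, M.indicator (fun r => ENNReal.ofReal (f r)) q :=
        Meet2_cv (hs.hasX z h0 h1T) (fun s _ => norm_relVel_lt _)
          (contDiff_relVel.continuous.comp_continuousOn cZ.snd) mZ.fst
          (contDiff_relVel.continuous.measurable.comp mZ.snd) mG
    _ = ∫⁻ τ in Icc (max 0 (s₀ - T')) s₁, ∫⁻ z',
          ENNReal.ofReal (f₀ z') * M.indicator (fun _ => 1) (τ, Z τ z') := by
        rw [Measure.volume_eq_prod, lintegral_prod _ mG.aemeasurable,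
          ← lintegral_indicator measurableSet_Icc]
        refine lintegral_congr fun τ => ?_
        by_cases hτ : τ ∈ Icc (max 0 (s₀ - T')) s₁
        · rw [indicator_of_mem hτ, ← hs.traj.push τ (hI hτ) (fun z' => M.indicator (fun _ => 1) (τ, z'))
            (m1.comp (measurable_const.prodMk measurable_id))]
          refine lintegral_congr fun z' => ?_
          by_cases hz : (τ, z') ∈ M <;> simp [hz]
        · rw [indicator_of_notMem hτ]
          refine (lintegral_congr fun z' => ?_).trans lintegral_zero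
          exact indicator_of_notMem (fun hz => hτ (hMt _ hz)) _
    _ ≤ _ := Meet2_cover win _ s₁ ha le_rfl hn
    _ ≤ _ := by
        have a1 : ((⌊2 * T' / Del c₀ Q p₀⌋₊ : ℝ≥0∞) + 1) ≤
            ENNReal.ofReal (2 * (1 + T' / Del c₀ Q p₀)) := by
          rw [← ENNReal.ofReal_natCast, ← ENNReal.ofReal_one,
            ← ENNReal.ofReal_add (Nat.cast_nonneg _) zero_le_one]
          refine ENNReal.ofReal_le_ofReal ?_
          have := Nat.floor_le (show 0 ≤ 2 * T' / Del c₀ Q p₀ by positivity)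
          rw [mul_div_assoc] at this ⊢
          linarith
        have a2 : ENNReal.ofReal (En / (p₀ / 2)) ≤ ENNReal.ofReal ((|En| + 1) / (p₀ / 2)) :=
          ENNReal.ofReal_le_ofReal (div_le_div_of_nonneg_right
            ((le_abs_self En).trans (le_add_of_nonneg_right zero_le_one)) (half_pos hp₀).le)
        refine (mul_le_mul' a1 (mul_le_mul_left a2 _)).trans (le_of_eq ?_)
        rw [← ENNReal.ofReal_mul (by positivity), ← ENNReal.ofReal_mul (by positivity)]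
        congr 1
        field_simp
        ring

end Crest.Agent.R106
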