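import Crest.Agent.R106.Du2

/-!
# Row 106: Maxwell equations

`a = aE K₀`, `b = bB K₀`, `φ = Du (vint f)`, `A i = Du (cur f i)`.  For `t > 0`: `□a = □b = 0` (differentiate
`box_Du` in `t`), `div b = ∂_t Du (div B₀) = 0`, `div a = ∂_t Du ρ₀`, Lorenz gauge
`φ_t + div A = Du (ρ_t + div j) + ∂_t Du ρ₀ = div a` (`pt_Du'`), `curl curl = ∇ div - Δ` (`pd_comm`,
`fin_cases`).  `∂_t E - curl B = [a_tt + curl curl a] - [∇φ_t + A_tt + curl curl A] = ∇ div a - ∇(φ_t + div A) - j`;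
`div E = ∂_t (div a - div A) - Δφ = φ_tt - Δφ = ρ`.  Initial values: `a(0) = 0`, `a_t(0) = E₀` (`box_Du` at
`t = 0`, `Du_init`, `pt_Du_init`; space derivatives of functions vanishing at `t = 0` vanish there).

-/

set_option autoImplicit false

noncomputable section

namespace Crest.Agent.R106

open MeasureTheory Set Metric Real Filter Topology
open scoped ContDiff ENNReal RealInnerProductSpace Classical
open Crest.AnalysisR.VecCalc3 Crest.AnalysisR.PDE.RVM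

/-- the algebra behind Maxwell's equations -/
theorem Mx_alg {M : Type} [AddCommGroup M] (T : M →+ M) (D : Fin 3 → M →+ M) (N : AddSubgroup M)
    (hTD : ∀ i x, T (D i x) = D i (T x)) (hDD : ∀ i k x, D i (D k x) = D k (D i x))
    (hT : ∀ x ∈ N, T x ∈ N) (hD : ∀ i, ∀ x ∈ N, D i x ∈ N) (a b A j : Fin 3 → M) (φ ρ : M)
    (h1 : ∀ i, T (T (a i)) - ∑ k, D k (D k (a i)) ∈ N)
    (h2 : ∀ i, T (T (b i)) - ∑ k, D k (D k (b i)) ∈ N)
    (h3 : ∀ i, T (T (A i)) - ∑ k, D k (D k (A i)) - j i ∈ N)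
    (h4 : T (T φ) - ∑ k, D k (D k φ) - ρ ∈ N) (h5 : ∑ i, D i (b i) ∈ N)
    (h6 : T φ + ∑ i, D i (A i) - ∑ i, D i (a i) ∈ N) (E B : Fin 3 → M)
    (hE : ∀ i, E i = T (a i) + (D (i + 1) (b (i + 2)) - D (i + 2) (b (i + 1))) - D i φ - T (A i))
    (hB : ∀ i, B i = T (b i) - (D (i + 1) (a (i + 2)) - D (i + 2) (a (i + 1))) +
      (D (i + 1) (A (i + 2)) - D (i + 2) (A (i + 1)))) :
    (∀ i, T (E i) - (D (i + 1) (B (i + 2)) - D (i + 2) (B (i + 1))) + j i ∈ N) ∧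
    (∀ i, T (B i) + (D (i + 1) (E (i + 2)) - D (i + 2) (E (i + 1))) ∈ N) ∧
    ∑ i, D i (E i) - ρ ∈ N ∧ ∑ i, D i (B i) ∈ N := by
  have c10 := hDD 1 0
  have c20 := hDD 2 0
  have c21 := hDD 2 1
  have all : ∀ P : Fin 3 → Prop, P 0 → P 1 → P 2 → ∀ i, P i := fun P p0 p1 p2 i => by
    fin_cases i
    exacts [p0, p1, p2]
  refine ⟨fun i => ?_, fun i => ?_, ?_, ?_⟩
  · convert N.sub_mem (N.sub_mem (h1 i) (hD i _ h6)) (h3 i) using 1
    revert i
    refine all _ ?_ ?_ ?_ <;>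
    · simp only [hE, hB, Fin.sum_univ_three, Fin.reduceAdd, map_add, map_sub, hTD, c10, c20, c21]
      abel
  · convert N.add_mem (h2 i) (hD i _ h5) using 1
    revert i
    refine all _ ?_ ?_ ?_ <;>
    · simp only [hE, hB, Fin.sum_univ_three, Fin.reduceAdd, map_add, map_sub, hTD, c10, c20, c21]
      abel
  · convert N.sub_mem h4 (hT _ h6) using 1
    simp only [hE, Fin.sum_univ_three, Fin.reduceAdd, map_add, map_sub, hTD, c10, c20, c21]
    abel
  · convert hT _ h5 using 1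
    simp only [hB, Fin.sum_univ_three, Fin.reduceAdd, map_add, map_sub, hTD, c10, c20, c21]
    abel

/-- smooth functions of `(t, x)` -/
def MxS : AddSubgroup (ST → ℝ) where
  carrier := {g | ContDiff ℝ ∞ g}
  add_mem' {a b} ha hb :=
    (ContDiff.add (show ContDiff ℝ ∞ a from ha) (show ContDiff ℝ ∞ b from hb) :
      ContDiff ℝ ∞ fun x => a x + b x)
  zero_mem' := (contDiff_const : ContDiff ℝ ∞ fun _ : ST => (0 : ℝ))
  neg_mem' {a} ha := (ContDiff.neg (show ContDiff ℝ ∞ a from ha) : ContDiff ℝ ∞ fun x => -a x)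

/-- smooth functions that vanish for `t > 0` -/
def MxN : AddSubgroup MxS where
  carrier := {g | ∀ p : ST, 0 < p.1 → (g : ST → ℝ) p = 0}
  add_mem' {a b} ha hb p hp := by
    change (a : ST → ℝ) p + (b : ST → ℝ) p = 0
    rw [ha p hp, hb p hp, add_zero]
  zero_mem' _ _ := rfl
  neg_mem' {a} ha p hp := by
    change -(a : ST → ℝ) p = 0
    rw [ha p hp, neg_zero]

/-- directional derivative -/
def mxD (u : ST) : MxS →+ MxS :=
  AddMonoidHom.mk' (fun g => ⟨pd u g, contDiff_pd g.2 u⟩) fun a b =>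
    Subtype.ext (pdl_add a.2 b.2 [u])

/-- the Duhamel operator -/
def mxU : MxS →+ MxS :=
  AddMonoidHom.mk' (fun g => ⟨Du g, contDiff_Du g.2⟩) fun a b =>
    Subtype.ext (Du_add (show ContDiff ℝ ∞ (a : ST → ℝ) from a.2).continuous
      (show ContDiff ℝ ∞ (b : ST → ℝ) from b.2).continuous)

theorem mxD_comm (u u' : ST) (g : MxS) : mxD u (mxD u' g) = mxD u' (mxD u g) :=
  Subtype.ext (pd_comm g.2 u u')

theorem mxD_U (u : R3) (g : MxS) : mxD (0, u) (mxU g) = mxU (mxD (0, u) g) :=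
  Subtype.ext (pd_Du g.2 u)

theorem mxD_mem (u : ST) {g : MxS} (hg : g ∈ MxN) : mxD u g ∈ MxN := by
  intro p hp
  have : (g : ST → ℝ) =ᶠ[𝓝 p] fun _ => 0 := by
    filter_upwards [(isOpen_lt continuous_const continuous_fst).mem_nhds hp] with q hq
    exact hg q hq
  change fderiv ℝ (g : ST → ℝ) p u = 0
  rw [this.fderiv_eq]
  simp

theorem mx_sum_apply (g : Fin 3 → MxS) (p : ST) :
    ((∑ i, g i : MxS) : ST → ℝ) p = ∑ i, (g i : ST → ℝ) p := by
  simp only [Fin.sum_univ_three]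
  rfl

theorem mx_box (g : MxS) :
    mxD (1, 0) (mxD (1, 0) (mxU g)) - ∑ k, mxD (0, ee k) (mxD (0, ee k) (mxU g)) - g ∈ MxN := by
  intro p hp
  change pd (1, 0) (pd (1, 0) (Du g)) p -
    ((∑ k, mxD (0, ee k) (mxD (0, ee k) (mxU g)) : MxS) : ST → ℝ) p - (g : ST → ℝ) p = 0
  rw [mx_sum_apply]
  exact sub_eq_zero.2 (box_Du g.2 hp.le)

theorem Mx_pd_snd' {g : R3 → ℝ} (hg : ContDiff ℝ ∞ g) (τ : ℝ) (u : R3) (p : ST) :
    pd (τ, u) (fun q : ST => g q.2) p = pd u g p.2 := by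
  have := ((hg.differentiable (by simp) p.2).hasFDerivAt.comp p hasFDerivAt_snd).fderiv
  have h2 : fderiv ℝ (fun q : ST => g q.2) p = _ := this
  simp only [pd, h2]
  rfl

theorem Mx_pd_snd {g : R3 → ℝ} (hg : ContDiff ℝ ∞ g) (u : R3) (p : ST) :
    pd (0, u) (fun q : ST => g q.2) p = pd u g p.2 := Mx_pd_snd' hg 0 u p

theorem Mx_pt_snd {g : R3 → ℝ} (hg : ContDiff ℝ ∞ g) (p : ST) :
    pd (1, 0) (fun q : ST => g q.2) p = 0 := by
  rw [Mx_pd_snd' hg]
  exact map_zero _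

theorem Mx_cu {u : Fin 3 → ST → ℝ} (hu : ∀ i, ContDiff ℝ ∞ (u i)) (i : Fin 3) :
    ContDiff ℝ ∞ (cu u i) := (contDiff_pd (hu _) _).sub (contDiff_pd (hu _) _)

theorem Mx_tt_init {h : ST → ℝ} (hh : ContDiff ℝ ∞ h) (x : R3) :
    pd (1, 0) (pd (1, 0) (Du h)) (0, x) = h (0, x) := by
  have := box_Du hh (p := (0, x)) le_rfl
  simpa only [pd_Du hh, pd_Du (contDiff_pd hh _), Du_init, Finset.sum_const_zero, sub_zero]
    using this

theorem Mx_xt_init {h : ST → ℝ} (hh : ContDiff ℝ ∞ h) (u x : R3) :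
    pd (0, u) (pd (1, 0) (Du h)) (0, x) = 0 := by
  rw [pd_comm (contDiff_Du hh), pd_Du hh, pt_Du_init (contDiff_pd hh _)]

variable {f₀ : Ph → ℝ} {K₀ : R3 → Ph} {f : TP → ℝ}

theorem Mx_E0' (hK : ContDiff ℝ ∞ K₀) (i : Fin 3) : ContDiff ℝ ∞ fun y => (K₀ y).1 i :=
  (EuclideanSpace.proj (𝕜 := ℝ) i).contDiff.comp hK.fst

theorem Mx_B0' (hK : ContDiff ℝ ∞ K₀) (i : Fin 3) : ContDiff ℝ ∞ fun y => (K₀ y).2 i :=
  (EuclideanSpace.proj (𝕜 := ℝ) i).contDiff.comp hK.snd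

theorem Mx_E0 (hK : ContDiff ℝ ∞ K₀) (i : Fin 3) : ContDiff ℝ ∞ fun p : ST => (K₀ p.2).1 i :=
  (Mx_E0' hK i).comp contDiff_snd

theorem Mx_B0 (hK : ContDiff ℝ ∞ K₀) (i : Fin 3) : ContDiff ℝ ∞ fun p : ST => (K₀ p.2).2 i :=
  (Mx_B0' hK i).comp contDiff_snd

theorem contDiff_mx (hK : ContDiff ℝ ∞ K₀) (hf : ContDiff ℝ ∞ f) (hs : LS f) :
    ContDiff ℝ ∞ (mx K₀ f) := by
  have ha : ∀ i, ContDiff ℝ ∞ (aE K₀ i) := fun i => contDiff_pd (contDiff_Du (Mx_E0 hK i)) _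
  have hb : ∀ i, ContDiff ℝ ∞ (bB K₀ i) := fun i => contDiff_pd (contDiff_Du (Mx_B0 hK i)) _
  have hA : ∀ i, ContDiff ℝ ∞ (Du (cur f i)) := fun i => contDiff_Du (cur_contDiff hf hs i)
  have hφ : ContDiff ℝ ∞ (Du (vint f)) := contDiff_Du (vint_contDiff hf hs)
  exact (contDiff_vec fun i => (((contDiff_pd (ha i) _).add (Mx_cu hb i)).sub
    (contDiff_pd hφ _)).sub (contDiff_pd (hA i) _)).prodMk
    (contDiff_vec fun i => ((contDiff_pd (hb i) _).sub (Mx_cu ha i)).add (Mx_cu hA i))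

theorem mx_init (hK : ContDiff ℝ ∞ K₀) (hf : ContDiff ℝ ∞ f) (hs : LS f) (x : R3) :
    mx K₀ f (0, x) = K₀ x := by
  refine Prod.ext ?_ ?_
  · ext i
    simp only [mx, vec_apply, aE, bB, cu, Mx_tt_init (Mx_E0 hK i), Mx_xt_init (Mx_B0 hK _),
      pd_Du (vint_contDiff hf hs), Du_init, pt_Du_init (cur_contDiff hf hs i)]
    ring
  · ext i
    simp only [mx, vec_apply, aE, bB, cu, Mx_tt_init (Mx_B0 hK i), Mx_xt_init (Mx_E0 hK _),
      pd_Du (cur_contDiff hf hs _), Du_init]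
    ring

theorem mx_maxwell (h : Adm f₀ K₀) (hf : ContDiff ℝ ∞ f) (hs : LS f) (h0 : ∀ z, f (0, z) = f₀ z)
    (hc : ∀ p, pd (1, 0) (vint f) p + dx (cur f) p = 0) {p : ST} (hp : 0 < p.1) :
    Maxwell (mx K₀ f) f p := by
  have hK := h.smoothK
  have hρ := vint_contDiff hf hs
  have hj := cur_contDiff hf hs
  let e : Fin 3 → MxS := fun i => ⟨_, Mx_E0 hK i⟩
  let m : Fin 3 → MxS := fun i => ⟨_, Mx_B0 hK i⟩
  let ρ : MxS := ⟨_, hρ⟩
  let j : Fin 3 → MxS := fun i => ⟨_, hj i⟩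
  let T := mxD (1, 0)
  let D : Fin 3 → MxS →+ MxS := fun i => mxD (0, ee i)
  have hTD : ∀ i x, T (D i x) = D i (T x) := fun i x => mxD_comm _ _ x
  have hbox : ∀ g : MxS, T g = 0 →
      T (T (T (mxU g))) - ∑ k, D k (D k (T (mxU g))) ∈ MxN := fun g hg => by
    have := mxD_mem (1, 0) (mx_box g)
    simp only [map_sub, map_sum] at this
    change T (T (T (mxU g))) - ∑ k, T (D k (D k (mxU g))) - T g ∈ MxN at this
    simpa only [hTD, hg, sub_zero] using this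
  have hdiv : ∀ g : Fin 3 → MxS, ∑ i, D i (T (mxU (g i))) = T (mxU (∑ i, D i (g i))) := fun g => by
    simp only [map_sum, ← hTD]
    exact Finset.sum_congr rfl fun i _ => congrArg T (mxD_U _ _)
  have h5 : ∑ i, D i (m i) = 0 := by
    refine Subtype.ext (funext fun p => ?_)
    rw [mx_sum_apply]
    exact (Finset.sum_congr rfl fun i _ => Mx_pd_snd (Mx_B0' hK i) _ p).trans (h.divB p.2)
  have h6 : T (mxU ρ) + ∑ i, D i (mxU (j i)) - ∑ i, D i (T (mxU (e i))) ∈ MxN := by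
    have e1 : ∑ i, D i (mxU (j i)) = -mxU (T ρ) := by
      have : ∑ i, D i (j i) = -T ρ := by
        refine Subtype.ext (funext fun p => ?_)
        rw [mx_sum_apply]
        exact eq_neg_of_add_eq_zero_right (hc p)
      rw [← map_neg, ← this, map_sum]
      exact Finset.sum_congr rfl fun i _ => mxD_U _ _
    have e2 : ((∑ i, D i (e i) : MxS) : ST → ℝ) = fun r => vint f (0, r.2) := by
      funext p
      rw [mx_sum_apply]
      refine ((Finset.sum_congr rfl fun i _ => Mx_pd_snd (Mx_E0' hK i) _ p).trans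
        (h.divE p.2)).trans ?_
      simp only [vint, h0]
    rw [hdiv, e1]
    intro p hp
    have := pt_Du' hρ hp.le
    rw [← e2] at this
    change pd (1, 0) (Du (vint f)) p + -Du (pd (1, 0) (vint f)) p -
      pd (1, 0) (Du ((∑ i, D i (e i) : MxS) : ST → ℝ)) p = 0
    linarith
  obtain ⟨r1, r2, r3, r4⟩ := Mx_alg T D MxN hTD (fun i k x => mxD_comm _ _ x)
    (fun x hx => mxD_mem _ hx) (fun i x hx => mxD_mem _ hx)
    (fun i => T (mxU (e i))) (fun i => T (mxU (m i))) (fun i => mxU (j i)) j (mxU ρ) ρ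
    (fun i => hbox _ (Subtype.ext (funext fun p => Mx_pt_snd (Mx_E0' hK i) p)))
    (fun i => hbox _ (Subtype.ext (funext fun p => Mx_pt_snd (Mx_B0' hK i) p)))
    (fun i => mx_box _) (mx_box _) (by rw [hdiv, h5, map_zero, map_zero]; exact MxN.zero_mem) h6
    _ _ (fun _ => rfl) (fun _ => rfl)
  refine ⟨fun i => ?_, fun i => r2 i p hp, ?_, ?_⟩
  · exact eq_neg_of_add_eq_zero_left (r1 i p hp)
  · have := r3 p hp
    change ((∑ i, _ : MxS) : ST → ℝ) p - vint f p = 0 at this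
    rw [mx_sum_apply] at this
    exact sub_eq_zero.1 this
  · have := r4 p hp
    rw [mx_sum_apply] at this
    exact this

end Crest.Agent.R106
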