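import Crest.Agent.R106.NumA

/-!
# Row 106: numerology: the remaining cells

Notation of `NumC`, `H = HH CM Q = CM (Q L)^{1/3}`, at most `25 L²` cells.  With `M₀ = Cm T/p`, `M₁ = Cm/p`:
`rB = √Cm √T pθ + Cm^{1/3} T p^{5/3} θ²`, and `√T/φ₀ jB = [Cm^{1/4} T^{3/4} L^{3/4} p √θ + Cm^{1/6} T p^{4/3} θ √L +
T √L p²θ/Q⁵]/φ₀`.  The first and third terms of `jB` are summed over all cells as in `NumC`.  The other three
are bounded cell by cell by `Γ Q^{-δ} L^a` (use `T ≤ x²`, `T/φ₀ ≤ 10 x^{13/8}`, `Γ ≥ Q^{7/12}`, `θ ≤ 2`, `1 ≤ p ≤ Q`):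
* `p < Q^{7/12}`: `√T pθ ≤ 2Γ Q^{-5/12}`, `T p^{5/3}θ² ≤ 4Γ Q^{-1/36}`, `T p^{4/3}θ/φ₀ ≤ 20Γ Q^{-2/9}`;
* `pθ < 50H`: `√T pθ ≤ 50 H Γ/Q`, `T p^{5/3}θ² ≤ 2500 H² Γ/Q`, `T p^{4/3}θ/φ₀ ≤ 500 H Q^{1/3} Γ/Q`;
* `Γθ < 50H`: `√T pθ ≤ 50 H`, `T p^{5/3}θ² ≤ 2500 H² Q^{-1/3}`, `T p^{4/3}θ/φ₀ ≤ 500 H Γ^{5/8} Q^{-7/24}`;
then `big`.

-/

set_option autoImplicit false

noncomputable section

namespace Crest.Agent.R106

open MeasureTheory Set Metric Real Filter Topology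
open scoped ContDiff ENNReal RealInnerProductSpace Classical
open Crest.AnalysisR.VecCalc3 Crest.AnalysisR.PDE.RVM

/-- one cell, in logarithmic form -/
theorem NumD_cell {T Q p θ Cm CM A Γ c₀ : ℝ} (hT : 0 < T) (hθ : 0 < θ) (hCm : 0 < Cm) (hc : 0 < c₀)
    (hQ : 1 ≤ Q) (hp : 1 ≤ p) (hpQ : p ≤ Q) (hθ2 : θ ≤ 2) (hCM : 1 ≤ CM) (hA : 1 ≤ A) (hA' : Cm ≤ A)
    (hc1 : c₀ ≤ 1) (hG : G0 Q ≤ Γ) (hΓQ : Γ ≤ Q) (hT1 : T ≤ c₀ * (Γ / Q) ^ 2)
    (hT2 : T ≤ c₀ * (Γ / Q) ^ (15 / 8 : ℝ) / Lg Q)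
    (hcase : p < G0 Q ∨ p * θ < 50 * HH CM Q ∨ Γ * θ < 50 * HH CM Q) :
    √T / phi0 Q Γ * jB T Q p θ (Cm * T / p) (Cm / p) + rB T p θ (Cm * T / p) (Cm / p) ≤
      10 * A * √c₀ * (Γ / Q) * (p * θ ^ (1 / 2 : ℝ)) +
        4 * (50 ^ 2 * CM ^ 2 * A * Lg Q * Γ / Q ^ (1 / 36 : ℝ)) := by
  have hQ0 : 0 < Q := by linarith
  have hp0 : 0 < p := by linarith
  have hA0 : 0 < A := by linarith
  have hCM0 : 0 < CM := by linarith
  have hq : 0 ≤ log Q := log_nonneg hQ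
  have hL1 : 1 ≤ Lg Q := by unfold Lg; linarith
  have hL : 0 < Lg Q := by linarith
  unfold G0 at hG hcase
  have hΓ : 0 < Γ := lt_of_lt_of_le (by positivity) hG
  unfold HH at hcase
  unfold phi0 jB rB
  generalize Lg Q = L at *
  have l1 := log_nonneg hp
  have l2 := log_le_log hp0 hpQ
  have l3 := log_le_log hθ hθ2
  have l4 := log_nonneg hCM
  have l5 := log_nonneg hA
  have l6 := log_le_log hCm hA'
  have l7 := log_nonpos hc.le hc1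
  have l8 := log_le_log (by positivity) hG
  have l9 := log_le_log hΓ hΓQ
  have l10 := log_le_log hT hT1
  have l11 := log_le_log hT hT2
  have l12 := log_nonneg hL1
  have l13 : 0 ≤ log (2 : ℝ) := log_nonneg one_le_two
  have l14 : log (2 : ℝ) ≤ log 10 := log_le_log two_pos (by norm_num)
  have l15 : log (10 : ℝ) ≤ log 50 := log_le_log (by norm_num) (by norm_num)
  have l16 : log p ≤ log (Q ^ (7 / 12 : ℝ)) ∨
      log (p * θ) ≤ log (50 * (CM * (Q * L) ^ (1 / 3 : ℝ))) ∨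
      log (Γ * θ) ≤ log (50 * (CM * (Q * L) ^ (1 / 3 : ℝ))) :=
    hcase.imp (fun h => log_le_log hp0 h.le) fun h =>
      h.imp (fun h => log_le_log (by positivity) h.le) fun h => log_le_log (by positivity) h.le
  simp (disch := positivity) only [log_mul, log_div, log_rpow, log_pow, Nat.cast_ofNat]
    at l8 l10 l11 l16
  have t1 : √T / ((Γ / Q) ^ (3 / 8 : ℝ) / 10) * (T * p ^ 5 * θ ^ 2 * L ^ 3 * (Cm / p)) ^ (1 / 4 : ℝ) ≤
      10 * A * √c₀ * (Γ / Q) * (p * θ ^ (1 / 2 : ℝ)) := by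
    rw [← log_le_log_iff (by positivity) (by positivity)]
    simp (disch := positivity) only [log_mul, log_div, log_rpow, log_pow, log_sqrt, Nat.cast_ofNat]
    linarith
  have t2 : √T / ((Γ / Q) ^ (3 / 8 : ℝ) / 10) *
      (T ^ 2 * p ^ 9 * θ ^ 6 * L ^ 3 * (Cm * T / p)) ^ (1 / 6 : ℝ) ≤
      50 ^ 2 * CM ^ 2 * A * L * Γ / Q ^ (1 / 36 : ℝ) := by
    rw [← log_le_log_iff (by positivity) (by positivity)]
    simp (disch := positivity) only [log_mul, log_div, log_rpow, log_pow, log_sqrt, Nat.cast_ofNat]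
    rcases l16 with h | h | h <;> linarith
  have t3 : √T / ((Γ / Q) ^ (3 / 8 : ℝ) / 10) * √(T * p ^ 4 * θ ^ 2 * L / Q ^ 10) ≤
      50 ^ 2 * CM ^ 2 * A * L * Γ / Q ^ (1 / 36 : ℝ) := by
    rw [← log_le_log_iff (by positivity) (by positivity)]
    simp (disch := positivity) only [log_mul, log_div, log_rpow, log_pow, log_sqrt, Nat.cast_ofNat]
    linarith
  have t4 : √(T * p ^ 3 * θ ^ 2 * (Cm / p)) ≤ 50 ^ 2 * CM ^ 2 * A * L * Γ / Q ^ (1 / 36 : ℝ) := by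
    rw [← log_le_log_iff (by positivity) (by positivity)]
    simp (disch := positivity) only [log_mul, log_div, log_rpow, log_pow, log_sqrt, Nat.cast_ofNat]
    rcases l16 with h | h | h <;> linarith
  have t5 : (T ^ 2 * p ^ 6 * θ ^ 6 * (Cm * T / p)) ^ (1 / 3 : ℝ) ≤
      50 ^ 2 * CM ^ 2 * A * L * Γ / Q ^ (1 / 36 : ℝ) := by
    rw [← log_le_log_iff (by positivity) (by positivity)]
    simp (disch := positivity) only [log_mul, log_div, log_rpow, log_pow, Nat.cast_ofNat]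
    rcases l16 with h | h | h <;> linarith
  rw [mul_add, mul_add]
  linarith

theorem NumD_geom (N : ℕ) : ∑ j ∈ Finset.range N, (2 : ℝ) ^ j ≤ 2 ^ N := by
  induction N with
  | zero => simp
  | succ n ih => rw [Finset.sum_range_succ, pow_succ]; linarith

theorem num_D {Cm CM ε : ℝ} (hCm : 0 < Cm) (hCM : 1 ≤ CM) (hε : 0 < ε) : ∃ c₁ Q₀, 0 < c₁ ∧ 2 ≤ Q₀ ∧
    ∀ (c₀ Q Γ : ℝ) (N : ℕ), 0 < c₀ → c₀ ≤ c₁ → Q₀ ≤ Q → G0 Q ≤ Γ → Γ ≤ Q → (2 : ℝ) ^ N ≤ 2 * Q →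
      ∑ j ∈ Finset.range N, ∑ k ∈ Finset.range (N + 2),
        (if (2 : ℝ) ^ j < G0 Q ∨ 2 ^ j * (2 / 2 ^ k) < 50 * HH CM Q ∨ Γ * (2 / 2 ^ k) < 50 * HH CM Q then
          √(Del c₀ Q Γ) / phi0 Q Γ * jB (Del c₀ Q Γ) Q (2 ^ j) (2 / 2 ^ k)
            (Cm * Del c₀ Q Γ / 2 ^ j) (Cm / 2 ^ j) +
          rB (Del c₀ Q Γ) (2 ^ j) (2 / 2 ^ k) (Cm * Del c₀ Q Γ / 2 ^ j) (Cm / 2 ^ j) else 0) ≤
        ε * Γ := by
  obtain ⟨A, hA, hA'⟩ : ∃ A : ℝ, 1 ≤ A ∧ Cm ≤ A := ⟨max 1 Cm, le_max_left _ _, le_max_right _ _⟩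
  have hA0 : 0 < A := by linarith
  obtain ⟨C, hC, hsum⟩ := sum_down (a := 1 / 2) (by norm_num)
  obtain ⟨Q₀, hQ₀, hbig⟩ := big 3 (1 / 36) (100 * (50 ^ 2 * CM ^ 2 * A)) (ε / 2) (by norm_num)
    (half_pos hε)
  refine ⟨min 1 ((ε / (40 * A * C)) ^ 2), Q₀, lt_min one_pos (by positivity), hQ₀,
    fun c₀ Q Γ N hc hc1 hQ hG hΓQ hN => ?_⟩
  have hQ2 : 2 ≤ Q := hQ₀.trans hQ
  have hQ1 : 1 ≤ Q := by linarith
  have hQ0 : 0 < Q := by linarith
  have hΓ : 0 < Γ := lt_of_lt_of_le (by unfold G0; positivity) hG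
  have hL : 0 < Lg Q := by have := log_nonneg hQ1; unfold Lg; linarith
  have hsq : √c₀ ≤ ε / (40 * A * C) :=
    sqrt_le_iff.2 ⟨by positivity, hc1.trans (min_le_right _ _)⟩
  obtain ⟨hT1, hT2⟩ := Del_le hc hQ1 hΓ
  obtain ⟨a, ha⟩ : ∃ a, a = 10 * A * √c₀ * (Γ / Q) := ⟨_, rfl⟩
  obtain ⟨b, hb⟩ : ∃ b, b = 4 * (50 ^ 2 * CM ^ 2 * A * Lg Q * Γ / Q ^ (1 / 36 : ℝ)) := ⟨_, rfl⟩
  have ha0 : 0 ≤ a := by rw [ha]; positivity
  have hb0 : 0 ≤ b := by rw [hb]; positivity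
  calc _ ≤ ∑ j ∈ Finset.range N, ∑ k ∈ Finset.range (N + 2),
        (a * ((2 : ℝ) ^ j * ((2 : ℝ) / 2 ^ k) ^ (1 / 2 : ℝ)) + b) := by
        refine Finset.sum_le_sum fun j hj => Finset.sum_le_sum fun k _ => ?_
        split_ifs with hcase
        · rw [ha, hb]
          refine NumD_cell (Del_pos hc hQ1 hΓ) (by positivity) hCm hc hQ1 (one_le_pow₀ one_le_two)
            ?_ (div_le_self zero_le_two (one_le_pow₀ one_le_two)) hCM hA hA'
            (hc1.trans (min_le_left _ _)) hG hΓQ hT1 hT2 hcase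
          have : (2 : ℝ) ^ (j + 1) ≤ 2 ^ N :=
            pow_le_pow_right₀ one_le_two (Finset.mem_range.1 hj)
          rw [pow_succ] at this
          linarith
        · positivity
    _ = a * ((∑ j ∈ Finset.range N, (2 : ℝ) ^ j) *
          ∑ k ∈ Finset.range (N + 2), ((2 : ℝ) / 2 ^ k) ^ (1 / 2 : ℝ)) + N * (N + 2) * b := by
        rw [Finset.sum_mul_sum]
        simp only [Finset.sum_add_distrib, Finset.sum_const, Finset.card_range, nsmul_eq_mul,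
          Finset.mul_sum]
        push_cast
        ring
    _ ≤ a * (2 * Q * C) + 5 * Lg Q * (5 * Lg Q) * b := by
        have h1 := N_le hQ2 hN
        have h2 : (0 : ℝ) ≤ N := Nat.cast_nonneg N
        refine add_le_add (mul_le_mul_of_nonneg_left (mul_le_mul ((NumD_geom N).trans hN)
          (hsum _) (by positivity) (by positivity)) ha0) (mul_le_mul_of_nonneg_right
          (mul_le_mul (by linarith) h1 (by positivity) (by positivity)) hb0)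
    _ ≤ ε / 2 * Γ + ε / 2 * Γ := by
        refine add_le_add ?_ ?_
        · rw [ha]
          calc 10 * A * √c₀ * (Γ / Q) * (2 * Q * C) = 20 * A * C * Γ * √c₀ := by
                field_simp
                ring
            _ ≤ 20 * A * C * Γ * (ε / (40 * A * C)) :=
                mul_le_mul_of_nonneg_left hsq (by positivity)
            _ = ε / 2 * Γ := by
                field_simp
                ring
        · have h1 := hbig Q hQ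
          rw [show (3 : ℝ) = ((3 : ℕ) : ℝ) by norm_num, rpow_natCast, ← div_le_iff₀ (by positivity)]
            at h1
          rw [hb]
          calc _ = 100 * (50 ^ 2 * CM ^ 2 * A) * Lg Q ^ 3 / Q ^ (1 / 36 : ℝ) * Γ := by ring
            _ ≤ _ := mul_le_mul_of_nonneg_right h1 hΓ.le
    _ = ε * Γ := by ring

end Crest.Agent.R106
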