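import Crest.Agent.R106.NumC
import Crest.Agent.R106.NumD

/-!
# Row 106: numerology: assembly

`jB`, `rB` are monotone in `M₀, M₁ ≥ 0` and nonnegative; every cell term is at most the sum of the
corresponding terms of `num_C` and `num_D`.

-/

set_option autoImplicit false

noncomputable section

namespace Crest.Agent.R106

open MeasureTheory Set Metric Real Filter Topology
open scoped ContDiff ENNReal RealInnerProductSpace Classical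
open Crest.AnalysisR.VecCalc3 Crest.AnalysisR.PDE.RVM

theorem num_cell_nonneg {T Q p θ φ M₀ M₁ : ℝ} (hT : 0 ≤ T) (hL : 0 ≤ Lg Q) (hp : 0 ≤ p) (hφ : 0 ≤ φ)
    (h0 : 0 ≤ M₀) (h1 : 0 ≤ M₁) : 0 ≤ √T / φ * jB T Q p θ M₀ M₁ + rB T p θ M₀ M₁ := by
  unfold jB rB
  positivity

theorem num_cell_mono {T Q p θ φ M₀ M₁ M₀' M₁' : ℝ} (hT : 0 ≤ T) (hL : 0 ≤ Lg Q) (hp : 0 ≤ p)
    (hφ : 0 ≤ φ) (h0 : 0 ≤ M₀) (h1 : 0 ≤ M₁) (h0' : M₀ ≤ M₀') (h1' : M₁ ≤ M₁') :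
    √T / φ * jB T Q p θ M₀ M₁ + rB T p θ M₀ M₁ ≤
      √T / φ * jB T Q p θ M₀' M₁' + rB T p θ M₀' M₁' := by
  unfold jB rB
  gcongr

theorem num_main {C Cm CM ε : ℝ} (hC : 0 < C) (hCm : 0 < Cm) (hCM : 1 ≤ CM) (hε : 0 < ε) :
    ∃ c₀ Q₀, 0 < c₀ ∧ c₀ ≤ 1 ∧ 2 ≤ Q₀ ∧ ∀ (Q Γ : ℝ) (N : ℕ) (M₀ M₁ : ℕ → ℕ → ℝ), Q₀ ≤ Q →
      G0 Q ≤ Γ → Γ ≤ Q → (2 : ℝ) ^ N ≤ 2 * Q →
      (∀ j < N, ∀ k < N + 2, 0 ≤ M₀ j k ∧ 0 ≤ M₁ j k ∧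
        ((M₀ j k = 0 ∧
          M₁ j k ≤ Cm * (1 + Del c₀ Q Γ / Del c₀ Q (2 ^ j)) / (2 ^ j * (2 / 2 ^ k))) ∨
        (((2 : ℝ) ^ j < G0 Q ∨ 2 ^ j * (2 / 2 ^ k) < 50 * HH CM Q ∨ Γ * (2 / 2 ^ k) < 50 * HH CM Q) ∧
          M₀ j k ≤ Cm * Del c₀ Q Γ / 2 ^ j ∧ M₁ j k ≤ Cm / 2 ^ j))) →
      C * (Del c₀ Q Γ + totB (Del c₀ Q Γ) Q (phi0 Q Γ) (4 * eta0 CM Q Γ / Γ) N M₀ M₁) ≤ ε * Γ := by
  have hε' : 0 < ε / (4 * C) := by positivity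
  obtain ⟨cB, QB, hcB, hQB, hB⟩ := num_B hCM hε'
  obtain ⟨cC, hcC, hC'⟩ := num_C hCm hε'
  obtain ⟨cD, QD, hcD, -, hD⟩ := num_D hCm hCM hε'
  obtain ⟨c₀, hc0, c1, c2, c3, c4, c5⟩ : ∃ c₀ : ℝ, 0 < c₀ ∧ c₀ ≤ 1 ∧ c₀ ≤ ε / (4 * C) ∧ c₀ ≤ cB ∧
      c₀ ≤ cC ∧ c₀ ≤ cD :=
    ⟨min 1 (min (ε / (4 * C)) (min cB (min cC cD))), by positivity, by simp, by simp, by simp,
      by simp, by simp⟩
  refine ⟨c₀, max QB QD, hc0, c1, hQB.trans (le_max_left _ _), fun Q Γ N M₀ M₁ hQ hΓ hΓQ hN hM => ?_⟩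
  have hQ1 : QB ≤ Q := (le_max_left _ _).trans hQ
  have hQ2 : 2 ≤ Q := hQB.trans hQ1
  have hQ3 : 1 ≤ Q := by linarith
  have hΓ1 : 1 ≤ Γ := (Real.one_le_rpow hQ3 (by norm_num)).trans hΓ
  have hΓ0 : 0 < Γ := by linarith
  have hL : 0 ≤ Lg Q := add_nonneg zero_le_one (Real.log_nonneg hQ3)
  have hT := Del_pos hc0 hQ3 hΓ0
  have hφ : 0 ≤ phi0 Q Γ := by
    unfold phi0
    positivity
  have e1 : Del c₀ Q Γ ≤ ε / (4 * C) * Γ := by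
    refine (Del_le hc0 hQ3 hΓ0).1.trans (mul_le_mul c2 (le_trans ?_ hΓ1) (by positivity) hε'.le)
    exact pow_le_one₀ (by positivity) ((div_le_one (by linarith)).2 hΓQ)
  have e2 := hB c₀ Q Γ hc0 c3 hQ1 hΓ hΓQ
  have e3 := add_le_add (hC' c₀ Q Γ N hc0 c4 hQ2 hΓ1 hΓQ hN)
    (hD c₀ Q Γ N hc0 c5 ((le_max_right _ _).trans hQ) hΓ hΓQ hN)
  simp only [← Finset.sum_add_distrib] at e3
  have e4 : ∑ j ∈ Finset.range N, ∑ k ∈ Finset.range (N + 2),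
      (√(Del c₀ Q Γ) / phi0 Q Γ * jB (Del c₀ Q Γ) Q (2 ^ j) (2 / 2 ^ k) (M₀ j k) (M₁ j k) +
        rB (Del c₀ Q Γ) (2 ^ j) (2 / 2 ^ k) (M₀ j k) (M₁ j k)) ≤
      ε / (4 * C) * Γ + ε / (4 * C) * Γ := by
    refine le_trans (Finset.sum_le_sum fun j hj => Finset.sum_le_sum fun k hk => ?_) e3
    obtain ⟨m0, m1, h⟩ := hM j (Finset.mem_range.1 hj) k (Finset.mem_range.1 hk)
    have hTj : 0 < Del c₀ Q (2 ^ j) := Del_pos hc0 hQ3 (by positivity)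
    rcases h with ⟨h1, h2⟩ | ⟨h1, h2, h3⟩
    · refine le_add_of_le_of_nonneg
        (num_cell_mono hT.le hL (by positivity) hφ m0 m1 h1.le h2) ?_
      split_ifs
      · exact num_cell_nonneg hT.le hL (by positivity) hφ (by positivity) (by positivity)
      · exact le_rfl
    · rw [if_pos h1]
      exact le_add_of_nonneg_of_le
        (num_cell_nonneg hT.le hL (by positivity) hφ le_rfl (by positivity))
        (num_cell_mono hT.le hL (by positivity) hφ m0 m1 h2 h3)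
  unfold totB
  calc _ ≤ C * (ε / (4 * C) * Γ + (ε / (4 * C) * Γ + (ε / (4 * C) * Γ + ε / (4 * C) * Γ))) := by
        gcongr ?_ * (?_ + (?_ + ?_))
    _ = _ := by
        field_simp
        ring

end Crest.Agent.R106
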