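import Crest.Agent.R106.NumA

/-!
# Row 106: numerology: the cells where the meeting lemma applies

`x = Γ/Q`, `p = 2^j ≤ Q`, `θ = 2/2^k`, `T = Del c₀ Q Γ`, `ϱ = T/Del c₀ Q p`; `1/φ₀ = 10 x^{-3/8}`.
* `rB = p √(Cm θ T (1 + ϱ)) ≤ √(Cm θ) (p √T + p √(T ϱ))`; `∑ p √T ≤ 2Q√T ≤ 2√c₀ Γ`;
  `p √(Tϱ) ≤ T/√c₀ (Q + √L Q^{15/16} p^{1/16})`, and summing over `j` (`N ≤ 5L`, geometric sum):
  `T Q L/√c₀ ≤ √c₀ Γ`, `T √L Q/√c₀ ≤ √c₀ Γ`.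
* first term of `jB`: `(Cm θ)^{1/4} (T L³)^{1/4} p (1 + ϱ)^{1/4}`, `p (1 + ϱ)^{1/4} ≤ 2p + 2√(pΓ)` (`Del_mono`,
  `Del_ratio`), the sum over `j` is `≤ C Q`; `T^{3/4} L^{3/4} Q/φ₀ ≤ 10 c₀^{3/4} x^{33/32} Q ≤ 10 c₀^{3/4} Γ`.
* second term `0`; third term: `T √L p² θ/(φ₀ Q⁵) ≤ 10 c₀ p²θ/Q⁵`, and `Γ ≥ 1`.

-/

set_option autoImplicit false

noncomputable section

namespace Crest.Agent.R106

open MeasureTheory Set Metric Real Filter Topology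
open scoped ContDiff ENNReal RealInnerProductSpace Classical
open Crest.AnalysisR.VecCalc3 Crest.AnalysisR.PDE.RVM

theorem numC_root {X Y : ℝ} (hX : 0 ≤ X) (hY : 0 ≤ Y) (h : X ≤ Y ^ 4) : X ^ (1 / 4 : ℝ) ≤ Y := by
  have h1 : X ^ (1 / 4 : ℝ) ≤ (Y ^ 4) ^ (1 / 4 : ℝ) := Real.rpow_le_rpow hX h (by norm_num)
  have h2 : (Y ^ 4) ^ (1 / 4 : ℝ) = Y := by
    rw [← Real.rpow_natCast, ← Real.rpow_mul hY]; norm_num
  rwa [h2] at h1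

theorem numC_pow {x : ℝ} (hx : 0 ≤ x) (a b : ℝ) (n : ℕ) (h : a * n = b) : (x ^ a) ^ n = x ^ b := by
  rw [← Real.rpow_natCast, ← Real.rpow_mul hx, h]

theorem numC_cell {s m z r t Q T ϱ p : ℝ} (hs : 0 < s) (hs1 : s ≤ 1) (hm : 0 < m) (hz : 0 < z)
    (hz1 : z ≤ 1) (hr : 0 < r) (hr1 : r ≤ 1) (ht : 0 < t) (ht2 : t ≤ 2) (hQ : 1 ≤ Q) (hT : 0 < T)
    (hL : 1 ≤ Lg Q) (hTL : T * Lg Q ≤ s ^ 2 * z ^ 15) (hT2 : T ≤ s ^ 2 * z ^ 16)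
    (hp : p = Q * r ^ 16) (hϱ0 : 0 ≤ ϱ) (hϱ1 : ϱ ≤ 1 + (Q / p) ^ 2)
    (hϱ2 : ϱ = T * ((Q / p) ^ 2 + Lg Q / r ^ 30) / s ^ 2) :
    √T / (z ^ 3 / 10) * jB T Q p (t ^ 4) 0 (m ^ 4 * (1 + ϱ) / (p * t ^ 4)) +
        rB T p (t ^ 4) 0 (m ^ 4 * (1 + ϱ) / (p * t ^ 4)) ≤
      t * (s * z ^ 8 * Q * (20 * m + 80 + 4 * m ^ 2) * r + 2 * m ^ 2 * T * Q / s) := by
  have hp0 : 0 < p := by rw [hp]; positivity
  have hQ0 : 0 < Q := by linarith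
  unfold jB rB
  generalize Lg Q = L at *
  have hL0 : 0 < L := by linarith
  have hR : 0 < √T := Real.sqrt_pos.2 hT
  have hR2 : √T ^ 2 = T := Real.sq_sqrt hT.le
  have hR4 : √T ^ 4 = T ^ 2 := by rw [show √T ^ 4 = (√T ^ 2) ^ 2 by ring, hR2]
  have hpQ : p ≤ Q * r := by
    rw [hp]
    exact mul_le_mul_of_nonneg_left (pow_le_of_le_one hr.le hr1 (by norm_num)) hQ0.le
  have hpQ' : p ≤ Q := hpQ.trans (mul_le_of_le_one_right hQ0.le hr1)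
  have hpQ2 : p ≤ Q * r ^ 2 := by
    rw [hp]
    exact mul_le_mul_of_nonneg_left (pow_le_pow_of_le_one hr.le hr1 (by norm_num)) hQ0.le
  have hs2 : s ^ 2 ≤ 1 := pow_le_one₀ hs.le hs1
  rw [mul_zero, mul_zero, Real.zero_rpow (by norm_num), Real.zero_rpow (by norm_num), add_zero,
    add_zero]
  -- first term
  have a1 : (T * p ^ 5 * (t ^ 4) ^ 2 * L ^ 3 * (m ^ 4 * (1 + ϱ) / (p * t ^ 4))) ^ (1 / 4 : ℝ) ≤
      2 * s * m * z ^ 11 * (Q * r) * t / √T := by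
    refine numC_root (by positivity) (by positivity) ?_
    have e1 : T * p ^ 5 * (t ^ 4) ^ 2 * L ^ 3 * (m ^ 4 * (1 + ϱ) / (p * t ^ 4)) =
        (T * L) ^ 3 * (p ^ 4 * (1 + ϱ)) * (m ^ 4 * t ^ 4) / T ^ 2 := by field_simp
    have e2 : (2 * s * m * z ^ 11 * (Q * r) * t / √T) ^ 4 =
        (s ^ 4 * z ^ 44) * (16 * (Q * r) ^ 4) * (m ^ 4 * t ^ 4) / T ^ 2 := by
      rw [div_pow, hR4]; ring
    have b1 : (T * L) ^ 3 ≤ s ^ 4 * z ^ 44 := by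
      calc (T * L) ^ 3 ≤ (s ^ 2 * z ^ 15) ^ 3 := pow_le_pow_left₀ (by positivity) hTL 3
        _ = s ^ 4 * z ^ 44 * (s ^ 2 * z) := by ring
        _ ≤ s ^ 4 * z ^ 44 := mul_le_of_le_one_right (by positivity) (mul_le_one₀ hs2 hz.le hz1)
    have b2 : p ^ 4 * (1 + ϱ) ≤ 16 * (Q * r) ^ 4 := by
      have c1 : p ^ 4 ≤ (Q * r) ^ 4 := pow_le_pow_left₀ hp0.le hpQ 4
      have c2 : p ^ 2 ≤ (Q * r ^ 2) ^ 2 := pow_le_pow_left₀ hp0.le hpQ2 2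
      have c3 : p ^ 2 * Q ^ 2 ≤ (Q * r) ^ 4 :=
        (mul_le_mul_of_nonneg_right c2 (by positivity)).trans (le_of_eq (by ring))
      have c4 : 0 ≤ (Q * r) ^ 4 := by positivity
      calc p ^ 4 * (1 + ϱ) ≤ p ^ 4 * (1 + (1 + (Q / p) ^ 2)) :=
            mul_le_mul_of_nonneg_left (by linarith) (by positivity)
        _ = 2 * p ^ 4 + p ^ 2 * Q ^ 2 := by field_simp; ring
        _ ≤ 16 * (Q * r) ^ 4 := by linarith
    rw [e1, e2]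
    gcongr
  -- third term
  have b3 : T ^ 2 * L ≤ s ^ 4 * z ^ 30 := by
    calc T ^ 2 * L ≤ T ^ 2 * L * L := le_mul_of_one_le_right (by positivity) hL
      _ = (T * L) ^ 2 := by ring
      _ ≤ (s ^ 2 * z ^ 15) ^ 2 := pow_le_pow_left₀ (by positivity) hTL 2
      _ = s ^ 4 * z ^ 30 := by ring
  have a3 : √(T * p ^ 4 * (t ^ 4) ^ 2 * L / Q ^ 10) ≤ 8 * s * z ^ 11 * (Q * r) * t / √T := by
    refine Real.sqrt_le_iff.2 ⟨by positivity, ?_⟩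
    have e1 : T * p ^ 4 * (t ^ 4) ^ 2 * L / Q ^ 10 =
        (T ^ 2 * L) * (p ^ 2 * (p ^ 2 / Q ^ 10)) * (t ^ 2 * t ^ 6) / T := by field_simp
    have e2 : (8 * s * z ^ 11 * (Q * r) * t / √T) ^ 2 =
        (s ^ 2 * z ^ 22) * ((Q * r) ^ 2 * 1) * (t ^ 2 * 2 ^ 6) / T := by
      rw [div_pow, hR2]; ring
    have b1 : T ^ 2 * L ≤ s ^ 2 * z ^ 22 := by
      calc T ^ 2 * L ≤ s ^ 4 * z ^ 30 := b3
        _ = s ^ 2 * z ^ 22 * (s ^ 2 * z ^ 8) := by ring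
        _ ≤ s ^ 2 * z ^ 22 := mul_le_of_le_one_right (by positivity)
            (mul_le_one₀ hs2 (by positivity) (pow_le_one₀ hz.le hz1))
    have b2 : p ^ 2 / Q ^ 10 ≤ 1 := by
      rw [div_le_one (by positivity)]
      exact (pow_le_pow_left₀ hp0.le hpQ' 2).trans (pow_le_pow_right₀ hQ (by norm_num))
    rw [e1, e2]
    gcongr
  -- the geometric term
  have a4 : √(T * p ^ 3 * (t ^ 4) ^ 2 * (m ^ 4 * (1 + ϱ) / (p * t ^ 4))) ≤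
      2 * m ^ 2 * t * (2 * s * z ^ 8 * (Q * r) + T * Q / s) := by
    refine Real.sqrt_le_iff.2 ⟨by positivity, ?_⟩
    have e1 : T * p ^ 3 * (t ^ 4) ^ 2 * (m ^ 4 * (1 + ϱ) / (p * t ^ 4)) =
        (m ^ 4 * t ^ 2) * t ^ 2 *
          (T * p ^ 2 + (T * Q / s) ^ 2 + T ^ 2 * L / s ^ 2 * (Q * r) ^ 2) := by
      rw [hϱ2, hp]; field_simp; ring
    have b1 : T * p ^ 2 ≤ (s * z ^ 8 * (Q * r)) ^ 2 := by
      calc T * p ^ 2 ≤ s ^ 2 * z ^ 16 * (Q * r) ^ 2 := by gcongr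
        _ = _ := by ring
    have b2 : T ^ 2 * L / s ^ 2 * (Q * r) ^ 2 ≤ (s * z ^ 8 * (Q * r)) ^ 2 := by
      have c1 : T ^ 2 * L / s ^ 2 ≤ s ^ 2 * z ^ 16 := by
        rw [div_le_iff₀ (by positivity)]
        calc T ^ 2 * L ≤ s ^ 4 * z ^ 30 := b3
          _ ≤ s ^ 4 * z ^ 16 :=
            mul_le_mul_of_nonneg_left (pow_le_pow_of_le_one hz.le hz1 (by norm_num)) (by positivity)
          _ = _ := by ring
      calc T ^ 2 * L / s ^ 2 * (Q * r) ^ 2 ≤ s ^ 2 * z ^ 16 * (Q * r) ^ 2 := by gcongr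
        _ = _ := by ring
    have b4 : t ^ 2 ≤ 2 ^ 2 := pow_le_pow_left₀ ht.le ht2 2
    have hA : 0 ≤ s * z ^ 8 * (Q * r) := by positivity
    have hB : 0 ≤ T * Q / s := by positivity
    have e2 : (2 * m ^ 2 * t * (2 * s * z ^ 8 * (Q * r) + T * Q / s)) ^ 2 =
        (m ^ 4 * t ^ 2) * 2 ^ 2 * (2 * (s * z ^ 8 * (Q * r)) + T * Q / s) ^ 2 := by ring
    have b5 : T * p ^ 2 + (T * Q / s) ^ 2 + T ^ 2 * L / s ^ 2 * (Q * r) ^ 2 ≤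
        (2 * (s * z ^ 8 * (Q * r)) + T * Q / s) ^ 2 := by
      generalize s * z ^ 8 * (Q * r) = A at *
      generalize T * Q / s = B at *
      nlinarith [mul_nonneg hA hB, sq_nonneg A]
    rw [e1, e2]
    gcongr
  calc _ ≤ √T / (z ^ 3 / 10) * (2 * s * m * z ^ 11 * (Q * r) * t / √T +
        8 * s * z ^ 11 * (Q * r) * t / √T) +
        2 * m ^ 2 * t * (2 * s * z ^ 8 * (Q * r) + T * Q / s) := by gcongr
    _ = _ := by field_simp; ring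

theorem num_C {Cm ε : ℝ} (hCm : 0 < Cm) (hε : 0 < ε) : ∃ c₁, 0 < c₁ ∧
    ∀ (c₀ Q Γ : ℝ) (N : ℕ), 0 < c₀ → c₀ ≤ c₁ → 2 ≤ Q → 1 ≤ Γ → Γ ≤ Q → (2 : ℝ) ^ N ≤ 2 * Q →
      ∑ j ∈ Finset.range N, ∑ k ∈ Finset.range (N + 2),
        (√(Del c₀ Q Γ) / phi0 Q Γ * jB (Del c₀ Q Γ) Q (2 ^ j) (2 / 2 ^ k) 0
            (Cm * (1 + Del c₀ Q Γ / Del c₀ Q (2 ^ j)) / (2 ^ j * (2 / 2 ^ k))) +
          rB (Del c₀ Q Γ) (2 ^ j) (2 / 2 ^ k) 0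
            (Cm * (1 + Del c₀ Q Γ / Del c₀ Q (2 ^ j)) / (2 ^ j * (2 / 2 ^ k)))) ≤ ε * Γ := by
  obtain ⟨C₁, hC₁, h₁⟩ := sum_up (a := 1 / 16) (by norm_num)
  obtain ⟨C₂, hC₂, h₂⟩ := sum_down (a := 1 / 4) (by norm_num)
  obtain ⟨m, hm, hm4⟩ : ∃ m : ℝ, 0 < m ∧ m ^ 4 = Cm :=
    ⟨Cm ^ (1 / 4 : ℝ), by positivity, by rw [numC_pow hCm.le _ 1 4 (by norm_num), Real.rpow_one]⟩
  set K : ℝ := 20 * m + 80 + 4 * m ^ 2 with hK
  have hK0 : 0 < K := by positivity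
  set W : ℝ := C₂ * (K * C₁ + 10 * m ^ 2) with hW
  have hW0 : 0 < W := by positivity
  refine ⟨min 1 ((ε / W) ^ 2), by positivity, fun c₀ Q Γ N hc hc1 hQ hΓ hΓQ hN => ?_⟩
  have hQ1 : 1 ≤ Q := by linarith
  have hQ0 : 0 < Q := by linarith
  have hΓ0 : 0 < Γ := by linarith
  obtain ⟨s, hs, rfl⟩ : ∃ s : ℝ, 0 < s ∧ s ^ 2 = c₀ := ⟨√c₀, Real.sqrt_pos.2 hc, Real.sq_sqrt hc.le⟩
  have hs1 : s ≤ 1 := by
    have := hc1.trans (min_le_left _ _)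
    nlinarith
  have hsε : s ≤ ε / W :=
    (abs_le_of_sq_le_sq' (hc1.trans (min_le_right _ _)) (by positivity)).2
  have hx : 0 < Γ / Q := by positivity
  have hx1 : Γ / Q ≤ 1 := (div_le_one hQ0).2 hΓQ
  have hL : 1 ≤ Lg Q := by
    have := Real.log_nonneg hQ1
    unfold Lg; linarith
  have hT := Del_pos hc hQ1 hΓ0
  obtain ⟨hT2, hTL⟩ := Del_le hc hQ1 hΓ0
  rw [le_div_iff₀ (by linarith)] at hTL
  set z : ℝ := (Γ / Q) ^ (1 / 8 : ℝ) with hz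
  have hz0 : 0 < z := by positivity
  have hz1 : z ≤ 1 := Real.rpow_le_one hx.le hx1 (by norm_num)
  have z8 : z ^ 8 = Γ / Q := by rw [hz, numC_pow hx.le _ 1 8 (by norm_num), Real.rpow_one]
  have z3 : phi0 Q Γ = z ^ 3 / 10 := by rw [hz, numC_pow hx.le _ (3 / 8) 3 (by norm_num), phi0]
  have z15 : (Γ / Q) ^ (15 / 8 : ℝ) = z ^ 15 := by
    rw [hz, numC_pow hx.le _ (15 / 8) 15 (by norm_num)]
  have z16 : (Γ / Q) ^ 2 = z ^ 16 := by rw [← z8]; ring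
  rw [z15] at hTL
  rw [z16] at hT2
  have hpQ : ∀ j ∈ Finset.range N, (2 : ℝ) ^ j ≤ Q := by
    intro j hj
    have h1 : (2 : ℝ) ^ (j + 1) ≤ 2 ^ N :=
      pow_le_pow_right₀ (by norm_num) (Finset.mem_range.1 hj)
    rw [pow_succ] at h1
    linarith
  have hr : ∑ j ∈ Finset.range N, ((2 : ℝ) ^ j / Q) ^ (1 / 16 : ℝ) ≤ C₁ := by
    have h1 := h₁ N Q hQ0
    have h2 : 0 < Q ^ (1 / 16 : ℝ) := by positivity
    rw [← div_le_iff₀ h2, Finset.sum_div] at h1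
    refine le_trans (le_of_eq (Finset.sum_congr rfl fun j hj => ?_)) h1
    rw [if_pos (hpQ j hj), Real.div_rpow (by positivity) hQ0.le]
  have hcell : ∀ j ∈ Finset.range N, ∀ k ∈ Finset.range (N + 2),
      √(Del (s ^ 2) Q Γ) / phi0 Q Γ * jB (Del (s ^ 2) Q Γ) Q (2 ^ j) (2 / 2 ^ k) 0
            (Cm * (1 + Del (s ^ 2) Q Γ / Del (s ^ 2) Q (2 ^ j)) / (2 ^ j * (2 / 2 ^ k))) +
          rB (Del (s ^ 2) Q Γ) (2 ^ j) (2 / 2 ^ k) 0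
            (Cm * (1 + Del (s ^ 2) Q Γ / Del (s ^ 2) Q (2 ^ j)) / (2 ^ j * (2 / 2 ^ k))) ≤
        (s * z ^ 8 * Q * K * ((2 : ℝ) ^ j / Q) ^ (1 / 16 : ℝ) +
          2 * m ^ 2 * Del (s ^ 2) Q Γ * Q / s) * ((2 : ℝ) / 2 ^ k) ^ (1 / 4 : ℝ) := by
    intro j hj k _
    have hp : (0 : ℝ) < 2 ^ j := by positivity
    have hθ : (0 : ℝ) < 2 / 2 ^ k := by positivity
    have hθ2 : (2 : ℝ) / 2 ^ k ≤ 2 := div_le_self (by norm_num) (one_le_pow₀ (by norm_num))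
    have hpq := hpQ j hj
    generalize (2 : ℝ) ^ j = p at *
    generalize (2 : ℝ) / 2 ^ k = θ at *
    have hy : 0 < p / Q := by positivity
    have hy1 : p / Q ≤ 1 := (div_le_one hQ0).2 hpq
    have t4 : (θ ^ (1 / 4 : ℝ)) ^ 4 = θ := by
      rw [numC_pow hθ.le _ 1 4 (by norm_num), Real.rpow_one]
    have t2 : θ ^ (1 / 4 : ℝ) ≤ 2 := numC_root hθ.le (by norm_num) (by linarith)
    have r16 : ((p / Q) ^ (1 / 16 : ℝ)) ^ 16 = p / Q := by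
      rw [numC_pow hy.le _ 1 16 (by norm_num), Real.rpow_one]
    have r30 : ((p / Q) ^ (1 / 16 : ℝ)) ^ 30 = ((Q / p) ^ (15 / 8 : ℝ))⁻¹ := by
      rw [numC_pow hy.le _ (15 / 8) 30 (by norm_num), ← Real.inv_rpow (by positivity), inv_div]
    have hDp := Del_pos hc hQ1 hp
    have hϱ1 : Del (s ^ 2) Q Γ / Del (s ^ 2) Q p ≤ 1 + (Q / p) ^ 2 := by
      rcases le_total p Γ with h | h
      · have h1 := Del_ratio hc hQ1 hp h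
        have h2 : (Γ / p) ^ 2 ≤ (Q / p) ^ 2 := by gcongr
        linarith
      · have h1 := (div_le_one hDp).2 (Del_mono hc hQ1 hΓ0 h)
        have h2 := sq_nonneg (Q / p)
        linarith
    have hϱ2 : Del (s ^ 2) Q Γ / Del (s ^ 2) Q p = Del (s ^ 2) Q Γ *
        ((Q / p) ^ 2 + Lg Q / ((p / Q) ^ (1 / 16 : ℝ)) ^ 30) / s ^ 2 := by
      rw [r30, div_inv_eq_mul]
      generalize Del (s ^ 2) Q Γ = T
      rw [Del, div_div_eq_mul_div]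
    have key := numC_cell (t := θ ^ (1 / 4 : ℝ)) (r := (p / Q) ^ (1 / 16 : ℝ)) (p := p) hs hs1 hm hz0
      hz1 (by positivity) (Real.rpow_le_one hy.le hy1 (by norm_num)) (by positivity) t2 hQ1 hT hL hTL
      hT2 (by rw [r16]; field_simp) (div_nonneg hT.le hDp.le) hϱ1 hϱ2
    rw [t4, hm4, ← z3, ← hK] at key
    exact key.trans (le_of_eq (mul_comm _ _))
  have hNL := N_le hQ hN
  generalize Del (s ^ 2) Q Γ = T at hT hT2 hTL hcell ⊢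
  have hNT : (N : ℝ) * T ≤ 5 * (s ^ 2 * z ^ 8) := by
    have h1 : z ^ 15 ≤ z ^ 8 := pow_le_pow_of_le_one hz0.le hz1 (by norm_num)
    calc (N : ℝ) * T ≤ 5 * Lg Q * T := mul_le_mul_of_nonneg_right (by linarith) hT.le
      _ = 5 * (T * Lg Q) := by ring
      _ ≤ 5 * (s ^ 2 * z ^ 15) := by linarith
      _ ≤ 5 * (s ^ 2 * z ^ 8) := by gcongr
  have hΓz : Γ = z ^ 8 * Q := by rw [z8]; field_simp
  refine (Finset.sum_le_sum fun j hj => Finset.sum_le_sum (hcell j hj)).trans ?_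
  rw [← Finset.sum_mul_sum, Finset.sum_add_distrib, ← Finset.mul_sum, Finset.sum_const,
    Finset.card_range, nsmul_eq_mul]
  have f1 : s * z ^ 8 * Q * K * ∑ j ∈ Finset.range N, ((2 : ℝ) ^ j / Q) ^ (1 / 16 : ℝ) ≤
      s * z ^ 8 * Q * K * C₁ := mul_le_mul_of_nonneg_left hr (by positivity)
  have f2 : (N : ℝ) * (2 * m ^ 2 * T * Q / s) ≤ s * z ^ 8 * Q * (10 * m ^ 2) := by
    calc (N : ℝ) * (2 * m ^ 2 * T * Q / s) = (N * T) * (2 * m ^ 2 * Q / s) := by ring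
      _ ≤ 5 * (s ^ 2 * z ^ 8) * (2 * m ^ 2 * Q / s) := mul_le_mul_of_nonneg_right hNT (by positivity)
      _ = _ := by field_simp; ring
  calc _ ≤ (s * z ^ 8 * Q * K * C₁ + s * z ^ 8 * Q * (10 * m ^ 2)) * C₂ :=
        mul_le_mul (add_le_add f1 f2) (h₂ _) (Finset.sum_nonneg fun k _ => by positivity)
          (by positivity)
    _ = s * W * Γ := by rw [hW]; conv_rhs => rw [hΓz]
                        ring
    _ ≤ ε * Γ := mul_le_mul_of_nonneg_right ((le_div_iff₀ hW0).1 hsε) hΓ0.le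

end Crest.Agent.R106
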