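import Crest.Agent.R106.SIBP

/-!
# Row 106: integrals over the unit sphere

`sph_ang`: `Crest.Agent.R068.lintegral_hatbox` for the unit vector `b/‖b‖` (the sphere measure is carried by
unit vectors), then the substitution `φ = √(2(1 - ‖b‖ z))`, `dz = φ dφ/‖b‖`.  The other lemmas: if
`‖w‖ ≤ 1/2` the angle is `≥ 1` and a crude bound suffices (`sphereMeasure_univ`); otherwise use `sph_ang`
(the lower limit is `≥ 1/Q`).

-/

set_option autoImplicit false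

noncomputable section

namespace Crest.Agent.R106

open MeasureTheory Set Metric Real Filter Topology
open scoped ContDiff ENNReal RealInnerProductSpace Classical
open Crest.AnalysisR.VecCalc3 Crest.AnalysisR.PDE.RVM

/-- the sphere measure -/
abbrev σ2 : Measure R3 := Crest.AnalysisR.PDE.Boltzmann.sphereMeasure

theorem ae_sphere : ∀ᵐ n ∂σ2, ‖n‖ = 1 := by
  rw [σ2, Crest.AnalysisR.PDE.Boltzmann.sphereMeasure, Crest.Agent.R068.sph_emb.ae_map_iff]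
  exact Eventually.of_forall fun x => by simp

/-- change of variables `z ↦ √(2(1 - ‖b‖ z))` in the hat-box formula -/
theorem sph_ang {b : R3} (hb0 : b ≠ 0) (hb : ‖b‖ ≤ 1) {F : ℝ → ℝ≥0∞} (hF : Measurable F) :
    ∫⁻ n, F (ang n b) ∂σ2 ≤ ENNReal.ofReal (2 * π / ‖b‖) *
        ∫⁻ φ in Icc (√(2 * (1 - ‖b‖))) 2, F φ * ENNReal.ofReal φ := by
  have hβ : 0 < ‖b‖ := norm_pos_iff.2 hb0
  have hn : ‖‖b‖⁻¹ • b‖ = 1 := norm_smul_inv_norm hb0
  have hG : Measurable fun z : ℝ => F (√(2 * (1 - ‖b‖ * z))) := hF.comp (by fun_prop)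
  have h1 := Crest.Agent.R068.lintegral_hatbox hn hG
  have e1 : ∀ n : R3, ang n b = √(2 * (1 - ‖b‖ * ⟪‖b‖⁻¹ • b, n⟫)) := fun n => by
    rw [ang, gap, real_inner_smul_left, ← mul_assoc, mul_inv_cancel₀ hβ.ne', one_mul,
      real_inner_comm]
  simp only [e1]
  rw [h1]
  have ha : 0 ≤ √(2 * (1 - ‖b‖)) := Real.sqrt_nonneg _
  have h2 := lintegral_image_eq_lintegral_abs_deriv_mul (s := Icc (√(2 * (1 - ‖b‖))) 2)
    (f := fun φ : ℝ => (1 - φ ^ 2 / 2) / ‖b‖) (f' := fun φ => -φ / ‖b‖) measurableSet_Icc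
    (fun φ _ => by
      have := ((((hasDerivAt_pow 2 φ).div_const 2).const_sub 1).div_const ‖b‖).hasDerivWithinAt
        (s := Icc (√(2 * (1 - ‖b‖))) 2)
      refine this.congr_deriv ?_
      norm_num)
    (fun x hx y hy h => by
      have h3 : x ^ 2 = y ^ 2 := by
        have := (div_left_inj' hβ.ne').1 h
        linarith
      exact (pow_left_inj₀ (ha.trans hx.1) (ha.trans hy.1) two_ne_zero).1 h3)
    (fun z : ℝ => F (√(2 * (1 - ‖b‖ * z))))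
  have hsub : Ioo (-1 : ℝ) 1 ⊆
      (fun φ : ℝ => (1 - φ ^ 2 / 2) / ‖b‖) '' Icc (√(2 * (1 - ‖b‖))) 2 := fun z hz => by
    have h3 : ‖b‖ * z ≤ ‖b‖ := mul_le_of_le_one_right hβ.le hz.2.le
    have h4 : -1 ≤ ‖b‖ * z := by nlinarith [hz.1]
    refine ⟨√(2 * (1 - ‖b‖ * z)), ⟨Real.sqrt_le_sqrt (by linarith),
      Real.sqrt_le_iff.2 ⟨by norm_num, by linarith⟩⟩, ?_⟩
    simp only
    rw [Real.sq_sqrt (by linarith)]
    field_simp
    ring
  refine (mul_le_mul_right ((lintegral_mono_set hsub).trans h2.le) _).trans (le_of_eq ?_)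
  rw [div_eq_mul_inv (2 * π), ENNReal.ofReal_mul (by positivity : 0 ≤ 2 * π), mul_assoc,
    ← lintegral_const_mul' _ _ (ENNReal.ofReal_ne_top (r := ‖b‖⁻¹))]
  congr 1
  refine setLIntegral_congr_fun measurableSet_Icc fun φ hφ => ?_
  have h0 : 0 ≤ φ := ha.trans hφ.1
  have e2 : 2 * (1 - ‖b‖ * ((1 - φ ^ 2 / 2) / ‖b‖)) = φ ^ 2 := by
    field_simp
    ring
  rw [e2, Real.sqrt_sq h0, abs_div, abs_neg, abs_of_nonneg h0, abs_of_pos hβ, div_eq_inv_mul,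
    ENNReal.ofReal_mul (by positivity)]
  ring

theorem PolS_gen {w : R3} (hw : ‖w‖ ≤ 1) {f : ℝ → ℝ} (hf : Measurable f) {a M : ℝ}
    (ha : a ≤ √(2 * (1 - ‖w‖))) (h1 : ∀ φ, 1 ≤ φ → f φ ≤ M)
    (h2 : ∫⁻ φ in Icc a 2, ENNReal.ofReal (f φ * φ) ≤ ENNReal.ofReal M) :
    ∫⁻ n, ENNReal.ofReal (f (ang n w)) ∂σ2 ≤ ENNReal.ofReal (4 * π * M) := by
  rw [ENNReal.ofReal_mul (by positivity)]
  by_cases h : ‖w‖ ≤ 1 / 2
  · calc ∫⁻ n, ENNReal.ofReal (f (ang n w)) ∂σ2 ≤ ∫⁻ _, ENNReal.ofReal M ∂σ2 := by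
          refine lintegral_mono_ae (ae_sphere.mono fun n hn => ENNReal.ofReal_le_ofReal (h1 _ ?_))
          have := inv_le_ang (w := w) hn.le one_pos (by linarith)
          rwa [div_one] at this
      _ = _ := by rw [lintegral_const, σ2, Crest.Agent.R068.sphereMeasure_univ, mul_comm]
  · have h' : 1 / 2 < ‖w‖ := not_le.1 h
    have h0 : w ≠ 0 := norm_pos_iff.1 (by linarith)
    refine (sph_ang h0 hw (F := fun φ => ENNReal.ofReal (f φ)) hf.ennreal_ofReal).trans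
      (mul_le_mul' (ENNReal.ofReal_le_ofReal ?_) (le_trans ?_ h2))
    · rw [div_le_iff₀ (by linarith)]
      nlinarith [pi_pos]
    · refine le_trans (le_of_eq ?_) (lintegral_mono_set (Icc_subset_Icc_left ha))
      refine setLIntegral_congr_fun measurableSet_Icc fun φ hφ => ?_
      rw [ENNReal.ofReal_mul' ((Real.sqrt_nonneg _).trans hφ.1)]

theorem PolS_box {g : ℝ → ℝ} {δ c : ℝ} (hc : 0 ≤ c) (h1 : ∀ φ, 0 ≤ φ → φ ≤ δ → g φ ≤ c)
    (h2 : ∀ φ, δ < φ → g φ ≤ 0) :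
    ∫⁻ φ in Icc 0 2, ENNReal.ofReal (g φ) ≤ ENNReal.ofReal (c * δ) := by
  calc ∫⁻ φ in Icc 0 2, ENNReal.ofReal (g φ)
      ≤ ∫⁻ φ in Icc 0 2, (Icc 0 δ).indicator (fun _ => ENNReal.ofReal c) φ := by
        refine setLIntegral_mono' measurableSet_Icc fun φ hφ => ?_
        by_cases h : φ ≤ δ
        · rw [indicator_of_mem (show φ ∈ Icc 0 δ from ⟨hφ.1, h⟩)]
          exact ENNReal.ofReal_le_ofReal (h1 φ hφ.1 h)
        · rw [ENNReal.ofReal_of_nonpos (h2 φ (not_le.1 h))]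
          exact bot_le
    _ ≤ ∫⁻ φ, (Icc 0 δ).indicator (fun _ => ENNReal.ofReal c) φ :=
        setLIntegral_le_lintegral _ _
    _ = _ := by
        rw [lintegral_indicator_const measurableSet_Icc, Real.volume_Icc, sub_zero,
          ENNReal.ofReal_mul hc]

theorem PolS_int {g g' : ℝ → ℝ} {a M : ℝ} (ha : a ≤ 2) (hg : ContinuousOn g' (Icc a 2))
    (h0 : ∀ φ ∈ Icc a 2, 0 ≤ g' φ) (he : ∀ φ ∈ Icc a 2, g φ = g' φ) (h : ∫ φ in a..2, g' φ ≤ M) :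
    ∫⁻ φ in Icc a 2, ENNReal.ofReal (g φ) ≤ ENNReal.ofReal M := by
  rw [setLIntegral_congr_fun measurableSet_Icc (g := fun φ => ENNReal.ofReal (g' φ))
    fun φ hφ => by simp only [he φ hφ],
    ← ofReal_integral_eq_lintegral_ofReal (hg.integrableOn_compact isCompact_Icc)
      ((ae_restrict_mem measurableSet_Icc).mono h0),
    integral_Icc_eq_integral_Ioc, ← intervalIntegral.integral_of_le ha]
  exact ENNReal.ofReal_le_ofReal h

theorem PolS_low {w : R3} {Q : ℝ} (hQ : 1 ≤ Q) (hw : ‖w‖ ≤ 1 - 1 / (2 * Q ^ 2)) :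
    ‖w‖ ≤ 1 ∧ 1 / Q ≤ √(2 * (1 - ‖w‖)) ∧ 0 < 1 / Q ∧ 1 / Q ≤ 2 := by
  have h1 : 0 < 1 / (2 * Q ^ 2) := by positivity
  refine ⟨by linarith, Real.le_sqrt_of_sq_le ?_, by positivity, ?_⟩
  · have : (1 / Q) ^ 2 = 2 * (1 / (2 * Q ^ 2)) := by field_simp
    linarith
  · rw [div_le_iff₀ (by linarith)]
    linarith

theorem sph_cap : ∃ C, 0 < C ∧ ∀ (w : R3) (δ : ℝ), ‖w‖ ≤ 1 → 0 < δ →
    ∫⁻ n, ENNReal.ofReal (if ang n w ≤ δ then 1 else 0) ∂σ2 ≤ ENNReal.ofReal (C * δ ^ 2) := by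
  refine ⟨4 * π, by positivity, fun w δ hw hδ => ?_⟩
  refine PolS_gen hw (f := fun φ => if φ ≤ δ then 1 else 0)
    (Measurable.ite measurableSet_Iic measurable_const measurable_const) (Real.sqrt_nonneg _)
    (fun φ hφ => ?_) ?_
  · split_ifs with h
    · nlinarith
    · positivity
  · rw [sq]
    refine PolS_box hδ.le (fun φ _ h => ?_) fun φ h => ?_
    · rwa [if_pos h, one_mul]
    · rw [if_neg (not_le.2 h), zero_mul]

theorem sph_cap_inv : ∃ C, 0 < C ∧ ∀ (w : R3) (δ : ℝ), ‖w‖ ≤ 1 → 0 < δ →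
    ∫⁻ n, ENNReal.ofReal (if ang n w ≤ δ then 1 / ang n w else 0) ∂σ2 ≤ ENNReal.ofReal (C * δ) := by
  refine ⟨4 * π, by positivity, fun w δ hw hδ => ?_⟩
  refine PolS_gen hw (f := fun φ => if φ ≤ δ then 1 / φ else 0)
    (Measurable.ite measurableSet_Iic (by fun_prop) measurable_const) (Real.sqrt_nonneg _)
    (fun φ hφ => ?_) ?_
  · split_ifs with h
    · rw [div_le_iff₀ (by linarith)]
      nlinarith
    · positivity
  · rw [← one_mul δ]
    refine PolS_box zero_le_one (fun φ _ h => ?_) fun φ h => ?_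
    · rw [one_mul, if_pos h, one_div]
      exact inv_mul_le_one
    · rw [one_mul, if_neg (not_le.2 h), zero_mul]

theorem sph_inv : ∃ C, 0 < C ∧ ∀ w : R3, ‖w‖ ≤ 1 →
    ∫⁻ n, ENNReal.ofReal (1 / ang n w) ∂σ2 ≤ ENNReal.ofReal C := by
  refine ⟨4 * π * 2, by positivity, fun w hw => ?_⟩
  refine PolS_gen hw (f := fun φ => 1 / φ) (by fun_prop) (Real.sqrt_nonneg _) (fun φ hφ => ?_) ?_
  · rw [div_le_iff₀ (by linarith)]
    linarith
  · calc ∫⁻ φ in Icc 0 2, ENNReal.ofReal (1 / φ * φ) ≤ ∫⁻ _ in Icc (0 : ℝ) 2, 1 :=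
          lintegral_mono fun φ => ENNReal.ofReal_le_one.2 (by rw [one_div]; exact inv_mul_le_one)
      _ = _ := by simp

theorem sph_inv_sq : ∃ C, 0 < C ∧ ∀ (w : R3) (Q : ℝ), 1 ≤ Q → ‖w‖ ≤ 1 - 1 / (2 * Q ^ 2) →
    ∫⁻ n, ENNReal.ofReal (1 / ang n w ^ 2) ∂σ2 ≤ ENNReal.ofReal (C * (1 + Real.log Q)) := by
  refine ⟨4 * π, by positivity, fun w Q hQ hw => ?_⟩
  obtain ⟨h1, h2, h3, h4⟩ := PolS_low hQ hw
  have hl : 0 ≤ Real.log Q := Real.log_nonneg hQ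
  refine PolS_gen h1 (f := fun φ => 1 / φ ^ 2) (by fun_prop) h2 (fun φ hφ => ?_) ?_
  · have : 1 / φ ^ 2 ≤ 1 := div_le_one_of_le₀ (one_le_pow₀ hφ) (by positivity)
    linarith
  · refine PolS_int (g' := fun φ => φ⁻¹) h4
      (continuousOn_inv₀.mono fun φ hφ => (h3.trans_le hφ.1).ne')
      (fun φ hφ => inv_nonneg.2 (h3.le.trans hφ.1)) (fun φ hφ => ?_) ?_
    · have := (h3.trans_le hφ.1).ne'
      field_simp
    · rw [integral_inv_of_pos h3 two_pos, div_div_eq_mul_div, div_one,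
        Real.log_mul two_ne_zero (by linarith)]
      linarith [Real.log_two_lt_d9]

theorem sph_inv_four : ∃ C, 0 < C ∧ ∀ (w : R3) (Q : ℝ), 1 ≤ Q → ‖w‖ ≤ 1 - 1 / (2 * Q ^ 2) →
    ∫⁻ n, ENNReal.ofReal (1 / ang n w ^ 4) ∂σ2 ≤ ENNReal.ofReal (C * Q ^ 2) := by
  refine ⟨4 * π, by positivity, fun w Q hQ hw => ?_⟩
  obtain ⟨h1, h2, h3, h4⟩ := PolS_low hQ hw
  refine PolS_gen h1 (f := fun φ => 1 / φ ^ 4) (by fun_prop) h2 (fun φ hφ => ?_) ?_
  · exact (div_le_one_of_le₀ (one_le_pow₀ hφ) (by positivity)).trans (one_le_pow₀ hQ)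
  · refine PolS_int (g' := fun φ => φ ^ (-3 : ℤ)) h4
      (continuousOn_id.zpow₀ _ fun φ hφ => Or.inl (h3.trans_le hφ.1).ne')
      (fun φ hφ => zpow_nonneg (h3.le.trans hφ.1) _) (fun φ hφ => ?_) ?_
    · have := (h3.trans_le hφ.1).ne'
      simp only [zpow_neg, zpow_ofNat]
      field_simp
    · rw [integral_zpow (Or.inr ⟨by norm_num, notMem_uIcc_of_lt h3 two_pos⟩)]
      have : (1 / Q) ^ ((-3 : ℤ) + 1) = Q ^ 2 := by
        rw [show (-3 : ℤ) + 1 = -2 by norm_num, zpow_neg, zpow_ofNat]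
        field_simp
      rw [this]
      norm_num
      nlinarith

end Crest.Agent.R106
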