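import Crest.Agent.R106.Mx
import Crest.Agent.R106.Du3
import Crest.Agent.R106.Cyl

/-!
# Row 106: the representation formula

For `t ≥ 0`, `(mx - dat).1 i = -Du (vint ∂_i f) - Du (cur (∂_t f) i)` (`pd_Du`, `pd_vint`, `pt_Du'`, `pd_cur`)
and `(mx - dat).2 = curl` of `Du (cur f ·)`.  Apply `pdx L` (`pdl_slice_congr`, `pdx_Du`, `pdx_vint`, `pd_pdl`,
`pdl_clm` for components), then `Du_vint` (the `y`-form and Fubini).

-/

set_option autoImplicit false

noncomputable section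

namespace Crest.Agent.R106

open MeasureTheory Set Metric Real Filter Topology
open scoped ContDiff ENNReal RealInnerProductSpace Classical
open Crest.AnalysisR.VecCalc3 Crest.AnalysisR.PDE.RVM

theorem Du_vint {g : TP → ℝ} (hg : Continuous g) (hs : LS g) {p : ST} (hp : 0 ≤ p.1) :
    Du (vint g) p = Pot k0 g p / (4 * π) := by
  obtain ⟨R, hR⟩ := hs p.1
  have hi : IntegrableOn (fun q => k0 q * g (cone p q)) (cyl p.1) :=
    ker_k0.kerB.int_mul (T := p.1) (P := R) hg.continuousOn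
      (fun r hr h0 => hR r ⟨by linarith [hr.1], hr.2⟩ h0) ⟨⟨hp, le_rfl⟩, mem_univ _⟩
  rw [Du_y _ hp, Pot, cyl, Measure.volume_eq_prod, setIntegral_prod _ hi]
  congr 1
  refine integral_congr_ae (Eventually.of_forall fun y => ?_)
  simp only [Measure.restrict_univ, vint]
  rw [← integral_const_mul]
  rfl

theorem rep_pdx_cur {f : TP → ℝ} (hf : ContDiff ℝ ∞ f) (hs : LS f) (L : List R3) (i : Fin 3) :
    pdx L (cur f i) = cur (pdX L f) i := by
  induction L with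
  | nil => rfl
  | cons u L ih =>
    show pd ((0 : ℝ), u) (pdx L (cur f i)) = cur (pd ((0 : ℝ), u, (0 : R3)) (pdX L f)) i
    rw [ih]
    exact pd_cur (contDiff_pdl hf _) (hs.pdl _) 0 u i

theorem rep_k0 {f : TP → ℝ} (hf : ContDiff ℝ ∞ f) (hs : LS f) (L : List R3) {p : ST} (hp : 0 ≤ p.1)
    (μ : TP) : pdx L (Du (vint (pd μ f))) p = Ret k0 μ (pdX L f) p / (4 * π) := by
  rw [pdx_Du (vint_contDiff (contDiff_pd hf μ) (hs.pd μ)), pdx_vint (contDiff_pd hf μ) (hs.pd μ),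
    pdX, ← pd_pdl hf, Du_vint (contDiff_pd (contDiff_pdl hf _) μ).continuous ((hs.pdl _).pd μ) hp]
  rfl

theorem rep_kv {f : TP → ℝ} (hf : ContDiff ℝ ∞ f) (hs : LS f) (L : List R3) {p : ST} (hp : 0 ≤ p.1)
    (μ : TP) (i : Fin 3) :
    pdx L (Du (cur (pd μ f) i)) p = Ret (kv i) μ (pdX L f) p / (4 * π) := by
  rw [pdx_Du (cur_contDiff (contDiff_pd hf μ) (hs.pd μ) i),
    rep_pdx_cur (contDiff_pd hf μ) (hs.pd μ), pdX, ← pd_pdl hf, cur,
    Du_vint ((contDiff_pd (contDiff_pdl hf _) μ).mul (pint_relVel i)).continuous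
      ((hs.pdl _).pd μ).mul hp]
  congr 1
  refine integral_congr_ae (Eventually.of_forall fun q => ?_)
  simp only [k0, kv, pd, pdX, cone]
  ring

theorem mx_rep {f₀ : Ph → ℝ} {K₀ : R3 → Ph} {f : TP → ℝ} (h : Adm f₀ K₀) (hf : ContDiff ℝ ∞ f)
    (hs : LS f) (h0 : ∀ z, f (0, z) = f₀ z) (L : List R3) {p : ST} (hp : 0 ≤ p.1) :
    RepAt (pdx L (dat K₀ f₀)) (pdx L (mx K₀ f)) (pdX L f) p := by
  obtain ⟨t, x⟩ := p
  have hm := contDiff_mx h.smoothK hf hs
  have hd := h.contDiff_dat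
  have sv : ∀ μ : TP, ContDiff ℝ ∞ (Du (vint (pd μ f))) := fun μ =>
    contDiff_Du (vint_contDiff (contDiff_pd hf μ) (hs.pd μ))
  have sc : ∀ (μ : TP) (i : Fin 3), ContDiff ℝ ∞ (Du (cur (pd μ f) i)) := fun μ i =>
    contDiff_Du (cur_contDiff (contDiff_pd hf μ) (hs.pd μ) i)
  refine ⟨fun i => ?_, fun i => ?_⟩
  · let A : Ph →L[ℝ] ℝ := (EuclideanSpace.proj i).comp (ContinuousLinearMap.fst ℝ R3 R3)
    have e1 : (pdx L (mx K₀ f) (t, x)).1 i = pdx L (fun r => A (mx K₀ f r)) (t, x) :=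
      (congrFun (pdl_clm A hm _) (t, x)).symm
    have e2 : (pdx L (dat K₀ f₀) (t, x)).1 i = pdx L (fun r => A (dat K₀ f₀ r)) (t, x) :=
      (congrFun (pdl_clm A hd _) (t, x)).symm
    have s2 : ContDiff ℝ ∞ fun r => A (dat K₀ f₀ r) := A.contDiff.comp hd
    have s3 := (sv (0, ee i, 0)).add (sc (1, 0, 0) i)
    have e3 : pdx L (fun r => A (mx K₀ f r)) (t, x) = pdx L (fun r => A (dat K₀ f₀ r) -
        (Du (vint (pd (0, ee i, 0) f)) r + Du (cur (pd (1, 0, 0) f) i) r)) (t, x) := by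
      refine pdl_slice_congr (A.contDiff.comp hm) (s2.sub s3) (fun z => ?_) L x
      have e4 : (fun r : ST => cur f i (0, r.2)) = cur (fun p => f₀ p.2) i := by
        funext r
        simp only [cur, vint, h0]
      have e5 := pt_Du' (cur_contDiff hf hs i) (p := (t, z)) hp
      rw [e4, pd_cur hf hs] at e5
      have e6 := pd_Du (vint_contDiff hf hs) (ee i)
      rw [pd_vint hf hs] at e6
      show pd (1, 0) (aE K₀ i) (t, z) + cu (bB K₀) i (t, z) - pd (0, ee i) (Du (vint f)) (t, z) -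
        pd (1, 0) (Du (cur f i)) (t, z) = pd (1, 0) (aE K₀ i) (t, z) + cu (bB K₀) i (t, z) -
          pd (1, 0) (Du (cur (fun p => f₀ p.2) i)) (t, z) - _
      rw [e5, e6]
      ring
    rw [e1, e2, e3, pdx, pdl_sub s2 s3, pdl_add (sv _) (sc _ _), add_div,
      ← rep_k0 hf hs L hp, ← rep_kv hf hs L hp]
    rfl
  · let A : Ph →L[ℝ] ℝ := (EuclideanSpace.proj i).comp (ContinuousLinearMap.snd ℝ R3 R3)
    have e1 : (pdx L (mx K₀ f) (t, x)).2 i = pdx L (fun r => A (mx K₀ f r)) (t, x) :=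
      (congrFun (pdl_clm A hm _) (t, x)).symm
    have e2 : (pdx L (dat K₀ f₀) (t, x)).2 i = pdx L (fun r => A (dat K₀ f₀ r)) (t, x) :=
      (congrFun (pdl_clm A hd _) (t, x)).symm
    have s2 : ContDiff ℝ ∞ fun r => A (dat K₀ f₀ r) := A.contDiff.comp hd
    have s3 := (sc (0, ee (i + 1), 0) (i + 2)).sub (sc (0, ee (i + 2), 0) (i + 1))
    have e3 : (fun r => A (mx K₀ f r)) = fun r => A (dat K₀ f₀ r) +
        (Du (cur (pd (0, ee (i + 1), 0) f) (i + 2)) r -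
          Du (cur (pd (0, ee (i + 2), 0) f) (i + 1)) r) := by
      funext r
      have e6 : ∀ (u : R3) (j : Fin 3), pd (0, u) (Du (cur f j)) = Du (cur (pd (0, u, 0) f) j) :=
        fun u j => by rw [pd_Du (cur_contDiff hf hs j), pd_cur hf hs]
      rw [← e6, ← e6]
      rfl
    rw [e1, e2, e3, pdx, pdl_add s2 s3, pdl_sub (sc _ _) (sc _ _), sub_div,
      ← rep_kv hf hs L hp, ← rep_kv hf hs L hp]
    rfl

theorem RepAt.sub {T P : ℝ} {Kd K Kd' K' : ST → Ph} {f f' : TP → ℝ} {p : ST} (hp : p ∈ slab R3 T)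
    (h : RepAt Kd K f p) (h' : RepAt Kd' K' f' p) (hf : ContDiffOn ℝ 1 f (slab Ph T))
    (hf' : ContDiffOn ℝ 1 f' (slab Ph T)) (vf : VS (Icc 0 T) P f) (vf' : VS (Icc 0 T) P f') :
    RepAt (fun r => Kd r - Kd' r) (fun r => K r - K' r) (fun r => f r - f' r) p := by
  have key : ∀ {a : Ph → ℝ}, KerB a → ∀ μ : TP,
      Ret a μ (fun r => f r - f' r) p = Ret a μ f p - Ret a μ f' p := by
    intro a ha μ
    have hb : ∀ R : ℝ, ∃ C, ∀ q : Ph, ‖q‖ ≤ R → ‖(fun _ : Ph => μ) q‖ ≤ C :=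
      fun _ => ⟨‖μ‖, fun _ _ => le_rfl⟩
    have i1 := ha.int_ret hf vf measurable_const hb hp
    have i2 := ha.int_ret hf' vf' measurable_const hb hp
    unfold Ret
    rw [← integral_sub i1 i2]
    refine setIntegral_congr_ae (measurableSet_cyl _) ?_
    filter_upwards [ae_ne_zero] with q hq hc
    have hn := slab_mem_nhds (cone_mem_open hp hc hq)
    rw [fderiv_fun_sub ((hf.contDiffAt hn).differentiableAt one_ne_zero)
      ((hf'.contDiffAt hn).differentiableAt one_ne_zero), sub_apply, mul_sub]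
  refine ⟨fun i => ?_, fun i => ?_⟩
  · show (K p).1 i - (K' p).1 i = (Kd p).1 i - (Kd' p).1 i - _
    rw [key ker_k0.kerB, key (ker_kv _).kerB, h.1 i, h'.1 i]
    ring
  · show (K p).2 i - (K' p).2 i = (Kd p).2 i - (Kd' p).2 i + _
    rw [key (ker_kv _).kerB, key (ker_kv _).kerB, h.2 i, h'.2 i]
    ring

end Crest.Agent.R106
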