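import Crest.Agent.R106.Inc
import Crest.Agent.R106.LayOK
import Crest.Agent.R106.Meet2
import Crest.Agent.R106.EstCells
import Crest.Agent.R106.EstV
import Crest.Agent.R106.Num

/-!
# Row 106: improving the bootstrap assumption

Constants in this order: `E'` (`lay_ok`), `C_V` (`est_V A E' Tm`), `C_I` (`inc`), `CM` (`num_M (C_I C_V)`), `C_E`
(`est_cells`), `Cm = Cm' + 4E'` (`meet_sol`), then `num_main` with `C = C_I (1 + C_E)`, `ε = 1/40`, and `num_A`.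
Given `z`, `s₀`, `Γ = pp (Z s₀ z).2 ∈ [G0 Q, Q]`, `T' = Del c₀ Q Γ`, `s₁ = min (s₀ + T') t`: `Boot (1/10)` gives
`Var … H (Γ/10)` and `Γ/2 ≤ pp` on `[s₀, s₁]` (`Var.dist_le`, `10 H ≤ G0 Q`).  Define `M₀, M₁` by cases: if
`G0 Q ≤ 2^j`, `50 H ≤ 2^j θ_k`, `50 H ≤ Γ θ_k` use `meet_sol`, `meet_of_meetT` (`2E'/p ≤ 4E'/(pθ)`), otherwise
`meet_energy`.  Then `∫⁻_{[s₀,s₁]} (C_I + C_I Is kt) ≤ ofReal (C_I T' + C_I C_E totB) ≤ ofReal (Γ/40)` (`I_eq`), and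
`var_of_inc` with `inc`, `est_V` gives `Var … η₀ (Γ/20)`; `η₀ ≤ H`.

-/

set_option autoImplicit false

noncomputable section

namespace Crest.Agent.R106

open MeasureTheory Set Metric Real Filter Topology
open scoped ContDiff ENNReal RealInnerProductSpace Classical
open Crest.AnalysisR.VecCalc3 Crest.AnalysisR.PDE.RVM

theorem step_totB {T Q φ η : ℝ} {N : ℕ} {M₀ M₁ : ℕ → ℕ → ℝ} (hT : 0 ≤ T) (hQ : 1 ≤ Q) (hφ : 0 ≤ φ)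
    (hη : 0 ≤ η) (h : ∀ j < N, ∀ k < N + 2, 0 ≤ M₀ j k ∧ 0 ≤ M₁ j k) : 0 ≤ totB T Q φ η N M₀ M₁ := by
  have hL : 0 ≤ Lg Q := zero_le_one.trans (NumA_Lg hQ)
  have hQ0 : 0 ≤ Q := zero_le_one.trans hQ
  unfold totB
  refine add_nonneg (by positivity) (Finset.sum_nonneg fun j hj => Finset.sum_nonneg fun k hk => ?_)
  obtain ⟨h0, h1⟩ := h j (Finset.mem_range.1 hj) k (Finset.mem_range.1 hk)
  exact num_cell_nonneg hT hL (by positivity) hφ h0 h1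

theorem step (A P₀ En Cd Tm : ℝ) : ∃ c₀ CM Q₀, 0 < c₀ ∧ 2 ≤ Q₀ ∧ ∀ Q, Q₀ ≤ Q →
    (1 ≤ HH CM Q ∧ 10 * HH CM Q ≤ G0 Q ∧ G0 Q ≤ Q / 2) ∧
    ∀ (T : ℝ) (f₀ : Ph → ℝ) (K₀ : R3 → Ph) (Kd : ST → Ph) (f : TP → ℝ) (K : ST → Ph)
      (Z : ℝ → Ph → Ph), CSet A P₀ En Cd Tm T f₀ K₀ Kd f K Z → ∀ t, t ≤ T → MomB f₀ Z t Q →
      Boot f₀ Z c₀ Q (HH CM Q) (1 / 10) t → Boot f₀ Z c₀ Q (HH CM Q) (1 / 20) t := by
  obtain ⟨E', hE', hlay⟩ := lay_ok A P₀ En Cd Tm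
  obtain ⟨CV, hCV, hV⟩ := est_V A E' Tm hE'.le
  obtain ⟨CI, hCI, hinc⟩ := inc A P₀ En Cd Tm
  obtain ⟨CM, hCM, hM⟩ := num_M (CI * CV)
  obtain ⟨CE, hCE, hcells⟩ := est_cells A E' Tm hE'.le
  obtain ⟨Cm', hCm', hmeet⟩ := meet_sol A P₀ En Cd Tm
  obtain ⟨c₀, Q₁, hc₀, hc₁, hQ₁, hnum⟩ := num_main (C := CI * (1 + CE)) (Cm := Cm' + 4 * E') (CM := CM)
    (ε := 1 / 40) (by positivity) (by positivity) hCM (by norm_num)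
  obtain ⟨Q₂, hQ₂, hA⟩ := num_A hCM hc₀ hc₁
  refine ⟨c₀, CM, max Q₁ Q₂, hc₀, le_max_of_le_left hQ₁, fun Q hQ => ?_⟩
  have hQ1 : Q₁ ≤ Q := (le_max_left _ _).trans hQ
  have hQ2 : 2 ≤ Q := hQ₁.trans hQ1
  have hQ3 : 1 ≤ Q := one_le_two.trans hQ2
  obtain ⟨a1, a2, a3, a4⟩ := hA Q ((le_max_right _ _).trans hQ)
  refine ⟨⟨a1, a2, a3⟩, fun T f₀ K₀ Kd f K Z hS t ht hmom hboot z hz s₀ hs₀ hG => ?_⟩
  have hΓQ : pp (Z s₀ z).2 ≤ Q := hmom z hz s₀ hs₀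
  have hvar := hboot z hz s₀ hs₀ hG
  have hΓ : 0 < pp (Z s₀ z).2 := pp_pos _
  have hpp : ∀ s, pp (Z s₀ z).2 - ‖(Z s z).2 - (Z s₀ z).2‖ ≤ pp (Z s z).2 := fun s => by
    have h1 := abs_pp_sub (Z s z).2 (Z s₀ z).2
    have h2 := neg_abs_le (pp (Z s z).2 - pp (Z s₀ z).2)
    linarith
  generalize pp (Z s₀ z).2 = Γ at hG hΓQ hvar hΓ hpp ⊢
  obtain ⟨b1, b2, b3, b4, b5, b6⟩ := a4 Γ hG hΓQ
  have hT' : 0 < Del c₀ Q Γ := Del_pos hc₀ hQ3 hΓ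
  have h01 : s₀ ≤ min (s₀ + Del c₀ Q Γ) t := le_min (by linarith) hs₀.2
  have h1t : min (s₀ + Del c₀ Q Γ) t ≤ t := min_le_right _ _
  have h1T : min (s₀ + Del c₀ Q Γ) t ≤ s₀ + Del c₀ Q Γ := min_le_left _ _
  generalize min (s₀ + Del c₀ Q Γ) t = s₁ at hvar h01 h1t h1T ⊢
  have hvar' : Var (fun τ => (Z τ z).2) s₀ s₁ (HH CM Q) (Γ / 10) :=
    hvar.mono le_rfl h01 le_rfl le_rfl (by linarith)
  have hhalf : ∀ s ∈ Icc s₀ s₁, Γ / 2 ≤ pp (Z s z).2 := fun s hs => by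
    have h1 := hvar'.dist_le (s := s₀) (s' := s) ⟨le_rfl, h01⟩ hs
    have h2 := hpp s
    linarith
  have hOK := hlay T f₀ K₀ Kd f K Z hS z s₀ s₁ (Del c₀ Q Γ) Q t hmom hz hs₀.1 h01 h1t ht h1T hT' b4 hQ2 b3
  obtain ⟨N, hN1, hN2⟩ := exists_N hQ3
  have hcell : ∀ j k : ℕ, ∃ M₀ M₁ : ℝ, 0 ≤ M₀ ∧ 0 ≤ M₁ ∧
      (ldOf f K (fun s => Z s z) s₀ s₁ (Del c₀ Q Γ) Q).Meet (2 ^ j) (2 / 2 ^ k) M₀ M₁ ∧
      ((M₀ = 0 ∧ M₁ ≤ (Cm' + 4 * E') * (1 + Del c₀ Q Γ / Del c₀ Q (2 ^ j)) / (2 ^ j * (2 / 2 ^ k))) ∨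
        (((2 : ℝ) ^ j < G0 Q ∨ 2 ^ j * (2 / 2 ^ k) < 50 * HH CM Q ∨ Γ * (2 / 2 ^ k) < 50 * HH CM Q) ∧
          M₀ ≤ (Cm' + 4 * E') * Del c₀ Q Γ / 2 ^ j ∧ M₁ ≤ (Cm' + 4 * E') / 2 ^ j)) := by
    intro j k
    have hp : (0 : ℝ) < 2 ^ j := by positivity
    have hθ : (0 : ℝ) < 2 / 2 ^ k := by positivity
    have hθ2 : (2 : ℝ) / 2 ^ k ≤ 2 := div_le_self zero_le_two (one_le_pow₀ one_le_two)
    generalize (2 : ℝ) ^ j = p at hp ⊢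
    generalize (2 : ℝ) / 2 ^ k = θ at hθ hθ2 ⊢
    by_cases hc : p < G0 Q ∨ p * θ < 50 * HH CM Q ∨ Γ * θ < 50 * HH CM Q
    · refine ⟨E' * Del c₀ Q Γ / p, E' / p, by positivity, by positivity,
        hOK.meet_energy hE'.le hp hθ, Or.inr ⟨hc, ?_, ?_⟩⟩
      · gcongr
        linarith
      · gcongr
        linarith
    · push Not at hc
      obtain ⟨c1, c2, c3⟩ := hc
      have hD : 0 < Del c₀ Q p := Del_pos hc₀ hQ3 hp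
      have hm := hmeet T f₀ K₀ Kd f K Z hS c₀ Q (HH CM Q) t z s₀ s₁ (Del c₀ Q Γ) p θ Γ hc₀ hQ3 ht hboot
        hs₀.1 h01 h1t h1T hT' hvar' hhalf c1 a1 hθ hθ2 c2 c3
      refine ⟨0, Cm' * (1 + Del c₀ Q Γ / Del c₀ Q p) / (p * θ) + 2 * E' / p, le_rfl, by positivity,
        hOK.meet_of_meetT hE'.le hp hθ (by positivity) hm, Or.inl ⟨rfl, ?_⟩⟩
      have d1 : 0 ≤ Del c₀ Q Γ / Del c₀ Q p := by positivity
      generalize Del c₀ Q Γ / Del c₀ Q p = x at d1 ⊢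
      have d2 : 2 * E' / p = 2 * E' * θ / (p * θ) := by field_simp
      rw [d2, ← add_div]
      refine div_le_div_of_nonneg_right ?_ (by positivity)
      have d3 : E' * θ ≤ E' * 2 := mul_le_mul_of_nonneg_left hθ2 hE'.le
      have d4 : 0 ≤ E' * x := by positivity
      nlinarith
  choose M₀ M₁ hM₀ hM₁ hMeet hcase using hcell
  have hη : 0 ≤ 4 * eta0 CM Q Γ / Γ := by positivity
  have k1 := hcells _ hOK (phi0 Q Γ) (4 * eta0 CM Q Γ / Γ) N M₀ M₁ b5 b6 hη hN1 hN2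
    (fun j _ k _ => ⟨hM₀ j k, hM₁ j k, hMeet j k⟩)
  have k2 := hnum Q Γ N M₀ M₁ hQ1 hG hΓQ hN2 (fun j _ k _ => ⟨hM₀ j k, hM₁ j k, hcase j k⟩)
  have k3 : 0 ≤ totB (Del c₀ Q Γ) Q (phi0 Q Γ) (4 * eta0 CM Q Γ / Γ) N M₀ M₁ :=
    step_totB hT'.le hQ3 b5.le hη (fun j _ k _ => ⟨hM₀ j k, hM₁ j k⟩)
  rw [hOK.I_eq (hOK.meas_kt _ _)] at k1
  have k4 : ∫⁻ s in Icc s₀ s₁, (ENNReal.ofReal CI + ENNReal.ofReal CI *
      (ldOf f K (fun s => Z s z) s₀ s₁ (Del c₀ Q Γ) Q).Is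
        ((ldOf f K (fun s => Z s z) s₀ s₁ (Del c₀ Q Γ) Q).kt (phi0 Q Γ) (4 * eta0 CM Q Γ / Γ)) s) ≤
      ENNReal.ofReal (1 / 40 * Γ) := by
    rw [lintegral_add_left measurable_const, lintegral_const_mul' _ _ ENNReal.ofReal_ne_top,
      setLIntegral_const, Real.volume_Icc]
    have e1 : ENNReal.ofReal (s₁ - s₀) ≤ ENNReal.ofReal (Del c₀ Q Γ) :=
      ENNReal.ofReal_le_ofReal (by linarith)
    refine (add_le_add (mul_le_mul_right e1 _) (mul_le_mul_right k1 _)).trans ?_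
    change ENNReal.ofReal CI * ENNReal.ofReal (Del c₀ Q Γ) + ENNReal.ofReal CI * ENNReal.ofReal
      (CE * totB (Del c₀ Q Γ) Q (phi0 Q Γ) (4 * eta0 CM Q Γ / Γ) N M₀ M₁) ≤ _
    rw [← ENNReal.ofReal_mul hCI.le, ← ENNReal.ofReal_mul hCI.le,
      ← ENNReal.ofReal_add (by positivity) (by positivity)]
    refine ENNReal.ofReal_le_ofReal (le_trans ?_ k2)
    generalize totB (Del c₀ Q Γ) Q (phi0 Q Γ) (4 * eta0 CM Q Γ / Γ) N M₀ M₁ = B at k3 ⊢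
    have e2 : 0 ≤ CI * B := by positivity
    have e3 : 0 ≤ CI * CE * Del c₀ Q Γ := by positivity
    nlinarith
  have hcont : ContinuousOn (fun s => (Z s z).2) (Icc s₀ s₁) :=
    ((hS.sol.contZ z).mono (Icc_subset_Icc hs₀.1 (h1t.trans ht))).snd
  have hL : 0 ≤ Lg Q := zero_le_one.trans (NumA_Lg hQ3)
  have hMM : 0 ≤ CV * (Q * phi0 Q Γ * Lg Q) ^ (1 / 3 : ℝ) := by positivity
  have k5 := var_of_inc hcont (zero_lt_one.trans_le b1) h01 (by positivity) k4 (fun a b ha hab hb hs => by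
    have i1 := hinc T f₀ K₀ Kd f K Z hS z s₀ s₁ (Del c₀ Q Γ) Q Γ (eta0 CM Q Γ) (phi0 Q Γ)
      (CV * (Q * phi0 Q Γ * Lg Q) ^ (1 / 3 : ℝ)) a b hs₀.1 ha hab hb (h1t.trans ht) hΓ b1 b5 b6 hMM hs
      (fun s hs => hhalf s ⟨ha.trans hs.1, hs.2.trans hb⟩) (fun s => hV _ hOK _ s b5)
    refine i1.trans (add_le_add (ENNReal.ofReal_le_ofReal ?_) le_rfl)
    rw [← mul_assoc]
    exact hM Q Γ hQ3 hΓ)
  exact k5.mono le_rfl h01 le_rfl b2 (by linarith)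

end Crest.Agent.R106
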